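import Crest.Agent.R213.SeqB

/-! # Row 213, abstract discrete right inverse: contraction plus finite rank

`B r = U r ∘ (1 - π r ∘ ℓ r)` contracts.  The chain `y r 1 = U r ∘ π r`, `y r (i+1) = B (r+i) ∘ y r i` gives the kernel
`k r j = ℓ (r+j) ∘ y r j` (matrix via `LinearMap.toMatrix'`), `|k r j| ≤ C θ₀^j`.  `s (r+i) (y r i b) ≤ C_i ‖b‖`, and by induction on
`i`: `n (r+i) (Ξ d (y (r+d) i b) - y r i b) ≤ C_i (sup_{r' ≥ r} |ε r'|) ‖b‖`, so `k r j` is Cauchy in `r` (`hΞℓ`).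
Given `f`, let `z 0 = 0`, `z (r+1) = B (r₁+r) (z r) + f' r` (`f' r = f r` for `r ≥ A`, `0` for `r < A`), `F r = ℓ (r₁+r) (z r)`, take `b`
from `seq_lemma` and `w 0 = 0`, `w (r+1) = B (w r) + U (π (b r)) + f' r`; then `ℓ (w r) = ∑ k b + F r = b r` for `r ≥ A`,
and `c r = b r - ℓ (w r)` for `r < A`. -/

set_option autoImplicit false
open Set Filter Topology
open scoped ContDiff

noncomputable section
namespace Crest.Agent.R213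

section AbsDiscAux
variable {V : Type*} [AddCommGroup V] [Module ℝ V] {m : ℕ}

/-- the contraction -/
def adB (U : ℕ → V →ₗ[ℝ] V) (ℓ : ℕ → V →ₗ[ℝ] (Fin m → ℝ)) (π : ℕ → (Fin m → ℝ) →ₗ[ℝ] V) (r : ℕ) : V →ₗ[ℝ] V :=
  U r ∘ₗ (LinearMap.id - π r ∘ₗ ℓ r)

lemma adB_apply (U : ℕ → V →ₗ[ℝ] V) (ℓ : ℕ → V →ₗ[ℝ] (Fin m → ℝ)) (π : ℕ → (Fin m → ℝ) →ₗ[ℝ] V) (r : ℕ) (w : V) :
    adB U ℓ π r w = U r (w - π r (ℓ r w)) := rfl

/-- the chain -/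
def adY (U : ℕ → V →ₗ[ℝ] V) (ℓ : ℕ → V →ₗ[ℝ] (Fin m → ℝ)) (π : ℕ → (Fin m → ℝ) →ₗ[ℝ] V) (r : ℕ) :
    ℕ → (Fin m → ℝ) →ₗ[ℝ] V
  | 0 => U r ∘ₗ π r
  | i + 1 => adB U ℓ π (r + i + 1) ∘ₗ adY U ℓ π r i

lemma adY_zero (U : ℕ → V →ₗ[ℝ] V) (ℓ : ℕ → V →ₗ[ℝ] (Fin m → ℝ)) (π : ℕ → (Fin m → ℝ) →ₗ[ℝ] V) (r : ℕ)
    (b : Fin m → ℝ) : adY U ℓ π r 0 b = U r (π r b) := rfl

lemma adY_succ (U : ℕ → V →ₗ[ℝ] V) (ℓ : ℕ → V →ₗ[ℝ] (Fin m → ℝ)) (π : ℕ → (Fin m → ℝ) →ₗ[ℝ] V) (r i : ℕ)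
    (b : Fin m → ℝ) : adY U ℓ π r (i + 1) b = adB U ℓ π (r + i + 1) (adY U ℓ π r i b) := rfl

/-- the kernel -/
def adK (U : ℕ → V →ₗ[ℝ] V) (ℓ : ℕ → V →ₗ[ℝ] (Fin m → ℝ)) (π : ℕ → (Fin m → ℝ) →ₗ[ℝ] V) (r : ℕ) :
    ℕ → Matrix (Fin m) (Fin m) ℝ
  | 0 => 0
  | i + 1 => LinearMap.toMatrix' (ℓ (r + i + 1) ∘ₗ adY U ℓ π r i)

lemma adK_succ_apply (U : ℕ → V →ₗ[ℝ] V) (ℓ : ℕ → V →ₗ[ℝ] (Fin m → ℝ)) (π : ℕ → (Fin m → ℝ) →ₗ[ℝ] V) (r i : ℕ)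
    (p q : Fin m) : adK U ℓ π r (i + 1) p q = ℓ (r + i + 1) (adY U ℓ π r i (Pi.single q 1)) p := by
  simp only [adK, LinearMap.toMatrix'_apply, LinearMap.comp_apply]

lemma adK_mulVec (U : ℕ → V →ₗ[ℝ] V) (ℓ : ℕ → V →ₗ[ℝ] (Fin m → ℝ)) (π : ℕ → (Fin m → ℝ) →ₗ[ℝ] V) (r i : ℕ)
    (b : Fin m → ℝ) : (adK U ℓ π r (i + 1)).mulVec b = ℓ (r + i + 1) (adY U ℓ π r i b) := by
  simp only [adK, LinearMap.toMatrix'_mulVec, LinearMap.comp_apply]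

/-- the recursion -/
def adR (B : ℕ → V →ₗ[ℝ] V) (r₁ : ℕ) (g : ℕ → V) : ℕ → V
  | 0 => 0
  | r + 1 => B (r₁ + r) (adR B r₁ g r) + g r

lemma adR_bound (n : ℕ → Seminorm ℝ V) (B : ℕ → V →ₗ[ℝ] V) {θ₀ θ G : ℝ} (h₀ : 0 < θ₀) (h₁ : θ₀ < θ) (hG : 0 ≤ G)
    (hB : ∀ r w, n (r + 1) (B r w) ≤ θ₀ * n r w) (r₁ : ℕ) (g : ℕ → V)
    (hg : ∀ r, n (r₁ + r + 1) (g r) ≤ G * θ ^ r) (r : ℕ) :
    n (r₁ + r) (adR B r₁ g r) ≤ G / (θ - θ₀) * θ ^ r := by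
  have hd : 0 < θ - θ₀ := sub_pos.2 h₁
  have hθ : 0 < θ := h₀.trans h₁
  induction r with
  | zero => simp only [adR, map_zero]; positivity
  | succ r ih =>
    have h1 := hB (r₁ + r) (adR B r₁ g r)
    have h2 := hg r
    have h3 : n (r₁ + (r + 1)) (adR B r₁ g (r + 1)) ≤
        n (r₁ + r + 1) (B (r₁ + r) (adR B r₁ g r)) + n (r₁ + r + 1) (g r) := map_add_le_add _ _ _
    have h4 : θ₀ * n (r₁ + r) (adR B r₁ g r) ≤ θ₀ * (G / (θ - θ₀) * θ ^ r) :=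
      mul_le_mul_of_nonneg_left ih h₀.le
    have h5 : θ₀ * (G / (θ - θ₀) * θ ^ r) + G * θ ^ r = G / (θ - θ₀) * θ ^ (r + 1) := by
      field_simp; ring
    linarith

lemma adY_n (n s : ℕ → Seminorm ℝ V)
    (U : ℕ → V →ₗ[ℝ] V) (ℓ : ℕ → V →ₗ[ℝ] (Fin m → ℝ)) (π : ℕ → (Fin m → ℝ) →ₗ[ℝ] V)
    {θ₀ C : ℝ} (h₀ : 0 < θ₀) (hC : 0 ≤ C)
    (hB : ∀ r w, n (r + 1) (U r (w - π r (ℓ r w))) ≤ θ₀ * n r w)
    (hU : ∀ r w, n (r + 1) (U r w) ≤ C * n r w)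
    (hns : ∀ r w, n r w ≤ s r w)
    (hsπ : ∀ r b, s r (π r b) ≤ C * ‖b‖) (r i : ℕ) (b : Fin m → ℝ) :
    n (r + i + 1) (adY U ℓ π r i b) ≤ θ₀ ^ i * (C * C * ‖b‖) := by
  induction i with
  | zero =>
    rw [adY_zero, pow_zero, one_mul, mul_assoc]
    exact (hU r _).trans (mul_le_mul_of_nonneg_left ((hns r _).trans (hsπ r b)) hC)
  | succ i ih =>
    rw [adY_succ, adB_apply]
    refine (hB (r + i + 1) _).trans ?_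
    rw [pow_succ', mul_assoc θ₀]
    exact mul_le_mul_of_nonneg_left ih h₀.le

lemma ad_s_sub (n s : ℕ → Seminorm ℝ V)
    (ℓ : ℕ → V →ₗ[ℝ] (Fin m → ℝ)) (π : ℕ → (Fin m → ℝ) →ₗ[ℝ] V)
    {C : ℝ} (hC : 0 ≤ C)
    (hℓ : ∀ r w, ‖ℓ r w‖ ≤ C * n r w)
    (hns : ∀ r w, n r w ≤ s r w)
    (hsπ : ∀ r b, s r (π r b) ≤ C * ‖b‖) (r : ℕ) (w : V) :
    s r (w - π r (ℓ r w)) ≤ (1 + C * C) * s r w := by
  have h1 : s r (w - π r (ℓ r w)) ≤ s r w + s r (π r (ℓ r w)) := map_sub_le_add _ _ _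
  have h2 := hsπ r (ℓ r w)
  have h3 : C * ‖ℓ r w‖ ≤ C * (C * s r w) :=
    mul_le_mul_of_nonneg_left ((hℓ r w).trans (mul_le_mul_of_nonneg_left (hns r w) hC)) hC
  nlinarith

lemma adY_s (n s : ℕ → Seminorm ℝ V)
    (U : ℕ → V →ₗ[ℝ] V) (ℓ : ℕ → V →ₗ[ℝ] (Fin m → ℝ)) (π : ℕ → (Fin m → ℝ) →ₗ[ℝ] V)
    {C : ℝ} (hC : 0 ≤ C)
    (hℓ : ∀ r w, ‖ℓ r w‖ ≤ C * n r w)
    (hns : ∀ r w, n r w ≤ s r w) (hsU : ∀ r w, s (r + 1) (U r w) ≤ C * s r w)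
    (hsπ : ∀ r b, s r (π r b) ≤ C * ‖b‖) (r i : ℕ) (b : Fin m → ℝ) :
    s (r + i + 1) (adY U ℓ π r i b) ≤ (C * (1 + C * C)) ^ i * (C * C * ‖b‖) := by
  induction i with
  | zero =>
    rw [adY_zero, pow_zero, one_mul, mul_assoc]
    exact (hsU r _).trans (mul_le_mul_of_nonneg_left (hsπ r b) hC)
  | succ i ih =>
    rw [adY_succ, adB_apply]
    refine (hsU (r + i + 1) _).trans ?_
    rw [pow_succ', mul_assoc (C * (1 + C * C)), mul_assoc C (1 + C * C)]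
    refine mul_le_mul_of_nonneg_left ((ad_s_sub n s ℓ π hC hℓ hns hsπ _ _).trans ?_) hC
    exact mul_le_mul_of_nonneg_left ih (by positivity)

lemma adY_cauchy (n s : ℕ → Seminorm ℝ V)
    (U : ℕ → V →ₗ[ℝ] V) (ℓ : ℕ → V →ₗ[ℝ] (Fin m → ℝ)) (π : ℕ → (Fin m → ℝ) →ₗ[ℝ] V) (Ξ : ℕ → V →ₗ[ℝ] V)
    {θ₀ C : ℝ} (ε : ℕ → ℝ) (h₀ : 0 < θ₀) (hC : 0 ≤ C)
    (hB : ∀ r w, n (r + 1) (U r (w - π r (ℓ r w))) ≤ θ₀ * n r w)
    (hℓ : ∀ r w, ‖ℓ r w‖ ≤ C * n r w)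
    (hns : ∀ r w, n r w ≤ s r w) (hsU : ∀ r w, s (r + 1) (U r w) ≤ C * s r w)
    (hsπ : ∀ r b, s r (π r b) ≤ C * ‖b‖)
    (hΞπ : ∀ r d b, Ξ d (π (r + d) b) = π r b) (hΞℓ : ∀ r d w, ℓ r (Ξ d w) = ℓ (r + d) w)
    (hΞU : ∀ r d w, n (r + 1) (Ξ d (U (r + d) w) - U r (Ξ d w)) ≤ ε r * s (r + d) w) (i : ℕ) :
    ∃ K : ℝ, 0 ≤ K ∧ ∀ r d : ℕ, ∀ E : ℝ, 0 ≤ E → (∀ r' ≥ r, ε r' ≤ E) → ∀ b : Fin m → ℝ,
      n (r + i + 1) (Ξ d (adY U ℓ π (r + d) i b) - adY U ℓ π r i b) ≤ K * E * ‖b‖ := by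
  induction i with
  | zero =>
    refine ⟨C, hC, fun r d E hE hε b => ?_⟩
    rw [adY_zero, adY_zero]
    have h1 := hΞU r d (π (r + d) b)
    rw [hΞπ] at h1
    have h2 : ε r * s (r + d) (π (r + d) b) ≤ E * (C * ‖b‖) :=
      mul_le_mul (hε r le_rfl) (hsπ _ _) (apply_nonneg _ _) hE
    calc n (r + 0 + 1) (Ξ d (U (r + d) (π (r + d) b)) - U r (π r b)) ≤ E * (C * ‖b‖) := h1.trans h2
      _ = C * E * ‖b‖ := by ring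
  | succ i ih =>
    obtain ⟨K, hK, ih⟩ := ih
    refine ⟨θ₀ * K + (1 + C * C) * ((C * (1 + C * C)) ^ i * (C * C)), by positivity, fun r d E hE hε b => ?_⟩
    rw [adY_succ, adY_succ]
    have he : r + d + i + 1 = (r + i + 1) + d := by ring
    have hs := adY_s n s U ℓ π hC hℓ hns hsU hsπ (r + d) i b
    have ih' := ih r d E hE hε b
    rw [he] at hs ⊢
    generalize adY U ℓ π (r + d) i b = w at hs ih' ⊢
    generalize adY U ℓ π r i b = w' at ih' ⊢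
    have hρ : r ≤ r + i + 1 := by omega
    generalize r + i + 1 = ρ at hs ih' hρ he ⊢
    have h1 := hΞU ρ d (w - π (ρ + d) (ℓ (ρ + d) w))
    have h2 := hB ρ (Ξ d w - w')
    have h3 : Ξ d (adB U ℓ π (ρ + d) w) - adB U ℓ π ρ w' =
        (Ξ d (U (ρ + d) (w - π (ρ + d) (ℓ (ρ + d) w))) - U ρ (Ξ d (w - π (ρ + d) (ℓ (ρ + d) w)))) +
          U ρ (Ξ d w - w' - π ρ (ℓ ρ (Ξ d w - w'))) := by
      simp only [adB_apply, map_sub, hΞπ, hΞℓ]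
      abel
    have h4 : ε ρ * s (ρ + d) (w - π (ρ + d) (ℓ (ρ + d) w)) ≤
        E * ((1 + C * C) * ((C * (1 + C * C)) ^ i * (C * C * ‖b‖))) :=
      mul_le_mul (hε ρ hρ) ((ad_s_sub n s ℓ π hC hℓ hns hsπ _ _).trans
        (mul_le_mul_of_nonneg_left hs (by positivity))) (apply_nonneg _ _) hE
    have h5 : θ₀ * n ρ (Ξ d w - w') ≤ θ₀ * (K * E * ‖b‖) := mul_le_mul_of_nonneg_left ih' h₀.le
    have h6 := map_add_le_add (n (ρ + 1))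
      (Ξ d (U (ρ + d) (w - π (ρ + d) (ℓ (ρ + d) w))) - U ρ (Ξ d (w - π (ρ + d) (ℓ (ρ + d) w))))
      (U ρ (Ξ d w - w' - π ρ (ℓ ρ (Ξ d w - w'))))
    rw [← h3] at h6
    have h7 : n (ρ + 1) (Ξ d (adB U ℓ π (ρ + d) w) - adB U ℓ π ρ w') ≤
        (θ₀ * K + (1 + C * C) * ((C * (1 + C * C)) ^ i * (C * C))) * E * ‖b‖ := by
      nlinarith
    exact h7

lemma adR_rep (U : ℕ → V →ₗ[ℝ] V) (ℓ : ℕ → V →ₗ[ℝ] (Fin m → ℝ)) (π : ℕ → (Fin m → ℝ) →ₗ[ℝ] V)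
    (r₁ : ℕ) (g : ℕ → V) (b : ℕ → Fin m → ℝ) (r : ℕ) :
    adR (adB U ℓ π) r₁ (fun r => U (r₁ + r) (π (r₁ + r) (b r)) + g r) r =
      ∑ j ∈ Finset.range r, adY U ℓ π (r₁ + j) (r - 1 - j) (b j) + adR (adB U ℓ π) r₁ g r := by
  induction r with
  | zero => simp [adR]
  | succ r ih =>
    simp only [adR]
    rw [ih, Finset.sum_range_succ, map_add, map_sum]
    have h1 : ∀ j ∈ Finset.range r, adB U ℓ π (r₁ + r) (adY U ℓ π (r₁ + j) (r - 1 - j) (b j)) =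
        adY U ℓ π (r₁ + j) (r + 1 - 1 - j) (b j) := by
      intro j hj
      have hj' := Finset.mem_range.1 hj
      have e1 : r + 1 - 1 - j = (r - 1 - j) + 1 := by omega
      have e2 : r₁ + r = r₁ + j + (r - 1 - j) + 1 := by omega
      rw [e1, adY_succ, ← e2]
    rw [Finset.sum_congr rfl h1]
    have e3 : r + 1 - 1 - r = 0 := by omega
    rw [e3, adY_zero]
    abel

end AbsDiscAux

theorem abs_disc {V : Type*} [AddCommGroup V] [Module ℝ V] {m : ℕ} (n s : ℕ → Seminorm ℝ V)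
    (U : ℕ → V →ₗ[ℝ] V) (ℓ : ℕ → V →ₗ[ℝ] (Fin m → ℝ)) (π : ℕ → (Fin m → ℝ) →ₗ[ℝ] V) (Ξ : ℕ → V →ₗ[ℝ] V)
    {θ₀ θ₁ C : ℝ} (ε : ℕ → ℝ) (h₀ : 0 < θ₀) (h₁ : θ₀ < θ₁) (hC : 0 ≤ C) (hε : Tendsto ε atTop (𝓝 0))
    (hB : ∀ r w, n (r + 1) (U r (w - π r (ℓ r w))) ≤ θ₀ * n r w)
    (hℓ : ∀ r w, ‖ℓ r w‖ ≤ C * n r w) (hU : ∀ r w, n (r + 1) (U r w) ≤ C * n r w)
    (hns : ∀ r w, n r w ≤ s r w) (hsU : ∀ r w, s (r + 1) (U r w) ≤ C * s r w)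
    (hsπ : ∀ r b, s r (π r b) ≤ C * ‖b‖)
    (hΞπ : ∀ r d b, Ξ d (π (r + d) b) = π r b) (hΞℓ : ∀ r d w, ℓ r (Ξ d w) = ℓ (r + d) w)
    (hΞU : ∀ r d w, n (r + 1) (Ξ d (U (r + d) w) - U r (Ξ d w)) ≤ ε r * s (r + d) w) :
    ∃ θ ∈ Ioo θ₀ θ₁, ∃ (A r₀ : ℕ) (C' : ℝ), 0 ≤ C' ∧ ∀ r₁ ≥ r₀, ∀ y ≥ (0 : ℝ), ∀ f : ℕ → V,
      (∀ r ≥ A, n (r₁ + r + 1) (f r) ≤ y * θ ^ r) →
      ∃ (w : ℕ → V) (c : ℕ → Fin m → ℝ), w 0 = 0 ∧
        (∀ r < A, w (r + 1) = U (r₁ + r) (w r + π (r₁ + r) (c r)) ∧ ‖c r‖ ≤ C' * y) ∧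
        (∀ r ≥ A, w (r + 1) = U (r₁ + r) (w r) + f r) ∧
        ∀ r, n (r₁ + r) (w r) ≤ C' * y * θ ^ r := by
  have hk : ∀ r j p q, |adK U ℓ π r j p q| ≤ (C * (C * C) / θ₀) * θ₀ ^ j := by
    intro r j p q
    cases j with
    | zero => simp only [adK, Matrix.zero_apply, abs_zero]; positivity
    | succ i =>
      rw [adK_succ_apply]
      have h1 := adY_n n s U ℓ π h₀ hC hB hU hns hsπ r i (Pi.single q 1)
      have h2 : ‖(Pi.single q 1 : Fin m → ℝ)‖ = 1 := by rw [Pi.norm_single]; simp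
      rw [h2] at h1
      have h3 := norm_le_pi_norm (ℓ (r + i + 1) (adY U ℓ π r i (Pi.single q 1))) p
      rw [Real.norm_eq_abs] at h3
      refine h3.trans ((hℓ _ _).trans ((mul_le_mul_of_nonneg_left h1 hC).trans (le_of_eq ?_)))
      field_simp
      ring
  have hc : ∀ j p q, CauchySeq fun r => adK U ℓ π r j p q := by
    intro j p q
    cases j with
    | zero => simp only [adK]; exact cauchySeq_const _
    | succ i =>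
      obtain ⟨K, hK, hKb⟩ := adY_cauchy n s U ℓ π Ξ ε h₀ hC hB hℓ hns hsU hsπ hΞπ hΞℓ hΞU i
      rw [Metric.cauchySeq_iff']
      intro η hη
      have hE : 0 < η / (C * K + 1) := by positivity
      obtain ⟨N, hN⟩ := (hε.eventually (eventually_le_nhds hE)).exists_forall_of_atTop
      refine ⟨N, fun r hr => ?_⟩
      obtain ⟨d, rfl⟩ := Nat.exists_eq_add_of_le hr
      have h1 := hKb N d _ hE.le hN (Pi.single q 1)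
      have h2 : ‖(Pi.single q 1 : Fin m → ℝ)‖ = 1 := by rw [Pi.norm_single]; simp
      rw [h2] at h1
      rw [Real.dist_eq, adK_succ_apply, adK_succ_apply]
      have he : N + d + i + 1 = (N + i + 1) + d := by ring
      rw [he, ← hΞℓ, ← Pi.sub_apply, ← map_sub]
      have h3 := norm_le_pi_norm (ℓ (N + i + 1) (Ξ d (adY U ℓ π (N + d) i (Pi.single q 1)) -
        adY U ℓ π N i (Pi.single q 1))) p
      rw [Real.norm_eq_abs] at h3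
      refine lt_of_le_of_lt (h3.trans ((hℓ _ _).trans (mul_le_mul_of_nonneg_left h1 hC))) ?_
      have h4 : C * (K * (η / (C * K + 1)) * 1) = (C * K / (C * K + 1)) * η := by ring
      rw [h4]
      have h5 : C * K / (C * K + 1) < 1 := by
        rw [div_lt_one (by positivity)]; linarith
      nlinarith
  obtain ⟨θ, hθ, A, r₀, C', hC', H⟩ := seq_lemma (adK U ℓ π) h₀ h₁ hk hc
  have hd : 0 < θ - θ₀ := sub_pos.2 hθ.1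
  have hθp : 0 < θ := h₀.trans hθ.1
  have hB' : ∀ r w, n (r + 1) (adB U ℓ π r w) ≤ θ₀ * n r w := hB
  set K₁ : ℝ := C' * (C / (θ - θ₀)) with hK₁
  have hK₁0 : 0 ≤ K₁ := by positivity
  set K₂ : ℝ := (C * C * K₁ + 1) / (θ - θ₀) with hK₂
  have hK₂0 : 0 ≤ K₂ := by positivity
  refine ⟨θ, hθ, A, r₀, K₂ + (K₁ + C * K₂) * (1 + θ) ^ A, by positivity, fun r₁ hr₁ y hy f hf => ?_⟩
  set f' : ℕ → V := fun r => if A ≤ r then f r else 0 with hf'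
  have hf'b : ∀ r, n (r₁ + r + 1) (f' r) ≤ y * θ ^ r := by
    intro r
    by_cases h : A ≤ r
    · simp only [hf', if_pos h]; exact hf r h
    · simp only [hf', if_neg h, map_zero]; positivity
  have hz := adR_bound n (adB U ℓ π) h₀ hθ.1 hy hB' r₁ f' hf'b
  obtain ⟨b, hb, hbe⟩ := H r₁ hr₁ (C / (θ - θ₀) * y) (by positivity)
    (fun r => ℓ (r₁ + r) (adR (adB U ℓ π) r₁ f' r)) (fun r => by
      refine (hℓ _ _).trans ((mul_le_mul_of_nonneg_left (hz r) hC).trans (le_of_eq ?_))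
      ring)
  have hb' : ∀ r, ‖b r‖ ≤ K₁ * y * θ ^ r := fun r => (hb r).trans (le_of_eq (by rw [hK₁]; ring))
  set g : ℕ → V := fun r => U (r₁ + r) (π (r₁ + r) (b r)) + f' r with hg
  have hgb : ∀ r, n (r₁ + r + 1) (g r) ≤ ((C * C * K₁ + 1) * y) * θ ^ r := by
    intro r
    have h1 : n (r₁ + r + 1) (g r) ≤ n (r₁ + r + 1) (U (r₁ + r) (π (r₁ + r) (b r))) + n (r₁ + r + 1) (f' r) :=
      map_add_le_add _ _ _
    have h2 := (hU (r₁ + r) (π (r₁ + r) (b r))).trans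
      (mul_le_mul_of_nonneg_left ((hns _ _).trans ((hsπ _ _).trans (mul_le_mul_of_nonneg_left (hb' r) hC))) hC)
    have h3 := hf'b r
    nlinarith
  have hw := adR_bound n (adB U ℓ π) h₀ hθ.1 (by positivity) hB' r₁ g hgb
  have hw' : ∀ r, n (r₁ + r) (adR (adB U ℓ π) r₁ g r) ≤ K₂ * y * θ ^ r :=
    fun r => (hw r).trans (le_of_eq (by rw [hK₂]; ring))
  have hl : ∀ r ≥ A, ℓ (r₁ + r) (adR (adB U ℓ π) r₁ g r) = b r := by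
    intro r hr
    rw [hbe r hr, hg, adR_rep, map_add, map_sum]
    congr 1
    refine Finset.sum_congr rfl fun j hj => ?_
    have hj' := Finset.mem_range.1 hj
    have e1 : r - j = (r - 1 - j) + 1 := by omega
    have e2 : r₁ + r = r₁ + j + (r - 1 - j) + 1 := by omega
    rw [e1, adK_mulVec, ← e2]
  refine ⟨adR (adB U ℓ π) r₁ g, fun r => b r - ℓ (r₁ + r) (adR (adB U ℓ π) r₁ g r), rfl, fun r hr => ⟨?_, ?_⟩,
    fun r hr => ?_, fun r => ?_⟩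
  · have h : ¬ A ≤ r := by omega
    simp only [adR, hg, hf', if_neg h, adB_apply, map_sub, map_add]
    abel
  · have h1 := norm_sub_le (b r) (ℓ (r₁ + r) (adR (adB U ℓ π) r₁ g r))
    have h2 := (hℓ _ _).trans (mul_le_mul_of_nonneg_left (hw' r) hC)
    have h3 := hb' r
    have h4 : θ ^ r ≤ (1 + θ) ^ A :=
      (pow_le_pow_left₀ hθp.le (by linarith) r).trans (pow_le_pow_right₀ (by linarith) hr.le)
    have h5 : (K₁ + C * K₂) * y * θ ^ r ≤ (K₁ + C * K₂) * y * (1 + θ) ^ A :=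
      mul_le_mul_of_nonneg_left h4 (by positivity)
    have h6 : 0 ≤ K₂ * y := by positivity
    nlinarith
  · have h : A ≤ r := hr
    have h1 : adR (adB U ℓ π) r₁ g (r + 1) = adB U ℓ π (r₁ + r) (adR (adB U ℓ π) r₁ g r) + g r := rfl
    rw [h1, adB_apply, hl r hr]
    simp only [hg, hf', if_pos h, map_sub]
    abel
  · refine (hw' r).trans ?_
    have h1 : 0 ≤ (K₁ + C * K₂) * (1 + θ) ^ A * y * θ ^ r := by positivity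
    nlinarith

end Crest.Agent.R213
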