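import Crest.Agent.R213.Defs

/-! # Row 213, the Jacobi ladder: exact algebraic identities -/

set_option autoImplicit false
open Set Filter Topology
open scoped ContDiff

noncomputable section
namespace Crest.Agent.R213

lemma D_ph : D ph = 1 - 2 * X := by
  simp only [ph, D_mul, map_sub, D_X, D_one]; ring
lemma D_pm (m : ℕ) : D (pm m) = -(11 + 2 * (m : Sm)) := by
  simp only [pm, D_mul, map_sub, map_add, D_X, D_one, D_ofNat, D_natCast]; ring
lemma pm_succ (m : ℕ) : pm (m + 1) = pm m + D ph := by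
  rw [D_ph]; simp only [pm]; push_cast; ring
lemma D_mu (m : ℕ) : D (mu (m + 1)) = pm m * mu m := by
  simp only [mu, pm, ← add_assoc, D_mul, D_pow_succ, map_sub, D_X, D_one]
  push_cast; ring
lemma mu_dl (m : ℕ) (w : Sm) : mu m * dl m w = D (mu (m + 1) * w) := by
  rw [D_mul, D_mu, dl_apply, mu_succ]; ring
/-- `-δ_m` is the adjoint of `D` (`μ_{m+1}` vanishes at both ends, use `Ii_D`) -/
lemma ibp (m : ℕ) (u w : Sm) : Ii (mu m * u * dl m w) = -Ii (mu (m + 1) * D u * w) := by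
  have h0 : Ii (D (mu (m + 1) * w * u)) = 0 := by
    rw [Ii_D]; simp
  have h1 : D (mu (m + 1) * w * u) = mu m * u * dl m w + mu (m + 1) * D u * w := by
    rw [D_mul, ← mu_dl]; ring
  rw [h1, map_add] at h0
  linarith
lemma ibp2 (k : ℕ) (f w : Sm) : Ii (mu (k + 2) * D (D f) * w) = Ii (mu k * f * T k w) := by
  rw [T_apply, ibp, ibp, neg_neg]
lemma D_dl (m : ℕ) (w : Sm) : D (dl m w) = dl (m + 1) (D w) - (11 + 2 * (m : ℝ)) • w := by
  have h : (11 + 2 * (m : ℝ)) • w = (11 + 2 * (m : Sm)) * w := by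
    rw [Algebra.smul_def]; simp only [map_add, map_mul, map_ofNat, map_natCast]
  rw [h, dl_apply, dl_apply, map_add, D_mul, D_mul, D_pm, pm_succ]; ring
lemma dl_mul (m : ℕ) (b w : Sm) : dl m (b * w) = b * dl m w + ph * D b * w := by
  rw [dl_apply, dl_apply, D_mul]; ring
lemma T_mul (k : ℕ) (b w : Sm) :
    T k (b * w) = b * T k w + ph * D b * dl (k + 1) w + dl k (ph * D b * w) := by
  rw [T_apply, T_apply, dl_mul (k + 1), map_add, dl_mul k b]
/-- `D^{k+1} δ_m = δ_{m+k+1} D^{k+1} - c D^k` -/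
lemma Dpow_dl (m k : ℕ) : ∃ c : ℝ, ∀ w : Sm,
    (D ^ (k + 1)) (dl m w) = dl (m + k + 1) ((D ^ (k + 1)) w) - c • (D ^ k) w := by
  induction k with
  | zero => exact ⟨11 + 2 * (m : ℝ), fun w => by simpa using D_dl m w⟩
  | succ k ih =>
    obtain ⟨c, hc⟩ := ih
    refine ⟨11 + 2 * ((m + k + 1 : ℕ) : ℝ) + c, fun w => ?_⟩
    rw [Dpow_succ (k + 1), hc, map_sub, map_smul, D_dl, ← Dpow_succ, ← Dpow_succ, add_smul _ c,
      sub_sub]
    rfl
/-- `D^k A₀ = D^{k+2} T₀ = T_{k+2} D^{k+2} - c₁ δ_{k+2} D^{k+1} + c₂ D^k` -/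
lemma Dpow_A0 (k : ℕ) : ∃ c₁ c₂ : ℝ, ∀ v : Sm, (D ^ k) (A0 v) =
    T (k + 2) ((D ^ (k + 2)) v) - c₁ • dl (k + 2) ((D ^ (k + 1)) v) + c₂ • (D ^ k) v := by
  obtain ⟨c, hc⟩ := Dpow_dl 0 (k + 1)
  obtain ⟨c', hc'⟩ := Dpow_dl 1 (k + 1)
  obtain ⟨c'', hc''⟩ := Dpow_dl 1 k
  refine ⟨c + c', c * c'', fun v => ?_⟩
  have e1 : 0 + (k + 1) + 1 = k + 2 := by omega
  have e2 : 1 + (k + 1) + 1 = k + 2 + 1 := by omega
  have e3 : 1 + k + 1 = k + 2 := by omega
  rw [e1] at hc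
  rw [e2] at hc'
  rw [e3] at hc''
  rw [A0_apply, ← Dpow_succ', ← Dpow_succ', T_apply, hc, hc', hc'', T_apply, map_sub, map_smul]
  module
lemma A0_form (u v : Sm) : Ii (mu 2 * A0 u * v) = Ii (mu 0 * T 0 u * T 0 v) := by
  rw [A0_apply]; exact ibp2 0 _ _
lemma A0_symm (u v : Sm) : Ii (mu 2 * A0 u * v) = Ii (mu 2 * u * A0 v) := by
  rw [A0_form, show mu 2 * u * A0 v = mu 2 * A0 v * u by ring, A0_form]
  congr 1; ring
lemma T0_eq (v : Sm) : T 0 v = That ((1 - X) ^ 2 * v) := by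
  simp only [T_apply, dl_apply, That_apply, ph, pm, D_mul, D_sq, map_add, map_sub, map_neg, D_X,
    D_one, D_ofNat, D_natCast, map_zero]
  push_cast; ring
lemma That_one : That 1 = 110 := by
  simp [That_apply]
/-- the weighted identity behind all Hardy type inequalities -/
lemma dl_sq_identity (m : ℕ) (om w : Sm) :
    Ii (mu m * om * (dl m w) ^ 2) = Ii (mu (m + 2) * om * (D w) ^ 2)
      + (11 + 2 * (m : ℝ)) * Ii (mu (m + 1) * om * w ^ 2)
      + Ii (mu (m + 2) * D om * w * D w) - Ii (mu (m + 1) * D om * w * dl m w) := by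
  have h1 := ibp m (om * dl m w) w
  have h2 := ibp (m + 1) (om * w) (D w)
  have e1 : mu m * om * (dl m w) ^ 2 = mu m * (om * dl m w) * dl m w := by ring
  have e2 : mu (m + 1) * D (om * dl m w) * w = mu (m + 1) * D om * w * dl m w +
      mu (m + 1) * (om * w) * dl (m + 1) (D w) - (11 + 2 * (m : ℝ)) • (mu (m + 1) * om * w ^ 2) := by
    rw [D_mul, D_dl, Algebra.smul_def, Algebra.smul_def]; ring
  have e3 : mu (m + 1 + 1) * D (om * w) * D w =
      mu (m + 2) * om * (D w) ^ 2 + mu (m + 2) * D om * w * D w := by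
    rw [D_mul]; ring
  rw [e1, h1, e2, map_sub, map_add, map_smul, h2, e3, map_add, smul_eq_mul]
  ring
/-- commutator of `D² That` with a fixed factor `c`: no fourth derivative, and the coefficients
only involve derivatives of `c` -/
lemma comm_That (c : Sm) : ∃ c₀ c₁ c₂ c₃ : Sm,
    (∀ u, D (D (That (c * u))) - c * D (D (That u)) =
      c₀ * u + c₁ * D u + c₂ * D (D u) + c₃ * D (D (D u))) ∧
    ∀ x ∈ I, (∀ i, ev ((D ^ (i + 1)) c) x = 0) →
      ev c₀ x = 0 ∧ ev c₁ x = 0 ∧ ev c₂ x = 0 ∧ ev c₃ x = 0 := by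
  refine ⟨156 * D (D c) + 26 * X * D (D (D c)) + X ^ 2 * D (D (D (D c))),
    312 * D c + 78 * X * D (D c) + 4 * X ^ 2 * D (D (D c)),
    78 * X * D c + 6 * X ^ 2 * D (D c), 4 * X ^ 2 * D c, fun u => ?_, fun x _ h => ?_⟩
  · simp only [That_apply, D_mul, D_sq, map_add, D_X, D_one, D_ofNat, map_zero]
    ring
  · have h1 : ev (D c) x = 0 := by simpa using h 0
    have h2 : ev (D (D c)) x = 0 := by simpa only [Dpow_succ, Dpow_zero] using h 1
    have h3 : ev (D (D (D c))) x = 0 := by simpa only [Dpow_succ, Dpow_zero] using h 2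
    have h4 : ev (D (D (D (D c)))) x = 0 := by simpa only [Dpow_succ, Dpow_zero] using h 3
    simp [h1, h2, h3, h4]
/-- the scalar curvature identity: `-(9 Λ + (x Λ)') = 110 + T₀ g` -/
lemma scal_identity (g : Sm) : -(9 * Lamh g + D (X * Lamh g)) = 110 + T 0 g := by
  simp only [Lamh, T_apply, dl_apply, ph, pm, D_mul, map_add, map_sub, map_neg, D_X,
    D_one, D_ofNat, D_natCast, map_zero]
  push_cast; ring
/-- expansion of the flow around the approximate solution -/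
lemma flow_expand (q g v : Sm) (hq : q = 1 - ph * g) :
    -((1 - ph * (g + v)) ^ 2 * A0 (g + v)) =
      -(q ^ 2 * A0 g) + (Lop (q ^ 2) (2 * q * ph * A0 g) v + NL q (A0 g) v) := by
  subst hq
  simp only [Lop, NL, map_add]; ring

end Crest.Agent.R213
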