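import Crest.Agent.R213.Defs

/-! # Row 213, elementary properties of the weighted norms (all by `Ii_mono` and pointwise inequalities) -/

set_option autoImplicit false
open Set Filter Topology
open scoped ContDiff

noncomputable section
namespace Crest.Agent.R213

lemma bas_w_nonneg {l : ℝ} (hl : 0 < l) (m : ℕ) (n : ℤ) {x : ℝ} (hx : x ∈ I) :
    0 ≤ ev (mu m) x * ev (sp l n) x := by
  rw [ev_mu _ hx, ev_sp hl _ hx]
  have h0 := hx.1
  have h1 : 0 ≤ 1 - x := sub_nonneg.2 hx.2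
  positivity

lemma bas_mu_nonneg (m : ℕ) {x : ℝ} (hx : x ∈ I) : 0 ≤ ev (mu m) x := by
  rw [ev_mu _ hx]
  have h0 := hx.1
  have h1 : 0 ≤ 1 - x := sub_nonneg.2 hx.2
  positivity

lemma bas_mu_le_one (m : ℕ) {x : ℝ} (hx : x ∈ I) : ev (mu m) x ≤ 1 := by
  rw [ev_mu _ hx]
  have h0 := hx.1
  have h1 : 0 ≤ 1 - x := sub_nonneg.2 hx.2
  exact mul_le_one₀ (pow_le_one₀ h0 hx.2) (by positivity) (pow_le_one₀ h1 (by linarith))

/-- comparison of two weighted integrals through the pointwise values -/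
lemma bas_wl_le {l : ℝ} (hl : 0 < l) (e : ℤ) (j : ℕ) {R S U : Sm} {a b : ℝ}
    (h : ∀ x ∈ I, ev R x ^ 2 ≤ a * ev S x ^ 2 + b * ev U x ^ 2) :
    wl l e j R ≤ a * wl l e j S + b * wl l e j U := by
  unfold wl
  rw [← smul_eq_mul a, ← smul_eq_mul b, ← map_smul, ← map_smul, ← map_add]
  refine Ii_mono fun x hx => ?_
  have hw := bas_w_nonneg hl (j + 2) ((j : ℤ) - e) hx
  simp only [ev_add, ev_smul, ev_mul, ev_pow]
  have := mul_le_mul_of_nonneg_left (h x hx) hw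
  linarith

/-- comparison of two weights -/
lemma bas_wl_le_w {l l' : ℝ} (hl : 0 < l) (hl' : 0 < l') {e e' : ℤ} (j : ℕ) (R : Sm) {c : ℝ}
    (h : ∀ x ∈ I, (x + l) ^ ((j : ℤ) - e) ≤ c * (x + l') ^ ((j : ℤ) - e')) :
    wl l e j R ≤ c * wl l' e' j R := by
  unfold wl
  rw [← smul_eq_mul c, ← map_smul]
  refine Ii_mono fun x hx => ?_
  simp only [ev_smul, ev_mul, ev_pow]
  rw [ev_sp hl _ hx, ev_sp hl' _ hx]
  have h1 := bas_mu_nonneg (j + 2) hx
  have h2 : 0 ≤ ev (mu (j + 2)) x * ev R x ^ 2 := by positivity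
  have := mul_le_mul_of_nonneg_left (h x hx) h2
  linarith

lemma bas_zpow_compare {a b M : ℝ} (ha : 0 < a) (hb : 0 < b) (hM : 1 ≤ M) (h : a ≤ M * b)
    (h' : b ≤ M * a) (n : ℤ) : a ^ n ≤ M ^ n.natAbs * b ^ n := by
  have hM0 : 0 < M := by linarith
  cases n with
  | ofNat n =>
    simp only [Int.ofNat_eq_natCast, zpow_natCast, Int.natAbs_natCast]
    rw [← mul_pow]
    exact pow_le_pow_left₀ ha.le h n
  | negSucc n =>
    simp only [zpow_negSucc, Int.natAbs_negSucc, Nat.succ_eq_add_one]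
    rw [← inv_pow, ← inv_pow, ← mul_pow]
    refine pow_le_pow_left₀ (by positivity) ?_ _
    rw [← div_eq_mul_inv, le_div_iff₀ hb, inv_mul_le_iff₀ ha]
    linarith

/-- Cauchy–Schwarz for a nonnegative symmetric form, given through a quadratic inequality -/
lemma bas_cs {a b c : ℝ} (h : ∀ t : ℝ, 0 ≤ a * (t * t) + 2 * b * t + c) : b ^ 2 ≤ a * c := by
  have := discrim_le_zero h
  unfold discrim at this
  nlinarith

lemma wl_nonneg {l : ℝ} (hl : 0 < l) (e : ℤ) (j : ℕ) (R : Sm) : 0 ≤ wl l e j R :=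
  Ii_nonneg fun x hx => by
  have := bas_w_nonneg hl (j + 2) ((j : ℤ) - e) hx
  simp only [ev_mul, ev_pow]
  positivity
lemma lev_nonneg {l : ℝ} (hl : 0 < l) (e : ℤ) (j : ℕ) (v : Sm) : 0 ≤ lev l e j v :=
  wl_nonneg hl e j _
lemma N2_nonneg {l : ℝ} (hl : 0 < l) (e : ℤ) (k : ℕ) (v : Sm) : 0 ≤ N2 l e k v :=
  Finset.sum_nonneg fun j _ => lev_nonneg hl e j v
lemma Gk_nonneg {l : ℝ} (hl : 0 < l) (e : ℤ) (k : ℕ) (v : Sm) : 0 ≤ Gk l e k v :=
  Ii_nonneg fun x hx => by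
  have := bas_w_nonneg hl k ((k : ℤ) - e) hx
  simp only [ev_mul, ev_pow]
  positivity
lemma Ek_nonneg {l : ℝ} (hl : 0 < l) (k : ℕ) (v : Sm) : 0 ≤ Ek l k v :=
  add_nonneg (lev_nonneg hl _ _ _) (lev_nonneg hl _ _ _)
lemma Gk_eq_wl (l : ℝ) (e : ℤ) (k : ℕ) (v : Sm) :
    Gk l e (k + 2) v = wl l (e - 2) k (T (k + 2) ((D ^ (k + 2)) v)) := by
  unfold Gk wl
  have : (((k + 2 : ℕ) : ℤ) - e) = (k : ℤ) - (e - 2) := by push_cast; ring
  rw [this]
lemma lev_eq_levB (l : ℝ) (e : ℤ) (j : ℕ) (v : Sm) : lev l e j v = levB l e j v v := by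
  unfold lev wl levB
  congr 1; ring
lemma levB_comm (l : ℝ) (e : ℤ) (j : ℕ) (u v : Sm) : levB l e j u v = levB l e j v u := by
  unfold levB
  congr 1; ring
lemma levB_add (l : ℝ) (e : ℤ) (j : ℕ) (u u' v : Sm) :
    levB l e j (u + u') v = levB l e j u v + levB l e j u' v := by
  unfold levB
  rw [← map_add, map_add (D ^ j)]
  congr 1; ring
lemma levB_sub (l : ℝ) (e : ℤ) (j : ℕ) (u u' v : Sm) :
    levB l e j (u - u') v = levB l e j u v - levB l e j u' v := by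
  unfold levB
  rw [← map_sub, map_sub (D ^ j)]
  congr 1; ring
lemma levB_smul (l : ℝ) (e : ℤ) (j : ℕ) (c : ℝ) (u v : Sm) :
    levB l e j (c • u) v = c * levB l e j u v := by
  unfold levB
  rw [← smul_eq_mul c, ← map_smul, map_smul (D ^ j)]
  congr 1
  simp only [mul_smul_comm, smul_mul_assoc]
lemma N2_zero (l : ℝ) (e : ℤ) (v : Sm) : N2 l e 0 v = lev l e 0 v := by simp [N2]
lemma N2_succ (l : ℝ) (e : ℤ) (k : ℕ) (v : Sm) : N2 l e (k + 1) v = N2 l e k v + lev l e (k + 1) v := by simp [N2, Finset.sum_range_succ]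
lemma lev_le_N2 {l : ℝ} (hl : 0 < l) (e : ℤ) {j k : ℕ} (h : j ≤ k) (v : Sm) : lev l e j v ≤ N2 l e k v :=
  Finset.single_le_sum (f := fun j => lev l e j v) (fun i _ => lev_nonneg hl e i v)
    (Finset.mem_range.2 (by omega))
lemma N2_mono {l : ℝ} (hl : 0 < l) (e : ℤ) {j k : ℕ} (h : j ≤ k) (v : Sm) : N2 l e j v ≤ N2 l e k v :=
  Finset.sum_le_sum_of_subset_of_nonneg (Finset.range_mono (by omega))
    fun i _ _ => lev_nonneg hl e i v
lemma Ek_le_N2 {l : ℝ} (hl : 0 < l) (k : ℕ) (v : Sm) : Ek l k v ≤ 2 * N2 l 12 k v := by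
  have h1 := lev_le_N2 hl 12 (le_refl k) v
  have h2 := lev_le_N2 hl 12 (Nat.zero_le k) v
  unfold Ek; linarith

@[simp] lemma wl_zero (l : ℝ) (e : ℤ) (j : ℕ) : wl l e j 0 = 0 := by simp [wl]
@[simp] lemma lev_zero (l : ℝ) (e : ℤ) (j : ℕ) : lev l e j 0 = 0 := by simp [lev]
@[simp] lemma N2_zero' (l : ℝ) (e : ℤ) (k : ℕ) : N2 l e k 0 = 0 := by simp [N2]
@[simp] lemma Gk_zero (l : ℝ) (e : ℤ) (k : ℕ) : Gk l e k 0 = 0 := by simp [Gk]
@[simp] lemma wl_neg (l : ℝ) (e : ℤ) (j : ℕ) (R : Sm) : wl l e j (-R) = wl l e j R := by simp [wl]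
@[simp] lemma lev_neg (l : ℝ) (e : ℤ) (j : ℕ) (v : Sm) : lev l e j (-v) = lev l e j v := by simp [lev]
@[simp] lemma N2_neg (l : ℝ) (e : ℤ) (k : ℕ) (v : Sm) : N2 l e k (-v) = N2 l e k v := by simp [N2]
lemma wl_smul (l : ℝ) (e : ℤ) (j : ℕ) (c : ℝ) (R : Sm) : wl l e j (c • R) = c ^ 2 * wl l e j R := by
  unfold wl
  rw [← smul_eq_mul (c ^ 2), ← map_smul, smul_pow, mul_smul_comm]
lemma lev_smul (l : ℝ) (e : ℤ) (j : ℕ) (c : ℝ) (v : Sm) : lev l e j (c • v) = c ^ 2 * lev l e j v := by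
  unfold lev
  rw [map_smul, wl_smul]
lemma N2_smul (l : ℝ) (e : ℤ) (k : ℕ) (c : ℝ) (v : Sm) : N2 l e k (c • v) = c ^ 2 * N2 l e k v := by simp [N2, lev_smul, Finset.mul_sum]
lemma wl_add_le {l : ℝ} (hl : 0 < l) (e : ℤ) (j : ℕ) (R S : Sm) :
    wl l e j (R + S) ≤ 2 * wl l e j R + 2 * wl l e j S :=
  bas_wl_le hl e j fun x _ => by
    rw [ev_add]; nlinarith [sq_nonneg (ev R x - ev S x)]
lemma wl_sub_le {l : ℝ} (hl : 0 < l) (e : ℤ) (j : ℕ) (R S : Sm) :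
    wl l e j (R - S) ≤ 2 * wl l e j R + 2 * wl l e j S :=
  bas_wl_le hl e j fun x _ => by
    rw [ev_sub]; nlinarith [sq_nonneg (ev R x + ev S x)]
lemma wl_sum_le {l : ℝ} (hl : 0 < l) (e : ℤ) (j : ℕ) {ι : Type*} (s : Finset ι) (R : ι → Sm) :
    wl l e j (∑ i ∈ s, R i) ≤ s.card * ∑ i ∈ s, wl l e j (R i) := by
  unfold wl
  rw [← map_sum, ← smul_eq_mul (s.card : ℝ), ← map_smul]
  refine Ii_mono fun x hx => ?_
  have hw := bas_w_nonneg hl (j + 2) ((j : ℤ) - e) hx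
  simp only [ev_smul, ev_mul, ev_pow, ev_sum]
  rw [← Finset.mul_sum]
  have h := sq_sum_le_card_mul_sum_sq (s := s) (f := fun i => ev (R i) x)
  have := mul_le_mul_of_nonneg_left h hw
  linarith
lemma lev_add_le {l : ℝ} (hl : 0 < l) (e : ℤ) (j : ℕ) (u v : Sm) :
    lev l e j (u + v) ≤ 2 * lev l e j u + 2 * lev l e j v := by
  unfold lev; rw [map_add]; exact wl_add_le hl e j _ _
lemma lev_sub_le {l : ℝ} (hl : 0 < l) (e : ℤ) (j : ℕ) (u v : Sm) :
    lev l e j (u - v) ≤ 2 * lev l e j u + 2 * lev l e j v := by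
  unfold lev; rw [map_sub]; exact wl_sub_le hl e j _ _
lemma N2_add_le {l : ℝ} (hl : 0 < l) (e : ℤ) (k : ℕ) (u v : Sm) :
    N2 l e k (u + v) ≤ 2 * N2 l e k u + 2 * N2 l e k v := by
  unfold N2
  rw [Finset.mul_sum, Finset.mul_sum, ← Finset.sum_add_distrib]
  exact Finset.sum_le_sum fun j _ => lev_add_le hl e j u v
lemma N2_sub_le {l : ℝ} (hl : 0 < l) (e : ℤ) (k : ℕ) (u v : Sm) :
    N2 l e k (u - v) ≤ 2 * N2 l e k u + 2 * N2 l e k v := by
  unfold N2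
  rw [Finset.mul_sum, Finset.mul_sum, ← Finset.sum_add_distrib]
  exact Finset.sum_le_sum fun j _ => lev_sub_le hl e j u v
/-- sharp form used for Minkowski in `L²_t`: for `η > 0` -/
lemma N2_add_le' {l : ℝ} (hl : 0 < l) (e : ℤ) (k : ℕ) (u v : Sm) {η : ℝ} (hη : 0 < η) :
    N2 l e k (u + v) ≤ (1 + η) * N2 l e k u + (1 + η⁻¹) * N2 l e k v := by
  unfold N2
  rw [Finset.mul_sum, Finset.mul_sum, ← Finset.sum_add_distrib]
  refine Finset.sum_le_sum fun j _ => ?_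
  unfold lev
  rw [map_add]
  refine bas_wl_le hl e j fun x _ => ?_
  rw [ev_add]
  set a := ev ((D ^ j) u) x
  set b := ev ((D ^ j) v) x
  have h1 : 0 ≤ η⁻¹ * (η * a - b) ^ 2 := by positivity
  have h2 : η⁻¹ * (η * a - b) ^ 2 = η * a ^ 2 - 2 * a * b + η⁻¹ * b ^ 2 := by
    field_simp; ring
  nlinarith
lemma N2_sum_le {l : ℝ} (hl : 0 < l) (e : ℤ) (k : ℕ) {ι : Type*} (s : Finset ι) (v : ι → Sm) :
    N2 l e k (∑ i ∈ s, v i) ≤ s.card * ∑ i ∈ s, N2 l e k (v i) := by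
  unfold N2
  rw [Finset.sum_comm, Finset.mul_sum]
  refine Finset.sum_le_sum fun j _ => ?_
  unfold lev
  rw [map_sum]
  exact wl_sum_le hl e j s _
/-- a bounded factor -/
lemma wl_mul_le {l : ℝ} (hl : 0 < l) (e : ℤ) (j : ℕ) {b : Sm} {C : ℝ} (hb : ∀ x ∈ I, ev b x ^ 2 ≤ C)
    (R : Sm) : wl l e j (b * R) ≤ C * wl l e j R := by
  have := bas_wl_le hl e j (R := b * R) (S := R) (U := R) (a := C) (b := 0) fun x hx => by
    rw [ev_mul, mul_pow]
    have := mul_le_mul_of_nonneg_right (hb x hx) (sq_nonneg (ev R x))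
    linarith
  linarith

/-- `σ ≤ 2` -/
lemma wl_mono_e {l : ℝ} (hl : l ∈ Ioc (0 : ℝ) 1) {e e' : ℤ} (h : e ≤ e') (j : ℕ) (R : Sm) :
    wl l e j R ≤ 2 ^ (e' - e) * wl l e' j R := by
  refine bas_wl_le_w hl.1 hl.1 j R fun x hx => ?_
  have h0 : 0 < x + l := by have := hx.1; have := hl.1; positivity
  have h2 : x + l ≤ 2 := by have := hx.2; have := hl.2; linarith
  have : (j : ℤ) - e = (e' - e) + ((j : ℤ) - e') := by ring
  rw [this, zpow_add₀ h0.ne']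
  exact mul_le_mul_of_nonneg_right (zpow_le_zpow_left₀ (by omega) h0.le h2) (by positivity)
lemma lev_mono_e {l : ℝ} (hl : l ∈ Ioc (0 : ℝ) 1) {e e' : ℤ} (h : e ≤ e') (j : ℕ) (v : Sm) :
    lev l e j v ≤ 2 ^ (e' - e) * lev l e' j v :=
  wl_mono_e hl h j _
lemma N2_mono_e {l : ℝ} (hl : l ∈ Ioc (0 : ℝ) 1) {e e' : ℤ} (h : e ≤ e') (k : ℕ) (v : Sm) :
    N2 l e k v ≤ 2 ^ (e' - e) * N2 l e' k v := by
  unfold N2
  rw [Finset.mul_sum]
  exact Finset.sum_le_sum fun j _ => lev_mono_e hl h j v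
/-- `σ ≥ l` -/
lemma wl_le_inv {l : ℝ} (hl : 0 < l) {e e' : ℤ} (h : e ≤ e') (j : ℕ) (R : Sm) :
    wl l e' j R ≤ l ^ (e - e') * wl l e j R := by
  refine bas_wl_le_w hl hl j R fun x hx => ?_
  have h0 : 0 < x + l := by have := hx.1; positivity
  have h2 : l ≤ x + l := by have := hx.1; linarith
  have : (j : ℤ) - e' = (e - e') + ((j : ℤ) - e) := by ring
  rw [this, zpow_add₀ h0.ne']
  refine mul_le_mul_of_nonneg_right ?_ (by positivity)
  have h3 : e - e' = -(e' - e) := by ring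
  rw [h3, zpow_neg, zpow_neg]
  exact inv_anti₀ (by positivity) (zpow_le_zpow_left₀ (by omega) hl.le h2)
lemma lev_le_inv {l : ℝ} (hl : 0 < l) {e e' : ℤ} (h : e ≤ e') (j : ℕ) (v : Sm) :
    lev l e' j v ≤ l ^ (e - e') * lev l e j v :=
  wl_le_inv hl h j _
lemma N2_le_inv {l : ℝ} (hl : 0 < l) {e e' : ℤ} (h : e ≤ e') (k : ℕ) (v : Sm) :
    N2 l e' k v ≤ l ^ (e - e') * N2 l e k v := by
  unfold N2
  rw [Finset.mul_sum]
  exact Finset.sum_le_sum fun j _ => lev_le_inv hl h j v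
/-- comparable scales -/
lemma wl_compare {l l' M : ℝ} (hl : 0 < l) (hl' : 0 < l') (hM : 1 ≤ M) (h : l ≤ M * l') (h' : l' ≤ M * l)
    (e : ℤ) (j : ℕ) (R : Sm) : wl l e j R ≤ M ^ ((j : ℤ) - e).natAbs * wl l' e j R := by
  refine bas_wl_le_w hl hl' j R fun x hx => ?_
  have h0 := hx.1
  refine bas_zpow_compare (by positivity) (by positivity) hM ?_ ?_ _
  · nlinarith
  · nlinarith
lemma lev_compare {l l' M : ℝ} (hl : 0 < l) (hl' : 0 < l') (hM : 1 ≤ M) (h : l ≤ M * l') (h' : l' ≤ M * l)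
    (e : ℤ) (j : ℕ) (v : Sm) : lev l e j v ≤ M ^ ((j : ℤ) - e).natAbs * lev l' e j v :=
  wl_compare hl hl' hM h h' e j _
lemma N2_compare {l l' M : ℝ} (hl : 0 < l) (hl' : 0 < l') (hM : 1 ≤ M) (h : l ≤ M * l') (h' : l' ≤ M * l)
    (e : ℤ) (k : ℕ) (v : Sm) : N2 l e k v ≤ M ^ (k + e.natAbs) * N2 l' e k v := by
  unfold N2
  rw [Finset.mul_sum]
  refine Finset.sum_le_sum fun j hj => (lev_compare hl hl' hM h h' e j v).trans ?_
  refine mul_le_mul_of_nonneg_right (pow_le_pow_right₀ hM ?_) (lev_nonneg hl' e j v)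
  have := Finset.mem_range.1 hj
  omega
/-- negative powers of `σ` decrease with the scale -/
lemma lev_anti_scale {l l' : ℝ} (hl : 0 < l) (h : l ≤ l') {e : ℤ} {j : ℕ} (hj : (j : ℤ) ≤ e) (v : Sm) :
    lev l' e j v ≤ lev l e j v := by
  have hl' : 0 < l' := hl.trans_le h
  have := bas_wl_le_w hl' hl (e := e) (e' := e) j ((D ^ j) v) (c := 1) fun x hx => by
    have h0 := hx.1
    have h3 : (j : ℤ) - e = -(e - j) := by ring
    rw [one_mul, h3, zpow_neg, zpow_neg]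
    exact inv_anti₀ (by positivity) (zpow_le_zpow_left₀ (by omega) (by positivity) (by linarith))
  rw [one_mul] at this
  exact this
/-- on scales bounded below everything is comparable with the unweighted norm -/
lemma N2_le_unw {c : ℝ} (hc : 0 < c) (e : ℤ) (k : ℕ) :
    ∃ C, 0 ≤ C ∧ ∀ l ∈ Icc c 1, ∀ v, N2 l e k v ≤ C * N2 1 0 k v := by
  refine ⟨max 1 c⁻¹ ^ (k + e.natAbs) * 2 ^ (e.natAbs : ℤ), by positivity, fun l hl v => ?_⟩
  have hl0 : 0 < l := hc.trans_le hl.1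
  have hM : (1 : ℝ) ≤ max 1 c⁻¹ := le_max_left _ _
  have hc1 : 1 ≤ max 1 c⁻¹ * l := by
    have h1 : c⁻¹ * c ≤ max 1 c⁻¹ * l := mul_le_mul (le_max_right _ _) hl.1 hc.le (by positivity)
    rwa [inv_mul_cancel₀ hc.ne'] at h1
  have h1 := N2_compare hl0 one_pos hM (by have := hl.2; linarith) hc1 e k v
  have h2 : N2 1 e k v ≤ 2 ^ (e.natAbs : ℤ) * N2 1 0 k v := by
    rcases le_total e 0 with he | he
    · have := N2_mono_e (l := 1) ⟨one_pos, le_rfl⟩ he k v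
      have h3 : (0 : ℤ) - e = (e.natAbs : ℤ) := by omega
      rwa [h3] at this
    · have := N2_le_inv (l := 1) one_pos he k v
      rw [one_zpow, one_mul] at this
      refine this.trans (le_mul_of_one_le_left (N2_nonneg one_pos _ _ _) ?_)
      exact one_le_zpow₀ one_le_two (by positivity)
  rw [mul_assoc]
  exact h1.trans (mul_le_mul_of_nonneg_left h2 (by positivity))
lemma unw_le_N2 {c : ℝ} (hc : 0 < c) (e : ℤ) (k : ℕ) :
    ∃ C, 0 ≤ C ∧ ∀ l ∈ Icc c 1, ∀ v, N2 1 0 k v ≤ C * N2 l e k v := by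
  refine ⟨2 ^ (e.natAbs : ℤ) * max 1 c⁻¹ ^ (k + e.natAbs), by positivity, fun l hl v => ?_⟩
  have hl0 : 0 < l := hc.trans_le hl.1
  have hM : (1 : ℝ) ≤ max 1 c⁻¹ := le_max_left _ _
  have hc1 : 1 ≤ max 1 c⁻¹ * l := by
    have h1 : c⁻¹ * c ≤ max 1 c⁻¹ * l := mul_le_mul (le_max_right _ _) hl.1 hc.le (by positivity)
    rwa [inv_mul_cancel₀ hc.ne'] at h1
  have h1 := N2_compare one_pos hl0 hM hc1 (by have := hl.2; linarith) e k v
  have h2 : N2 1 0 k v ≤ 2 ^ (e.natAbs : ℤ) * N2 1 e k v := by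
    rcases le_total 0 e with he | he
    · have := N2_mono_e (l := 1) ⟨one_pos, le_rfl⟩ he k v
      have h3 : e - 0 = (e.natAbs : ℤ) := by omega
      rwa [h3] at this
    · have := N2_le_inv (l := 1) one_pos he k v
      rw [one_zpow, one_mul] at this
      refine this.trans (le_mul_of_one_le_left (N2_nonneg one_pos _ _ _) ?_)
      exact one_le_zpow₀ one_le_two (by positivity)
  rw [mul_assoc]
  exact h2.trans (mul_le_mul_of_nonneg_left h1 (by positivity))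
lemma N2_le_jet (e : ℤ) (k : ℕ) :
    ∃ C, 0 ≤ C ∧ ∀ v, N2 1 e k v ≤ C * ∑ j ∈ Finset.range (k + 1), ‖jet j v‖ ^ 2 := by
  refine ⟨2 ^ (k + e.natAbs), by positivity, fun v => ?_⟩
  unfold N2
  rw [Finset.mul_sum]
  refine Finset.sum_le_sum fun j hj => ?_
  have hj' := Finset.mem_range.1 hj
  unfold lev wl
  have h1 : (2 : ℝ) ^ (k + e.natAbs) * ‖jet j v‖ ^ 2 =
      Ii (((2 : ℝ) ^ (k + e.natAbs) * ‖jet j v‖ ^ 2) • (1 : Sm)) := by simp
  rw [h1]
  refine Ii_mono fun x hx => ?_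
  simp only [ev_mul, ev_pow, ev_smul, ev_one, mul_one]
  rw [ev_sp one_pos _ hx]
  have h0 := hx.1
  have h2 : (x + 1) ^ ((j : ℤ) - e) ≤ 2 ^ (k + e.natAbs) := by
    have := bas_zpow_compare (a := x + 1) (b := 1) (M := 2) (by positivity) one_pos one_le_two
      (by have := hx.2; linarith) (by linarith) ((j : ℤ) - e)
    rw [one_zpow, mul_one] at this
    exact this.trans (pow_le_pow_right₀ one_le_two (by omega))
  have h3 : ev ((D ^ j) v) x ^ 2 ≤ ‖jet j v‖ ^ 2 := by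
    rw [← sq_abs]
    exact pow_le_pow_left₀ (abs_nonneg _) (abs_ev_le_jet j v hx) 2
  have h4 := bas_mu_le_one (j + 2) hx
  have h5 := bas_mu_nonneg (j + 2) hx
  refine mul_le_mul ?_ h3 (sq_nonneg _) (by positivity)
  calc ev (mu (j + 2)) x * (x + 1) ^ ((j : ℤ) - e) ≤ 1 * 2 ^ (k + e.natAbs) :=
        mul_le_mul h4 h2 (by positivity) zero_le_one
    _ = _ := one_mul _

/-- Cauchy–Schwarz with opposite weights -/
lemma Ii_mul_sq_le {l : ℝ} (hl : 0 < l) (e : ℤ) (u v : Sm) :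
    Ii (mu 2 * u * v) ^ 2 ≤ lev l (-e) 0 u * lev l e 0 v := by
  refine bas_cs fun t => ?_
  have h : 0 ≤ wl l e 0 (t • (sp l e * u) + v) := wl_nonneg hl _ _ _
  have h1 : sp l (((0 : ℕ) : ℤ) - e) * sp l e = 1 := by
    rw [← sp_add hl]; simpa using sp_zero hl
  have h2 : sp l (((0 : ℕ) : ℤ) - -e) = sp l e := by simp
  have h3 : wl l e 0 (t • (sp l e * u) + v) =
      lev l (-e) 0 u * (t * t) + 2 * Ii (mu 2 * u * v) * t + lev l e 0 v := by
    unfold lev wl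
    rw [h2, Dpow_zero, Dpow_zero]
    have : mu (0 + 2) * sp l (((0 : ℕ) : ℤ) - e) * (t • (sp l e * u) + v) ^ 2 =
        (t * t) • (mu (0 + 2) * sp l e * u ^ 2) + (2 * t) • (mu 2 * u * v) +
          mu (0 + 2) * sp l (((0 : ℕ) : ℤ) - e) * v ^ 2 := by
      simp only [Algebra.smul_def, map_mul, map_ofNat, zero_add]
      linear_combination (algebraMap ℝ Sm t * algebraMap ℝ Sm t * mu 2 * sp l e * u ^ 2 +
        2 * algebraMap ℝ Sm t * mu 2 * u * v) * h1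
    rw [this, map_add, map_add, map_smul, map_smul, smul_eq_mul, smul_eq_mul]
    ring
  rwa [h3] at h
lemma eq_zero_of_lev {l : ℝ} (hl : 0 < l) (e : ℤ) {v : Sm} (h : lev l e 0 v ≤ 0) : v = 0 := by
  have h0 : lev l e 0 v = 0 := le_antisymm h (lev_nonneg hl _ _ _)
  unfold lev wl at h0
  rw [Dpow_zero, Ii_def] at h0
  set w := mu (0 + 2) * sp l (((0 : ℕ) : ℤ) - e) * v ^ 2 with hw
  have hz : ∀ x ∈ Ioo (0 : ℝ) 1, ev v x = 0 := by
    intro x hx
    by_contra hne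
    have hpos : 0 < ∫ y in (0 : ℝ)..1, ev w y := by
      have h1 : ∫ _ in (0 : ℝ)..1, (0 : ℝ) < ∫ y in (0 : ℝ)..1, ev w y := by
        refine intervalIntegral.integral_lt_integral_of_continuousOn_of_le_of_exists_lt one_pos
          continuousOn_const (continuous_ev w).continuousOn (fun y hy => ?_)
          ⟨x, Ioo_subset_Icc_self hx, ?_⟩
        · have := bas_w_nonneg hl (0 + 2) (((0 : ℕ) : ℤ) - e) (Ioc_subset_Icc_self hy)
          simp only [hw, ev_mul, ev_pow]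
          positivity
        · have hx' : x ∈ I := Ioo_subset_Icc_self hx
          simp only [hw, ev_mul, ev_pow]
          rw [ev_mu _ hx', ev_sp hl _ hx']
          have h0 := hx.1
          have h1 : 0 < 1 - x := sub_pos.2 hx.2
          positivity
      simpa using h1
    exact hpos.ne' h0
  refine Sm.ext' fun x hx => ?_
  have hcl : IsClosed {y | ev v y = 0} := isClosed_eq (continuous_ev v) continuous_const
  have : closure (Ioo (0 : ℝ) 1) ⊆ {y | ev v y = 0} := hcl.closure_subset_iff.2 hz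
  rw [closure_Ioo zero_ne_one] at this
  simpa using this hx

/-- a nonnegative symmetric bilinear form gives a seminorm -/
lemma exists_seminorm {V : Type*} [AddCommGroup V] [Module ℝ V] (B : V →ₗ[ℝ] V →ₗ[ℝ] ℝ)
    (hs : ∀ u v, B u v = B v u) (hp : ∀ v, 0 ≤ B v v) :
    ∃ p : Seminorm ℝ V, ∀ v, p v = √(B v v) := by
  have hcs : ∀ u v, B u v ^ 2 ≤ B u u * B v v := fun u v => bas_cs fun t => by
    have := hp (t • u + v)
    simp only [map_add, map_smul, LinearMap.add_apply, LinearMap.smul_apply, smul_eq_mul] at this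
    rw [hs v u] at this
    linarith
  refine ⟨Seminorm.of (fun v => √(B v v)) (fun u v => ?_) (fun c v => ?_), fun v => rfl⟩
  · have h1 : B u v ≤ √(B u u) * √(B v v) := by
      rw [← Real.sqrt_mul (hp u)]
      exact Real.le_sqrt_of_sq_le (hcs u v)
    rw [Real.sqrt_le_left (by positivity)]
    simp only [map_add, LinearMap.add_apply]
    rw [hs v u]
    nlinarith [Real.sq_sqrt (hp u), Real.sq_sqrt (hp v)]
  · simp only [map_smul, LinearMap.smul_apply, smul_eq_mul]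
    rw [← mul_assoc, Real.sqrt_mul (mul_self_nonneg c), Real.sqrt_mul_self_eq_abs, Real.norm_eq_abs]
lemma exists_semN {l : ℝ} (hl : 0 < l) (e : ℤ) (k : ℕ) :
    ∃ p : Seminorm ℝ Sm, ∀ v, p v = √(N2 l e k v) := by
  let B : Sm →ₗ[ℝ] Sm →ₗ[ℝ] ℝ := LinearMap.mk₂ ℝ
    (fun u v => ∑ j ∈ Finset.range (k + 1), levB l e j u v)
    (fun u u' v => by simp [levB_add, Finset.sum_add_distrib])
    (fun c u v => by simp [levB_smul, Finset.mul_sum])
    (fun u v v' => by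
      simp only [levB_comm l e _ u, levB_add, Finset.sum_add_distrib])
    (fun c u v => by
      simp only [levB_comm l e _ u, levB_smul, Finset.mul_sum, smul_eq_mul])
  have hB : ∀ v, B v v = N2 l e k v := fun v => by
    simp [B, N2, lev_eq_levB]
  obtain ⟨p, hp⟩ := exists_seminorm B
    (fun u v => by simp only [B, LinearMap.mk₂_apply, levB_comm l e _ u])
    (fun v => by rw [hB]; exact N2_nonneg hl e k v)
  exact ⟨p, fun v => by rw [hp, hB]⟩

lemma lam_pos {t : ℝ} (ht : t < 0) : 0 < lam t :=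
  Real.sqrt_pos.2 (by linarith)
lemma lam_sq {t : ℝ} (ht : t ≤ 0) : lam t ^ 2 = -t :=
  Real.sq_sqrt (by linarith)
lemma lam_mem {t : ℝ} (h1 : -1 ≤ t) (ht : t < 0) : lam t ∈ Ioc (0 : ℝ) 1 :=
  ⟨lam_pos ht, Real.sqrt_le_one.2 (by linarith)⟩
lemma lam_anti {s t : ℝ} (h : s ≤ t) : lam t ≤ lam s :=
  Real.sqrt_le_sqrt (by linarith)
lemma lam_mul {κ : ℝ} (hκ : 0 ≤ κ) (t : ℝ) : lam (κ ^ 2 * t) = κ * lam t := by
  unfold lam
  rw [← mul_neg, Real.sqrt_mul (sq_nonneg κ), Real.sqrt_sq hκ]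
lemma hasDerivAt_lam {t : ℝ} (ht : t < 0) : HasDerivAt lam (-(2 * lam t)⁻¹) t := by
  have h := (hasDerivAt_neg t).sqrt (by linarith)
  convert h using 1
  · rfl
  · unfold lam; rw [neg_div, one_div]
lemma contDiffOn_lam : ContDiffOn ℝ ∞ lam (Iio 0) :=
  contDiffOn_id.neg.sqrt fun x hx => by
  have : x < 0 := hx
  simp only [id]; linarith
lemma continuous_lam : Continuous lam :=
  Real.continuous_sqrt.comp continuous_neg
lemma lam_tr (δ : ℝ) (r : ℕ) : lam (tr δ r) = lr δ r := by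
  unfold lam tr lr
  rw [neg_neg, Real.exp_half]
lemma tr_neg (δ : ℝ) (r : ℕ) : tr δ r < 0 :=
  neg_lt_zero.2 (Real.exp_pos _)
lemma neg_one_le_tr {δ : ℝ} (hδ : 0 ≤ δ) (r : ℕ) : -1 ≤ tr δ r :=
  neg_le_neg (Real.exp_le_one_iff.2 (neg_nonpos.2 (by positivity)))
lemma tr_mono {δ : ℝ} (hδ : 0 ≤ δ) : Monotone (tr δ) :=
  fun r s h => neg_le_neg (Real.exp_le_exp.2
  (neg_le_neg (mul_le_mul_of_nonneg_right (by exact_mod_cast h) hδ)))
lemma tr_add (δ : ℝ) (r d : ℕ) : tr δ (r + d) = lr δ d ^ 2 * tr δ r := by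
  unfold tr lr
  rw [← Real.exp_nat_mul, mul_neg, ← Real.exp_add]
  congr 2
  push_cast; ring
lemma lr_add (δ : ℝ) (r d : ℕ) : lr δ (r + d) = lr δ d * lr δ r := by
  unfold lr
  rw [← Real.exp_add]
  congr 1
  push_cast; ring
lemma lr_mem {δ : ℝ} (hδ : 0 ≤ δ) (r : ℕ) : lr δ r ∈ Ioc (0 : ℝ) 1 :=
  ⟨Real.exp_pos _, Real.exp_le_one_iff.2 (by
  have : 0 ≤ (r : ℝ) * δ := by positivity
  linarith)⟩
lemma lr_le_two {δ : ℝ} (hδ : δ ≤ 1) (r : ℕ) : lr δ r ≤ 2 * lr δ (r + 1) := by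
  unfold lr
  have h1 : -((r : ℝ) * δ) / 2 = δ / 2 + -(((r + 1 : ℕ) : ℝ) * δ) / 2 := by push_cast; ring
  rw [h1, Real.exp_add]
  refine mul_le_mul_of_nonneg_right ?_ (Real.exp_pos _).le
  have h2 : Real.exp (δ / 2) ≤ Real.exp (1 / 2) := Real.exp_le_exp.2 (by linarith)
  refine h2.trans ?_
  rw [Real.exp_half, Real.sqrt_le_left (by norm_num)]
  have := Real.exp_one_lt_d9
  linarith
lemma tendsto_lr {δ : ℝ} (hδ : 0 < δ) : Tendsto (lr δ) atTop (𝓝 0) := by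
  unfold lr
  refine Real.tendsto_exp_atBot.comp ?_
  refine Tendsto.atBot_div_const two_pos (tendsto_neg_atTop_atBot.comp ?_)
  exact tendsto_natCast_atTop_atTop.atTop_mul_const hδ
lemma tendsto_tr {δ : ℝ} (hδ : 0 < δ) : Tendsto (tr δ) atTop (𝓝 0) := by
  unfold tr
  have : Tendsto (fun r : ℕ => Real.exp (-((r : ℝ) * δ))) atTop (𝓝 0) :=
    Real.tendsto_exp_atBot.comp (tendsto_neg_atTop_atBot.comp
      (tendsto_natCast_atTop_atTop.atTop_mul_const hδ))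
  simpa using this.neg

end Crest.Agent.R213
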