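import Crest.Agent.R213.Basic
import Crest.Agent.R213.Alg

/-! # Row 213, Hardy type inequalities, coercivity of `T_k`, interpolation

All constants are uniform in the scale `l ∈ (0,1]`.  `W1`, `W2` follow from `dl_sq_identity` with
`om = sp l s`, `D_sp`, `mu_succ`, `φ₀ ≤ σ ≤ 2` and `2ab ≤ a² + b²` under `Ii_mono`. -/

set_option autoImplicit false
open Set Filter Topology
open scoped ContDiff

noncomputable section
namespace Crest.Agent.R213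

/-- the basic weighted integral -/
def hdJ (l : ℝ) (m : ℕ) (s : ℤ) (w : Sm) : ℝ := Ii (mu m * sp l s * w ^ 2)

lemma hd_mu_nonneg (m : ℕ) {x : ℝ} (hx : x ∈ I) : 0 ≤ ev (mu m) x := by
  rw [ev_mu m hx]
  have h1 := hx.1
  have h2 : 0 ≤ 1 - x := by linarith [hx.2]
  positivity

lemma hd_mu_succ (m : ℕ) {x : ℝ} (hx : x ∈ I) : ev (mu (m + 1)) x = ev (mu m) x * (x * (1 - x)) := by
  rw [mu_succ, ev_mul, ev_ph hx]

lemma hd_sp_pos {l : ℝ} (hl : 0 < l) (s : ℤ) {x : ℝ} (hx : x ∈ I) : 0 < ev (sp l s) x := by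
  rw [ev_sp hl s hx]
  have h1 := hx.1
  positivity

lemma hd_sp_succ {l : ℝ} (hl : 0 < l) {s s' : ℤ} (h : s' = s + 1) {x : ℝ} (hx : x ∈ I) :
    ev (sp l s') x = ev (sp l s) x * (x + l) := by
  have h1 := hx.1
  rw [h, ev_sp hl _ hx, ev_sp hl _ hx, zpow_add_one₀ (by positivity)]

lemma hdJ_nonneg {l : ℝ} (hl : 0 < l) (m : ℕ) (s : ℤ) (w : Sm) : 0 ≤ hdJ l m s w :=
  Ii_nonneg fun x hx => by
    have h1 := hd_mu_nonneg m hx
    have h2 := hd_sp_pos hl s hx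
    simp only [ev_mul, ev_pow]
    positivity

/-- `φ₀ ≤ σ` -/
lemma hdJ_ph {l : ℝ} (hl : 0 < l) (m : ℕ) {s s' : ℤ} (h : s' = s + 1) (w : Sm) :
    hdJ l (m + 1) s w ≤ hdJ l m s' w :=
  Ii_mono fun x hx => by
    have h1 := hd_mu_nonneg m hx
    have h2 := hd_sp_pos hl s hx
    simp only [ev_mul, ev_pow]
    rw [hd_mu_succ m hx, hd_sp_succ hl h hx]
    have h3 : x * (1 - x) ≤ x + l := by nlinarith [sq_nonneg x]
    have h4 : 0 ≤ ev (mu m) x * ev (sp l s) x * ev w x ^ 2 := by positivity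
    nlinarith [mul_le_mul_of_nonneg_left h3 h4]

/-- `σ ≤ 2` -/
lemma hdJ_sg {l : ℝ} (hl : l ∈ Ioc (0 : ℝ) 1) (m : ℕ) {s s' : ℤ} (h : s' = s + 1) (w : Sm) :
    hdJ l m s' w ≤ 2 * hdJ l m s w := by
  have : 2 * hdJ l m s w = Ii ((2 : ℝ) • (mu m * sp l s * w ^ 2)) := by rw [map_smul]; rfl
  rw [this]
  refine Ii_mono fun x hx => ?_
  have h1 := hd_mu_nonneg m hx
  have h2 := hd_sp_pos hl.1 s hx
  simp only [ev_mul, ev_pow, ev_smul]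
  rw [hd_sp_succ hl.1 h hx]
  have h3 : x + l ≤ 2 := by linarith [hx.2, hl.2]
  have h4 : 0 ≤ ev (mu m) x * ev (sp l s) x * ev w x ^ 2 := by positivity
  nlinarith [mul_le_mul_of_nonneg_left h3 h4]

lemma hdJ_sg2 {l : ℝ} (hl : l ∈ Ioc (0 : ℝ) 1) (m : ℕ) {s s' : ℤ} (h : s' = s + 2) (w : Sm) :
    hdJ l m s' w ≤ 4 * hdJ l m s w := by
  have h1 := hdJ_sg hl m (s := s + 1) (s' := s') (by omega) w
  have h2 := hdJ_sg hl m (s := s) (s' := s + 1) rfl w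
  linarith

lemma hdJ_add {l : ℝ} (hl : 0 < l) (m : ℕ) (s : ℤ) (a b : ℝ) (u w : Sm) :
    hdJ l m s (a • u + b • w) ≤ 2 * a ^ 2 * hdJ l m s u + 2 * b ^ 2 * hdJ l m s w := by
  have : 2 * a ^ 2 * hdJ l m s u + 2 * b ^ 2 * hdJ l m s w =
      Ii ((2 * a ^ 2) • (mu m * sp l s * u ^ 2) + (2 * b ^ 2) • (mu m * sp l s * w ^ 2)) := by
    rw [map_add, map_smul, map_smul]; rfl
  rw [this]
  refine Ii_mono fun x hx => ?_
  have h1 := hd_mu_nonneg m hx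
  have h2 := hd_sp_pos hl s hx
  simp only [ev_mul, ev_pow, ev_smul, ev_add]
  have h4 : 0 ≤ ev (mu m) x * ev (sp l s) x := by positivity
  nlinarith [mul_nonneg h4 (sq_nonneg (a * ev u x - b * ev w x))]

lemma hd_y1 {l : ℝ} (hl : 0 < l) (m : ℕ) (s : ℤ) (c : ℝ) (w u : Sm) :
    c * Ii (mu m * sp l (s - 1) * w * u) ≤ 1 / 2 * hdJ l m s u + c ^ 2 / 2 * hdJ l m (s - 2) w := by
  have e1 : 1 / 2 * hdJ l m s u + c ^ 2 / 2 * hdJ l m (s - 2) w =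
      Ii ((1 / 2 : ℝ) • (mu m * sp l s * u ^ 2) + (c ^ 2 / 2) • (mu m * sp l (s - 2) * w ^ 2)) := by
    rw [map_add, map_smul, map_smul]; rfl
  have e2 : c * Ii (mu m * sp l (s - 1) * w * u) = Ii (c • (mu m * sp l (s - 1) * w * u)) := by
    rw [map_smul]; rfl
  rw [e1, e2]
  refine Ii_mono fun x hx => ?_
  have h1 := hd_mu_nonneg m hx
  have h2 := hd_sp_pos hl (s - 2) hx
  simp only [ev_mul, ev_pow, ev_smul, ev_add]
  rw [hd_sp_succ hl (s := s - 1) (s' := s) (by omega) hx,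
    hd_sp_succ hl (s := s - 2) (s' := s - 1) (by omega) hx]
  have h4 : 0 ≤ ev (mu m) x * ev (sp l (s - 2)) x := by positivity
  nlinarith [mul_nonneg h4 (sq_nonneg ((x + l) * ev u x - c * ev w x))]

lemma hd_y2 {l : ℝ} (hl : 0 < l) (m : ℕ) (s : ℤ) (c : ℝ) (w u : Sm) :
    c * Ii (mu (m + 1) * sp l (s - 1) * w * u) ≤
      1 / 2 * hdJ l m s u + c ^ 2 / 2 * hdJ l (m + 2) (s - 2) w := by
  have h := hd_y1 hl m s c (ph * w) u
  have e1 : mu m * sp l (s - 1) * (ph * w) * u = mu (m + 1) * sp l (s - 1) * w * u := by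
    rw [mu_succ]; ring
  have e2 : hdJ l m (s - 2) (ph * w) = hdJ l (m + 2) (s - 2) w := by
    unfold hdJ
    rw [mu_succ (m + 1), mu_succ m]
    congr 1
    ring
  rwa [e1, e2] at h

lemma hd_id {l : ℝ} (hl : 0 < l) (m : ℕ) (s : ℤ) (w : Sm) :
    hdJ l m s (dl m w) = hdJ l (m + 2) s (D w) + (11 + 2 * (m : ℝ)) * hdJ l (m + 1) s w
      + s * Ii (mu (m + 2) * sp l (s - 1) * w * D w)
      - s * Ii (mu (m + 1) * sp l (s - 1) * w * dl m w) := by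
  have h := dl_sq_identity m (sp l s) w
  rw [D_sp hl] at h
  simp only [mul_smul_comm, smul_mul_assoc, map_smul, smul_eq_mul] at h
  exact h

lemma hd_W1 {l : ℝ} (hl : 0 < l) (m : ℕ) (s : ℤ) (w : Sm) :
    hdJ l (m + 2) s (D w) ≤ 4 * hdJ l m s (dl m w) + 2 * (s : ℝ) ^ 2 * hdJ l (m + 2) (s - 2) w := by
  have h0 := hd_id hl m s w
  have h1 := hd_y1 hl (m + 2) s (-(s : ℝ)) w (D w)
  have h2 := hd_y2 hl m s (s : ℝ) w (dl m w)
  have h3 : 0 ≤ (11 + 2 * (m : ℝ)) * hdJ l (m + 1) s w :=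
    mul_nonneg (by positivity) (hdJ_nonneg hl _ _ _)
  have h4 := hdJ_nonneg hl m s (dl m w)
  rw [neg_sq] at h1
  linarith

lemma hd_W2 (m : ℕ) (s : ℤ) : ∃ C, 0 ≤ C ∧ ∀ l ∈ Ioc (0 : ℝ) 1, ∀ w,
    hdJ l m s (dl m w) ≤ C * (hdJ l (m + 2) s (D w) + hdJ l (m + 1) (s - 1) w) := by
  refine ⟨3 + 4 * (11 + 2 * (m : ℝ)) + 2 * (s : ℝ) ^ 2, by positivity, fun l hl w => ?_⟩
  have h0 := hd_id hl.1 m s w
  have h1 := hd_y1 hl.1 (m + 2) s (s : ℝ) w (D w)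
  have h2 := hd_y2 hl.1 m s (-(s : ℝ)) w (dl m w)
  rw [neg_sq] at h2
  have h3 := mul_le_mul_of_nonneg_left (hdJ_sg hl (m + 1) (s := s - 1) (s' := s) (by omega) w)
    (show 0 ≤ 11 + 2 * (m : ℝ) by positivity)
  have h4 := mul_le_mul_of_nonneg_left
    (hdJ_ph hl.1 (m + 1) (s := s - 2) (s' := s - 1) (by omega) w) (sq_nonneg (s : ℝ))
  have h5 := hdJ_nonneg hl.1 (m + 1) (s - 1) w
  have h6 := mul_nonneg (show 0 ≤ 4 * (11 + 2 * (m : ℝ)) + 2 * (s : ℝ) ^ 2 by positivity)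
    (hdJ_nonneg hl.1 (m + 2) s (D w))
  have e : m + 1 + 1 = m + 2 := rfl
  rw [e] at h4
  linarith

lemma hd_lev (l : ℝ) (e : ℤ) (j : ℕ) {s : ℤ} (hs : s = (j : ℤ) - e) (v : Sm) :
    lev l e j v = hdJ l (j + 2) s ((D ^ j) v) := by rw [hs]; rfl

lemma W1 (m : ℕ) (s : ℤ) : ∃ C, 0 ≤ C ∧ ∀ l ∈ Ioc (0 : ℝ) 1, ∀ w,
    Ii (mu (m + 2) * sp l s * (D w) ^ 2) ≤ 4 * Ii (mu m * sp l s * (dl m w) ^ 2)
      + C * Ii (mu (m + 2) * sp l (s - 2) * w ^ 2) := ⟨2 * (s : ℝ) ^ 2, by positivity, fun _ hl w => hd_W1 hl.1 m s w⟩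
lemma W2 (m : ℕ) (s : ℤ) : ∃ C, 0 ≤ C ∧ ∀ l ∈ Ioc (0 : ℝ) 1, ∀ w,
    Ii (mu m * sp l s * (dl m w) ^ 2) ≤
      C * (Ii (mu (m + 2) * sp l s * (D w) ^ 2) + Ii (mu (m + 1) * sp l (s - 1) * w ^ 2)) := hd_W2 m s
/-- Hardy: `p_m w = δ_m w - φ₀ w'` and `p_m² + φ₀ ≥ c > 0` on `[0,1]` -/
lemma hardy_mu (m : ℕ) (s : ℤ) : ∃ C, 0 ≤ C ∧ ∀ l ∈ Ioc (0 : ℝ) 1, ∀ w,
    Ii (mu m * sp l s * w ^ 2) ≤
      C * (Ii (mu (m + 2) * sp l s * (D w) ^ 2) + Ii (mu (m + 1) * sp l (s - 1) * w ^ 2)) := by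
  obtain ⟨C, hC, h⟩ := hd_W2 m s
  set K : ℝ := 2 * ((10 + m) * (m + 1)) + 2 with hK
  have hK0 : 0 ≤ K := by positivity
  refine ⟨2 * C + 2 + 2 * K, by positivity, fun l hl w => ?_⟩
  have h1 := h l hl w
  have h2 : hdJ l m s w ≤ 2 * hdJ l m s (dl m w) + 2 * hdJ l (m + 2) s (D w)
      + K * hdJ l (m + 1) s w := by
    have e1 : 2 * hdJ l m s (dl m w) + 2 * hdJ l (m + 2) s (D w) + K * hdJ l (m + 1) s w =
        Ii ((2 : ℝ) • (mu m * sp l s * (dl m w) ^ 2) + (2 : ℝ) • (mu (m + 2) * sp l s * (D w) ^ 2)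
          + K • (mu (m + 1) * sp l s * w ^ 2)) := by
      rw [map_add, map_add, map_smul, map_smul, map_smul]; rfl
    rw [e1]
    refine Ii_mono fun x hx => ?_
    have a1 := hd_mu_nonneg m hx
    have a2 := hd_sp_pos hl.1 s hx
    simp only [ev_mul, ev_pow, ev_smul, ev_add, dl_apply]
    rw [hd_mu_succ (m + 1) hx, hd_mu_succ m hx, ev_ph hx, ev_pm m hx]
    have a4 : 0 ≤ ev (mu m) x * ev (sp l s) x := by positivity
    have hm : (0 : ℝ) ≤ m := m.cast_nonneg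
    set p : ℝ := (10 + m) * (1 - x) - (m + 1) * x with hp
    have a5 : 1 ≤ p ^ 2 + K * (x * (1 - x)) := by
      have b1 : (1 - x) ^ 2 ≤ (10 + m) ^ 2 * (1 - x) ^ 2 :=
        le_mul_of_one_le_left (sq_nonneg _) (by nlinarith)
      have b2 : x ^ 2 ≤ (m + 1) ^ 2 * x ^ 2 := le_mul_of_one_le_left (sq_nonneg _) (by nlinarith)
      rw [hp, hK]
      nlinarith
    have a6 : ev w x ^ 2 ≤ 2 * (x * (1 - x) * ev (D w) x + p * ev w x) ^ 2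
        + 2 * (x * (1 - x)) ^ 2 * ev (D w) x ^ 2 + K * (x * (1 - x)) * ev w x ^ 2 := by
      nlinarith [mul_le_mul_of_nonneg_right a5 (sq_nonneg (ev w x)),
        sq_nonneg (2 * (x * (1 - x) * ev (D w) x) + p * ev w x)]
    nlinarith [mul_le_mul_of_nonneg_left a6 a4]
  have h3 := mul_le_mul_of_nonneg_left (hdJ_sg hl (m + 1) (s := s - 1) (s' := s) (by omega) w) hK0
  have h5 := hdJ_nonneg hl.1 (m + 1) (s - 1) w
  have h6 := mul_nonneg hK0 (hdJ_nonneg hl.1 (m + 2) s (D w))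
  change hdJ l m s w ≤ _ * (hdJ l (m + 2) s (D w) + hdJ l (m + 1) (s - 1) w)
  linarith
lemma hd_comm_pt {M φ σ S R C P p b' b'' u u' : ℝ} (a1 : 0 ≤ M) (hφ0 : 0 ≤ φ) (hφσ : φ ≤ σ)
    (hσ : 0 < σ) (hS0 : 0 < S) (hR : 0 < R) (z2 : R * (S * σ ^ 2) = 1) (hp : p ^ 2 ≤ P ^ 2)
    (c1 : b' ^ 2 ≤ (C * (S * σ)) ^ 2) (c2 : b'' ^ 2 ≤ (C * S) ^ 2) :
    M * R * (2 * φ ^ 2 * b' * u' + φ * (p * b' + φ * b'') * u) ^ 2 ≤
      (8 + 4 * (P ^ 2 + 1)) * C ^ 2 * (M * φ * φ * φ * (S * σ) * u' ^ 2 + M * φ * φ * S * u ^ 2) := by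
  have d1 : R * b' ^ 2 ≤ C ^ 2 * S := by
    calc R * b' ^ 2 ≤ R * (C * (S * σ)) ^ 2 := mul_le_mul_of_nonneg_left c1 hR.le
      _ = C ^ 2 * S * (R * (S * σ ^ 2)) := by ring
      _ = _ := by rw [z2, mul_one]
  have d2 : R * (φ * b'') ^ 2 ≤ C ^ 2 * S := by
    calc R * (φ * b'') ^ 2 = R * (φ ^ 2 * b'' ^ 2) := by ring
      _ ≤ R * (σ ^ 2 * (C * S) ^ 2) := by gcongr
      _ = C ^ 2 * S * (R * (S * σ ^ 2)) := by ring
      _ = _ := by rw [z2, mul_one]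
  have d3 : R * (p * b' + φ * b'') ^ 2 ≤ 2 * (P ^ 2 + 1) * (C ^ 2 * S) := by
    have f1 : p ^ 2 * (R * b' ^ 2) ≤ P ^ 2 * (C ^ 2 * S) :=
      mul_le_mul hp d1 (by positivity) (by positivity)
    linarith [mul_nonneg hR.le (sq_nonneg (p * b' - φ * b''))]
  have d4 : φ * (R * b' ^ 2) ≤ σ * (C ^ 2 * S) := mul_le_mul hφσ d1 (by positivity) hσ.le
  have g1 : 0 ≤ M * φ ^ 3 * u' ^ 2 := by positivity
  have g2 : 0 ≤ M * φ ^ 2 * u ^ 2 := by positivity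
  have g3 : 0 ≤ C ^ 2 * (M * φ ^ 2 * S * u ^ 2) := by positivity
  have g4 : 0 ≤ (P ^ 2 + 1) * (C ^ 2 * (M * φ ^ 3 * (S * σ) * u' ^ 2)) := by positivity
  have g5 := mul_nonneg (mul_nonneg a1 hR.le)
    (sq_nonneg (2 * φ ^ 2 * b' * u' - φ * (p * b' + φ * b'') * u))
  have g6 := mul_le_mul_of_nonneg_left d4 g1
  have g7 := mul_le_mul_of_nonneg_left d3 g2
  linarith

lemma hd_comm_eq (k : ℕ) (b w : Sm) : T k (b * w) - b * T k w =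
    2 * ph ^ 2 * D b * D w + ph * (2 * pm (k + 1) * D b + ph * D (D b)) * w := by
  rw [T_mul, dl_apply, dl_apply k (ph * D b * w), pm_succ]
  simp only [D_mul]
  ring

/-- the commutator of `T_k` with a symbol of order `s` (use `T_mul`; expand `δ_k (φ₀ b' w)` pointwise) -/
lemma T_comm (k : ℕ) (s : ℤ) : ∃ C', 0 ≤ C' ∧ ∀ l ∈ Ioc (0 : ℝ) 1, ∀ C b w, Symb l s 2 C b →
    Ii (mu k * sp l (-s) * (T k (b * w) - b * T k w) ^ 2) ≤ C' * C ^ 2 *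
      (Ii (mu (k + 3) * sp l (s - 1) * (D w) ^ 2) + Ii (mu (k + 2) * sp l (s - 2) * w ^ 2)) := by
  refine ⟨8 + 4 * ((2 * (11 + (k : ℝ))) ^ 2 + 1), by positivity, fun l hl C b w hb => ?_⟩
  rw [hd_comm_eq, ← map_add, ← smul_eq_mul (α := ℝ), ← map_smul]
  refine Ii_mono fun x hx => ?_
  have a1 := hd_mu_nonneg k hx
  have hx0 := hx.1
  have hx1 : 0 ≤ 1 - x := by linarith [hx.2]
  have hσ : 0 < x + l := by linarith [hl.1]
  have b1 := hb 1 (by norm_num) x hx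
  have b2 := hb 2 (by norm_num) x hx
  rw [Dpow_one] at b1
  rw [Dpow_succ 1, Dpow_one] at b2
  simp only [ev_mul, ev_pow, ev_smul, ev_add, ev_ofNat]
  rw [hd_mu_succ (k + 2) hx, hd_mu_succ (k + 1) hx, hd_mu_succ k hx, ev_ph hx,
    ev_sp hl.1 _ hx, ev_sp hl.1 _ hx, ev_sp hl.1 _ hx]
  have hp : (2 * ev (pm (k + 1)) x) ^ 2 ≤ (2 * (11 + (k : ℝ))) ^ 2 := by
    rw [ev_pm _ hx]
    push_cast
    have hk : (0 : ℝ) ≤ k := k.cast_nonneg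
    apply sq_le_sq' <;> nlinarith
  have z1 : (x + l) ^ (s - 1) = (x + l) ^ (s - 2) * (x + l) := by
    rw [← zpow_add_one₀ hσ.ne']; congr 1; ring
  have z2 : (x + l) ^ (-s) * ((x + l) ^ (s - 2) * (x + l) ^ 2) = 1 := by
    rw [← zpow_natCast, ← zpow_add₀ hσ.ne', ← zpow_add₀ hσ.ne']
    simp
  rw [z1]
  refine hd_comm_pt a1 (mul_nonneg hx0 hx1) (by nlinarith [sq_nonneg x, hl.1]) hσ (zpow_pos hσ _)
    (zpow_pos hσ _) z2 hp ?_ ?_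
  · rw [← sq_abs]
    refine pow_le_pow_left₀ (abs_nonneg _) ?_ 2
    rw [← z1]
    simpa using b1
  · rw [← sq_abs]
    refine pow_le_pow_left₀ (abs_nonneg _) ?_ 2
    simpa using b2
/-- `W2` twice and `D_dl` -/
lemma Gk_le (e : ℤ) (k : ℕ) : ∃ C, 0 ≤ C ∧ ∀ l ∈ Ioc (0 : ℝ) 1, ∀ v,
    Gk l e k v ≤ C * N2 l (e + 2) (k + 2) v := by
  set s : ℤ := (k : ℤ) - e with hs
  obtain ⟨C₁, hC₁, h₁⟩ := hd_W2 k s
  obtain ⟨C₂, hC₂, h₂⟩ := hd_W2 (k + 2) s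
  obtain ⟨C₃, hC₃, h₃⟩ := hd_W2 (k + 1) (s - 1)
  set c : ℝ := 11 + 2 * ((k + 1 : ℕ) : ℝ)
  refine ⟨C₁ * (4 * C₂ + 8 * c ^ 2 + 2 * C₃), by positivity, fun l hl v => ?_⟩
  set w := (D ^ k) v with hw
  set N := N2 l (e + 2) (k + 2) v
  have l0 : hdJ l (k + 2) (s - 2) w ≤ N := by
    rw [← hd_lev l (e + 2) k (by omega)]; exact lev_le_N2 hl.1 _ (by omega) v
  have l1 : hdJ l (k + 3) (s - 1) (D w) ≤ N := by
    rw [hw, ← Dpow_succ, ← hd_lev l (e + 2) (k + 1) (by push_cast; omega)]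
    exact lev_le_N2 hl.1 _ (by omega) v
  have l2 : hdJ l (k + 4) s (D (D w)) ≤ N := by
    rw [hw, ← Dpow_succ, ← Dpow_succ, ← hd_lev l (e + 2) (k + 2) (by push_cast; omega)]
    exact lev_le_N2 hl.1 _ (by omega) v
  have a1 := h₁ l hl (dl (k + 1) w)
  have a2 : hdJ l (k + 2) s (dl (k + 2) (D w)) ≤ C₂ * (N + N) :=
    (h₂ l hl (D w)).trans (mul_le_mul_of_nonneg_left (add_le_add l2 l1) hC₂)
  have a3 : hdJ l (k + 1) (s - 1) (dl (k + 1) w) ≤ C₃ * (N + N) := by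
    refine (h₃ l hl w).trans (mul_le_mul_of_nonneg_left (add_le_add l1 ?_) hC₃)
    rw [show s - 1 - 1 = s - 2 by ring]; exact l0
  have a4 := hdJ_add hl.1 (k + 2) s 1 (-c) (dl (k + 2) (D w)) w
  have e1 : (1 : ℝ) • dl (k + 2) (D w) + (-c) • w = D (dl (k + 1) w) := by
    rw [D_dl, one_smul, neg_smul, sub_eq_add_neg]
  rw [e1, neg_sq] at a4
  have a5 := mul_le_mul_of_nonneg_left
    ((hdJ_sg2 hl (k + 2) (s := s - 2) (s' := s) (by omega) w).trans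
      (mul_le_mul_of_nonneg_left l0 (by norm_num))) (sq_nonneg c)
  change hdJ l k s (dl k (dl (k + 1) w)) ≤ _
  refine a1.trans ?_
  rw [mul_assoc]
  refine mul_le_mul_of_nonneg_left ?_ hC₁
  linarith
/-- `W1` twice and `D_dl`, `W2` -/
lemma top_le_Gk (e : ℤ) (k : ℕ) : ∃ C, 0 ≤ C ∧ ∀ l ∈ Ioc (0 : ℝ) 1, ∀ v,
    lev l (e + 2) (k + 2) v ≤ C * (Gk l e k v + N2 l (e + 2) (k + 1) v) := by
  set s : ℤ := (k : ℤ) - e with hs
  obtain ⟨C₃, hC₃, h₃⟩ := hd_W2 (k + 1) (s - 1)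
  set c : ℝ := 11 + 2 * ((k + 1 : ℕ) : ℝ)
  refine ⟨32 + 32 * (s : ℝ) ^ 2 * C₃ + 32 * c ^ 2 + 2 * (s : ℝ) ^ 2, by positivity,
    fun l hl v => ?_⟩
  set w := (D ^ k) v with hw
  set N := N2 l (e + 2) (k + 1) v
  have hN : 0 ≤ N := N2_nonneg hl.1 _ _ _
  have l0 : hdJ l (k + 2) (s - 2) w ≤ N := by
    rw [← hd_lev l (e + 2) k (by omega)]; exact lev_le_N2 hl.1 _ (by omega) v
  have l1 : hdJ l (k + 3) (s - 1) (D w) ≤ N := by
    rw [hw, ← Dpow_succ, ← hd_lev l (e + 2) (k + 1) (by push_cast; omega)]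
    exact lev_le_N2 hl.1 _ (by omega) v
  have l2 : lev l (e + 2) (k + 2) v = hdJ l (k + 2 + 2) s (D (D w)) := by
    rw [hw, ← Dpow_succ, ← Dpow_succ, ← hd_lev l (e + 2) (k + 2) (by push_cast; omega)]
  have lG : Gk l e k v = hdJ l k s (dl k (dl (k + 1) w)) := rfl
  have hG := Gk_nonneg hl.1 e k v
  have a1 := hd_W1 hl.1 (k + 2) s (D w)
  have a2 := hd_W1 hl.1 k s (dl (k + 1) w)
  have a3 : hdJ l (k + 1) (s - 1) (dl (k + 1) w) ≤ C₃ * (N + N) := by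
    refine (h₃ l hl w).trans (mul_le_mul_of_nonneg_left (add_le_add l1 ?_) hC₃)
    rw [show s - 1 - 1 = s - 2 by ring]; exact l0
  have a4 := hdJ_add hl.1 (k + 2) s 1 c (D (dl (k + 1) w)) w
  have e1 : (1 : ℝ) • D (dl (k + 1) w) + c • w = dl (k + 2) (D w) := by
    rw [D_dl, one_smul, sub_add_cancel]
  rw [e1] at a4
  have a5 := mul_le_mul_of_nonneg_left
    ((hdJ_sg2 hl (k + 2) (s := s - 2) (s' := s) (by omega) w).trans
      (mul_le_mul_of_nonneg_left l0 (by norm_num))) (sq_nonneg c)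
  have a6 : (s : ℝ) ^ 2 * hdJ l (k + 2 + 2) (s - 2) (D w) ≤ (s : ℝ) ^ 2 * N :=
    mul_le_mul_of_nonneg_left
      ((hdJ_ph hl.1 (k + 3) (s := s - 2) (s' := s - 1) (by omega) (D w)).trans l1) (sq_nonneg _)
  have a7 : (s : ℝ) ^ 2 * hdJ l (k + 2) (s - 2) (dl (k + 1) w) ≤ (s : ℝ) ^ 2 * (C₃ * (N + N)) :=
    mul_le_mul_of_nonneg_left
      ((hdJ_ph hl.1 (k + 1) (s := s - 2) (s' := s - 1) (by omega) _).trans a3) (sq_nonneg _)
  have a8 := mul_nonneg (show 0 ≤ 32 * (s : ℝ) ^ 2 * C₃ + 32 * c ^ 2 + 2 * (s : ℝ) ^ 2 by positivity)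
    hG
  rw [l2]
  rw [← lG] at a2
  linarith
/-- the part of `D^k A₀ v` below the top order (`Dpow_A0`, `W2`) -/
lemma wl_A0_top (e : ℤ) (k : ℕ) : ∃ C, 0 ≤ C ∧ ∀ l ∈ Ioc (0 : ℝ) 1, ∀ v,
    wl l (e - 2) k ((D ^ k) (A0 v) - T (k + 2) ((D ^ (k + 2)) v)) ≤ C * N2 l e (k + 2) v := by
  set s : ℤ := (k : ℤ) - (e - 2) with hs
  obtain ⟨c₁, c₂, hc⟩ := Dpow_A0 k
  obtain ⟨C₂, hC₂, h₂⟩ := hd_W2 (k + 2) s
  refine ⟨4 * c₁ ^ 2 * C₂ + 8 * c₂ ^ 2, by positivity, fun l hl v => ?_⟩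
  set N := N2 l e (k + 2) v
  have l0 : hdJ l (k + 2) (s - 2) ((D ^ k) v) ≤ N := by
    rw [← hd_lev l e k (by omega)]; exact lev_le_N2 hl.1 _ (by omega) v
  have l1 : hdJ l (k + 3) (s - 1) ((D ^ (k + 1)) v) ≤ N := by
    rw [← hd_lev l e (k + 1) (by push_cast; omega)]
    exact lev_le_N2 hl.1 _ (by omega) v
  have l2 : hdJ l (k + 4) s (D ((D ^ (k + 1)) v)) ≤ N := by
    rw [← Dpow_succ, ← hd_lev l e (k + 2) (by push_cast; omega)]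
    exact lev_le_N2 hl.1 _ (by omega) v
  have a2 := mul_le_mul_of_nonneg_left
    ((h₂ l hl ((D ^ (k + 1)) v)).trans (mul_le_mul_of_nonneg_left (add_le_add l2 l1) hC₂))
    (sq_nonneg c₁)
  have a4 := hdJ_add hl.1 (k + 2) s (-c₁) c₂ (dl (k + 2) ((D ^ (k + 1)) v)) ((D ^ k) v)
  have e1 : (-c₁) • dl (k + 2) ((D ^ (k + 1)) v) + c₂ • (D ^ k) v =
      (D ^ k) (A0 v) - T (k + 2) ((D ^ (k + 2)) v) := by
    rw [hc, neg_smul]; abel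
  rw [e1, neg_sq] at a4
  have a5 := mul_le_mul_of_nonneg_left
    ((hdJ_sg2 hl (k + 2) (s := s - 2) (s' := s) (by omega) ((D ^ k) v)).trans
      (mul_le_mul_of_nonneg_left l0 (by norm_num))) (sq_nonneg c₂)
  change hdJ l (k + 2) s _ ≤ _
  linarith
lemma N2_A0 (e : ℤ) (k : ℕ) : ∃ C, 0 ≤ C ∧ ∀ l ∈ Ioc (0 : ℝ) 1, ∀ v,
    N2 l e k (A0 v) ≤ C * N2 l (e + 4) (k + 4) v := by
  have key : ∀ j : ℕ, ∃ C, 0 ≤ C ∧ ∀ l ∈ Ioc (0 : ℝ) 1, ∀ v,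
      lev l e j (A0 v) ≤ C * N2 l (e + 4) (j + 4) v := by
    intro j
    obtain ⟨C₁, hC₁, h₁⟩ := wl_A0_top (e + 2) j
    obtain ⟨C₂, hC₂, h₂⟩ := Gk_le (e + 2) (j + 2)
    refine ⟨8 * C₁ + 2 * C₂, by positivity, fun l hl v => ?_⟩
    have a1 := h₁ l hl v
    have a2 := h₂ l hl v
    rw [Gk_eq_wl] at a2
    rw [add_sub_cancel_right] at a1 a2
    have a3 := wl_add_le hl.1 e j ((D ^ j) (A0 v) - T (j + 2) ((D ^ (j + 2)) v))
      (T (j + 2) ((D ^ (j + 2)) v))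
    rw [sub_add_cancel] at a3
    have a4 := N2_mono_e hl (e := e + 2) (e' := e + 4) (by omega) (j + 2) v
    rw [show e + 4 - (e + 2) = 2 by ring] at a4
    have a5 := N2_mono hl.1 (e + 4) (show j + 2 ≤ j + 4 by omega) v
    have a6 : N2 l (e + 2) (j + 2) v ≤ 4 * N2 l (e + 4) (j + 4) v := by
      norm_num at a4
      linarith
    have a7 := mul_le_mul_of_nonneg_left a6 hC₁
    rw [show e + 2 + 2 = e + 4 by ring, show j + 2 + 2 = j + 4 by ring] at a2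
    change wl l e j ((D ^ j) (A0 v)) ≤ _
    linarith
  choose C hC h using key
  refine ⟨∑ j ∈ Finset.range (k + 1), C j, Finset.sum_nonneg fun j _ => hC j, fun l hl v => ?_⟩
  rw [Finset.sum_mul]
  refine Finset.sum_le_sum fun j hj => (h j l hl v).trans ?_
  have := Finset.mem_range.1 hj
  exact mul_le_mul_of_nonneg_left (N2_mono hl.1 _ (by omega) v) (hC j)

end Crest.Agent.R213
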