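import Crest.Agent.R213.Prod
import Crest.Agent.R213.Hardy

/-! # Row 213, bump functionals and the rescaling map `Ξ` -/

set_option autoImplicit false
open Set Filter Topology
open scoped ContDiff

noncomputable section
namespace Crest.Agent.R213

lemma bump_div {g : ℝ → ℝ} (hg : ContDiff ℝ ∞ g) {r : ℝ} (hr : 0 < r) (h0 : ∀ y ≤ r, g y = 0) :
    ContDiff ℝ ∞ fun y => g y / y ^ 11 := by
  rw [contDiff_iff_contDiffAt]
  intro y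
  by_cases hy : y = 0
  · have : (fun y => g y / y ^ 11) =ᶠ[𝓝 y] fun _ => (0 : ℝ) := by
      filter_upwards [Iio_mem_nhds (show y < r from hy ▸ hr)] with z hz
      rw [h0 z (le_of_lt hz), zero_div]
    exact contDiffAt_const.congr_of_eventuallyEq this
  · exact hg.contDiffAt.div (contDiffAt_id.pow 11) (pow_ne_zero _ hy)

lemma IsBump.zero {R : ℝ} {β : ℝ → ℝ} (h : IsBump R β) : β 0 = 0 := by
  obtain ⟨r, hr, h0⟩ := h.2.1
  exact h0 0 hr.le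

lemma IsBump.small {R : ℝ} {β : ℝ → ℝ} (h : IsBump R β) {l : ℝ} (hl : 0 < l) (hR : R * l ≤ 1 / 16)
    {x : ℝ} (hx : β (x / l) ≠ 0) : x ≠ 0 ∧ x < 1 / 16 := by
  refine ⟨fun h0 => hx (by rw [h0, zero_div, h.zero]), ?_⟩
  have h1 : x / l < R := lt_of_not_ge fun h1 => hx (h.2.2 _ h1)
  rw [div_lt_iff₀ hl] at h1
  linarith

lemma IsBump.contDiff_P {R : ℝ} {β : ℝ → ℝ} (h : IsBump R β) : ContDiff ℝ ∞ (bumpP β) := by
  obtain ⟨r, hr, h0⟩ := h.2.1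
  exact bump_div (g := fun y => β y * (1 + y) ^ 13)
    (h.1.mul ((contDiff_const.add contDiff_id).pow 13)) hr fun y hy => by simp [h0 y hy]
lemma IsBump.contDiff_Z {R : ℝ} {β : ℝ → ℝ} (h : IsBump R β) :
    ContDiff ℝ ∞ fun y => β y / y ^ 11 := by
  obtain ⟨r, hr, h0⟩ := h.2.1
  exact bump_div h.1 hr h0
/-- `ell l β v = ∫ μ₂ ζ v` with `ζ = l^{-11} (β / y^{11})(x/l)` -/
lemma ell_eq_zeta {R : ℝ} {β : ℝ → ℝ} (h : IsBump R β) {l : ℝ} (hl : 0 < l) (v : Sm) :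
    ell l β v = Ii (mu 2 * (l⁻¹ ^ 11 • prof (fun y => β y / y ^ 11) l) * v) := by
  rw [ell_apply]
  congr 2
  refine Sm.ext' fun x hx => ?_
  simp only [ev_mul, ev_pow, ev_sub, ev_one, ev_X hx, ev_mu _ hx, ev_smul, ev_prof h.1 l hx,
    ev_prof h.contDiff_Z l hx]
  by_cases h0 : x = 0
  · simp [h0, h.zero]
  · field_simp
    ring
/-- on the support `x < R l ≤ 1/16`: `psi = (1-x)²`, `kap1 = (1-x)⁻²` -/
lemma ell_eq_HB {R : ℝ} {β : ℝ → ℝ} (h : IsBump R β) {l : ℝ} (hl : 0 < l) (hR : R * l ≤ 1 / 16)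
    (v : Sm) : ell l β v = HB l v (pb l β) := by
  rw [ell_apply, HB, ← smul_eq_mul (l ^ 3), ← map_smul]
  congr 1
  refine Sm.ext' fun x hx => ?_
  simp only [pb, ev_mul, ev_pow, ev_sub, ev_one, ev_X hx, ev_mu _ hx, ev_smul, ev_prof h.1 l hx,
    ev_prof h.contDiff_P l hx, ev_sp hl _ hx, bumpP]
  by_cases h0 : β (x / l) = 0
  · simp [h0]
  obtain ⟨h1, h2⟩ := h.small hl hR h0
  have h3 : (1 - x) ^ 2 * ev kap1 x = 1 := by
    have := congrArg (fun f => ev f x) kap1_spec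
    simpa only [ev_mul, ev_pow, ev_sub, ev_one, ev_X hx, chi1_one hx h2.le] using this
  have h4 : x + l ≠ 0 := by have := hx.1; positivity
  have h5 : 1 - x ≠ 0 := by linarith
  have h6 : ev kap1 x = ((1 - x) ^ 2)⁻¹ := eq_inv_of_mul_eq_one_right h3
  rw [psi_eq hx (by linarith), h6, zpow_neg, show (1 + x / l) = (x + l) / l by field_simp; ring]
  rw [show (13 : ℤ) = ((13 : ℕ) : ℤ) from rfl, zpow_natCast]
  field_simp
  ring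
lemma pb_N2 {R : ℝ} {β : ℝ → ℝ} (h : IsBump R β) (e : ℤ) (k : ℕ) :
    ∃ C, 0 ≤ C ∧ ∀ l ∈ Ioc (0 : ℝ) 1, N2 l e k (pb l β) ≤ C * l ^ (10 - e) := by
  obtain ⟨C₁, hC₁, h₁⟩ := N2_symbF e k (SymbF.const kap1)
  obtain ⟨C₂, hC₂, h₂⟩ := N2_bump h.contDiff_P (R := R)
    (fun y hy => by simp [bumpP, h.2.2 y hy]) e k
  refine ⟨C₁ * C₂, by positivity, fun l hl => ?_⟩
  have hl0 := hl.1
  have h3 := h₁ l hl (prof (bumpP β) l)
  rw [mul_zero, sub_zero] at h3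
  have h4 := h3.trans (mul_le_mul_of_nonneg_left (h₂ l hl) hC₁)
  rw [pb, N2_smul]
  refine (mul_le_mul_of_nonneg_left h4 (by positivity)).trans (le_of_eq ?_)
  rw [show (12 - e : ℤ) = (10 - e) + 2 by ring, zpow_add₀ hl0.ne', zpow_two]
  field_simp

lemma bump_zeta {R : ℝ} {β : ℝ → ℝ} (h : IsBump R β) (e : ℤ) (k : ℕ) :
    ∃ C, 0 ≤ C ∧ ∀ l ∈ Ioc (0 : ℝ) 1,
      N2 l e k (l⁻¹ ^ 11 • prof (fun y => β y / y ^ 11) l) ≤ C * l ^ (-10 - e) := by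
  obtain ⟨C, hC, h₂⟩ := N2_bump h.contDiff_Z (R := R) (fun y hy => by simp [h.2.2 y hy]) e k
  refine ⟨C, hC, fun l hl => ?_⟩
  have hl0 := hl.1
  rw [N2_smul]
  refine (mul_le_mul_of_nonneg_left (h₂ l hl) (by positivity)).trans (le_of_eq ?_)
  rw [show (12 - e : ℤ) = (-10 - e) + ((22 : ℕ) : ℤ) by push_cast; ring, zpow_add₀ hl0.ne',
    zpow_natCast]
  field_simp

/-- `Ii_mul_sq_le`, `N2_bump` -/
lemma ell_sq_le {R : ℝ} {β : ℝ → ℝ} (h : IsBump R β) :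
    ∃ C, 0 ≤ C ∧ ∀ l ∈ Ioc (0 : ℝ) 1, ∀ v, ell l β v ^ 2 ≤ C * l ^ 3 * lev l 13 0 v := by
  obtain ⟨C, hC, h₁⟩ := bump_zeta h (-13) 0
  refine ⟨C, hC, fun l hl v => ?_⟩
  rw [ell_eq_zeta h hl.1]
  refine (Ii_mul_sq_le hl.1 13 _ _).trans
    (mul_le_mul_of_nonneg_right ?_ (lev_nonneg hl.1 _ _ _))
  have h2 := h₁ l hl
  rwa [N2_zero, show (-10 - -13 : ℤ) = ((3 : ℕ) : ℤ) from rfl, zpow_natCast] at h2
/-- move `A₀` to the bump (`A0_symm`), `N2_A0`, `N2_symb`, `N2_bump` -/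
lemma ell_Lop {R : ℝ} {β : ℝ → ℝ} (h : IsBump R β) (Ca : ℝ) :
    ∃ C, 0 ≤ C ∧ ∀ l ∈ Ioc (0 : ℝ) 1, ∀ a b, Symb l 0 4 Ca a → Symb l (-2) 0 Ca b → ∀ v,
      ell l β (Lop a b v) ^ 2 ≤ C * l⁻¹ * lev l 13 0 v := by
  obtain ⟨C₀, hC₀, h₀⟩ := bump_zeta h (-9) 4
  obtain ⟨C₁, hC₁, h₁⟩ := N2_A0 (-13) 0
  obtain ⟨C₂, hC₂, h₂⟩ := N2_symb (-9) 0 4
  obtain ⟨C₃, hC₃, h₃⟩ := N2_symb (-13) (-2) 0
  refine ⟨2 * (C₃ * Ca ^ 2 * C₀) + 2 * (C₁ * (C₂ * Ca ^ 2 * C₀)), by positivity,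
    fun l hl a b ha hb v => ?_⟩
  have hl0 := hl.1
  rw [ell_eq_zeta h hl0]
  have h4 := h₀ l hl
  rw [show (-10 - -9 : ℤ) = -1 from rfl, zpow_neg_one] at h4
  generalize (l⁻¹ ^ 11 • prof (fun y => β y / y ^ 11) l) = ζ at h4 ⊢
  have e1 : Ii (mu 2 * ζ * Lop a b v) = Ii (mu 2 * (b * ζ - A0 (a * ζ)) * v) := by
    have e2 : mu 2 * ζ * Lop a b v = mu 2 * (b * ζ) * v - mu 2 * (a * ζ) * A0 v := by
      rw [Lop]; ring
    have e3 : mu 2 * (b * ζ - A0 (a * ζ)) * v = mu 2 * (b * ζ) * v - mu 2 * A0 (a * ζ) * v := by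
      ring
    rw [e2, e3, map_sub, map_sub, A0_symm]
  rw [e1]
  refine (Ii_mul_sq_le hl0 13 _ _).trans
    (mul_le_mul_of_nonneg_right ?_ (lev_nonneg hl0 _ _ _))
  have h5 : lev l (-13) 0 (b * ζ) ≤ C₃ * Ca ^ 2 * (C₀ * l⁻¹) := by
    have h6 := h₃ l hl Ca b ζ hb
    rw [N2_zero, show (-13 - 2 * -2 : ℤ) = -9 from rfl] at h6
    exact h6.trans (mul_le_mul_of_nonneg_left ((N2_mono hl0 _ (by norm_num) _).trans h4)
      (by positivity))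
  have h7 : lev l (-13) 0 (A0 (a * ζ)) ≤ C₁ * (C₂ * Ca ^ 2 * (C₀ * l⁻¹)) := by
    have h6 := h₁ l hl (a * ζ)
    rw [N2_zero, show (-13 + 4 : ℤ) = -9 from rfl, zero_add] at h6
    have h8 := h₂ l hl Ca a ζ ha
    rw [mul_zero, sub_zero] at h8
    exact h6.trans (mul_le_mul_of_nonneg_left
      (h8.trans (mul_le_mul_of_nonneg_left h4 (by positivity))) hC₁)
  refine (lev_sub_le hl0 _ _ _ _).trans ?_
  linarith
lemma Xi_pb {R : ℝ} {β : ℝ → ℝ} (h : IsBump R β) {κ l : ℝ} (hκ : κ ∈ Ioc (0 : ℝ) 1) (hl : 0 < l)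
    (hR : R * l ≤ 1 / 16) : Xi κ (pb (κ * l) β) = pb l β := by
  have hκI : κ ∈ I := Ioc_subset_Icc_self hκ
  have hκ0 := hκ.1
  have e1 : (1 - X) ^ 2 * pb (κ * l) β = (κ * l)⁻¹ • (chi1 * prof (bumpP β) (κ * l)) := by
    rw [pb, mul_smul_comm, ← mul_assoc, kap1_spec]
  rw [Xi_apply, e1, map_smul, map_mul, scl_prof h.contDiff_P hκ, pb]
  refine Sm.ext' fun x hx => ?_
  simp only [ev_mul, ev_smul, ev_scl hκI _ hx, ev_prof h.contDiff_P l hx, bumpP]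
  by_cases h0 : β (x / l) = 0
  · simp [h0]
  obtain ⟨-, h2⟩ := h.small hl hR h0
  have h3 : κ * x ≤ x := mul_le_of_le_one_left hx.1 hκ.2
  rw [chi1_one ⟨mul_nonneg hκ0.le hx.1, h3.trans hx.2⟩ (by linarith)]
  field_simp

lemma bump_Ii_scl {κ : ℝ} (hκ : κ ∈ I) (F : Sm) :
    Ii (κ • scl κ F) = ∫ x in (0 : ℝ)..κ, ev F x := by
  have h1 : Ii (scl κ F) = ∫ x in (0 : ℝ)..1, ev F (κ * x) := by
    rw [Ii_def]
    refine intervalIntegral.integral_congr fun x hx => ?_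
    rw [uIcc_of_le zero_le_one] at hx
    exact ev_scl hκ F hx
  rw [map_smul, h1, smul_eq_mul, intervalIntegral.mul_integral_comp_mul_left, mul_zero, mul_one]

/-- change of variables `x' = κ x` -/
lemma ell_Xi {R : ℝ} {β : ℝ → ℝ} (h : IsBump R β) {κ l : ℝ} (hκ : κ ∈ Ioc (0 : ℝ) 1) (hl : 0 < l)
    (hR : R * l ≤ 1 / 16) (v : Sm) : ell l β (Xi κ v) = ell (κ * l) β v := by
  have hκI : κ ∈ I := Ioc_subset_Icc_self hκ
  have hκ0 := hκ.1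
  have e1 : prof β l * (1 - X) ^ 2 * Xi κ v = κ • scl κ (prof β (κ * l) * (1 - X) ^ 2 * v) := by
    rw [Xi_apply, mul_assoc (prof β (κ * l)), map_mul (scl κ) (prof β (κ * l)), scl_prof h.1 hκ,
      mul_smul_comm, mul_assoc (prof β l), ← mul_assoc ((1 - X) ^ 2), kap1_spec]
    refine Sm.ext' fun x hx => ?_
    simp only [ev_mul, ev_smul, ev_prof h.1 l hx]
    by_cases h0 : β (x / l) = 0
    · simp [h0]
    rw [chi1_one hx (h.small hl hR h0).2.le, one_mul]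
  rw [ell_apply, ell_apply, e1, bump_Ii_scl hκI, Ii_def,
    ← intervalIntegral.integral_add_adjacent_intervals (b := κ) (c := 1)
      ((continuous_ev _).intervalIntegrable _ _) ((continuous_ev _).intervalIntegrable _ _)]
  have e2 : ∫ x in κ..1, ev (prof β (κ * l) * (1 - X) ^ 2 * v) x = 0 := by
    rw [intervalIntegral.integral_congr (g := fun _ => 0), intervalIntegral.integral_zero]
    intro x hx
    rw [uIcc_of_le hκ.2] at hx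
    have hxI : x ∈ I := ⟨hκ0.le.trans hx.1, hx.2⟩
    have h1 : R ≤ x / (κ * l) := by
      rw [le_div_iff₀ (by positivity)]
      have := hx.1
      nlinarith
    simp only [ev_mul, ev_prof h.1 _ hxI, h.2.2 _ h1, zero_mul]
  rw [e2, add_zero]

lemma bump_term {c : Sm} (hc : ∀ x ∈ I, x < 1 / 16 → ev c x = 0) {i : ℕ} (hi : i ≤ 3) :
    ∃ C, 0 ≤ C ∧ ∀ κ ∈ Ioc (0 : ℝ) 1, ∀ l ∈ Ioc (0 : ℝ) 1, ∀ u,
      wl l 11 0 (c * (D ^ i) (κ • scl κ u)) ≤ C * κ ^ 2 * N2 (κ * l) 12 19 u := by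
  obtain ⟨C, hC, h₁⟩ := sup_bound 12 i 0 (Nat.zero_le _)
  refine ⟨‖jet 0 c‖ ^ 2 * (16 ^ (2 * i) * C), by positivity, fun κ hκ l hl u => ?_⟩
  have hκI : κ ∈ I := Ioc_subset_Icc_self hκ
  have hκ0 := hκ.1
  have hl0 := hl.1
  have hκl : κ * l ∈ Ioc (0 : ℝ) 1 := ⟨by positivity, mul_le_one₀ hκ.2 hl0.le hl.2⟩
  have hN := N2_nonneg hκl.1 12 19 u
  set B := ‖jet 0 c‖ ^ 2 * (16 ^ (2 * i) * C) * κ ^ 2 * N2 (κ * l) 12 19 u with hB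
  have hB0 : 0 ≤ B := by positivity
  have key : ∀ x ∈ I, ev (c * (D ^ i) (κ • scl κ u)) x ^ 2 ≤ B := by
    intro x hx
    by_cases h0 : x < 1 / 16
    · rw [ev_mul, hc x hx h0, zero_mul, sq, mul_zero]
      exact hB0
    have h0' : 1 / 16 ≤ x := not_lt.1 h0
    have hy : κ * x ∈ I := ⟨mul_nonneg hκ0.le hx.1, mul_le_one₀ hκ.2 hx.1 hx.2⟩
    have h2 := h₁ (κ * l) hκl u (κ * x) hy
    rw [pow_zero, one_mul, sub_self, zpow_zero, mul_one, Nat.sub_zero] at h2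
    have h3 := h2.trans (mul_le_mul_of_nonneg_left (N2_mono hκl.1 12 (k := 19) (by omega) u) hC)
    have h4 : (κ / 16) ^ (2 * i) ≤ (κ * x + κ * l) ^ (2 * i) :=
      pow_le_pow_left₀ (by positivity) (by nlinarith [mul_pos hκ0 hl0]) _
    have h5 : κ ^ (2 * i) * ev ((D ^ i) u) (κ * x) ^ 2 ≤ 16 ^ (2 * i) * (C * N2 (κ * l) 12 19 u) := by
      have h6 := (mul_le_mul_of_nonneg_right h4 (sq_nonneg (ev ((D ^ i) u) (κ * x)))).trans h3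
      rw [div_pow, div_mul_eq_mul_div, div_le_iff₀ (by positivity)] at h6
      linarith
    have h7 : ev c x ^ 2 ≤ ‖jet 0 c‖ ^ 2 := by
      rw [← sq_abs]
      exact pow_le_pow_left₀ (abs_nonneg _) (abs_ev_le_jet 0 c hx) 2
    rw [map_smul, Dpow_scl hκI, ev_mul, ev_smul, ev_smul, ev_scl hκI _ hx]
    calc _ = ev c x ^ 2 * (κ ^ (2 * i) * ev ((D ^ i) u) (κ * x) ^ 2) * κ ^ 2 := by ring
      _ ≤ ‖jet 0 c‖ ^ 2 * (16 ^ (2 * i) * (C * N2 (κ * l) 12 19 u)) * κ ^ 2 := by gcongr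
      _ = B := by rw [hB]; ring
  calc _ ≤ Ii (B • (1 : Sm)) := by
        refine Ii_mono fun x hx => ?_
        have h8 : ev (mu 2 * sp l (((0 : ℕ) : ℤ) - 11)) x ≤ 1 := by
          have hx0 := hx.1
          have hx1 := hx.2
          rw [ev_mul, ev_mu _ hx, ev_sp hl0 _ hx,
            show (((0 : ℕ) : ℤ) - 11) = -((11 : ℕ) : ℤ) from rfl, zpow_neg, zpow_natCast,
            ← div_eq_mul_inv, div_le_one (by positivity)]
          exact (mul_le_of_le_one_right (by positivity) (by nlinarith)).trans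
            (pow_le_pow_left₀ hx0 (by linarith) _)
        rw [ev_mul, ev_pow, ev_smul, ev_one, mul_one]
        exact (mul_le_of_le_one_left (sq_nonneg _) h8).trans (key x hx)
    _ = B := by rw [map_smul, Ii_one, smul_eq_mul, mul_one]

lemma bump_diff {a b : ℝ → Sm} (hC : Coef a b) {κ l : ℝ} (hκ : κ ∈ Ioc (0 : ℝ) 1)
    (hl : l ∈ Ioc (0 : ℝ) 1) (v : Sm) :
    κ ^ 2 • Xi κ (Lop (a (κ * l)) (b (κ * l)) v) - Lop (a l) (b l) (Xi κ v) =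
      a l * (D (D (That (chi1 * (κ • scl κ ((1 - X) ^ 2 * v))))) -
        chi1 * D (D (That (κ • scl κ ((1 - X) ^ 2 * v))))) := by
  have hκI : κ ∈ I := Ioc_subset_Icc_self hκ
  have e1 := (hC.sca κ hκ l hl).kap1_mul
  have e2 := (hC.scb κ hκ l hl).kap1_mul
  have e3 : D (D (That (κ • scl κ ((1 - X) ^ 2 * v)))) = κ ^ 3 • scl κ (A0 v) := by
    rw [map_smul, That_scl hκI, ← T0_eq, A0_apply, map_smul, map_smul, D_scl hκI, map_smul,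
      D_scl hκI, smul_smul, smul_smul]
    congr 1
    ring
  have e4 : A0 (Xi κ v) = D (D (That (chi1 * (κ • scl κ ((1 - X) ^ 2 * v))))) := by
    rw [A0_apply, T0_eq, Xi_apply, ← mul_smul_comm, ← mul_assoc, kap1_spec]
  have e5 : (1 - X) ^ 2 * Lop (a (κ * l)) (b (κ * l)) v =
      -((1 - X) ^ 2 * a (κ * l) * A0 v) + b (κ * l) * ((1 - X) ^ 2 * v) := by
    rw [Lop]; ring
  rw [Lop, Lop, e4, e3, Xi_apply, Xi_apply, ← Lop, e5, map_add, map_neg,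
    map_mul (scl κ) ((1 - X) ^ 2 * a (κ * l)), map_mul (scl κ) (b (κ * l)), ← kap1_spec]
  generalize D (D (That ((1 - X) ^ 2 * kap1 * (κ • scl κ ((1 - X) ^ 2 * v))))) = W
  generalize scl κ ((1 - X) ^ 2 * a (κ * l)) = A' at e1 ⊢
  generalize scl κ (b (κ * l)) = B' at e2 ⊢
  generalize scl κ ((1 - X) ^ 2 * v) = u
  generalize scl κ (A0 v) = w
  simp only [Algebra.smul_def, map_pow] at e2 ⊢
  linear_combination (-(algebraMap ℝ Sm κ) ^ 3 * w) * e1 + (algebraMap ℝ Sm κ * u) * e2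

/-- With `u = (1-x)² v`, `ũ = κ • scl κ u`: by `T0_eq`, `That_scl`, `D_scl`, `Coef.sca`, `Coef.scb`, `EqOn0.kap1_mul`
the difference equals `a l * (D² That (chi1 ũ) - chi1 D² That ũ)`; use `comm_That`, `Dpow_chi1`; on `x ≥ 1/16`
`|D^i ũ (x)| = κ^{1+i} |D^i u (κ x)| ≤ C κ √(N2 (κ l) 12 19 v)` by `sup_bound 12 i 0` at scale `κ l`. -/
theorem Xi_comm {a b : ℝ → Sm} (hC : Coef a b) : ∃ C, 0 ≤ C ∧ ∀ κ ∈ Ioc (0 : ℝ) 1, ∀ l ∈ Ioc (0 : ℝ) 1,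
    ∀ v, lev l 11 0 (κ ^ 2 • Xi κ (Lop (a (κ * l)) (b (κ * l)) v) - Lop (a l) (b l) (Xi κ v)) ≤
      C * κ ^ 2 * N2 (κ * l) 12 19 v := by
  obtain ⟨c₀, c₁, c₂, c₃, hc, hz⟩ := comm_That chi1
  have hz' : ∀ x ∈ I, x < 1 / 16 → ev c₀ x = 0 ∧ ev c₁ x = 0 ∧ ev c₂ x = 0 ∧ ev c₃ x = 0 :=
    fun x hx h => hz x hx fun i => Dpow_chi1 i hx h
  obtain ⟨C₀, hC₀, h₀⟩ := bump_term (fun x hx h => (hz' x hx h).1) (i := 0) (by norm_num)
  obtain ⟨C₁, hC₁, h₁⟩ := bump_term (fun x hx h => (hz' x hx h).2.1) (i := 1) (by norm_num)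
  obtain ⟨C₂, hC₂, h₂⟩ := bump_term (fun x hx h => (hz' x hx h).2.2.1) (i := 2) (by norm_num)
  obtain ⟨C₃, hC₃, h₃⟩ := bump_term (fun x hx h => (hz' x hx h).2.2.2) (i := 3) (by norm_num)
  obtain ⟨Ca, hCa, ha⟩ := hC.sa 0
  obtain ⟨Cs, hCs, hs⟩ := N2_symbF 12 19 (SymbF.const ((1 - X) ^ 2))
  refine ⟨Ca ^ 2 * (8 * (C₀ + C₁ + C₂ + C₃)) * Cs, by positivity, fun κ hκ l hl v => ?_⟩
  have hκ0 := hκ.1
  have hl0 := hl.1
  have hκl : κ * l ∈ Ioc (0 : ℝ) 1 := ⟨by positivity, mul_le_one₀ hκ.2 hl0.le hl.2⟩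
  have g₀ := h₀ κ hκ l hl ((1 - X) ^ 2 * v)
  have g₁ := h₁ κ hκ l hl ((1 - X) ^ 2 * v)
  have g₂ := h₂ κ hκ l hl ((1 - X) ^ 2 * v)
  have g₃ := h₃ κ hκ l hl ((1 - X) ^ 2 * v)
  have gs := hs (κ * l) hκl v
  rw [mul_zero, sub_zero] at gs
  have hN := N2_nonneg hκl.1 12 19 ((1 - X) ^ 2 * v)
  simp only [Dpow_succ, Dpow_zero] at g₀ g₁ g₂ g₃
  rw [bump_diff hC hκ hl, hc, lev, Dpow_zero]
  generalize κ • scl κ ((1 - X) ^ 2 * v) = w at g₀ g₁ g₂ g₃ ⊢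
  have k₁ := wl_add_le hl0 11 0 (c₀ * w) (c₁ * D w)
  have k₂ := wl_add_le hl0 11 0 (c₀ * w + c₁ * D w) (c₂ * D (D w))
  have k₃ := wl_add_le hl0 11 0 (c₀ * w + c₁ * D w + c₂ * D (D w)) (c₃ * D (D (D w)))
  have k₄ := wl_mul_le hl0 11 0 (b := a l) (C := Ca ^ 2) (fun x hx => by
    rw [← sq_abs]
    exact pow_le_pow_left₀ (abs_nonneg _) ((ha l hl).abs_le hx) 2)
    (c₀ * w + c₁ * D w + c₂ * D (D w) + c₃ * D (D (D w)))
  have p₂ : 0 ≤ C₂ * κ ^ 2 * N2 (κ * l) 12 19 ((1 - X) ^ 2 * v) := by positivity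
  have p₃ : 0 ≤ C₃ * κ ^ 2 * N2 (κ * l) 12 19 ((1 - X) ^ 2 * v) := by positivity
  calc _ ≤ Ca ^ 2 * (8 * (C₀ + C₁ + C₂ + C₃) * κ ^ 2 * N2 (κ * l) 12 19 ((1 - X) ^ 2 * v)) :=
        k₄.trans (mul_le_mul_of_nonneg_left (by linarith) (sq_nonneg _))
    _ ≤ Ca ^ 2 * (8 * (C₀ + C₁ + C₂ + C₃) * κ ^ 2 * (Cs * N2 (κ * l) 12 19 v)) := by gcongr
    _ = _ := by ring

end Crest.Agent.R213
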