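import Crest.Agent.R213.CertData

/-! # Row 213, kernel checks of the certificate -/

set_option autoImplicit false

namespace Crest.Agent.R213

theorem chkP0 : pieceChk cC0 cC1 cC2 cmu cM cP0 = true := by decide +kernel
theorem chkP1 : pieceChk cC0 cC1 cC2 cmu cM cP1 = true := by decide +kernel
theorem chkP2 : pieceChk cC0 cC1 cC2 cmu cM cP2 = true := by decide +kernel

end Crest.Agent.R213
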