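import Crest.Agent.R213.CertData

/-! # Row 213, kernel checks of the certificate -/

set_option autoImplicit false

namespace Crest.Agent.R213

theorem chkM0 : matchChk cP0 cP1 = true := by decide +kernel
theorem chkM1 : matchChk cP1 cP2 = true := by decide +kernel
theorem chkM2 : matchChk cP2 cP3 = true := by decide +kernel
theorem chkM3 : matchChk cP3 cP4 = true := by decide +kernel
theorem chkM4 : matchChk cP4 cP5 = true := by decide +kernel
theorem chkM5 : matchChk cP5 cP6 = true := by decide +kernel
theorem chkM6 : matchChk cP6 cP7 = true := by decide +kernel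
theorem chkM7 : matchChk cP7 cP8 = true := by decide +kernel
theorem chkM8 : matchChk cP8 cP9 = true := by decide +kernel
theorem chkM9 : matchChk cP9 cP10 = true := by decide +kernel
theorem chkM10 : matchChk cP10 cP11 = true := by decide +kernel
theorem chkMaj : majChk cmu cM = true := by decide +kernel
theorem chkFar : farChk cH cC0 cC1 cC2 cd1 cd2 (4 / 5 * ceps) = true := by decide +kernel
theorem chkEnd : endChk cM cH cd1 cd2 ceps cP11 = true := by decide +kernel
theorem chkStart : cP0.m - cP0.r = 0 ∧ |(vals cP0.r cP0.g1 (-1)).1| + |(vals cP0.r cP0.g2 (-1)).1| < (vals cP0.r cP0.g0 (-1)).1 := by decide +kernel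
theorem chkC : 7 / 10 ≤ cC0 - |cC1| - |cC2| ∧ cC0 + |cC1| + |cC2| ≤ 701 / 1000 := by decide +kernel

end Crest.Agent.R213
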