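import Crest.Agent.R213.ODefs

/-! # Row 213, list polynomials over `ℚ` and the checker of the near field certificate -/

set_option autoImplicit false
open Set Filter Topology
open scoped ContDiff

noncomputable section
namespace Crest.Agent.R213

def padd : List ℚ → List ℚ → List ℚ
  | [], q => q
  | a :: p, [] => a :: p
  | a :: p, b :: q => (a + b) :: padd p q
def psm (c : ℚ) (p : List ℚ) : List ℚ := p.map fun a => c * a
def pmul : List ℚ → List ℚ → List ℚ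
  | [], _ => []
  | a :: p, q => padd (psm a q) (0 :: pmul p q)
def pderAux : ℕ → List ℚ → List ℚ
  | _, [] => []
  | n, a :: p => ((n : ℚ) * a) :: pderAux (n + 1) p
def pder : List ℚ → List ℚ
  | [] => []
  | _ :: p => pderAux 1 p
def pq (p : List ℚ) (t : ℚ) : ℚ := p.foldr (fun a acc => a + t * acc) 0
def l1 (p : List ℚ) : ℚ := p.foldr (fun a acc => |a| + acc) 0
/-- integers over the common denominator `5^k` -/
def ofInts (k : ℕ) (L : List ℤ) : List ℚ := L.map fun a => mkRat a (5 ^ k)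

/-- derivative in `y = m + r t` -/
def dy (r : ℚ) (g : List ℚ) : List ℚ := psm r⁻¹ (pder g)
/-- `110 γ + 22 y γ' + y² γ''` -/
def sP (m r : ℚ) (g : List ℚ) : List ℚ :=
  padd (psm 110 g) (padd (psm 22 (pmul [m, r] (dy r g))) (pmul [m, r] (pmul [m, r] (dy r (dy r g)))))
/-- `- y γ` -/
def yP (m r : ℚ) (g : List ℚ) : List ℚ := psm (-1) (pmul [m, r] g)
/-- values of `γ, γ', γ''` at `t` -/
def vals (r : ℚ) (g : List ℚ) (t : ℚ) : ℚ × ℚ × ℚ := (pq g t, pq (dy r g) t, pq (dy r (dy r g)) t)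
/-- add a quadratic polynomial so that the values at `t = -1` are `v` -/
def fixP (r : ℚ) (v : ℚ × ℚ × ℚ) (g : List ℚ) : List ℚ :=
  let w := vals r g (-1)
  let a := v.1 - w.1
  let b := (v.2.1 - w.2.1) * r
  let c := (v.2.2 - w.2.2) * r * r / 2
  padd g [a + b + c, b + 2 * c, c]

/-- a piece `[m - r, m + r]` with the three polynomials, a lower bound of `h` and the number of subintervals -/
structure Piece where
  m : ℚ
  r : ℚ
  g0 : List ℚ
  g1 : List ℚ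
  g2 : List ℚ
  hl : ℚ
  n : ℕ

/-- bound of `2 h̃ Res` -/
def resB (C0 C1 C2 : ℚ) (P : Piece) : ℚ :=
  let h0 := padd [1] (yP P.m P.r P.g0)
  let h1 := yP P.m P.r P.g1
  let h2 := yP P.m P.r P.g2
  let e0 := padd (dy P.r (sP P.m P.r P.g0)) [-C0]
  let e1 := padd (dy P.r (sP P.m P.r P.g1)) [-C1]
  let e2 := padd (dy P.r (sP P.m P.r P.g2)) [-C2]
  l1 (padd (psm 2 (pmul h0 e0)) [1]) + 2 * l1 (padd (pmul h1 e0) (pmul h0 e1))
    + 2 * l1 (padd (pmul h2 e0) (pmul h0 e2)) + 2 * (l1 h1 + l1 h2) * (l1 e1 + l1 e2)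
/-- lower bound of `h̃` -/
def hLow (P : Piece) : ℚ :=
  let h0 := padd [1] (yP P.m P.r P.g0)
  2 * pq h0 0 - l1 h0 - l1 (yP P.m P.r P.g1) - l1 (yP P.m P.r P.g2)
/-- `y γ[M] = ∑ M_j y^{j+1} / ((10+j)(11+j))` divided by `y` -/
def gAux : ℕ → List ℚ → List ℚ
  | _, [] => []
  | n, a :: p => (a / ((10 + (n : ℚ)) * (11 + (n : ℚ)))) :: gAux (n + 1) p
def gM (M : List ℚ) : List ℚ := gAux 0 M
def bAux : ℕ → List ℚ → List ℚ
  | _, [] => []
  | n, a :: p => (a / (10 + (n : ℚ))) :: bAux (n + 1) p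
def bM (M : List ℚ) : List ℚ := bAux 0 M
def posSum (p : List ℚ) : ℚ := p.foldr (fun a acc => max a 0 + acc) 0
/-- the supersolution inequality on the subintervals `[a + j w, a + (j+1) w]`, `j < n` -/
def subChk (M : List ℚ) (K ρ a w : ℚ) (n : ℕ) : Bool :=
  (List.range n).all fun j => decide (K * ((a + (j + 1) * w) * pq (gM M) (a + (j + 1) * w)) + ρ ≤ pq (pder M) (a + j * w))
/-- all checks of one piece (`M` already contains the small factor) -/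
def pieceChk (C0 C1 C2 μ : ℚ) (M : List ℚ) (P : Piece) : Bool :=
  decide (0 < P.r) && decide (0 ≤ P.m - P.r) && decide (P.m + P.r ≤ 125) && decide (0 < P.n) &&
  decide (1 / 8 + μ ≤ P.hl) && decide (P.hl ≤ hLow P) &&
  subChk M (1 / (2 * P.hl * (P.hl - μ))) (resB C0 C1 C2 P / (2 * P.hl)) (P.m - P.r) (2 * P.r / P.n) P.n
/-- `C²` matching of consecutive pieces -/
def matchChk (P Q : Piece) : Bool :=
  decide (P.m + P.r = Q.m - Q.r) && decide (vals P.r P.g0 1 = vals Q.r Q.g0 (-1)) &&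
  decide (vals P.r P.g1 1 = vals Q.r Q.g1 (-1)) && decide (vals P.r P.g2 1 = vals Q.r Q.g2 (-1))
/-- the next piece, corrected so that it matches `P` -/
def nextP (P : Piece) (m r : ℚ) (g0 g1 g2 : List ℚ) (hl : ℚ) (n : ℕ) : Piece :=
  ⟨m, r, fixP r (vals P.r P.g0 1) g0, fixP r (vals P.r P.g1 1) g1, fixP r (vals P.r P.g2 1) g2, hl, n⟩

/-- global conditions on the majorant -/
def majChk (μ : ℚ) (M : List ℚ) : Bool :=
  M.all (fun a => decide (0 ≤ a)) && decide (0 < pq M 0) && decide (125 * pq (gM M) 125 ≤ μ) && decide (0 ≤ μ)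

/-- `θ³ H + 18 θ² H + 71 θ H - 90 H + 90` -/
def QL (H : List ℚ) : List ℚ :=
  padd (thL (thL (thL H))) (padd (psm 18 (thL (thL H))) (padd (psm 71 (thL H)) (padd (psm (-90) H) [90])))
def W0L (H : List ℚ) (C0 : ℚ) : List ℚ :=
  padd (pmul [0, 2 / 125 ^ 2] (pmul H (QL H))) (padd (psm (2 * C0) H) [-1])
def W1L (H : List ℚ) (C0 d C : ℚ) : List ℚ :=
  padd (psm d (padd (pmul [0, 2 / 125 ^ 2] (QL H)) (padd (pmul [0, -180 / 125 ^ 2] H) [2 * C0]))) (psm (2 * C) H)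
def farChk (H : List ℚ) (C0 C1 C2 d1 d2 r : ℚ) : Bool :=
  decide (712 / 1000 ≤ 2 * pq H 0 - l1 H - |d1| - |d2|) && decide (posSum H + |d1| + |d2| ≤ 7142 / 10000) &&
  decide (l1 (W0L H C0) + l1 (W1L H C0 d1 C1) + l1 (W1L H C0 d2 C2) + 2 * (|C1| + |C2|) * (|d1| + |d2|)
    + (|d1| + |d2|) ^ 2 ≤ r / 40)

/-- `(g₁, g₂, d)` at `y = 125` from `e₀, e₁, e₂` -/
def gq (e₀ e₁ e₂ : ℚ) : ℚ × ℚ × ℚ :=
  (e₀ + (e₁ + 6 * e₀) / 25, (e₁ + 6 * e₀) / 25 + (e₂ + 12 * e₁ + 36 * e₀) / 625,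
    e₀ - (e₁ + 6 * e₀) / 25 + (e₂ + 12 * e₁ + 36 * e₀) / 625)
/-- the same from the values `v` of `γ, γ', γ''` (`c = 1` for the central term, `0` for the variations) -/
def gv (c : ℚ) (v : ℚ × ℚ × ℚ) (n₀ n₁ n₂ : ℚ) : ℚ × ℚ × ℚ :=
  gq (c - 125 * v.1 - n₀) (-125 * v.1 - 125 ^ 2 * v.2.1 - n₁)
    (90 * c - 125 * (110 * v.1 + 22 * 125 * v.2.1 + 125 ^ 2 * v.2.2) - 19 * (-125 * v.1 - 125 ^ 2 * v.2.1)
      - 90 * (c - 125 * v.1) - n₂)
def endChk (M H : List ℚ) (d1 d2 ε : ℚ) (P : Piece) : Bool :=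
  let u0 := gv 1 (vals P.r P.g0 1) (pq H 1) (pq (thL H) 1) (pq (thL (thL H)) 1)
  let u1 := gv 0 (vals P.r P.g1 1) d1 0 0
  let u2 := gv 0 (vals P.r P.g2 1) d2 0 0
  let E := 3 * (125 * pq (gM M) 125) + 125 * pq (bM M) 125 / 10 + pq M 125
  decide (P.m + P.r = 125) &&
  decide (|u0.1| + |u1.1 - ε| + |u2.1| + E ≤ ε / 50) &&
  decide (|u0.2.1| + |u1.2.1| + |u2.2.1 - ε| + E ≤ ε / 50) &&
  decide (|u0.2.2| + |u1.2.2| + |u2.2.2| + E ≤ ε / 10)

end Crest.Agent.R213
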