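import Crest.Agent.R213.CertDefs

/-! # Row 213, soundness of the list polynomial operations -/

set_option autoImplicit false
open Set Filter Topology
open scoped ContDiff

noncomputable section
namespace Crest.Agent.R213

@[simp] lemma pe_nil (t : ℝ) : pe [] t = 0 := rfl
@[simp] lemma pe_cons (a : ℚ) (p : List ℚ) (t : ℝ) : pe (a :: p) t = a + t * pe p t := rfl
@[simp] lemma pq_nil (t : ℚ) : pq [] t = 0 := rfl
@[simp] lemma pq_cons (a : ℚ) (p : List ℚ) (t : ℚ) : pq (a :: p) t = a + t * pq p t := rfl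
@[simp] lemma l1_nil : l1 [] = 0 := rfl
@[simp] lemma l1_cons (a : ℚ) (p : List ℚ) : l1 (a :: p) = |a| + l1 p := rfl

lemma cast_pq (p : List ℚ) (t : ℚ) : ((pq p t : ℚ) : ℝ) = pe p t := by
  induction p with
  | nil => simp
  | cons a p ih => simp [ih]

lemma pe_padd (p q : List ℚ) (t : ℝ) : pe (padd p q) t = pe p t + pe q t := by
  induction p generalizing q with
  | nil => simp [padd]
  | cons a p ih =>
    cases q with
    | nil => simp [padd]
    | cons b q => simp only [padd, pe_cons, ih]; push_cast; ring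

lemma pe_psm (c : ℚ) (p : List ℚ) (t : ℝ) : pe (psm c p) t = c * pe p t := by
  induction p with
  | nil => simp [psm]
  | cons a p ih =>
    have : psm c (a :: p) = (c * a) :: psm c p := rfl
    rw [this, pe_cons, pe_cons, ih]; push_cast; ring

lemma pe_pmul (p q : List ℚ) (t : ℝ) : pe (pmul p q) t = pe p t * pe q t := by
  induction p with
  | nil => simp [pmul]
  | cons a p ih => simp only [pmul, pe_padd, pe_psm, pe_cons, ih]; push_cast; ring

lemma pe_pderAux_succ (n : ℕ) (p : List ℚ) (t : ℝ) :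
    pe (pderAux (n + 1) p) t = pe (pderAux n p) t + pe p t := by
  induction p generalizing n with
  | nil => simp [pderAux]
  | cons a p ih => simp only [pderAux, pe_cons, ih (n + 1)]; push_cast; ring

lemma pe_pderAux_zero (p : List ℚ) (t : ℝ) : pe (pderAux 0 p) t = t * pe (pder p) t := by
  cases p with
  | nil => simp [pderAux, pder]
  | cons a p => simp [pderAux, pder]

lemma hd_congr {f g : ℝ → ℝ} {a b x : ℝ} (h : HasDerivAt f a x) (h1 : ∀ y, g y = f y) (h2 : b = a) :
    HasDerivAt g b x := by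
  have : g = f := funext h1
  rw [this, h2]; exact h

lemma hasDerivAt_pe (p : List ℚ) (t : ℝ) : HasDerivAt (pe p) (pe (pder p) t) t := by
  induction p with
  | nil => exact hasDerivAt_const t (0 : ℝ)
  | cons a p ih =>
    have h := ((hasDerivAt_id t).mul ih).const_add (a : ℝ)
    have e : pe (pder (a :: p)) t = 1 * pe p t + id t * pe (pder p) t := by
      show pe (pderAux (0 + 1) p) t = _
      rw [pe_pderAux_succ, pe_pderAux_zero]; simp [add_comm]
    rw [e]; exact h

lemma hasDerivAt_pe_dy (m r : ℚ) (g : List ℚ) (y : ℝ) :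
    HasDerivAt (fun y : ℝ => pe g ((y - m) / r)) (pe (dy r g) ((y - m) / r)) y := by
  have h1 : HasDerivAt (fun y : ℝ => (y - m) / r) (1 / r) y := ((hasDerivAt_id y).sub_const _).div_const _
  have h := (hasDerivAt_pe g ((y - m) / r)).comp y h1
  refine hd_congr h (fun _ => rfl) ?_
  unfold dy
  rw [pe_psm]; push_cast; ring

lemma l1_nonneg (p : List ℚ) : 0 ≤ l1 p := by
  induction p with
  | nil => simp
  | cons a p ih => rw [l1_cons]; positivity

lemma abs_pe_le (p : List ℚ) {t : ℝ} (ht : |t| ≤ 1) : |pe p t| ≤ (l1 p : ℝ) := by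
  induction p with
  | nil => simp
  | cons a p ih =>
    rw [pe_cons, l1_cons]; push_cast
    calc |(a : ℝ) + t * pe p t| ≤ |(a : ℝ)| + |t| * |pe p t| := by rw [← abs_mul]; exact abs_add_le _ _
      _ ≤ |(a : ℝ)| + 1 * (l1 p : ℝ) := by gcongr
      _ = _ := by rw [one_mul]

lemma le_pe (p : List ℚ) {t : ℝ} (ht : |t| ≤ 1) : 2 * (pq p 0 : ℝ) - (l1 p : ℝ) ≤ pe p t := by
  cases p with
  | nil => simp
  | cons a p =>
    rw [pe_cons, l1_cons, pq_cons]; push_cast
    have h1 := abs_pe_le p ht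
    have h2 : |t * pe p t| ≤ (l1 p : ℝ) := by
      rw [abs_mul]
      calc |t| * |pe p t| ≤ 1 * (l1 p : ℝ) := by gcongr
        _ = _ := one_mul _
    have h3 := neg_abs_le (t * pe p t)
    have h4 := le_abs_self (a : ℝ)
    linarith

lemma posSum_nonneg (p : List ℚ) : 0 ≤ posSum p := by
  induction p with
  | nil => simp [posSum]
  | cons a p ih =>
    have : posSum (a :: p) = max a 0 + posSum p := rfl
    rw [this]; positivity

lemma pe_le_posSum (p : List ℚ) {t : ℝ} (ht : t ∈ Icc (0 : ℝ) 1) : pe p t ≤ (posSum p : ℝ) := by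
  induction p with
  | nil => simp [posSum]
  | cons a p ih =>
    have e : posSum (a :: p) = max a 0 + posSum p := rfl
    rw [e, pe_cons]; push_cast
    have h0 : (0 : ℝ) ≤ posSum p := by exact_mod_cast posSum_nonneg p
    have h1 : t * pe p t ≤ posSum p := by
      calc t * pe p t ≤ t * posSum p := mul_le_mul_of_nonneg_left ih ht.1
        _ ≤ 1 * posSum p := mul_le_mul_of_nonneg_right ht.2 h0
        _ = _ := one_mul _
    have h2 : (a : ℝ) ≤ max (a : ℝ) 0 := le_max_left _ _
    linarith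

/-- nonnegative coefficients -/
def NN (p : List ℚ) : Prop := ∀ a ∈ p, 0 ≤ a

lemma NN.pe_nonneg {p : List ℚ} (h : NN p) {t : ℝ} (ht : 0 ≤ t) : 0 ≤ pe p t := by
  induction p with
  | nil => simp
  | cons a p ih =>
    have h1 : (0 : ℝ) ≤ a := by exact_mod_cast h a (by simp)
    have h2 := ih fun b hb => h b (by simp [hb])
    rw [pe_cons]; positivity

lemma NN.pe_mono {p : List ℚ} (h : NN p) {s t : ℝ} (hs : 0 ≤ s) (hst : s ≤ t) : pe p s ≤ pe p t := by
  induction p with
  | nil => simp
  | cons a p ih =>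
    have h' : NN p := fun b hb => h b (by simp [hb])
    have h2 := ih h'
    have h3 := h'.pe_nonneg hs
    rw [pe_cons, pe_cons]
    have : s * pe p s ≤ t * pe p t := mul_le_mul hst h2 h3 (hs.trans hst)
    linarith

lemma NN.pderAux {p : List ℚ} (h : NN p) (n : ℕ) : NN (pderAux n p) := by
  induction p generalizing n with
  | nil => intro a ha; simp [R213.pderAux] at ha
  | cons b p ih =>
    intro a ha
    simp only [R213.pderAux, List.mem_cons] at ha
    rcases ha with rfl | ha
    · have := h b (by simp); positivity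
    · exact ih (fun c hc => h c (by simp [hc])) _ a ha

lemma NN.pder {p : List ℚ} (h : NN p) : NN (pder p) := by
  cases p with
  | nil => exact h
  | cons b p => exact NN.pderAux (fun c hc => h c (by simp [hc])) 1

lemma NN.gAux {p : List ℚ} (h : NN p) (n : ℕ) : NN (gAux n p) := by
  induction p generalizing n with
  | nil => intro a ha; simp [R213.gAux] at ha
  | cons b p ih =>
    intro a ha
    simp only [R213.gAux, List.mem_cons] at ha
    rcases ha with rfl | ha
    · have := h b (by simp); positivity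
    · exact ih (fun c hc => h c (by simp [hc])) _ a ha

lemma hasDerivAt_gAux (n : ℕ) (p : List ℚ) (y : ℝ) :
    HasDerivAt (fun y : ℝ => y ^ (11 + n) * pe (gAux n p) y) (y ^ (10 + n) * pe (bAux n p) y) y := by
  induction p generalizing n with
  | nil => simpa [gAux, bAux] using hasDerivAt_const y (0 : ℝ)
  | cons a p ih =>
    have h1 := ((hasDerivAt_pow (11 + n) y).mul_const
      (((a / ((10 + (n : ℚ)) * (11 + (n : ℚ))) : ℚ) : ℝ))).add (ih (n + 1))
    refine hd_congr h1 (fun z => ?_) ?_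
    · simp only [gAux, pe_cons, Pi.add_apply]
      rw [show 11 + (n + 1) = (11 + n) + 1 by ring, pow_succ]; ring
    · simp only [bAux, pe_cons]
      rw [show 10 + (n + 1) = (10 + n) + 1 by ring, show 11 + n - 1 = 10 + n by omega, pow_succ]
      push_cast
      field_simp

lemma hasDerivAt_bAux (n : ℕ) (p : List ℚ) (y : ℝ) :
    HasDerivAt (fun y : ℝ => y ^ (10 + n) * pe (bAux n p) y) (y ^ (9 + n) * pe p y) y := by
  induction p generalizing n with
  | nil => simpa [bAux] using hasDerivAt_const y (0 : ℝ)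
  | cons a p ih =>
    have h1 := ((hasDerivAt_pow (10 + n) y).mul_const (((a / (10 + (n : ℚ)) : ℚ) : ℝ))).add (ih (n + 1))
    refine hd_congr h1 (fun z => ?_) ?_
    · simp only [bAux, pe_cons, Pi.add_apply]
      rw [show 10 + (n + 1) = (10 + n) + 1 by ring, pow_succ]; ring
    · simp only [pe_cons]
      rw [show 9 + (n + 1) = (9 + n) + 1 by ring, show 10 + n - 1 = 9 + n by omega, pow_succ]
      push_cast
      field_simp

lemma pe_sP (m r : ℚ) (g : List ℚ) (t : ℝ) : pe (sP m r g) t =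
    110 * pe g t + 22 * (m + r * t) * pe (dy r g) t + (m + r * t) ^ 2 * pe (dy r (dy r g)) t := by
  simp only [sP, pe_padd, pe_psm, pe_pmul, pe_cons, pe_nil]; push_cast; ring

lemma pe_yP (m r : ℚ) (g : List ℚ) (t : ℝ) : pe (yP m r g) t = -((m + r * t) * pe g t) := by
  simp only [yP, pe_psm, pe_pmul, pe_cons, pe_nil]; push_cast; ring

/-- comparison principle for the positive system `a' = b`, `b' = y⁹ σ` -/
lemma cmp_piece {y₀ y₁ : ℝ} (h0 : 0 ≤ y₀) {a b σ σd A B M Md : ℝ → ℝ}
    (ha : ∀ y, HasDerivAt a (b y) y) (hb : ∀ y, HasDerivAt b (y ^ 9 * σ y) y)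
    (hσ : ∀ y, HasDerivAt σ (σd y) y) (hA : ∀ y, HasDerivAt A (B y) y)
    (hB : ∀ y, HasDerivAt B (y ^ 9 * M y) y) (hM : ∀ y, HasDerivAt M (Md y) y)
    (key : ∀ y ∈ Ioc y₀ y₁, |a y| ≤ A y → |σd y| ≤ Md y)
    (i1 : |a y₀| ≤ A y₀) (i2 : |b y₀| ≤ B y₀) (i3 : |σ y₀| < M y₀) :
    ∀ y ∈ Icc y₀ y₁, |a y| ≤ A y ∧ |b y| ≤ B y ∧ |σ y| < M y := by
  have mono : ∀ {f F f' F' : ℝ → ℝ} {z : ℝ}, (∀ y, HasDerivAt f (f' y) y) → (∀ y, HasDerivAt F (F' y) y) →
      (∀ y ∈ Ioo y₀ z, |f' y| ≤ F' y) → ∀ y ∈ Icc y₀ z, F y₀ - |f y₀| ≤ F y - |f y| := by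
    intro f F f' F' z hf hF h y hy
    have m1 : MonotoneOn (fun y => F y - f y) (Icc y₀ z) := by
      refine monotoneOn_of_deriv_nonneg (convex_Icc _ _)
        (fun x _ => ((hF x).sub (hf x)).continuousAt.continuousWithinAt)
        (fun x _ => ((hF x).sub (hf x)).differentiableAt.differentiableWithinAt) fun x hx => ?_
      rw [interior_Icc] at hx
      have e : deriv (fun y => F y - f y) x = F' x - f' x := ((hF x).sub (hf x)).deriv
      rw [e]
      linarith [le_abs_self (f' x), h x hx]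
    have m2 : MonotoneOn (fun y => F y + f y) (Icc y₀ z) := by
      refine monotoneOn_of_deriv_nonneg (convex_Icc _ _)
        (fun x _ => ((hF x).add (hf x)).continuousAt.continuousWithinAt)
        (fun x _ => ((hF x).add (hf x)).differentiableAt.differentiableWithinAt) fun x hx => ?_
      rw [interior_Icc] at hx
      have e : deriv (fun y => F y + f y) x = F' x + f' x := ((hF x).add (hf x)).deriv
      rw [e]
      linarith [neg_abs_le (f' x), h x hx]
    have hz : y₀ ∈ Icc y₀ z := ⟨le_rfl, hy.1.trans hy.2⟩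
    have e1 := m1 hz hy hy.1
    have e2 := m2 hz hy hy.1
    simp only at e1 e2
    rcases abs_cases (f y) with h' | h' <;> linarith [le_abs_self (f y₀), neg_abs_le (f y₀), h'.1]
  have aux : ∀ z ≤ y₁, (∀ y ∈ Ioo y₀ z, |σ y| ≤ M y) →
      ∀ y ∈ Icc y₀ z, |a y| ≤ A y ∧ |b y| ≤ B y ∧ |σ y| < M y := by
    intro z hz h
    have e2 : ∀ y ∈ Icc y₀ z, |b y| ≤ B y := fun y hy => by
      have := mono hb hB (fun x hx => by
        have hx0 : 0 ≤ x := h0.trans hx.1.le
        rw [abs_mul, abs_of_nonneg (by positivity : (0 : ℝ) ≤ x ^ 9)]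
        exact mul_le_mul_of_nonneg_left (h x hx) (by positivity)) y hy
      linarith
    have e1 : ∀ y ∈ Icc y₀ z, |a y| ≤ A y := fun y hy => by
      have := mono ha hA (fun x hx => e2 x (Ioo_subset_Icc_self hx)) y hy
      linarith
    intro y hy
    refine ⟨e1 y hy, e2 y hy, ?_⟩
    have := mono hσ hM (fun x hx => key x ⟨hx.1, hx.2.le.trans hz⟩ (e1 x (Ioo_subset_Icc_self hx))) y hy
    linarith
  by_cases hS : ∃ y ∈ Icc y₀ y₁, M y ≤ |σ y|
  · exfalso
    have cσ : Continuous σ := continuous_iff_continuousAt.2 fun x => (hσ x).continuousAt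
    have cM : Continuous M := continuous_iff_continuousAt.2 fun x => (hM x).continuousAt
    have hc : IsCompact (Icc y₀ y₁ ∩ {y | M y ≤ |σ y|}) :=
      isCompact_Icc.inter_right (isClosed_le cM cσ.abs)
    obtain ⟨z, hz, hmin⟩ := hc.exists_isLeast (by obtain ⟨y, h1, h2⟩ := hS; exact ⟨y, h1, h2⟩)
    have := (aux z hz.1.2 (fun y hy => by
      by_contra hn
      have := hmin ⟨⟨hy.1.le, hy.2.le.trans hz.1.2⟩, (not_le.1 hn).le⟩
      exact absurd hy.2 (not_lt.2 this)) z ⟨hz.1.1, le_rfl⟩).2.2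
    exact absurd hz.2 (not_le.2 this)
  · push Not at hS
    exact aux y₁ le_rfl fun y hy => (hS y (Ioo_subset_Icc_self hy)).le

end Crest.Agent.R213
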