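import Crest.Agent.R213.ODefs

/-! # Row 213, elementary properties of `gam, AA, BB, hs, th1, th2` -/

set_option autoImplicit false
open Set Filter Topology
open scoped ContDiff

noncomputable section
namespace Crest.Agent.R213

variable {s : ℝ → ℝ} {s₀ C : ℝ}
lemma continuous_gam (h : Continuous s) : Continuous (gam s) := by
  unfold gam
  exact intervalIntegral.continuous_parametric_intervalIntegral_of_continuous'
    (f := fun y u => (1 - u) * u ^ 9 * s (y * u)) (by unfold Function.uncurry; fun_prop) 0 1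
lemma continuous_hs (h : Continuous s) : Continuous (hs s) := by
  have := continuous_gam h
  unfold hs
  fun_prop
lemma hasDerivAt_BB (h : Continuous s) (y : ℝ) : HasDerivAt (BB s) (y ^ 9 * s y) y := by
  have hc : Continuous fun η : ℝ => η ^ 9 * s η := by fun_prop
  exact intervalIntegral.integral_hasDerivAt_right (hc.intervalIntegrable _ _)
    (hc.stronglyMeasurableAtFilter _ _) hc.continuousAt
lemma hasDerivAt_AA (h : Continuous s) (y : ℝ) : HasDerivAt (AA s) (BB s y) y := by
  have hc : Continuous (BB s) :=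
    continuous_iff_continuousAt.2 fun y => (hasDerivAt_BB h y).continuousAt
  exact intervalIntegral.integral_hasDerivAt_right (hc.intervalIntegrable _ _)
    (hc.stronglyMeasurableAtFilter _ _) hc.continuousAt
/-- both sides equal `∫₀^y (y - η) η⁹ s η dη` -/
lemma AA_eq (h : Continuous s) (y : ℝ) : AA s y = y ^ 11 * gam s y := by
  have hc10 : Continuous fun η : ℝ => η ^ 10 * s η := by fun_prop
  have hc9 : Continuous fun η : ℝ => η ^ 9 * s η := by fun_prop
  have hD : ∀ z, HasDerivAt (fun z => ∫ η in (0 : ℝ)..z, η ^ 10 * s η) (z ^ 10 * s z) z := fun z =>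
    intervalIntegral.integral_hasDerivAt_right (hc10.intervalIntegrable _ _)
      (hc10.stronglyMeasurableAtFilter _ _) hc10.continuousAt
  have h1 : AA s y = y * BB s y - ∫ η in (0 : ℝ)..y, η ^ 10 * s η := by
    have hd : ∀ z ∈ uIcc (0 : ℝ) y,
        HasDerivAt (fun z => z * BB s z - ∫ η in (0 : ℝ)..z, η ^ 10 * s η) (BB s z) z := by
      intro z _
      have := ((hasDerivAt_id z).mul (hasDerivAt_BB h z)).sub (hD z)
      refine this.congr_deriv ?_
      simp only [id]; ring
    have hc : Continuous (BB s) :=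
      continuous_iff_continuousAt.2 fun y => (hasDerivAt_BB h y).continuousAt
    have := intervalIntegral.integral_eq_sub_of_hasDerivAt hd (hc.intervalIntegrable _ _)
    rw [AA, this]; simp
  have h2 : y ^ 11 * gam s y = ∫ η in (0 : ℝ)..y, (y * (η ^ 9 * s η) - η ^ 10 * s η) := by
    have := intervalIntegral.mul_integral_comp_mul_left (a := 0) (b := 1)
      (f := fun η => y * (η ^ 9 * s η) - η ^ 10 * s η) (c := y)
    rw [mul_zero, mul_one] at this
    rw [← this, gam, ← intervalIntegral.integral_const_mul, ← intervalIntegral.integral_const_mul]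
    refine intervalIntegral.integral_congr fun u _ => ?_
    ring
  rw [h1, h2, intervalIntegral.integral_sub ((hc9.intervalIntegrable _ _).const_mul _)
    (hc10.intervalIntegrable _ _), intervalIntegral.integral_const_mul, BB]
lemma gam_zero (s : ℝ → ℝ) : gam s 0 = s 0 / 110 := by
  have : (fun u : ℝ => (1 - u) * u ^ 9 * s (0 * u)) = fun u => (u ^ 9 - u ^ 10) * s 0 := by
    funext u; rw [zero_mul]; ring
  rw [gam, this, intervalIntegral.integral_mul_const,
    intervalIntegral.integral_sub (by apply Continuous.intervalIntegrable; fun_prop)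
      (by apply Continuous.intervalIntegrable; fun_prop), integral_pow, integral_pow]
  norm_num
  ring
lemma hs_eq (h : Continuous s) {y : ℝ} (hy : y ≠ 0) : hs s y = 1 - AA s y / y ^ 10 := by
  rw [hs, AA_eq h]
  field_simp
lemma hasDerivAt_hs (h : Continuous s) {y : ℝ} (hy : y ≠ 0) : HasDerivAt (hs s) (th1 s y / y) y := by
  have hev : hs s =ᶠ[𝓝 y] fun z => 1 - AA s z / z ^ 10 := by
    filter_upwards [isOpen_ne.mem_nhds hy] with z hz using hs_eq h hz
  have hd := ((hasDerivAt_AA h y).div (hasDerivAt_pow 10 y) (pow_ne_zero _ hy)).const_sub 1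
  refine (hd.congr_of_eventuallyEq hev).congr_deriv ?_
  rw [th1]
  field_simp
  push_cast
  ring
lemma IsVolt.zero (h : IsVolt s₀ C s) : s 0 = s₀ := by
  rw [h.2 0]; simp
lemma IsVolt.hasDerivAt (h : IsVolt s₀ C s) (y : ℝ) : HasDerivAt s (C - 1 / (2 * cl (hs s y))) y := by
  have hh := continuous_hs h.1
  have hc : Continuous fun η : ℝ => C - 1 / (2 * cl (hs s η)) := by
    refine continuous_const.sub (continuous_const.div ?_ fun η => ?_)
    · unfold cl; fun_prop
    · have : (1 / 10 : ℝ) ≤ cl (hs s η) := le_max_right _ _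
      positivity
  have hd := (intervalIntegral.integral_hasDerivAt_right (hc.intervalIntegrable 0 y)
    (hc.stronglyMeasurableAtFilter _ _) hc.continuousAt).const_add s₀
  exact hd.congr_of_eventuallyEq (Eventually.of_forall h.2)
lemma hasDerivAt_th1 (h : Continuous s) {y : ℝ} (hy : y ≠ 0) : HasDerivAt (th1 s) (th2 s y / y) y := by
  have hd := (((hasDerivAt_AA h y).const_mul 10).div (hasDerivAt_pow 10 y) (pow_ne_zero _ hy)).sub
    ((hasDerivAt_BB h y).div (hasDerivAt_pow 9 y) (pow_ne_zero _ hy))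
  refine HasDerivAt.congr_deriv (f := th1 s) hd ?_
  rw [th2, th1, hs_eq h hy]
  field_simp
  push_cast
  ring
lemma IsVolt.hasDerivAt_th2 (h : IsVolt s₀ C s) {y : ℝ} (hy : y ≠ 0) : HasDerivAt (th2 s)
    ((-18 * th2 s y - 71 * th1 s y + 90 * hs s y - 90 - y ^ 2 * (C - 1 / (2 * cl (hs s y)))) / y) y := by
  have hd := ((((hasDerivAt_id y).mul (h.hasDerivAt y)).const_sub 90).sub
    ((hasDerivAt_th1 h.1 hy).const_mul 19)).sub ((hasDerivAt_hs h.1 hy).const_mul 90)
  refine HasDerivAt.congr_deriv (f := th2 s) hd ?_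
  simp only [id]
  generalize C - 1 / (2 * cl (hs s y)) = D
  have : s y = (90 - 19 * th1 s y - 90 * hs s y - th2 s y) / y := by
    rw [th2]; field_simp; ring
  rw [this]
  field_simp
  ring
lemma hasDerivAt_pe_tf (L : List ℚ) {y : ℝ} (hy : y ≠ 0) :
    HasDerivAt (fun y => pe L (tf y)) (pe (thL L) (tf y) / y) y := by
  have htf : HasDerivAt tf (-2 * tf y / y) y := by
    have := (hasDerivAt_const y ((125 : ℝ) ^ 2)).div (hasDerivAt_pow 2 y) (pow_ne_zero _ hy)
    refine HasDerivAt.congr_deriv (f := tf) this ?_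
    rw [tf]
    field_simp
    push_cast
    ring
  have key : ∀ (L : List ℚ) (n : ℕ), ∃ D : ℝ, HasDerivAt (fun y => pe L (tf y)) D y ∧
      pe (thAux n L) (tf y) = -2 * n * pe L (tf y) + y * D := by
    intro L
    induction L with
    | nil => intro n; exact ⟨0, by simpa [pe] using hasDerivAt_const y (0 : ℝ), by simp [pe, thAux]⟩
    | cons a p ih =>
      intro n
      obtain ⟨D, hD, hE⟩ := ih (n + 1)
      refine ⟨-2 * tf y / y * pe p (tf y) + tf y * D, (htf.mul hD).const_add (a : ℝ), ?_⟩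
      have e1 : pe (thAux n (a :: p)) (tf y)
          = ((-2 * (n : ℚ) * a : ℚ) : ℝ) + tf y * pe (thAux (n + 1) p) (tf y) := rfl
      have e2 : pe (a :: p) (tf y) = (a : ℝ) + tf y * pe p (tf y) := rfl
      rw [e1, e2, hE]
      push_cast
      field_simp
      ring
  obtain ⟨D, hD, hE⟩ := key L 0
  refine hD.congr_deriv ?_
  rw [thL, hE]
  field_simp
  simp
lemma continuous_pe (L : List ℚ) : Continuous (pe L) := by
  induction L with
  | nil => exact continuous_const
  | cons a p ih => exact continuous_const.add (continuous_id.mul ih)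
lemma kk_125 : kk 125 = 25 := by
  rw [kk, show (125 : ℝ) = 5 ^ (3 : ℕ) by norm_num, ← Real.rpow_natCast, ← Real.rpow_mul (by norm_num),
    show ((3 : ℕ) : ℝ) * (2 / 3) = ((2 : ℕ) : ℝ) by norm_num, Real.rpow_natCast]
  norm_num
lemma kk_cube {y : ℝ} (hy : 0 < y) : kk y ^ 3 = y ^ 2 := by
  rw [kk, ← Real.rpow_natCast, ← Real.rpow_mul hy.le,
    show (2 / 3 : ℝ) * ((3 : ℕ) : ℝ) = ((2 : ℕ) : ℝ) by norm_num, Real.rpow_natCast]
lemma kk_ge {y : ℝ} (hy : 125 ≤ y) : 25 ≤ kk y := by
  rw [← kk_125]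
  exact Real.rpow_le_rpow (by norm_num) hy (by norm_num)
lemma kk_le {y : ℝ} (hy : 1 ≤ y) : kk y ≤ y := by
  have := Real.rpow_le_rpow_of_exponent_le hy (show (2 / 3 : ℝ) ≤ 1 by norm_num)
  rwa [Real.rpow_one] at this
lemma hasDerivAt_kk {y : ℝ} (hy : 0 < y) : HasDerivAt kk (2 / 3 * kk y / y) y := by
  have := Real.hasDerivAt_rpow_const (x := y) (p := 2 / 3) (Or.inl hy.ne')
  refine HasDerivAt.congr_deriv (f := kk) this ?_
  rw [Real.rpow_sub_one hy.ne', kk]
  ring

/-- joint continuity in a parameter -/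
lemma continuousOn_g {S : ℝ × ℝ → ℝ → ℝ} (hS : Continuous fun q : (ℝ × ℝ) × ℝ => S q.1 q.2)
    {δ : ℝ × ℝ → ℝ} (hδ : Continuous δ) (H : List ℚ) :
    ContinuousOn (fun q : (ℝ × ℝ) × ℝ => g1 H (δ q.1) (S q.1) q.2) (univ ×ˢ Ioi 0) ∧
    ContinuousOn (fun q : (ℝ × ℝ) × ℝ => g2 H (δ q.1) (S q.1) q.2) (univ ×ˢ Ioi 0) ∧
    ContinuousOn (fun q : (ℝ × ℝ) × ℝ => dd H (δ q.1) (S q.1) q.2) (univ ×ˢ Ioi 0) := by
  have hB : Continuous fun q : (ℝ × ℝ) × ℝ => BB (S q.1) q.2 :=
    intervalIntegral.continuous_parametric_primitive_of_continuous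
      (f := fun p η => η ^ 9 * S p η) ((continuous_snd.pow 9).mul hS)
  have hA : Continuous fun q : (ℝ × ℝ) × ℝ => AA (S q.1) q.2 :=
    intervalIntegral.continuous_parametric_primitive_of_continuous
      (f := fun p η => BB (S p) η) hB
  have hG : Continuous fun q : (ℝ × ℝ) × ℝ => gam (S q.1) q.2 := by
    refine intervalIntegral.continuous_parametric_intervalIntegral_of_continuous'
      (f := fun (q : (ℝ × ℝ) × ℝ) u => (1 - u) * u ^ 9 * S q.1 (q.2 * u)) ?_ 0 1
    refine ((continuous_const.sub continuous_snd).mul (continuous_snd.pow 9)).mul ?_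
    exact hS.comp (f := fun r : ((ℝ × ℝ) × ℝ) × ℝ => (r.1.1, r.1.2 * r.2)) (by fun_prop)
  have hH : Continuous fun q : (ℝ × ℝ) × ℝ => hs (S q.1) q.2 :=
    continuous_const.sub (continuous_snd.mul hG)
  set U : Set ((ℝ × ℝ) × ℝ) := univ ×ˢ Ioi 0 with hU
  have hne : ∀ q ∈ U, q.2 ≠ 0 := fun q hq => ne_of_gt hq.2
  have h1 : ContinuousOn (fun q : (ℝ × ℝ) × ℝ => th1 (S q.1) q.2) U :=
    ((continuous_const.mul hA).continuousOn.div (continuous_snd.pow 10).continuousOn
      fun q hq => pow_ne_zero _ (hne q hq)).sub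
      (hB.continuousOn.div (continuous_snd.pow 9).continuousOn fun q hq => pow_ne_zero _ (hne q hq))
  have h2 : ContinuousOn (fun q : (ℝ × ℝ) × ℝ => th2 (S q.1) q.2) U :=
    ((continuous_const.sub (continuous_snd.mul hS)).continuousOn.sub
      (continuousOn_const.mul h1)).sub (continuous_const.mul hH).continuousOn
  have ht : ContinuousOn (fun q : (ℝ × ℝ) × ℝ => tf q.2) U :=
    continuousOn_const.div (continuous_snd.pow 2).continuousOn fun q hq => pow_ne_zero _ (hne q hq)
  have hp : ∀ L : List ℚ, ContinuousOn (fun q : (ℝ × ℝ) × ℝ => pe L (tf q.2)) U := fun L =>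
    (continuous_pe L).comp_continuousOn ht
  have hk : ContinuousOn (fun q : (ℝ × ℝ) × ℝ => kk q.2) U :=
    continuous_snd.continuousOn.rpow_const fun q hq => Or.inl (hne q hq)
  have hk0 : ∀ q ∈ U, kk q.2 ≠ 0 := fun q hq => (Real.rpow_pos_of_pos hq.2 _).ne'
  have he0 : ContinuousOn (fun q : (ℝ × ℝ) × ℝ => e0 H (δ q.1) (S q.1) q.2) U :=
    hH.continuousOn.sub ((hp H).add (hδ.comp continuous_fst).continuousOn)
  have he1 : ContinuousOn (fun q : (ℝ × ℝ) × ℝ => e1 H (S q.1) q.2) U := h1.sub (hp _)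
  have he2 : ContinuousOn (fun q : (ℝ × ℝ) × ℝ => e2 H (S q.1) q.2) U := h2.sub (hp _)
  have hU1 : ContinuousOn (fun q : (ℝ × ℝ) × ℝ => U1 H (δ q.1) (S q.1) q.2) U :=
    (he1.add (continuousOn_const.mul he0)).div hk hk0
  have hU2 : ContinuousOn (fun q : (ℝ × ℝ) × ℝ => U2 H (δ q.1) (S q.1) q.2) U :=
    ((he2.add (continuousOn_const.mul he1)).add (continuousOn_const.mul he0)).div (hk.pow 2)
      fun q hq => pow_ne_zero _ (hk0 q hq)
  exact ⟨he0.add hU1, hU1.add hU2, (he0.sub hU1).add hU2⟩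

/-- differentiation under the integral sign, by induction on `n` for all continuous weights `w` -/
lemma contDiffOn_dilate {η : ℝ} (hη : 0 < η) (n : ℕ) {w f : ℝ → ℝ} (hw : Continuous w)
    (hf : ContDiffOn ℝ n f (Ioi (-η))) :
    ContDiffOn ℝ n (fun y => ∫ u in (0 : ℝ)..1, w u * f (y * u)) (Ioi (-η)) := by
  have hmem : ∀ y ∈ Ioi (-η), ∀ u ∈ Icc (0 : ℝ) 1, y * u ∈ Ioi (-η) := by
    intro y hy u hu
    have hy' : -η < y := hy
    show -η < y * u
    rcases le_total 0 y with h0 | h0
    · have := mul_nonneg h0 hu.1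
      linarith
    · have := mul_le_mul_of_nonpos_left hu.2 h0
      linarith
  have hsub : uIoc (0 : ℝ) 1 ⊆ Icc 0 1 := by
    rw [uIoc_of_le zero_le_one]; exact Ioc_subset_Icc_self
  -- joint continuity on the compact box, bounds and measurability
  have hcont : ∀ {w g : ℝ → ℝ}, Continuous w → ContinuousOn g (Ioi (-η)) →
      ContinuousOn (fun q : ℝ × ℝ => w q.2 * g (q.1 * q.2)) (Ioi (-η) ×ˢ Icc 0 1) := by
    intro w g hw hg
    refine (hw.comp continuous_snd).continuousOn.mul ?_
    exact hg.comp (continuous_fst.mul continuous_snd).continuousOn fun q hq => hmem _ hq.1 _ hq.2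
  have hslice : ∀ {w g : ℝ → ℝ}, Continuous w → ContinuousOn g (Ioi (-η)) → ∀ y ∈ Ioi (-η),
      ContinuousOn (fun u : ℝ => w u * g (y * u)) (Icc 0 1) := by
    intro w g hw hg y hy
    exact hw.continuousOn.mul
      (hg.comp (continuous_const.mul continuous_id).continuousOn fun u hu => hmem _ hy _ hu)
  have hmeas : ∀ {w g : ℝ → ℝ}, Continuous w → ContinuousOn g (Ioi (-η)) → ∀ y ∈ Ioi (-η),
      MeasureTheory.AEStronglyMeasurable (fun u : ℝ => w u * g (y * u))
        (MeasureTheory.volume.restrict (uIoc (0 : ℝ) 1)) := by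
    intro w g hw hg y hy
    exact ((hslice hw hg y hy).mono hsub).aestronglyMeasurable measurableSet_uIoc
  have hbd : ∀ {w g : ℝ → ℝ}, Continuous w → ContinuousOn g (Ioi (-η)) → ∀ y ∈ Ioi (-η),
      ∃ K ∈ 𝓝 y, K ⊆ Ioi (-η) ∧ ∃ M : ℝ, ∀ x ∈ K, ∀ u ∈ Icc (0 : ℝ) 1, ‖w u * g (x * u)‖ ≤ M := by
    intro w g hw hg y hy
    obtain ⟨K, hK, hKs, hKc⟩ := local_compact_nhds (isOpen_Ioi.mem_nhds hy)
    obtain ⟨M, hM⟩ := (hKc.prod isCompact_Icc).exists_bound_of_continuousOn
      ((hcont hw hg).mono (prod_mono hKs Subset.rfl))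
    exact ⟨K, hK, hKs, M, fun x hx u hu => hM (x, u) ⟨hx, hu⟩⟩
  induction n generalizing w f with
  | zero =>
    have hf0 : ContinuousOn f (Ioi (-η)) := hf.continuousOn
    refine contDiffOn_zero.2 fun y hy => ContinuousAt.continuousWithinAt ?_
    obtain ⟨K, hK, hKs, M, hM⟩ := hbd hw hf0 y hy
    refine intervalIntegral.continuousAt_of_dominated_interval (bound := fun _ => M) ?_ ?_
      intervalIntegrable_const ?_
    · filter_upwards [hK] with x hx using hmeas hw hf0 x (hKs hx)
    · filter_upwards [hK] with x hx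
      exact Eventually.of_forall fun u hu => hM x hx u (hsub hu)
    · refine Eventually.of_forall fun u hu => continuousAt_const.mul ?_
      have := hf0.continuousAt (isOpen_Ioi.mem_nhds (hmem y hy u (hsub hu)))
      exact ContinuousAt.comp (f := fun x : ℝ => x * u) this (by fun_prop)
  | succ n ih =>
    have hf' := hf
    rw [Nat.cast_succ, contDiffOn_succ_iff_deriv_of_isOpen isOpen_Ioi] at hf'
    obtain ⟨hfd, -, hf1⟩ := hf'
    have hf0 : ContinuousOn f (Ioi (-η)) := hf.continuousOn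
    have hf10 : ContinuousOn (deriv f) (Ioi (-η)) := hf1.continuousOn
    have hw1 : Continuous fun u : ℝ => w u * u := hw.mul continuous_id
    have hder : ∀ y ∈ Ioi (-η), HasDerivAt (fun y => ∫ u in (0 : ℝ)..1, w u * f (y * u))
        (∫ u in (0 : ℝ)..1, (w u * u) * deriv f (y * u)) y := by
      intro y hy
      obtain ⟨K, hK, hKs, M, hM⟩ := hbd hw1 hf10 y hy
      refine (intervalIntegral.hasDerivAt_integral_of_dominated_loc_of_deriv_le
        (F := fun y u => w u * f (y * u)) (F' := fun y u => (w u * u) * deriv f (y * u))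
        (bound := fun _ => M) hK ?_ ?_ (hmeas hw1 hf10 y hy) ?_ intervalIntegrable_const ?_).2
      · filter_upwards [hK] with x hx using hmeas hw hf0 x (hKs hx)
      · apply ContinuousOn.intervalIntegrable
        rw [uIcc_of_le zero_le_one]
        exact hslice hw hf0 y hy
      · exact Eventually.of_forall fun u hu x hx => hM x hx u (hsub hu)
      · refine Eventually.of_forall fun u hu x hx => ?_
        have hd := (hfd.differentiableAt
          (isOpen_Ioi.mem_nhds (hmem x (hKs hx) u (hsub hu)))).hasDerivAt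
        have := (hd.comp x (hasDerivAt_mul_const u)).const_mul (w u)
        refine HasDerivAt.congr_deriv this ?_
        ring
    rw [Nat.cast_succ, contDiffOn_succ_iff_deriv_of_isOpen isOpen_Ioi]
    refine ⟨fun y hy => (hder y hy).differentiableAt.differentiableWithinAt, by simp, ?_⟩
    exact (ih hw1 hf1).congr fun y hy => (hder y hy).deriv
/-- bootstrap where the clamp is inactive -/
theorem IsVolt.smooth (h : IsVolt s₀ C s) (hpos : ∀ y ≥ (0 : ℝ), 1 / 8 ≤ hs s y) : ∃ η > (0 : ℝ),
    (∀ y > -η, 1 / 10 < hs s y) ∧ ContDiffOn ℝ ∞ s (Ioi (-η)) ∧ ContDiffOn ℝ ∞ (gam s) (Ioi (-η)) ∧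
      ∀ y > -η, ss (gam s) y = s y := by
  have hh := continuous_hs h.1
  obtain ⟨η, hη, hball⟩ : ∃ η > (0 : ℝ), ∀ y, |y| < η → 1 / 10 < hs s y := by
    have h0 : (1 / 10 : ℝ) < hs s 0 := by have := hpos 0 le_rfl; linarith
    have := hh.continuousAt.eventually (lt_mem_nhds h0)
    obtain ⟨ε, hε, hb⟩ := Metric.eventually_nhds_iff.1 this
    exact ⟨ε, hε, fun y hy => hb (by simpa [Real.dist_eq] using hy)⟩
  have hlow : ∀ y > -η, 1 / 10 < hs s y := by
    intro y hy
    rcases le_or_gt 0 y with h0 | h0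
    · have := hpos y h0; linarith
    · exact hball y (by rw [abs_of_neg h0]; linarith)
  have hw : Continuous fun u : ℝ => (1 - u) * u ^ 9 := by fun_prop
  have hgam : ∀ n : ℕ, ContDiffOn ℝ n s (Ioi (-η)) → ContDiffOn ℝ n (gam s) (Ioi (-η)) :=
    fun n hn => contDiffOn_dilate hη n hw hn
  have hsn : ∀ n : ℕ, ContDiffOn ℝ n s (Ioi (-η)) := by
    intro n
    induction n with
    | zero => exact contDiffOn_zero.2 h.1.continuousOn
    | succ n ih =>
      rw [Nat.cast_succ, contDiffOn_succ_iff_deriv_of_isOpen isOpen_Ioi]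
      refine ⟨fun y _ => (h.hasDerivAt y).differentiableAt.differentiableWithinAt, by simp, ?_⟩
      have hhs : ContDiffOn ℝ n (hs s) (Ioi (-η)) :=
        contDiffOn_const.sub (contDiffOn_id.mul (hgam n ih))
      have : ContDiffOn ℝ n (fun y => C - 1 / (2 * hs s y)) (Ioi (-η)) :=
        contDiffOn_const.sub (contDiffOn_const.div (contDiffOn_const.mul hhs) fun y hy => by
          have := hlow y hy
          positivity)
      refine this.congr fun y hy => ?_
      rw [(h.hasDerivAt y).deriv, cl, max_eq_left (hlow y hy).le]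
  have hG : ContDiffOn ℝ ∞ (gam s) (Ioi (-η)) := contDiffOn_infty.2 fun n => hgam n (hsn n)
  refine ⟨η, hη, hlow, contDiffOn_infty.2 hsn, hG, fun y hy => ?_⟩
  rcases eq_or_ne y 0 with rfl | hy0
  · rw [ss, gam_zero]; ring
  obtain ⟨hG1, hG2⟩ := (contDiffOn_infty_iff_deriv_of_isOpen isOpen_Ioi).1 hG
  have hd1 : ∀ z ∈ Ioi (-η), HasDerivAt (gam s) (deriv (gam s) z) z := fun z hz =>
    (hG1.differentiableAt (isOpen_Ioi.mem_nhds hz)).hasDerivAt
  have hd2 : HasDerivAt (deriv (gam s)) (deriv (deriv (gam s)) y) y :=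
    ((hG2.differentiableOn (by simp)).differentiableAt (isOpen_Ioi.mem_nhds hy)).hasDerivAt
  have hAe : AA s = fun z => z ^ 11 * gam s z := funext (AA_eq h.1)
  have hBe : BB s =ᶠ[𝓝 y] fun z => 11 * z ^ 10 * gam s z + z ^ 11 * deriv (gam s) z := by
    filter_upwards [isOpen_Ioi.mem_nhds hy] with z hz
    have h1 := hasDerivAt_AA h.1 z
    rw [hAe] at h1
    have h2 := (hasDerivAt_pow 11 z).mul (hd1 z hz)
    have := h1.unique h2
    rw [this]
    norm_num
  have h3 := ((((hasDerivAt_pow 10 y).const_mul 11).mul (hd1 y hy)).add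
    ((hasDerivAt_pow 11 y).mul hd2)).congr_of_eventuallyEq hBe
  have h4 := (hasDerivAt_BB h.1 y).unique h3
  have h5 : y ^ 9 * ss (gam s) y = y ^ 9 * s y := by
    rw [h4, ss]
    push_cast
    ring
  exact mul_left_cancel₀ (pow_ne_zero 9 hy0) h5

end Crest.Agent.R213
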