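import Crest.Agent.R213.CertList
import Crest.Agent.R213.VoltP

/-! # Row 213, soundness of the checker -/

set_option autoImplicit false
open Set Filter Topology
open scoped ContDiff

noncomputable section
namespace Crest.Agent.R213

/-- combination of three value triples -/
def vv (p : ℝ × ℝ) (u v w : ℚ × ℚ × ℚ) : ℝ × ℝ × ℝ :=
  (u.1 + p.1 * v.1 + p.2 * w.1, u.2.1 + p.1 * v.2.1 + p.2 * w.2.1, u.2.2 + p.1 * v.2.2 + p.2 * w.2.2)
def vP (p : ℝ × ℝ) (P : Piece) (t : ℚ) : ℝ × ℝ × ℝ := vv p (vals P.r P.g0 t) (vals P.r P.g1 t) (vals P.r P.g2 t)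

/-- the invariant: distance of the true solution from the approximate values `v` of `γ, γ', γ''` -/
def InvV (s : ℝ → ℝ) (M : List ℚ) (y : ℝ) (v : ℝ × ℝ × ℝ) : Prop :=
  |AA s y - y ^ 11 * v.1| ≤ y ^ 11 * pe (gM M) y ∧
  |BB s y - (11 * y ^ 10 * v.1 + y ^ 11 * v.2.1)| ≤ y ^ 10 * pe (bM M) y ∧
  |s y - (110 * v.1 + 22 * y * v.2.1 + y ^ 2 * v.2.2)| < pe M y

lemma exists_sub {a w y : ℝ} (hw : 0 < w) {n : ℕ} (h1 : a < y) (h2 : y ≤ a + n * w) :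
    ∃ j < n, a + j * w ≤ y ∧ y ≤ a + (j + 1) * w := by
  induction n with
  | zero => simp at h2; linarith
  | succ n ih =>
    by_cases h : y ≤ a + n * w
    · obtain ⟨j, hj, h3⟩ := ih h
      exact ⟨j, by omega, h3⟩
    · exact ⟨n, by omega, (not_le.1 h).le, by exact_mod_cast h2⟩

lemma majChk_spec {μ : ℚ} {M : List ℚ} (h : majChk μ M = true) :
    NN M ∧ 0 < pe M 0 ∧ 125 * pe (gM M) 125 ≤ μ ∧ (0 : ℝ) ≤ μ := by
  simp only [majChk, Bool.and_eq_true, decide_eq_true_eq, List.all_eq_true] at h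
  obtain ⟨⟨⟨h1, h2⟩, h3⟩, h4⟩ := h
  refine ⟨h1, ?_, ?_, by exact_mod_cast h4⟩
  · have := cast_pq M 0
    rw [Rat.cast_zero] at this
    rw [← this]; exact_mod_cast h2
  · have := cast_pq (gM M) 125
    rw [Rat.cast_ofNat] at this
    rw [← this]; exact_mod_cast h3

lemma box_abs {p : ℝ × ℝ} (hp : p ∈ box) : |p.1| ≤ 1 ∧ |p.2| ≤ 1 :=
  ⟨abs_le.2 hp.1, abs_le.2 hp.2⟩

lemma abs_lin {p : ℝ × ℝ} (hp : p ∈ box) (a b c : ℝ) : |a + p.1 * b + p.2 * c| ≤ |a| + |b| + |c| := by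
  have h := box_abs hp
  calc |a + p.1 * b + p.2 * c| ≤ |a| + |p.1| * |b| + |p.2| * |c| := by
        rw [← abs_mul, ← abs_mul]; exact abs_add_three _ _ _
    _ ≤ |a| + 1 * |b| + 1 * |c| := by gcongr; exacts [h.1, h.2]
    _ = _ := by ring

theorem piece_sound {C0 C1 C2 μ : ℚ} {M : List ℚ} {P : Piece} (hM : majChk μ M = true)
    (hP : pieceChk C0 C1 C2 μ M P = true) {p : ℝ × ℝ} (hp : p ∈ box) {s₀ : ℝ} {s : ℝ → ℝ}
    (h : IsVolt s₀ (C0 + p.1 * C1 + p.2 * C2) s) (hI : InvV s M (P.m - P.r) (vP p P (-1))) :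
    InvV s M (P.m + P.r) (vP p P 1) ∧ ∀ y ∈ Ioc ((P.m : ℝ) - P.r) (P.m + P.r), 1 / 8 ≤ hs s y := by
  obtain ⟨hNN, -, hμ, hμ0⟩ := majChk_spec hM
  simp only [pieceChk, Bool.and_eq_true, decide_eq_true_eq, subChk, List.all_eq_true, List.mem_range] at hP
  obtain ⟨⟨⟨⟨⟨⟨c1, c2⟩, c3⟩, c4⟩, c5⟩, c6⟩, c7⟩ := hP
  have hr : (0 : ℝ) < P.r := by exact_mod_cast c1
  have h0 : (0 : ℝ) ≤ P.m - P.r := by exact_mod_cast c2
  have h125 : (P.m : ℝ) + P.r ≤ 125 := by exact_mod_cast c3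
  have hn : (0 : ℝ) < P.n := by exact_mod_cast c4
  have hl8 : (1 : ℝ) / 8 + μ ≤ P.hl := by
    have := (Rat.cast_le (K := ℝ)).2 c5
    push_cast at this; exact this
  have hsc := h.1
  set m := P.m
  set r := P.r
  -- the approximate solution
  let τ : ℝ → ℝ := fun y => (y - m) / r
  let lin : (List ℚ → List ℚ) → ℝ → ℝ := fun f y =>
    pe (f P.g0) (τ y) + p.1 * pe (f P.g1) (τ y) + p.2 * pe (f P.g2) (τ y)
  have hlin : ∀ f y, HasDerivAt (lin f) (lin (fun g => dy r (f g)) y) y := fun f y =>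
    ((hasDerivAt_pe_dy m r (f P.g0) y).add ((hasDerivAt_pe_dy m r (f P.g1) y).const_mul p.1)).add
      ((hasDerivAt_pe_dy m r (f P.g2) y).const_mul p.2)
  have hτ : ∀ y, (m : ℝ) + r * τ y = y := fun y => by simp only [τ]; field_simp; ring
  let γ0 := lin id
  let γ1 := lin (dy r)
  let γ2 := lin fun g => dy r (dy r g)
  have hsP : ∀ y, lin (sP m r) y = 110 * γ0 y + 22 * y * γ1 y + y ^ 2 * γ2 y := fun y => by
    simp only [γ0, γ1, γ2, lin, pe_sP, hτ, id]; ring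
  have dA : ∀ y, HasDerivAt (fun y => AA s y - y ^ 11 * γ0 y)
      (BB s y - (11 * y ^ 10 * γ0 y + y ^ 11 * γ1 y)) y := fun y =>
    hd_congr ((hasDerivAt_AA hsc y).sub ((hasDerivAt_pow 11 y).mul (hlin id y))) (fun _ => rfl)
      (by simp [γ0, γ1])
  have dB : ∀ y, HasDerivAt (fun y => BB s y - (11 * y ^ 10 * γ0 y + y ^ 11 * γ1 y))
      (y ^ 9 * (s y - lin (sP m r) y)) y := fun y =>
    hd_congr ((hasDerivAt_BB hsc y).sub ((((hasDerivAt_pow 10 y).const_mul 11).mul (hlin id y)).add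
      ((hasDerivAt_pow 11 y).mul (hlin (dy r) y)))) (fun _ => rfl)
      (by rw [hsP]; simp [γ0, γ1, γ2]; ring)
  have dS : ∀ y, HasDerivAt (fun y => s y - lin (sP m r) y)
      ((C0 + p.1 * C1 + p.2 * C2 - 1 / (2 * cl (hs s y))) - lin (fun g => dy r (sP m r g)) y) y :=
    fun y => (h.hasDerivAt y).sub (hlin _ y)
  have dA' : ∀ y, HasDerivAt (fun y : ℝ => y ^ 11 * pe (gM M) y) (y ^ 10 * pe (bM M) y) y :=
    fun y => hasDerivAt_gAux 0 M y
  have dB' : ∀ y, HasDerivAt (fun y : ℝ => y ^ 10 * pe (bM M) y) (y ^ 9 * pe M y) y :=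
    fun y => hasDerivAt_bAux 0 M y
  have hg := hNN.gAux 0
  -- pointwise facts on the piece
  have hpt : ∀ y ∈ Ioc ((m : ℝ) - r) (m + r), |AA s y - y ^ 11 * γ0 y| ≤ y ^ 11 * pe (gM M) y →
      |τ y| ≤ 1 ∧ (P.hl : ℝ) ≤ 1 - y * γ0 y ∧ |hs s y - (1 - y * γ0 y)| ≤ y * pe (gM M) y ∧
        y * pe (gM M) y ≤ μ := by
    intro y hy hA
    have hy0 : 0 < y := lt_of_le_of_lt h0 hy.1
    have ht : |τ y| ≤ 1 := by
      simp only [τ]
      rw [abs_div, abs_of_pos hr, div_le_one hr, abs_le]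
      constructor <;> linarith [hy.1, hy.2]
    refine ⟨ht, ?_, ?_, ?_⟩
    · have e1 := le_pe (padd [1] (yP m r P.g0)) ht
      have e2 := abs_pe_le (yP m r P.g1) ht
      have e3 := abs_pe_le (yP m r P.g2) ht
      have e4 : (P.hl : ℝ) ≤ 2 * (pq (padd [1] (yP m r P.g0)) 0 : ℝ) - l1 (padd [1] (yP m r P.g0))
          - l1 (yP m r P.g1) - l1 (yP m r P.g2) := by exact_mod_cast c6
      have e5 := abs_lin hp 0 (pe (yP m r P.g1) (τ y)) (pe (yP m r P.g2) (τ y))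
      have e6 := neg_abs_le (0 + p.1 * pe (yP m r P.g1) (τ y) + p.2 * pe (yP m r P.g2) (τ y))
      have e7 : 1 - y * γ0 y = pe (padd [1] (yP m r P.g0)) (τ y) +
          (0 + p.1 * pe (yP m r P.g1) (τ y) + p.2 * pe (yP m r P.g2) (τ y)) := by
        simp only [γ0, lin, pe_padd, pe_yP, hτ, id, pe_cons, pe_nil]; push_cast; ring
      rw [abs_zero] at e5
      linarith
    · rw [hs_eq hsc hy0.ne']
      have : 1 - AA s y / y ^ 10 - (1 - y * γ0 y) = -(AA s y - y ^ 11 * γ0 y) / y ^ 10 := by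
        field_simp; ring
      rw [this, abs_div, abs_neg, abs_of_pos (by positivity : 0 < y ^ 10), div_le_iff₀ (by positivity)]
      calc _ ≤ _ := hA
        _ = _ := by ring
    · calc y * pe (gM M) y ≤ 125 * pe (gM M) 125 :=
            mul_le_mul (hy.2.trans h125) (hg.pe_mono hy0.le (hy.2.trans h125)) (hg.pe_nonneg hy0.le)
              (by norm_num)
        _ ≤ μ := hμ
  have key : ∀ y ∈ Ioc ((m : ℝ) - r) (m + r), |AA s y - y ^ 11 * γ0 y| ≤ y ^ 11 * pe (gM M) y →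
      |(C0 + p.1 * C1 + p.2 * C2 - 1 / (2 * cl (hs s y))) - lin (fun g => dy r (sP m r g)) y|
        ≤ pe (pder M) y := by
    intro y hy hA
    have hy0 : 0 < y := lt_of_le_of_lt h0 hy.1
    obtain ⟨ht, k1, k2, k3⟩ := hpt y hy hA
    set ht' := 1 - y * γ0 y with hht
    have k4 : (P.hl : ℝ) - μ ≤ hs s y := by linarith [(abs_le.1 k2).1]
    have k5 : (0 : ℝ) < P.hl - μ := by linarith
    have k6 : (0 : ℝ) < P.hl := by linarith
    have hcl : cl (hs s y) = hs s y := max_eq_left (by linarith)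
    have hh0 : 0 < hs s y := by linarith
    have hh1 : 0 < ht' := by linarith
    -- residual
    set h0L := padd [1] (yP m r P.g0)
    set h1L := yP m r P.g1
    set h2L := yP m r P.g2
    set e0L := padd (dy r (sP m r P.g0)) [-C0]
    set e1L := padd (dy r (sP m r P.g1)) [-C1]
    set e2L := padd (dy r (sP m r P.g2)) [-C2]
    have r0 := abs_pe_le (padd (psm 2 (pmul h0L e0L)) [1]) ht
    have r1 := abs_pe_le (padd (pmul h1L e0L) (pmul h0L e1L)) ht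
    have r2 := abs_pe_le (padd (pmul h2L e0L) (pmul h0L e2L)) ht
    have r3 := (abs_lin hp 0 (pe h1L (τ y)) (pe h2L (τ y))).trans
      (add_le_add (add_le_add le_rfl (abs_pe_le h1L ht)) (abs_pe_le h2L ht))
    have r4 := (abs_lin hp 0 (pe e1L (τ y)) (pe e2L (τ y))).trans
      (add_le_add (add_le_add le_rfl (abs_pe_le e1L ht)) (abs_pe_le e2L ht))
    rw [abs_zero, zero_add, zero_add] at r3 r4
    have r5 := abs_lin hp (pe (padd (psm 2 (pmul h0L e0L)) [1]) (τ y))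
      (2 * pe (padd (pmul h1L e0L) (pmul h0L e1L)) (τ y)) (2 * pe (padd (pmul h2L e0L) (pmul h0L e2L)) (τ y))
    rw [abs_mul, abs_mul, abs_two] at r5
    have r6 : |2 * (p.1 * pe h1L (τ y) + p.2 * pe h2L (τ y)) * (p.1 * pe e1L (τ y) + p.2 * pe e2L (τ y))| ≤
        2 * ((l1 h1L : ℝ) + l1 h2L) * ((l1 e1L : ℝ) + l1 e2L) := by
      rw [abs_mul, abs_mul, abs_two]
      have := (abs_nonneg _).trans r3
      gcongr
    have eR : 2 * ht' * (lin (fun g => dy r (sP m r g)) y - (C0 + p.1 * C1 + p.2 * C2)) + 1 =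
        (pe (padd (psm 2 (pmul h0L e0L)) [1]) (τ y) + p.1 * (2 * pe (padd (pmul h1L e0L) (pmul h0L e1L)) (τ y))
          + p.2 * (2 * pe (padd (pmul h2L e0L) (pmul h0L e2L)) (τ y))) +
        2 * (p.1 * pe h1L (τ y) + p.2 * pe h2L (τ y)) * (p.1 * pe e1L (τ y) + p.2 * pe e2L (τ y)) := by
      simp only [hht, γ0, lin, h0L, h1L, h2L, e0L, e1L, e2L, pe_padd, pe_psm, pe_pmul, pe_yP, hτ, id,
        pe_cons, pe_nil]
      push_cast; ring
    have hres : |2 * ht' * (lin (fun g => dy r (sP m r g)) y - (C0 + p.1 * C1 + p.2 * C2)) + 1| ≤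
        (resB C0 C1 C2 P : ℝ) := by
      have e : (resB C0 C1 C2 P : ℝ) = l1 (padd (psm 2 (pmul h0L e0L)) [1])
          + 2 * l1 (padd (pmul h1L e0L) (pmul h0L e1L)) + 2 * l1 (padd (pmul h2L e0L) (pmul h0L e2L))
          + 2 * ((l1 h1L : ℝ) + l1 h2L) * ((l1 e1L : ℝ) + l1 e2L) := by
        simp only [resB]; push_cast; rfl
      rw [eR, e]
      refine (abs_add_le _ _).trans ?_
      linarith
    -- the subinterval
    obtain ⟨j, hj, j1, j2⟩ := exists_sub (a := (m : ℝ) - r) (w := 2 * r / P.n) (n := P.n) (by positivity) hy.1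
      (by rw [mul_div_cancel₀ _ hn.ne']; linarith [hy.2])
    have c8 := c7 j hj
    have c9 : 1 / (2 * (P.hl : ℝ) * (P.hl - μ)) * (((m : ℝ) - r + (j + 1) * (2 * r / P.n)) *
        pe (gM M) ((m : ℝ) - r + (j + 1) * (2 * r / P.n))) + (resB C0 C1 C2 P : ℝ) / (2 * P.hl) ≤
        pe (pder M) ((m : ℝ) - r + j * (2 * r / P.n)) := by
      have e1 := cast_pq (gM M) (m - r + (j + 1) * (2 * r / P.n))
      have e2 := cast_pq (pder M) (m - r + j * (2 * r / P.n))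
      push_cast at e1 e2
      rw [← e1, ← e2]
      exact_mod_cast c8
    have hu : 0 ≤ (m : ℝ) - r + j * (2 * r / P.n) := by positivity
    have m1 := hNN.pder.pe_mono hu j1
    have m2 : y * pe (gM M) y ≤ ((m : ℝ) - r + (j + 1) * (2 * r / P.n)) *
        pe (gM M) ((m : ℝ) - r + (j + 1) * (2 * r / P.n)) :=
      mul_le_mul j2 (hg.pe_mono hy0.le j2) (hg.pe_nonneg hy0.le) (hy0.le.trans j2)
    have split : (C0 + p.1 * C1 + p.2 * C2 - 1 / (2 * cl (hs s y))) - lin (fun g => dy r (sP m r g)) y =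
        -(2 * ht' * (lin (fun g => dy r (sP m r g)) y - (C0 + p.1 * C1 + p.2 * C2)) + 1) / (2 * ht')
          + (hs s y - ht') / (2 * ht' * hs s y) := by
      rw [hcl]; field_simp; ring
    rw [split]
    refine (abs_add_le _ _).trans ?_
    have t1 : |-(2 * ht' * (lin (fun g => dy r (sP m r g)) y - (C0 + p.1 * C1 + p.2 * C2)) + 1) / (2 * ht')| ≤
        (resB C0 C1 C2 P : ℝ) / (2 * P.hl) := by
      rw [abs_div, abs_neg, abs_of_pos (by positivity : 0 < 2 * ht')]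
      have := (abs_nonneg _).trans hres
      gcongr
    have t2 : |(hs s y - ht') / (2 * ht' * hs s y)| ≤ 1 / (2 * (P.hl : ℝ) * (P.hl - μ)) * (y * pe (gM M) y) := by
      rw [abs_div, abs_of_pos (by positivity : 0 < 2 * ht' * hs s y), one_div_mul_eq_div]
      have := (abs_nonneg _).trans k2
      gcongr
    have t3 : 1 / (2 * (P.hl : ℝ) * (P.hl - μ)) * (y * pe (gM M) y) ≤ 1 / (2 * (P.hl : ℝ) * (P.hl - μ)) *
        (((m : ℝ) - r + (j + 1) * (2 * r / P.n)) * pe (gM M) ((m : ℝ) - r + (j + 1) * (2 * r / P.n))) := by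
      gcongr
    linarith
  have hval : ∀ t : ℚ, vP p P t = (γ0 (m + r * t), γ1 (m + r * t), γ2 (m + r * t)) := by
    intro t
    have : τ (m + r * t) = t := by simp only [τ]; field_simp; ring
    simp only [vP, vv, vals, γ0, γ1, γ2, lin, this, id, cast_pq]
    rfl
  have eL : (m : ℝ) + r * ((-1 : ℚ) : ℝ) = m - r := by push_cast; ring
  have eR : (m : ℝ) + r * ((1 : ℚ) : ℝ) = m + r := by push_cast; ring
  rw [hval, eL] at hI
  have main := cmp_piece (y₁ := (m : ℝ) + r) h0 dA dB dS dA' dB' (hasDerivAt_pe M) key hI.1 hI.2.1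
    (by rw [hsP]; exact hI.2.2)
  refine ⟨?_, fun y hy => ?_⟩
  · rw [hval, eR]
    obtain ⟨q1, q2, q3⟩ := main (m + r) ⟨by linarith, le_rfl⟩
    rw [hsP] at q3
    exact ⟨q1, q2, q3⟩
  · obtain ⟨-, k1, k2, k3⟩ := hpt y hy (main y (Ioc_subset_Icc_self hy)).1
    linarith [(abs_le.1 k2).1]

lemma match_sound {P Q : Piece} (h : matchChk P Q = true) (p : ℝ × ℝ) :
    (P.m : ℝ) + P.r = Q.m - Q.r ∧ vP p P 1 = vP p Q (-1) := by
  simp only [matchChk, Bool.and_eq_true, decide_eq_true_eq] at h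
  obtain ⟨⟨⟨h1, h2⟩, h3⟩, h4⟩ := h
  exact ⟨by exact_mod_cast h1, by simp only [vP, h2, h3, h4]⟩

/-- the state after the piece `P` -/
def St (s : ℝ → ℝ) (M : List ℚ) (p : ℝ × ℝ) (P : Piece) : Prop :=
  InvV s M (P.m + P.r) (vP p P 1) ∧ ∀ y ∈ Ioc (0 : ℝ) (P.m + P.r), 1 / 8 ≤ hs s y

lemma St.step {C0 C1 C2 μ : ℚ} {M : List ℚ} {P Q : Piece} (hM : majChk μ M = true)
    {p : ℝ × ℝ} (hp : p ∈ box) {s₀ : ℝ} {s : ℝ → ℝ} (h : IsVolt s₀ (C0 + p.1 * C1 + p.2 * C2) s)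
    (hS : St s M p P) (hPQ : matchChk P Q = true) (hQ : pieceChk C0 C1 C2 μ M Q = true) : St s M p Q := by
  obtain ⟨e1, e2⟩ := match_sound hPQ p
  have := piece_sound hM hQ hp h (by rw [← e1, ← e2]; exact hS.1)
  refine ⟨this.1, fun y hy => ?_⟩
  by_cases hy' : y ≤ P.m + P.r
  · exact hS.2 y ⟨hy.1, hy'⟩
  · exact this.2 y ⟨by rw [← e1]; exact not_le.1 hy', hy.2⟩

lemma St.start {C0 C1 C2 μ : ℚ} {M : List ℚ} {P : Piece} (hM : majChk μ M = true)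
    {p : ℝ × ℝ} (hp : p ∈ box) {s : ℝ → ℝ} (h : IsVolt (110 * (vP p P (-1)).1) (C0 + p.1 * C1 + p.2 * C2) s)
    (h0 : P.m - P.r = 0) (hP : pieceChk C0 C1 C2 μ M P = true) : St s M p P := by
  have e : (P.m : ℝ) - P.r = 0 := by exact_mod_cast h0
  have := piece_sound hM hP hp h (by
    rw [e]
    refine ⟨by simp [AA], by simp [BB], ?_⟩
    rw [h.zero]
    simpa using (majChk_spec hM).2.1)
  rw [e] at this
  exact this

theorem far_sound {H : List ℚ} {C0 C1 C2 d1 d2 r : ℚ} (h : farChk H C0 C1 C2 d1 d2 r = true)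
    {p : ℝ × ℝ} (hp : p ∈ box) {t : ℝ} (ht : t ∈ Icc (0 : ℝ) 1) :
    pe H t + (p.1 * d1 + p.2 * d2) ∈ Icc (0.712 : ℝ) 0.7142 ∧
      |Wf H (p.1 * d1 + p.2 * d2) (C0 + p.1 * C1 + p.2 * C2) t| ≤ (r : ℝ) / 40 := by
  simp only [farChk, Bool.and_eq_true, decide_eq_true_eq] at h
  obtain ⟨⟨h1, h2⟩, h3⟩ := h
  have ht' : |t| ≤ 1 := abs_le.2 ⟨by linarith [ht.1], ht.2⟩
  have hδ := abs_lin hp 0 (d1 : ℝ) d2
  have hC := abs_lin hp 0 (C1 : ℝ) C2
  rw [abs_zero, zero_add, zero_add] at hδ hC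
  have g1 : (712 / 1000 : ℝ) ≤ 2 * (pq H 0 : ℝ) - l1 H - |(d1 : ℝ)| - |(d2 : ℝ)| := by
    have := (Rat.cast_le (K := ℝ)).2 h1
    push_cast at this; exact this
  have g2 : (posSum H : ℝ) + |(d1 : ℝ)| + |(d2 : ℝ)| ≤ 7142 / 10000 := by
    have := (Rat.cast_le (K := ℝ)).2 h2
    push_cast at this; exact this
  have g3 : (l1 (W0L H C0) : ℝ) + l1 (W1L H C0 d1 C1) + l1 (W1L H C0 d2 C2)
      + 2 * (|(C1 : ℝ)| + |(C2 : ℝ)|) * (|(d1 : ℝ)| + |(d2 : ℝ)|) + (|(d1 : ℝ)| + |(d2 : ℝ)|) ^ 2 ≤ r / 40 := by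
    exact_mod_cast h3
  refine ⟨⟨?_, ?_⟩, ?_⟩
  · have := le_pe H ht'
    linarith [(abs_le.1 hδ).1]
  · have := pe_le_posSum H ht
    linarith [(abs_le.1 hδ).2]
  · have e : Wf H (p.1 * d1 + p.2 * d2) (C0 + p.1 * C1 + p.2 * C2) t =
        (pe (W0L H C0) t + p.1 * pe (W1L H C0 d1 C1) t + p.2 * pe (W1L H C0 d2 C2) t) +
        (2 * (p.1 * C1 + p.2 * C2) * (p.1 * d1 + p.2 * d2) + -(180 / 125 ^ 2 * t) * (p.1 * d1 + p.2 * d2) ^ 2) := by
      simp only [Wf, W0L, W1L, QL, pe_padd, pe_psm, pe_pmul, pe_cons, pe_nil]; push_cast; ring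
    rw [e]
    have a1 := (abs_lin hp (pe (W0L H C0) t) (pe (W1L H C0 d1 C1) t) (pe (W1L H C0 d2 C2) t)).trans
      (add_le_add (add_le_add (abs_pe_le _ ht') (abs_pe_le _ ht')) (abs_pe_le _ ht'))
    have a2 : |2 * (p.1 * C1 + p.2 * C2) * (p.1 * d1 + p.2 * d2)| ≤
        2 * (|(C1 : ℝ)| + |(C2 : ℝ)|) * (|(d1 : ℝ)| + |(d2 : ℝ)|) := by
      rw [abs_mul, abs_mul, abs_two]; gcongr
    have a3 : |-(180 / 125 ^ 2 * t) * (p.1 * d1 + p.2 * d2) ^ 2| ≤ (|(d1 : ℝ)| + |(d2 : ℝ)|) ^ 2 := by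
      rw [abs_mul, abs_neg, abs_pow, abs_of_nonneg (by have := ht.1; positivity)]
      calc 180 / 125 ^ 2 * t * |p.1 * d1 + p.2 * d2| ^ 2 ≤ 1 * (|(d1 : ℝ)| + |(d2 : ℝ)|) ^ 2 := by
            gcongr; linarith [ht.2]
        _ = _ := one_mul _
    refine (abs_add_le _ _).trans ?_
    have := abs_add_le (2 * (p.1 * C1 + p.2 * C2) * (p.1 * d1 + p.2 * d2))
      (-(180 / 125 ^ 2 * t) * (p.1 * d1 + p.2 * d2) ^ 2)
    linarith

theorem end_sound {M H : List ℚ} {d1 d2 ε : ℚ} {P : Piece} (h : endChk M H d1 d2 ε P = true)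
    {p : ℝ × ℝ} (hp : p ∈ box) {s : ℝ → ℝ} (hsc : Continuous s) (hS : St s M p P) :
    (∀ y ∈ Icc (0 : ℝ) 125, 1 / 8 ≤ hs s y) ∧
    |g1 H (p.1 * d1 + p.2 * d2) s 125 - ε * p.1| ≤ ε / 50 ∧
    |g2 H (p.1 * d1 + p.2 * d2) s 125 - ε * p.2| ≤ ε / 50 ∧
    |dd H (p.1 * d1 + p.2 * d2) s 125| ≤ ε / 10 := by
  simp only [endChk, Bool.and_eq_true, decide_eq_true_eq] at h
  obtain ⟨⟨⟨h0, h1⟩, h2⟩, h3⟩ := h
  have e0' : (P.m : ℝ) + P.r = 125 := by exact_mod_cast h0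
  obtain ⟨⟨i1, i2, i3⟩, hpos⟩ := hS
  rw [e0'] at i1 i2 i3 hpos
  set u0 := gv 1 (vals P.r P.g0 1) (pq H 1) (pq (thL H) 1) (pq (thL (thL H)) 1) with hu0
  set u1 := gv 0 (vals P.r P.g1 1) d1 0 0 with hu1
  set u2 := gv 0 (vals P.r P.g2 1) d2 0 0 with hu2
  have c1 := cast_pq (gM M) 125
  have c2 := cast_pq (bM M) 125
  have c3 := cast_pq M 125
  have c4 := cast_pq H 1
  have c5 := cast_pq (thL H) 1
  have c6 := cast_pq (thL (thL H)) 1
  rw [Rat.cast_ofNat] at c1 c2 c3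
  rw [Rat.cast_one] at c4 c5 c6
  have k1 : |(u0.1 : ℝ)| + |(u1.1 : ℝ) - ε| + |(u2.1 : ℝ)| +
      (3 * (125 * pe (gM M) 125) + 125 * pe (bM M) 125 / 10 + pe M 125) ≤ ε / 50 := by
    rw [← c1, ← c2, ← c3]; exact_mod_cast h1
  have k2 : |(u0.2.1 : ℝ)| + |(u1.2.1 : ℝ)| + |(u2.2.1 : ℝ) - ε| +
      (3 * (125 * pe (gM M) 125) + 125 * pe (bM M) 125 / 10 + pe M 125) ≤ ε / 50 := by
    rw [← c1, ← c2, ← c3]; exact_mod_cast h2
  have k3 : |(u0.2.2 : ℝ)| + |(u1.2.2 : ℝ)| + |(u2.2.2 : ℝ)| +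
      (3 * (125 * pe (gM M) 125) + 125 * pe (bM M) 125 / 10 + pe M 125) ≤ ε / 10 := by
    rw [← c1, ← c2, ← c3]; exact_mod_cast h3
  set a := (AA s 125 - 125 ^ 11 * (vP p P 1).1) / 125 ^ 10 with ha
  set b := (BB s 125 - (11 * 125 ^ 10 * (vP p P 1).1 + 125 ^ 11 * (vP p P 1).2.1)) / 125 ^ 9 with hb
  set c := s 125 - (110 * (vP p P 1).1 + 22 * 125 * (vP p P 1).2.1 + 125 ^ 2 * (vP p P 1).2.2) with hc
  have a1 : |a| ≤ 125 * pe (gM M) 125 := by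
    rw [ha, abs_div, abs_of_pos (by positivity : (0 : ℝ) < 125 ^ 10), div_le_iff₀ (by positivity)]
    calc _ ≤ _ := i1
      _ = _ := by ring
  have a2 : |b| ≤ 125 * pe (bM M) 125 := by
    rw [hb, abs_div, abs_of_pos (by positivity : (0 : ℝ) < 125 ^ 9), div_le_iff₀ (by positivity)]
    calc _ ≤ _ := i2
      _ = _ := by ring
  have tf1 : tf 125 = 1 := by norm_num [tf]
  have hhs := hs_eq hsc (y := 125) (by norm_num)
  have l1' := abs_lin hp (u0.1 : ℝ) ((u1.1 : ℝ) - ε) u2.1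
  have l2' := abs_lin hp (u0.2.1 : ℝ) u1.2.1 ((u2.2.1 : ℝ) - ε)
  have l3' := abs_lin hp (u0.2.2 : ℝ) u1.2.2 u2.2.2
  have E1 : g1 H (p.1 * d1 + p.2 * d2) s 125 - ε * p.1 =
      ((u0.1 : ℝ) + p.1 * ((u1.1 : ℝ) - ε) + p.2 * u2.1) + (-(21 / 25) * a - b / 25) := by
    simp only [g1, U1, e0, e1, th1, hhs, kk_125, tf1, hu0, hu1, hu2, gv, gq, ha, hb, vP, vv, ← c4, ← c5]
    push_cast; ring
  have E2 : g2 H (p.1 * d1 + p.2 * d2) s 125 - ε * p.2 =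
      ((u0.2.1 : ℝ) + p.1 * u1.2.1 + p.2 * ((u2.2.1 : ℝ) - ε)) + (84 / 625 * a - 18 / 625 * b - c / 5) := by
    simp only [g2, U1, U2, e0, e1, e2, th1, th2, hhs, kk_125, tf1, hu0, hu1, hu2, gv, gq, ha, hb, hc, vP, vv,
      ← c4, ← c5, ← c6]
    push_cast; ring
  have E3 : dd H (p.1 * d1 + p.2 * d2) s 125 =
      ((u0.2.2 : ℝ) + p.1 * u1.2.2 + p.2 * u2.2.2) + (-(741 / 625) * a + 32 / 625 * b - c / 5) := by
    simp only [dd, U1, U2, e0, e1, e2, th1, th2, hhs, kk_125, tf1, hu0, hu1, hu2, gv, gq, ha, hb, hc, vP, vv,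
      ← c4, ← c5, ← c6]
    push_cast; ring
  have b1 := abs_le.1 a1
  have b2 := abs_le.1 a2
  have b3 := abs_le.1 i3.le
  refine ⟨fun y hy => ?_, ?_, ?_, ?_⟩
  · rcases hy.1.eq_or_lt with rfl | hy0
    · norm_num [hs]
    · exact hpos y ⟨hy0, hy.2⟩
  · rw [E1]; refine (abs_add_le _ _).trans ?_
    have : |-(21 / 25) * a - b / 25| ≤ 3 * (125 * pe (gM M) 125) + 125 * pe (bM M) 125 / 10 + pe M 125 :=
      abs_le.2 ⟨by linarith, by linarith⟩
    linarith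
  · rw [E2]; refine (abs_add_le _ _).trans ?_
    have : |84 / 625 * a - 18 / 625 * b - c / 5| ≤
        3 * (125 * pe (gM M) 125) + 125 * pe (bM M) 125 / 10 + pe M 125 :=
      abs_le.2 ⟨by linarith, by linarith⟩
    linarith
  · rw [E3]; refine (abs_add_le _ _).trans ?_
    have : |-(741 / 625) * a + 32 / 625 * b - c / 5| ≤
        3 * (125 * pe (gM M) 125) + 125 * pe (bM M) 125 / 10 + pe M 125 :=
      abs_le.2 ⟨by linarith, by linarith⟩
    linarith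

end Crest.Agent.R213
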