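import Crest.Agent.R213.Cut
import Crest.Agent.R213.Alg

/-! # Row 213, symbol calculus -/

set_option autoImplicit false
open Set Filter Topology
open scoped ContDiff

noncomputable section
namespace Crest.Agent.R213

lemma symb_sig_pos {l x : ℝ} (hl : 0 < l) (hx : x ∈ I) : 0 < x + l := by
  have := hx.1; positivity

lemma symb_zpow_cmp {a b : ℝ} (ha : 0 < a) (hb : 0 < b) (h1 : a ≤ 2 * b) (h2 : b ≤ 2 * a) (n : ℤ) :
    a ^ n ≤ 2 ^ n.natAbs * b ^ n := by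
  cases n with
  | ofNat m =>
    simp only [Int.ofNat_eq_natCast, zpow_natCast, Int.natAbs_natCast, ← mul_pow]
    exact pow_le_pow_left₀ ha.le h1 m
  | negSucc m =>
    simp only [zpow_negSucc, Int.natAbs_negSucc, Nat.succ_eq_add_one, ← inv_pow, ← mul_pow]
    refine pow_le_pow_left₀ (inv_nonneg.2 ha.le) ?_ _
    rw [← div_eq_mul_inv, inv_eq_one_div, div_le_div_iff₀ ha hb]
    linarith

lemma Symb.mono_K {l : ℝ} {s : ℤ} {K K' : ℕ} {C : ℝ} {b : Sm} (h : Symb l s K C b) (hK : K' ≤ K) :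
    Symb l s K' C b := fun i hi x hx => h i (hi.trans hK) x hx
lemma Symb.mono_C {l : ℝ} (hl : 0 < l) {s : ℤ} {K : ℕ} {C C' : ℝ} {b : Sm} (h : Symb l s K C b)
    (hC : C ≤ C') : Symb l s K C' b := fun i hi x hx =>
  (h i hi x hx).trans (mul_le_mul_of_nonneg_right hC (zpow_pos (symb_sig_pos hl hx) _).le)
lemma Symb.mult {l : ℝ} (hl : 0 < l) {s : ℤ} {K : ℕ} {C : ℝ} {b : Sm} (h : Symb l s K C b) :
    Mult l s K (C ^ 2) b := by
  intro i hi x hx
  have hσ := symb_sig_pos hl hx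
  have h1 : ev ((D ^ i) b) x ^ 2 ≤ (C * (x + l) ^ (s - (i : ℤ))) ^ 2 := by
    rw [← sq_abs]
    exact pow_le_pow_left₀ (abs_nonneg _) (h i hi x hx) 2
  have h0 : 0 ≤ x * (1 - x) * (x + l) := by
    have := hx.1; have := sub_nonneg.2 hx.2; positivity
  have h2 : (x * (1 - x) * (x + l)) ^ i ≤ ((x + l) * (x + l)) ^ i := by
    refine pow_le_pow_left₀ h0 (mul_le_mul_of_nonneg_right ?_ hσ.le) i
    nlinarith [hx.1, hx.2]
  refine (mul_le_mul h2 h1 (sq_nonneg _) (by positivity)).trans (le_of_eq ?_)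
  rw [two_mul s, zpow_add₀ hσ.ne', zpow_sub₀ hσ.ne', zpow_natCast, mul_pow]
  field_simp
lemma Symb.mul {l : ℝ} (hl : 0 < l) {s s' : ℤ} {K : ℕ} {C C' : ℝ} {a b : Sm} (hC : 0 ≤ C) (hC' : 0 ≤ C')
    (ha : Symb l s K C a) (hb : Symb l s' K C' b) : Symb l (s + s') K (2 ^ K * C * C') (a * b) := by
  intro k hk x hx
  have hσ := symb_sig_pos hl hx
  rw [Dpow_mul, ev_sum]
  refine (Finset.abs_sum_le_sum_abs _ _).trans ?_
  have h1 : ∀ i ∈ Finset.range (k + 1),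
      |ev ((k.choose i : ℝ) • ((D ^ i) a * (D ^ (k - i)) b)) x| ≤
        (k.choose i : ℝ) * (C * C' * (x + l) ^ (s + s' - (k : ℤ))) := by
    intro i hi
    have hik : i ≤ k := Nat.lt_succ_iff.1 (Finset.mem_range.1 hi)
    rw [ev_smul, ev_mul, abs_mul, abs_mul, Nat.abs_cast]
    refine mul_le_mul_of_nonneg_left ?_ (Nat.cast_nonneg _)
    refine (mul_le_mul (ha i (hik.trans hk) x hx) (hb (k - i) ((Nat.sub_le k i).trans hk) x hx)
      (abs_nonneg _) (by positivity)).trans (le_of_eq ?_)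
    have : s + s' - (k : ℤ) = (s - (i : ℤ)) + (s' - ((k - i : ℕ) : ℤ)) := by
      rw [Nat.cast_sub hik]; ring
    rw [this, zpow_add₀ hσ.ne']; ring
  refine (Finset.sum_le_sum h1).trans ?_
  rw [← Finset.sum_mul, ← Nat.cast_sum, Nat.sum_range_choose]
  have h2 : ((2 ^ k : ℕ) : ℝ) ≤ 2 ^ K := by
    push_cast; exact pow_le_pow_right₀ one_le_two hk
  calc _ ≤ 2 ^ K * (C * C' * (x + l) ^ (s + s' - (k : ℤ))) :=
        mul_le_mul_of_nonneg_right h2 (by positivity)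
    _ = _ := by ring
lemma Symb.D {l : ℝ} {s : ℤ} {K : ℕ} {C : ℝ} {b : Sm} (h : Symb l s (K + 1) C b) :
    Symb l (s - 1) K C (D b) := by
  intro i hi x hx
  have := h (i + 1) (Nat.succ_le_succ hi) x hx
  rw [Dpow_succ'] at this
  have e : s - 1 - (i : ℤ) = s - ((i + 1 : ℕ) : ℤ) := by push_cast; ring
  rw [e]; exact this
lemma Symb.abs_le {l : ℝ} {K : ℕ} {C : ℝ} {b : Sm} (h : Symb l 0 K C b) {x : ℝ} (hx : x ∈ I) :
    |ev b x| ≤ C := by
  simpa using h 0 (Nat.zero_le K) x hx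
/-- change to a comparable scale -/
lemma Symb.rescale {l l' : ℝ} (hl : 0 < l) (hl' : 0 < l') (h1 : l ≤ 2 * l') (h2 : l' ≤ 2 * l) {s : ℤ} {K : ℕ}
    {C : ℝ} {b : Sm} (hC : 0 ≤ C) (h : Symb l s K C b) : Symb l' s K (2 ^ (K + s.natAbs) * C) b := by
  intro i hi x hx
  have hσ := symb_sig_pos hl hx
  have hσ' := symb_sig_pos hl' hx
  have h3 := symb_zpow_cmp hσ hσ' (by linarith [hx.1]) (by linarith [hx.1]) (s - (i : ℤ))
  have h4 : (2 : ℝ) ^ (s - (i : ℤ)).natAbs ≤ 2 ^ (K + s.natAbs) :=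
    pow_le_pow_right₀ one_le_two (by omega)
  calc _ ≤ C * (x + l) ^ (s - (i : ℤ)) := h i hi x hx
    _ ≤ C * (2 ^ (K + s.natAbs) * (x + l') ^ (s - (i : ℤ))) :=
        mul_le_mul_of_nonneg_left (h3.trans (mul_le_mul_of_nonneg_right h4 (by positivity))) hC
    _ = _ := by ring
lemma symb_Dpow_sp (m : ℤ) (i : ℕ) :
    ∃ c : ℝ, ∀ l : ℝ, 0 < l → (D ^ i) (sp l m) = c • sp l (m - i) := by
  induction i with
  | zero => exact ⟨1, fun l _ => by simp⟩
  | succ i ih =>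
    obtain ⟨c, hc⟩ := ih
    refine ⟨c * ((m - i : ℤ) : ℝ), fun l hl => ?_⟩
    rw [Dpow_succ, hc l hl, map_smul, D_sp hl, smul_smul]
    congr 2
    push_cast; ring

lemma symb_of_forall {s : ℤ} {b : ℝ → Sm} {S : Set ℝ} (hS : ∀ l ∈ S, 0 < l)
    (h : ∀ i : ℕ, ∃ C : ℝ, ∀ l ∈ S, ∀ x ∈ I, |ev ((D ^ i) (b l)) x| ≤ C * (x + l) ^ (s - (i : ℤ)))
    (K : ℕ) : ∃ C, 0 ≤ C ∧ ∀ l ∈ S, Symb l s K C (b l) := by
  choose c hc using h
  refine ⟨∑ i ∈ Finset.range (K + 1), |c i|, Finset.sum_nonneg fun _ _ => abs_nonneg _,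
    fun l hl i hi x hx => (hc i l hl x hx).trans (mul_le_mul_of_nonneg_right ?_
      (zpow_pos (symb_sig_pos (hS l hl) hx) _).le)⟩
  exact (le_abs_self _).trans (Finset.single_le_sum (f := fun i => |c i|)
    (fun _ _ => abs_nonneg _) (Finset.mem_range.2 (Nat.lt_succ_of_le hi)))

lemma symbF_of_forall {s : ℤ} {b : ℝ → Sm}
    (h : ∀ i : ℕ, ∃ C : ℝ, ∀ l ∈ Ioc (0 : ℝ) 1, ∀ x ∈ I,
      |ev ((D ^ i) (b l)) x| ≤ C * (x + l) ^ (s - (i : ℤ))) : SymbF s b :=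
  symb_of_forall (fun _ hl => hl.1) h

lemma symbF_mul {s s' : ℤ} {a b : ℝ → Sm} (ha : SymbF s a) (hb : SymbF s' b) :
    SymbF (s + s') fun l => a l * b l := by
  intro K
  obtain ⟨C, hC, h⟩ := ha K
  obtain ⟨C', hC', h'⟩ := hb K
  exact ⟨2 ^ K * C * C', by positivity, fun l hl => Symb.mul hl.1 hC hC' (h l hl) (h' l hl)⟩

lemma symb_sp (m : ℤ) (K : ℕ) : ∃ C, 0 ≤ C ∧ ∀ l : ℝ, 0 < l → Symb l m K C (sp l m) := by
  refine symb_of_forall (S := Ioi 0) (b := fun l => sp l m) (fun _ hl => hl) (fun i => ?_) K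
  obtain ⟨c, hc⟩ := symb_Dpow_sp m i
  refine ⟨|c|, fun l hl x hx => ?_⟩
  rw [hc l hl, ev_smul, ev_sp hl _ hx, abs_mul, abs_of_pos (zpow_pos (symb_sig_pos hl hx) _)]

/-- a fixed smooth function is a symbol of order `0` (since `σ ≤ 2`) -/
lemma SymbF.const (f : Sm) : SymbF 0 fun _ => f := by
  refine symbF_of_forall fun i => ⟨‖jet i f‖ * 2 ^ i, fun l hl x hx => ?_⟩
  have hσ := symb_sig_pos hl.1 hx
  have h1 : (1 : ℝ) ≤ 2 ^ i * (x + l) ^ (0 - (i : ℤ)) := by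
    rw [zero_sub, zpow_neg, zpow_natCast, ← div_eq_mul_inv, le_div_iff₀ (by positivity), one_mul]
    exact pow_le_pow_left₀ hσ.le (by linarith [hx.2, hl.2]) i
  refine (abs_ev_le_jet i f hx).trans ?_
  rw [mul_assoc]
  exact le_mul_of_one_le_right (norm_nonneg _) h1
lemma SymbF.X : SymbF 1 fun _ => X := by
  refine symbF_of_forall fun i => ?_
  cases i with
  | zero =>
    refine ⟨1, fun l hl x hx => ?_⟩
    simp only [Dpow_zero, ev_X hx, Nat.cast_zero, sub_zero, zpow_one, one_mul, abs_of_nonneg hx.1]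
    linarith [hl.1]
  | succ j =>
    obtain ⟨C, -, h⟩ := SymbF.const 1 j
    refine ⟨C, fun l hl x hx => ?_⟩
    have := h l hl j le_rfl x hx
    rw [Dpow_succ', D_X]
    have e : (1 : ℤ) - ((j + 1 : ℕ) : ℤ) = 0 - (j : ℤ) := by push_cast; ring
    rw [e]; exact this
lemma SymbF.ph : SymbF 1 fun _ => ph := symbF_mul SymbF.X (SymbF.const (1 - R213.X))
lemma SymbF.sp (m : ℤ) : SymbF m fun l => sp l m := fun K => by
  obtain ⟨C, hC, h⟩ := symb_sp m K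
  exact ⟨C, hC, fun l hl => h l hl.1⟩
lemma SymbF.mono {s s' : ℤ} {b : ℝ → Sm} (h : SymbF s b) (hs : s' ≤ s) : SymbF s' b := by
  intro K
  obtain ⟨C, hC, h⟩ := h K
  refine ⟨C * 2 ^ (s - s').toNat, by positivity, fun l hl i hi x hx => (h l hl i hi x hx).trans ?_⟩
  have hσ := symb_sig_pos hl.1 hx
  have e : s - (i : ℤ) = ((s - s').toNat : ℤ) + (s' - (i : ℤ)) := by omega
  rw [e, zpow_add₀ hσ.ne', zpow_natCast, mul_assoc]
  refine mul_le_mul_of_nonneg_left (mul_le_mul_of_nonneg_right ?_ (by positivity)) hC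
  exact pow_le_pow_left₀ hσ.le (by linarith [hx.2, hl.2]) _
lemma SymbF.congr {s : ℤ} {a b : ℝ → Sm} (h : SymbF s a) (hab : ∀ l ∈ Ioc (0 : ℝ) 1, b l = a l) :
    SymbF s b := by
  intro K
  obtain ⟨C, hC, h⟩ := h K
  exact ⟨C, hC, fun l hl => hab l hl ▸ h l hl⟩
lemma SymbF.add {s : ℤ} {a b : ℝ → Sm} (ha : SymbF s a) (hb : SymbF s b) :
    SymbF s fun l => a l + b l := by
  intro K
  obtain ⟨C, hC, h⟩ := ha K
  obtain ⟨C', hC', h'⟩ := hb K
  refine ⟨C + C', by positivity, fun l hl i hi x hx => ?_⟩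
  rw [map_add, ev_add, add_mul]
  exact (abs_add_le _ _).trans (add_le_add (h l hl i hi x hx) (h' l hl i hi x hx))
lemma SymbF.neg {s : ℤ} {a : ℝ → Sm} (ha : SymbF s a) : SymbF s fun l => -a l := by
  intro K
  obtain ⟨C, hC, h⟩ := ha K
  refine ⟨C, hC, fun l hl i hi x hx => ?_⟩
  rw [map_neg, ev_neg, abs_neg]
  exact h l hl i hi x hx
lemma SymbF.sub {s : ℤ} {a b : ℝ → Sm} (ha : SymbF s a) (hb : SymbF s b) :
    SymbF s fun l => a l - b l :=
  (ha.add hb.neg).congr fun _ _ => sub_eq_add_neg _ _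
lemma SymbF.smul {s : ℤ} {a : ℝ → Sm} (ha : SymbF s a) (c : ℝ) : SymbF s fun l => c • a l := by
  intro K
  obtain ⟨C, hC, h⟩ := ha K
  refine ⟨|c| * C, by positivity, fun l hl i hi x hx => ?_⟩
  rw [map_smul, ev_smul, abs_mul, mul_assoc]
  exact mul_le_mul_of_nonneg_left (h l hl i hi x hx) (abs_nonneg _)
lemma SymbF.mul {s s' : ℤ} {a b : ℝ → Sm} (ha : SymbF s a) (hb : SymbF s' b) :
    SymbF (s + s') fun l => a l * b l := symbF_mul ha hb
lemma SymbF.sq {s : ℤ} {a : ℝ → Sm} (ha : SymbF s a) : SymbF (2 * s) fun l => a l ^ 2 := by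
  rw [two_mul]
  exact (ha.mul ha).congr fun _ _ => pow_two _
lemma SymbF.D {s : ℤ} {a : ℝ → Sm} (ha : SymbF s a) : SymbF (s - 1) fun l => D (a l) := by
  intro K
  obtain ⟨C, hC, h⟩ := ha (K + 1)
  exact ⟨C, hC, fun l hl => (h l hl).D⟩
lemma SymbF.dl {s : ℤ} {a : ℝ → Sm} (ha : SymbF s a) (m : ℕ) : SymbF s fun l => dl m (a l) := by
  have h1 := SymbF.ph.mul ha.D
  have h2 := (SymbF.const (pm m)).mul ha
  rw [show (1 : ℤ) + (s - 1) = s by ring] at h1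
  rw [zero_add] at h2
  exact h1.add h2
lemma SymbF.That {s : ℤ} {a : ℝ → Sm} (ha : SymbF s a) : SymbF s fun l => That (a l) := by
  have h1 := (SymbF.const 110).mul ha
  have h2 := ((SymbF.const 22).mul SymbF.X).mul ha.D
  have h3 := SymbF.X.sq.mul ha.D.D
  rw [zero_add] at h1
  rw [show (0 : ℤ) + 1 + (s - 1) = s by ring] at h2
  rw [show (2 : ℤ) * 1 + (s - 1 - 1) = s by ring] at h3
  exact (h1.add h2).add h3
lemma SymbF.A0 {s : ℤ} {a : ℝ → Sm} (ha : SymbF s a) : SymbF (s - 2) fun l => A0 (a l) := by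
  have h := ((ha.dl 1).dl 0).D.D
  rw [show s - 1 - 1 = s - 2 by ring] at h
  exact h
/-- rescaled profiles with symbol bounds on `[0,∞)` -/
lemma SymbF.prof {f : ℝ → ℝ} (hf : ContDiff ℝ ∞ f) {s : ℤ}
    (h : ∀ i : ℕ, ∃ C : ℝ, ∀ y ≥ (0 : ℝ), |iteratedDeriv i f y| ≤ C * (1 + y) ^ (s - (i : ℤ))) :
    SymbF s fun l => l ^ s • prof f l := by
  refine symbF_of_forall fun i => ?_
  obtain ⟨C, hC⟩ := h i
  refine ⟨C, fun l hl x hx => ?_⟩
  have hl0 := hl.1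
  have hσ := symb_sig_pos hl0 hx
  rw [map_smul, ev_smul, ev_Dpow_prof hf l i hx, ← mul_assoc, abs_mul,
    abs_of_pos (by positivity : 0 < l ^ s * l⁻¹ ^ i)]
  refine (mul_le_mul_of_nonneg_left (hC _ (div_nonneg hx.1 hl0.le)) (by positivity)).trans
    (le_of_eq ?_)
  have e : 1 + x / l = (x + l) / l := by field_simp; ring
  rw [e, div_zpow, zpow_sub₀ hl0.ne' s, zpow_natCast, inv_pow]
  field_simp
/-- profiles vanishing near infinity are symbols of every order -/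
lemma SymbF.bump {P : ℝ → ℝ} (hP : ContDiff ℝ ∞ P) {R : ℝ} (h : ∀ y ≥ R, P y = 0) (s : ℤ) :
    SymbF s fun l => l ^ s • R213.prof P l := by
  refine SymbF.prof hP fun i => ?_
  have hc : ContinuousOn (fun y : ℝ => |iteratedDeriv i P y| / (1 + y) ^ (s - (i : ℤ)))
      (Icc 0 (|R| + 1)) := by
    refine ((hP.continuous_iteratedDeriv i (by exact_mod_cast le_top)).abs.continuousOn).div
      ((continuousOn_const.add continuousOn_id).zpow₀ _ fun y hy => Or.inl ?_) fun y hy => ?_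
    · have := hy.1; exact (by positivity : (0 : ℝ) < 1 + y).ne'
    · have := hy.1; positivity
  obtain ⟨C, hC⟩ := isCompact_Icc.bddAbove_image hc
  refine ⟨|C|, fun y hy => ?_⟩
  have hy' : (0 : ℝ) < (1 + y) ^ (s - (i : ℤ)) := by have : (0 : ℝ) ≤ y := hy; positivity
  by_cases hyR : y ≤ |R| + 1
  · have := hC ⟨y, ⟨hy, hyR⟩, rfl⟩
    rw [← div_le_iff₀ hy']
    exact this.trans (le_abs_self _)
  · have e : P =ᶠ[𝓝 y] fun _ => 0 := by
      have : R < y := by linarith [le_abs_self R, not_le.1 hyR]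
      filter_upwards [Ioi_mem_nhds this] with z hz using h z (le_of_lt hz)
    rw [e.iteratedDeriv_eq i]
    have : iteratedDeriv i (fun _ : ℝ => (0 : ℝ)) y = 0 := by simp
    rw [this, abs_zero]
    positivity

lemma symb_lev_pt {l : ℝ} (hl : 0 < l) (e : ℤ) {s : ℤ} {k j : ℕ} (hj : j ≤ k) {C : ℝ} {f : Sm}
    (h : Symb l s k C f) {x : ℝ} (hx : x ∈ I) :
    ev (mu (j + 2) * sp l ((j : ℤ) - e) * (D ^ j) f ^ 2) x ≤ C ^ 2 * (x + l) ^ (11 - e + 2 * s) := by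
  have hσ := symb_sig_pos hl hx
  have h1 : ev ((D ^ j) f) x ^ 2 ≤ (C * (x + l) ^ (s - (j : ℤ))) ^ 2 := by
    rw [← sq_abs]
    exact pow_le_pow_left₀ (abs_nonneg _) (h j hj x hx) 2
  have h2 : x ^ (9 + (j + 2)) * (1 - x) ^ (j + 2) ≤ (x + l) ^ (9 + (j + 2)) := by
    refine (mul_le_of_le_one_right (pow_nonneg hx.1 _)
      (pow_le_one₀ (sub_nonneg.2 hx.2) (by linarith [hx.1]))).trans ?_
    exact pow_le_pow_left₀ hx.1 (by linarith) _
  rw [ev_mul, ev_mul, ev_pow, ev_mu _ hx, ev_sp hl _ hx]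
  refine (mul_le_mul (mul_le_mul_of_nonneg_right h2 (by positivity)) h1 (sq_nonneg _)
    (by positivity)).trans (le_of_eq ?_)
  have e1 : 11 - e + 2 * s =
      ((9 + (j + 2) : ℕ) : ℤ) + ((j : ℤ) - e) + ((s - (j : ℤ)) + (s - (j : ℤ))) := by
    push_cast; ring
  rw [e1, zpow_add₀ hσ.ne', zpow_add₀ hσ.ne', zpow_add₀ hσ.ne', zpow_natCast]
  ring

lemma symb_Ii_sp {l : ℝ} (hl : 0 < l) {n : ℤ} (hn : n < 0) : Ii (sp l (n - 1)) ≤ l ^ n := by
  have h1 := Ii_D (sp l n)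
  rw [D_sp hl, map_smul, ev_sp hl _ (right_mem_Icc.2 zero_le_one),
    ev_sp hl _ (left_mem_Icc.2 zero_le_one), zero_add, smul_eq_mul] at h1
  have h2 : 0 ≤ Ii (sp l (n - 1)) := Ii_nonneg fun x hx => by
    rw [ev_sp hl _ hx]; exact (zpow_pos (symb_sig_pos hl hx) _).le
  have h3 : (n : ℝ) ≤ -1 := by exact_mod_cast (show n ≤ -1 by omega)
  have h4 : (0 : ℝ) < (1 + l) ^ n := by positivity
  nlinarith

/-- `μ_{j+2} ≤ σ^{11+j}` and `∫ σ^{n-1} ≤ l^n / |n|` for `n < 0` (e.g. by `Ii_D` and `D_sp`) -/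
lemma N2_of_symb (e s : ℤ) (k : ℕ) (h : 12 - e + 2 * s < 0) : ∃ C', 0 ≤ C' ∧ ∀ l ∈ Ioc (0 : ℝ) 1,
    ∀ C f, Symb l s k C f → N2 l e k f ≤ C' * C ^ 2 * l ^ (12 - e + 2 * s) := by
  refine ⟨k + 1, by positivity, fun l hl C f hf => ?_⟩
  have h1 : ∀ j ∈ Finset.range (k + 1), lev l e j f ≤ C ^ 2 * l ^ (12 - e + 2 * s) := by
    intro j hj
    have hjk : j ≤ k := Nat.lt_succ_iff.1 (Finset.mem_range.1 hj)
    have h2 : lev l e j f ≤ Ii (C ^ 2 • sp l (12 - e + 2 * s - 1)) := Ii_mono fun x hx => by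
      rw [ev_smul, ev_sp hl.1 _ hx, show 12 - e + 2 * s - 1 = 11 - e + 2 * s by ring]
      exact symb_lev_pt hl.1 e hjk hf hx
    rw [map_smul, smul_eq_mul] at h2
    exact h2.trans (mul_le_mul_of_nonneg_left (symb_Ii_sp hl.1 h) (sq_nonneg _))
  refine (Finset.sum_le_card_nsmul _ _ _ h1).trans (le_of_eq ?_)
  rw [Finset.card_range, nsmul_eq_mul]; push_cast; ring
/-- symbols vanishing near `0` are bounded in every norm -/
lemma N2_of_symb_far (e s : ℤ) (k : ℕ) {r : ℝ} (hr : 0 < r) : ∃ C', 0 ≤ C' ∧ ∀ l ∈ Ioc (0 : ℝ) 1,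
    ∀ C f, Symb l s k C f → EqOn0 r f 0 → N2 l e k f ≤ C' * C ^ 2 := by
  refine ⟨(k + 1) * (r ^ (11 - e + 2 * s) + 2 ^ (11 - e + 2 * s)), by positivity,
    fun l hl C f hf h0 => ?_⟩
  have h1 : ∀ j ∈ Finset.range (k + 1),
      lev l e j f ≤ C ^ 2 * (r ^ (11 - e + 2 * s) + 2 ^ (11 - e + 2 * s)) := by
    intro j hj
    have hjk : j ≤ k := Nat.lt_succ_iff.1 (Finset.mem_range.1 hj)
    have h2 : lev l e j f ≤
        Ii ((C ^ 2 * (r ^ (11 - e + 2 * s) + 2 ^ (11 - e + 2 * s))) • (1 : Sm)) :=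
      Ii_mono fun x hx => by
        rw [ev_smul, ev_one, mul_one]
        by_cases hxr : x < r
        · have := h0.Dpow j x hx hxr
          rw [map_zero, ev_zero] at this
          rw [ev_mul, ev_pow, this, zero_pow two_ne_zero, mul_zero]
          positivity
        · refine (symb_lev_pt hl.1 e hjk hf hx).trans
            (mul_le_mul_of_nonneg_left ?_ (sq_nonneg _))
          have hσ := symb_sig_pos hl.1 hx
          have a1 : (0 : ℝ) < r ^ (11 - e + 2 * s) := by positivity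
          have a2 : (0 : ℝ) < 2 ^ (11 - e + 2 * s) := by positivity
          rcases le_total 0 (11 - e + 2 * s) with hn | hn
          · have := zpow_le_zpow_left₀ hn hσ.le (show x + l ≤ 2 by linarith [hx.2, hl.2])
            linarith
          · have := zpow_le_zpow_left₀ (neg_nonneg.2 hn) hr.le
              (show r ≤ x + l by linarith [not_lt.1 hxr, hl.1])
            rw [zpow_neg, zpow_neg, inv_le_inv₀ a1 (zpow_pos hσ _)] at this
            linarith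
    rwa [map_smul, Ii_one, smul_eq_mul, mul_one] at h2
  refine (Finset.sum_le_card_nsmul _ _ _ h1).trans (le_of_eq ?_)
  rw [Finset.card_range, nsmul_eq_mul]; push_cast; ring
lemma N2_bump {P : ℝ → ℝ} (hP : ContDiff ℝ ∞ P) {R : ℝ} (h : ∀ y ≥ R, P y = 0) (e : ℤ) (k : ℕ) :
    ∃ C, 0 ≤ C ∧ ∀ l ∈ Ioc (0 : ℝ) 1, N2 l e k (prof P l) ≤ C * l ^ (12 - e) := by
  set s : ℤ := -((12 - e).natAbs : ℤ) - 1 with hs
  obtain ⟨C', hC', h1⟩ := N2_of_symb e s k (by omega)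
  obtain ⟨C, -, h2⟩ := SymbF.bump hP h s k
  refine ⟨C' * C ^ 2, by positivity, fun l hl => ?_⟩
  have hl0 := hl.1
  have h3 := h1 l hl C _ (h2 l hl)
  rw [N2_smul, zpow_add₀ hl0.ne', two_mul s, zpow_add₀ hl0.ne', ← sq] at h3
  refine le_of_mul_le_mul_left (a := (l ^ s) ^ 2) (h3.trans (le_of_eq ?_)) (by positivity)
  ring

end Crest.Agent.R213
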