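import Crest.Agent.R213.Sup
import Crest.Agent.R213.Symb

/-! # Row 213, products (Leibniz formula `Dpow_mul`, `μ_{j+2} σ^{j-e} = μ_{j-i+2} σ^{j-i-e} (φ₀ σ)^i`) -/

set_option autoImplicit false
open Set Filter Topology
open scoped ContDiff

noncomputable section
namespace Crest.Agent.R213

lemma Prod_core {l : ℝ} (hl : 0 < l) (e t : ℤ) (i j : ℕ) {C : ℝ} {F : Sm} (G : Sm)
    (h : ∀ x ∈ I, (x * (1 - x) * (x + l)) ^ i * ev F x ^ 2 ≤ C * (x + l) ^ t) :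
    wl l e (i + j) (F * G) ≤ C * wl l (e - t) j G := by
  rw [wl, wl, ← smul_eq_mul C, ← map_smul]
  refine Ii_mono fun x hx => ?_
  have h0 := hx.1
  have h1 : 0 ≤ 1 - x := sub_nonneg.2 hx.2
  have hs : 0 < x + l := by positivity
  have e1 : (x + l) ^ (((i + j : ℕ) : ℤ) - e) = (x + l) ^ i * (x + l) ^ ((j : ℤ) - e) := by
    rw [← zpow_natCast, ← zpow_add₀ hs.ne']
    congr 1
    push_cast
    ring
  have e2 : (x + l) ^ ((j : ℤ) - (e - t)) = (x + l) ^ t * (x + l) ^ ((j : ℤ) - e) := by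
    rw [← zpow_add₀ hs.ne']
    congr 1
    ring
  simp only [ev_smul, ev_mul, ev_pow, ev_mu _ hx, ev_sp hl _ hx, e1, e2]
  calc _ = x ^ (9 + (j + 2)) * (1 - x) ^ (j + 2) * (x + l) ^ ((j : ℤ) - e) * ev G x ^ 2 *
        ((x * (1 - x) * (x + l)) ^ i * ev F x ^ 2) := by
        rw [mul_pow (x * (1 - x)), mul_pow x]
        ring
    _ ≤ x ^ (9 + (j + 2)) * (1 - x) ^ (j + 2) * (x + l) ^ ((j : ℤ) - e) * ev G x ^ 2 *
        (C * (x + l) ^ t) := mul_le_mul_of_nonneg_left (h x hx) (by positivity)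
    _ = _ := by ring

lemma Prod_sum {l : ℝ} (hl : 0 < l) (e : ℤ) (j : ℕ) (s : Finset ℕ) (c : ℕ → ℝ) (R : ℕ → Sm) {B : ℝ}
    (h : ∀ i ∈ s, wl l e j (R i) ≤ B) :
    wl l e j (∑ i ∈ s, c i • R i) ≤ (s.card * ∑ i ∈ s, c i ^ 2) * B := by
  refine (wl_sum_le hl e j s _).trans ?_
  rw [mul_assoc, Finset.sum_mul]
  refine mul_le_mul_of_nonneg_left (Finset.sum_le_sum fun i hi => ?_) (Nat.cast_nonneg _)
  rw [wl_smul]
  exact mul_le_mul_of_nonneg_left (h i hi) (sq_nonneg _)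

lemma Prod_N2 (k : ℕ) : ∃ C, 0 ≤ C ∧ ∀ l : ℝ, 0 < l → ∀ (e : ℤ) (f g : Sm) (B : ℝ),
    (∀ i j, i + j ≤ k → wl l e (i + j) ((D ^ i) f * (D ^ j) g) ≤ B) → N2 l e k (f * g) ≤ C * B := by
  refine ⟨∑ j ∈ Finset.range (k + 1), ((Finset.range (j + 1)).card *
    ∑ i ∈ Finset.range (j + 1), (j.choose i : ℝ) ^ 2), Finset.sum_nonneg fun j _ =>
      mul_nonneg (Nat.cast_nonneg _) (Finset.sum_nonneg fun i _ => sq_nonneg _),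
    fun l hl e f g B h => ?_⟩
  rw [N2, Finset.sum_mul]
  refine Finset.sum_le_sum fun j hj => ?_
  rw [lev, Dpow_mul]
  refine Prod_sum hl e j _ _ _ fun i hi => ?_
  have h1 := Finset.mem_range.1 hi
  have h2 := Finset.mem_range.1 hj
  have h3 := h i (j - i) (by omega)
  rwa [show i + (j - i) = j by omega] at h3

lemma Prod_comm (j : ℕ) : ∃ C, 0 ≤ C ∧ ∀ l : ℝ, 0 < l → ∀ (e : ℤ) (f g : Sm) (B : ℝ),
    (∀ i m, i + m = j → wl l e (i + 1 + m) ((D ^ (i + 1)) f * (D ^ m) g) ≤ B) →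
      wl l e (j + 1) ((D ^ (j + 1)) (f * g) - f * (D ^ (j + 1)) g) ≤ C * B := by
  refine ⟨(Finset.range (j + 1)).card *
    ∑ i ∈ Finset.range (j + 1), ((j + 1).choose (i + 1) : ℝ) ^ 2, by positivity,
    fun l hl e f g B h => ?_⟩
  rw [Dpow_mul, Finset.sum_range_succ', Nat.choose_zero_right, Nat.cast_one, one_smul, Dpow_zero,
    Nat.sub_zero, add_sub_cancel_right]
  refine Prod_sum hl e _ _ _ _ fun i hi => ?_
  have h1 := Finset.mem_range.1 hi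
  have h3 := h i (j + 1 - (i + 1)) (by omega)
  rwa [show i + 1 + (j + 1 - (i + 1)) = j + 1 by omega] at h3

lemma Prod_nonneg {l : ℝ} (hl : 0 < l) {s : ℤ} {k : ℕ} {C : ℝ} {b : Sm} (h : Mult l s k C b) :
    0 ≤ C := by
  have h1 := h 0 (Nat.zero_le _) 0 (by simp)
  rw [pow_zero, one_mul, zero_add] at h1
  exact nonneg_of_mul_nonneg_left ((sq_nonneg _).trans h1) (zpow_pos hl _)

lemma Prod_term (e₁ : ℤ) (k : ℕ) : ∃ C, 0 ≤ C ∧ ∀ l ∈ Ioc (0 : ℝ) 1, ∀ (e₂ : ℤ) (f g : Sm),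
    ∀ i ≤ k, ∀ j, wl l (e₁ + e₂ - 12) (i + j) ((D ^ i) f * (D ^ j) g) ≤
      C * N2 l e₁ (i + 13) f * lev l e₂ j g := by
  choose C hC h using sup_mult e₁
  refine ⟨∑ i ∈ Finset.range (k + 1), C i, Finset.sum_nonneg fun i _ => hC i,
    fun l hl e₂ f g i hi j => ?_⟩
  have h1 := Prod_core hl.1 (e₁ + e₂ - 12) (e₁ - 12) i j ((D ^ j) g)
    (C := C i * N2 l e₁ (i + 13) f) fun x hx => (h i l hl f x hx).trans_eq (by ring)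
  rw [show e₁ + e₂ - 12 - (e₁ - 12) = e₂ by ring] at h1
  refine h1.trans (mul_le_mul_of_nonneg_right (mul_le_mul_of_nonneg_right ?_ (N2_nonneg hl.1 _ _ _))
    (lev_nonneg hl.1 _ _ _))
  exact Finset.single_le_sum (fun i _ => hC i) (Finset.mem_range.2 (by omega))

/-- a Leibniz term with the sup on either factor -/
lemma Prod_term' (e₁ e₂ : ℤ) (k : ℕ) : ∃ C, 0 ≤ C ∧ ∀ l ∈ Ioc (0 : ℝ) 1, ∀ (f g : Sm) (k₁ k₂ : ℕ),
    ∀ i ≤ k, ∀ j ≤ k, (i + 13 ≤ k₁ ∧ j ≤ k₂ ∨ i ≤ k₁ ∧ j + 13 ≤ k₂) →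
      wl l (e₁ + e₂ - 12) (i + j) ((D ^ i) f * (D ^ j) g) ≤ C * N2 l e₁ k₁ f * N2 l e₂ k₂ g := by
  obtain ⟨C₁, hC₁, h₁⟩ := Prod_term e₁ k
  obtain ⟨C₂, hC₂, h₂⟩ := Prod_term e₂ k
  refine ⟨C₁ + C₂, by positivity, fun l hl f g k₁ k₂ i hi j hj h => ?_⟩
  have n1 := N2_nonneg hl.1 e₁ k₁ f
  have n2 := N2_nonneg hl.1 e₂ k₂ g
  rcases h with ⟨h3, h4⟩ | ⟨h3, h4⟩
  · refine (h₁ l hl e₂ f g i hi j).trans (mul_le_mul (mul_le_mul (by linarith)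
      (N2_mono hl.1 _ h3 f) (N2_nonneg hl.1 _ _ _) (by positivity)) (lev_le_N2 hl.1 _ h4 g)
      (lev_nonneg hl.1 _ _ _) (by positivity))
  · rw [add_comm e₁, add_comm i, mul_comm ((D ^ i) f), mul_right_comm]
    refine (h₂ l hl e₁ g f j hj i).trans (mul_le_mul (mul_le_mul (by linarith)
      (N2_mono hl.1 _ h4 g) (N2_nonneg hl.1 _ _ _) (by positivity)) (lev_le_N2 hl.1 _ h3 f)
      (lev_nonneg hl.1 _ _ _) (by positivity))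

lemma N2_mult (e s : ℤ) (k : ℕ) : ∃ C', 0 ≤ C' ∧ ∀ l ∈ Ioc (0 : ℝ) 1, ∀ C b w, Mult l s k C b →
    N2 l e k (b * w) ≤ C' * C * N2 l (e - 2 * s) k w := by
  obtain ⟨C', hC', h⟩ := Prod_N2 k
  refine ⟨C', hC', fun l hl C b w hb => ?_⟩
  rw [mul_assoc]
  refine h l hl.1 e b w _ fun i j hij => (Prod_core hl.1 e _ i j _ (hb i (by omega))).trans ?_
  exact mul_le_mul_of_nonneg_left (lev_le_N2 hl.1 _ (by omega) w) (Prod_nonneg hl.1 hb)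
lemma N2_symb (e s : ℤ) (k : ℕ) : ∃ C', 0 ≤ C' ∧ ∀ l ∈ Ioc (0 : ℝ) 1, ∀ C b w, Symb l s k C b →
    N2 l e k (b * w) ≤ C' * C ^ 2 * N2 l (e - 2 * s) k w := by
  obtain ⟨C', hC', h⟩ := N2_mult e s k
  exact ⟨C', hC', fun l hl C b w hb => h l hl _ b w (hb.mult hl.1)⟩
lemma N2_symbF (e : ℤ) {s : ℤ} (k : ℕ) {b : ℝ → Sm} (hb : SymbF s b) :
    ∃ C, 0 ≤ C ∧ ∀ l ∈ Ioc (0 : ℝ) 1, ∀ w, N2 l e k (b l * w) ≤ C * N2 l (e - 2 * s) k w := by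
  obtain ⟨C', hC', h⟩ := N2_symb e s k
  obtain ⟨C, -, h'⟩ := hb k
  exact ⟨C' * C ^ 2, by positivity, fun l hl w => h l hl C _ w (h' l hl)⟩
/-- the Leibniz terms with at least one derivative on `b` -/
lemma wl_comm_mult (e s : ℤ) (j : ℕ) : ∃ C', 0 ≤ C' ∧ ∀ l ∈ Ioc (0 : ℝ) 1, ∀ C b W,
    Mult l s (j + 1) C b →
    wl l e (j + 1) ((D ^ (j + 1)) (b * W) - b * (D ^ (j + 1)) W) ≤ C' * C * N2 l (e - 2 * s) j W := by
  obtain ⟨C', hC', h⟩ := Prod_comm j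
  refine ⟨C', hC', fun l hl C b w hb => ?_⟩
  rw [mul_assoc]
  refine h l hl.1 e b w _ fun i m him =>
    (Prod_core hl.1 e _ (i + 1) m _ (hb (i + 1) (by omega))).trans ?_
  exact mul_le_mul_of_nonneg_left (lev_le_N2 hl.1 _ (by omega) w) (Prod_nonneg hl.1 hb)
/-- one Leibniz term: `sup_mult` on the first factor -/
lemma wl_term (e₁ e₂ : ℤ) (i j : ℕ) : ∃ C, 0 ≤ C ∧ ∀ l ∈ Ioc (0 : ℝ) 1, ∀ f g,
    wl l (e₁ + e₂ - 12) (i + j) ((D ^ i) f * (D ^ j) g) ≤ C * N2 l e₁ (i + 13) f * lev l e₂ j g := by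
  obtain ⟨C, hC, h⟩ := Prod_term e₁ i
  exact ⟨C, hC, fun l hl f g => h l hl e₂ f g i le_rfl j⟩
lemma N2_prod (e₁ e₂ : ℤ) (k k₁ k₂ : ℕ) (h₁ : k ≤ k₁) (h₂ : k ≤ k₂) (h : k + 25 ≤ k₁ + k₂)
    (h₁' : 13 ≤ k₁) (h₂' : 13 ≤ k₂) :
    ∃ C, 0 ≤ C ∧ ∀ l ∈ Ioc (0 : ℝ) 1, ∀ f g,
      N2 l (e₁ + e₂ - 12) k (f * g) ≤ C * N2 l e₁ k₁ f * N2 l e₂ k₂ g := by
  obtain ⟨C', hC', h3⟩ := Prod_N2 k
  obtain ⟨C, hC, h4⟩ := Prod_term' e₁ e₂ k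
  refine ⟨C' * C, by positivity, fun l hl f g => (h3 l hl.1 _ f g _ fun i j hij =>
    h4 l hl f g k₁ k₂ i (by omega) j (by omega) (by omega)).trans_eq (by ring)⟩
/-- terms `D^i b · D^{j+1-i} W`, `i ≥ 1`: sup on `b` for `i ≤ 13`, sup on `W` for `i ≥ 14` -/
lemma wl_comm_prod (e₁ e₂ : ℤ) (j k₁ : ℕ) (h₁ : j + 1 ≤ k₁) (h : 26 ≤ k₁) :
    ∃ C, 0 ≤ C ∧ ∀ l ∈ Ioc (0 : ℝ) 1, ∀ b W,
      wl l (e₁ + e₂ - 12) (j + 1) ((D ^ (j + 1)) (b * W) - b * (D ^ (j + 1)) W) ≤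
        C * N2 l e₁ k₁ b * N2 l e₂ j W := by
  obtain ⟨C', hC', h3⟩ := Prod_comm j
  obtain ⟨C, hC, h4⟩ := Prod_term' e₁ e₂ (j + 1)
  refine ⟨C' * C, by positivity, fun l hl f g => (h3 l hl.1 _ f g _ fun i m him =>
    h4 l hl f g k₁ j (i + 1) (by omega) m (by omega) (by omega)).trans_eq (by ring)⟩

end Crest.Agent.R213
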