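import Crest.Agent.R213.EnD
import Crest.Agent.R213.Symb
import Crest.Agent.R213.Prod

/-! # Row 213, the approximate solution built from the shrinker -/

set_option autoImplicit false
set_option linter.unusedVariables false
open Set Filter Topology
open scoped ContDiff

noncomputable section
namespace Crest.Agent.R213

variable {γ : ℝ → ℝ}
lemma coefs_deriv {f : ℝ → ℝ} (hf : ContDiff ℝ ∞ f) : ContDiff ℝ ∞ (deriv f) :=
  (contDiff_infty_iff_deriv.1 hf).2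
lemma coefs_ev_Gam (hγ : ContDiff ℝ ∞ γ) (l : ℝ) {x : ℝ} (hx : x ∈ I) :
    ev (Gam γ l) x = l⁻¹ * γ (x / l) := by
  rw [Gam, ev_smul, ev_prof hγ l hx]
lemma Shr.contDiff_hh (h : Shr γ) : ContDiff ℝ ∞ (hh γ) := contDiff_const.sub (contDiff_id.mul h.smooth)
lemma Shr.contDiff_ss (h : Shr γ) : ContDiff ℝ ∞ (ss γ) := ((contDiff_const.mul h.smooth).add ((contDiff_const.mul contDiff_id).mul (coefs_deriv h.smooth))).add
    ((contDiff_id.pow 2).mul (coefs_deriv (coefs_deriv h.smooth)))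
lemma Shr.prof_hh (h : Shr γ) {l : ℝ} (hl : 0 < l) : prof (hh γ) l = 1 - X * Gam γ l := by
  refine Sm.ext' fun x hx => ?_
  rw [ev_prof h.contDiff_hh l hx, ev_sub, ev_mul, ev_one, ev_X hx, coefs_ev_Gam h.smooth l hx, hh]
  ring
lemma Shr.That_Gam (h : Shr γ) {l : ℝ} (hl : 0 < l) : That (Gam γ l) = l⁻¹ • prof (ss γ) l := by
  refine Sm.ext' fun x hx => ?_
  have h1 := coefs_deriv h.smooth
  have h2 := coefs_deriv h1
  rw [That_apply, Gam, map_smul, D_prof h.smooth, map_smul, map_smul, D_prof h1]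
  simp only [ev_add, ev_mul, ev_smul, ev_pow, ev_ofNat, ev_X hx, ev_prof h.smooth l hx, ev_prof h1 l hx,
    ev_prof h2 l hx, ev_prof h.contDiff_ss l hx, ss]
  ring
lemma Shr.scl_Gam (h : Shr γ) {κ : ℝ} (hκ : κ ∈ Ioc (0 : ℝ) 1) {l : ℝ} (hl : 0 < l) :
    κ • scl κ (Gam γ (κ * l)) = Gam γ l := by
  rw [Gam, map_smul, scl_prof h.smooth hκ, smul_smul, Gam]
  congr 1
  have := hκ.1.ne'
  field_simp
lemma Shr.symb_Gam (h : Shr γ) : SymbF (-1) (Gam γ) := (SymbF.prof h.smooth (s := -1) h.symb).congr fun l _ => by rw [Gam, zpow_neg_one]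
lemma Shr.symb_ga (h : Shr γ) : SymbF (-1) (ga γ) := by
  have := (SymbF.const kap).mul (h.symb_Gam.sub ((SymbF.const 1).mono (by norm_num)))
  rw [zero_add] at this
  exact this
lemma Shr.symb_qa (h : Shr γ) : SymbF 0 (qa γ) := by
  have := SymbF.ph.mul h.symb_ga
  rw [add_neg_cancel] at this
  exact (SymbF.const 1).sub this
/-- `qa = chi h(x/l) / (1-x) + (1 - chi)` -/
lemma Shr.qa_pos (h : Shr γ) : ∃ q₀ > (0 : ℝ), ∀ l ∈ Ioc (0 : ℝ) 1, ∀ x ∈ I, q₀ ≤ ev (qa γ l) x := by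
  obtain ⟨h₀, hh₀, hb⟩ := h.hpos
  refine ⟨min 1 h₀, lt_min one_pos hh₀, fun l hl x hx => ?_⟩
  rcases le_or_gt (1 / 2) x with hx2 | hx2
  · have : ev (qa γ l) x = 1 := by simp [qa, ga, kap_zero hx hx2]
    rw [this]
    exact min_le_left _ _
  · have hne : (1 - x) ≠ 0 := by linarith
    have hpos : 0 < 1 - x := by linarith
    have hH := hb (x / l) (div_nonneg hx.1 hl.1.le)
    have hc := chi_mem hx
    have hk : ev kap x = ev chi x / (1 - x) ^ 2 := by rw [ev_kap hx, ev_chi hx]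
    have hq : ev (qa γ l) x = ev chi x * (hh γ (x / l) / (1 - x)) + (1 - ev chi x) := by
      simp only [qa, ga, ev_sub, ev_mul, ev_one, ev_ph hx, hk, coefs_ev_Gam h.smooth l hx, hh]
      field_simp
      ring
    have h1 : h₀ ≤ hh γ (x / l) / (1 - x) := by
      rw [le_div_iff₀ hpos]
      nlinarith [hx.1]
    rw [hq]
    have h2 : min 1 h₀ ≤ 1 := min_le_left _ _
    have h3 : min 1 h₀ ≤ h₀ := min_le_right _ _
    nlinarith [hc.1, hc.2, mul_le_mul_of_nonneg_left (h3.trans h1) hc.1,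
      mul_le_mul_of_nonneg_left h2 (sub_nonneg.2 hc.2)]
lemma Shr.qa_near (h : Shr γ) {l : ℝ} (hl : 0 < l) :
    EqOn0 (1 / 4) ((1 - X) * qa γ l) (1 - X * Gam γ l) := by
  have e1 : (1 - X) * qa γ l = (1 - X) - X * (chi * (Gam γ l - 1)) := by
    rw [← kap_spec, qa, ga, ph]; ring
  have e2 : 1 - X * Gam γ l = (1 - X) - X * (1 * (Gam γ l - 1)) := by ring
  rw [e1, e2]
  exact (EqOn0.refl _ _).sub ((EqOn0.refl _ _).mul (chi_eqOn0.mul (EqOn0.refl _ _)))
lemma Shr.A0ga_near (h : Shr γ) {l : ℝ} (hl : 0 < l) :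
    EqOn0 (1 / 4) (A0 (ga γ l)) (D (D (That (Gam γ l)))) := by
  have e1 : A0 (ga γ l) = D (D (That (chi * (Gam γ l - 1)))) := by
    rw [A0_apply, T0_eq, ga, ← mul_assoc, kap_spec]
  have e2 : D (D (That (Gam γ l))) = D (D (That (1 * (Gam γ l - 1)))) := by
    rw [one_mul, map_sub, That_one, map_sub, D_ofNat, sub_zero]
  rw [e1, e2]
  exact (chi_eqOn0.mul (EqOn0.refl _ _)).That.D.D
lemma Shr.Err_near (h : Shr γ) {l : ℝ} (hl : 0 < l) : EqOn0 (1 / 4) (Err γ l) 0 := by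
  intro x hx hx4
  have h1 := h.qa_near hl x hx hx4
  have h2 := h.A0ga_near hl x hx hx4
  have h3 : ev ((1 - X) ^ 2 * kap) x = 1 := by rw [kap_spec, chi_one hx hx4.le]
  have hne : (1 - x) ≠ 0 := by linarith
  rw [← h.prof_hh hl] at h1
  simp only [ev_mul, ev_sub, ev_one, ev_pow, ev_X hx] at h1 h3
  simp only [Err, gat, ca, ev_add, ev_neg, ev_mul, ev_pow, ev_zero, h2, ← h1]
  linear_combination (-(ev (qa γ l) x ^ 2 * ev (D (D (That (Gam γ l)))) x)) * h3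
lemma Shr.ck_Gam (h : Shr γ) : CK ∞ (Iio 0) fun t => Gam γ (lam t) := CK.smul (contDiffOn_lam.inv fun _ ht => (lam_pos ht).ne') (ck_prof h.smooth)
lemma Shr.ck_ga (h : Shr γ) : CK ∞ (Iio 0) fun t => ga γ (lam t) := (CK.const kap).mul (h.ck_Gam.sub (CK.const 1))
lemma Shr.ck_qa (h : Shr γ) : CK ∞ (Iio 0) fun t => qa γ (lam t) :=
  (CK.const 1).sub ((CK.const ph).mul h.ck_ga)
lemma Shr.ck_Err (h : Shr γ) : CK ∞ (Iio 0) fun t => Err γ (lam t) := ((CK.const kap).mul (((ck_prof h.contDiff_hh).pow 2).mul h.ck_Gam.That.D.D)).neg.add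
    ((h.ck_qa.pow 2).mul h.ck_ga.A0)
/-- pointwise `∂_t (γ(x/λ)/λ) = -h'(x/λ) / (2 λ³) = -h² s''(x/λ) / λ³` (`Shr.ode`), `CD_of_pointwise` -/
lemma Shr.cd_ga (h : Shr γ) {t : ℝ} (ht : t < 0) : CD (fun s => ga γ (lam s)) (gat γ (lam t)) t := by
  refine CD_of_pointwise isOpen_Iio ht h.ck_ga fun x hx => ?_
  have hl := lam_pos ht
  have hd : Differentiable ℝ γ := h.smooth.differentiable (by simp)
  have hs1 := coefs_deriv h.contDiff_ss
  have hs2 := coefs_deriv hs1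
  have hy : 0 ≤ x / lam t := div_nonneg hx.1 hl.le
  have hode := h.ode _ hy
  have hh' : deriv (hh γ) (x / lam t) = -(γ (x / lam t) + x / lam t * deriv γ (x / lam t)) := by
    have := (((hasDerivAt_id (x / lam t)).mul (hd (x / lam t)).hasDerivAt).const_sub 1)
    have e : deriv (hh γ) (x / lam t) = _ := this.deriv
    rw [e]
    simp
  have h1 := (hasDerivAt_lam ht).inv hl.ne'
  have h2 := (hd (x / lam t)).hasDerivAt.comp t
    ((hasDerivAt_const t x).div (hasDerivAt_lam ht) hl.ne')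
  have h3 := ((h1.mul h2).sub_const 1).const_mul (ev kap x)
  refine (h3.congr_deriv ?_).congr_of_eventuallyEq ?_
  · rw [gat, h.That_Gam hl, map_smul, D_prof h.contDiff_ss, map_smul, map_smul, D_prof hs1]
    simp only [ev_neg, ev_mul, ev_smul, ev_pow, ev_prof h.contDiff_hh _ hx, ev_prof hs2 _ hx,
      Function.comp, Pi.inv_apply, Pi.div_apply]
    rw [hh'] at hode
    have hne := hl.ne'
    have e : hh γ (x / lam t) ^ 2 * deriv (deriv (ss γ)) (x / lam t) =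
        -(γ (x / lam t) + x / lam t * deriv γ (x / lam t)) / 2 := by linarith
    calc _ = -(ev kap x * ((lam t)⁻¹ ^ 3 * (-(γ (x / lam t) + x / lam t * deriv γ (x / lam t)) / 2))) := by
          field_simp
          ring
      _ = _ := by rw [← e]; ring
  · filter_upwards with s
    simp only [ga, ev_mul, ev_sub, ev_one, coefs_ev_Gam h.smooth _ hx, Function.comp, Pi.mul_apply,
      Pi.inv_apply, Pi.div_apply]
lemma Shr.ev_ga_zero (h : Shr γ) {l : ℝ} (hl : 0 < l) : ev (ga γ l) 0 = γ 0 / l - 1 := by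
  have h0 : (0 : ℝ) ∈ I := by simp
  rw [ga, ev_mul, ev_kap_zero, ev_sub, ev_one, coefs_ev_Gam h.smooth l h0, zero_div, one_mul]
  ring
lemma Shr.symb_A0ga (h : Shr γ) : SymbF (-3) fun l => A0 (ga γ l) := h.symb_ga.A0
lemma Shr.symb_ca (h : Shr γ) : SymbF 0 (ca γ) := h.symb_qa.sq
lemma Shr.scl_hh (h : Shr γ) {κ : ℝ} (hκ : κ ∈ Ioc (0 : ℝ) 1) {l : ℝ} (hl : 0 < l) :
    scl κ (1 - X * Gam γ (κ * l)) = 1 - X * Gam γ l := by
  rw [← h.prof_hh (mul_pos hκ.1 hl), scl_prof h.contDiff_hh hκ, h.prof_hh hl]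
theorem Shr.coef (h : Shr γ) : Coef (ca γ) (cb γ) := by
  refine ⟨h.symb_ca, ?_, ?_, (h.ck_qa.pow 2).cc,
    ((((CK.const 2).mul h.ck_qa).mul (CK.const ph)).mul h.ck_ga.A0).cc, ?_, ?_⟩
  · exact (((SymbF.const 2).mul h.symb_qa).mul SymbF.ph).mul h.symb_A0ga
  · obtain ⟨q₀, hq₀, hb⟩ := h.qa_pos
    refine ⟨q₀ ^ 2, by positivity, fun l hl x hx => ?_⟩
    rw [ca, ev_pow]
    exact pow_le_pow_left₀ hq₀.le (hb l hl x hx) 2
  · intro κ hκ l hl
    have hκ' : κ ∈ I := ⟨hκ.1.le, hκ.2⟩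
    rw [ca, ca, ← mul_pow, ← mul_pow]
    refine (((h.qa_near (mul_pos hκ.1 hl.1)).pow 2).scl hκ').trans ?_
    rw [map_pow, h.scl_hh hκ hl.1]
    exact ((h.qa_near hl.1).pow 2).symm
  · intro κ hκ l hl
    have hκ' : κ ∈ I := ⟨hκ.1.le, hκ.2⟩
    have e : ∀ m : ℝ, cb γ m = 2 * X * ((1 - X) * qa γ m) * A0 (ga γ m) := fun m => by
      rw [cb, ph]; ring
    have hn : ∀ m : ℝ, 0 < m →
        EqOn0 (1 / 4) (cb γ m) (2 * X * (1 - X * Gam γ m) * D (D (That (Gam γ m)))) := fun m hm => by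
      rw [e]
      exact ((EqOn0.refl _ _).mul (h.qa_near hm)).mul (h.A0ga_near hm)
    refine (((hn _ (mul_pos hκ.1 hl.1)).scl hκ').smul _).trans ?_
    have e2 : D (D (That (Gam γ l))) = κ ^ 3 • scl κ (D (D (That (Gam γ (κ * l))))) := by
      rw [← h.scl_Gam hκ hl.1, map_smul, That_scl hκ', map_smul, D_scl hκ', map_smul, map_smul, D_scl hκ',
        smul_smul, smul_smul]
      congr 1
      ring
    have e3 : κ ^ 2 • scl κ (2 * X * (1 - X * Gam γ (κ * l)) * D (D (That (Gam γ (κ * l))))) =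
        2 * X * (1 - X * Gam γ l) * D (D (That (Gam γ l))) := by
      rw [map_mul, map_mul, map_mul, h.scl_hh hκ hl.1, scl_X hκ', map_ofNat, e2]
      simp only [Algebra.smul_def, map_pow]
      ring
    rw [e3]
    exact (hn l hl.1).symm
/-- `Err` is a symbol of order `-3` vanishing on `[0,1/4)`: `N2_of_symb_far` -/
theorem Shr.ncoef (h : Shr γ) : NCoef (qa γ) (fun l => A0 (ga γ l)) (Err γ) := by
  refine ⟨h.symb_qa, h.symb_A0ga, fun k => ?_, h.ck_qa.cc, h.ck_ga.A0.cc, h.ck_Err.cc⟩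
  have h1 : SymbF 0 fun l => prof (hh γ) l :=
    ((SymbF.const 1).sub (SymbF.X.mul h.symb_Gam)).congr fun l hl => h.prof_hh hl.1
  have h2 : SymbF (-3) (Err γ) :=
    ((SymbF.const kap).mul (h1.sq.mul h.symb_Gam.That.D.D)).neg.add (h.symb_ca.mul h.symb_A0ga)
  obtain ⟨C, -, hC⟩ := h2 k
  obtain ⟨C', -, hC'⟩ := N2_of_symb_far 11 (-3) k (r := 1 / 4) (by norm_num)
  exact ⟨C' * C ^ 2, fun l hl => hC' l hl C _ (hC l hl) (h.Err_near hl.1)⟩

end Crest.Agent.R213
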