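import Crest.Agent.R213.High

/-! # Row 213, one step of the evolution is a contraction after a finite rank correction

Let `l = lr δ r`, `H = HQ l w`, `S = ∑ ℓ_i(w)²`, `v₀ = w - η ∑ ℓ_i(w) p_i`.  By `ell_eq_HB`, `pb_N2`, `ell_sq_le`:
`HQ l v₀ ≤ H - 2 η S + C η² H` and `|ℓ_i(v₀) - ℓ_i(w)|² ≤ C η² H`.  By `ell_Lop` (`Symb.rescale`, `lev_compare`), `high_crude`
and the mean value inequality `|ℓ_i(v s) - ℓ_i(v₀)|² ≤ C δ² H` on the step (its length is `≤ l² δ`).  `high_deriv` and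
`gronwall_sim` (`t_r / t_{r+1} = e^δ`, `∫ (-t)⁻¹ = δ`) give
`HQ(v t_{r+1}) ≤ e^{-7δ/5} (H - 2ηS + Cη²H) + M δ (3 S + C(η² + δ²) H)`; take `η = 7 M δ` and `δ` small. -/

set_option autoImplicit false
open Set Filter Topology
open scoped ContDiff

noncomputable section
namespace Crest.Agent.R213

lemma contr_ell {m : ℕ} {β : Fin m → ℝ → ℝ} {R : ℝ} (h : ∀ i, IsBump R (β i)) :
    ∃ C, 0 ≤ C ∧ ∀ l ∈ Ioc (0 : ℝ) 1, ∀ v, ∑ i, ell l (β i) v ^ 2 ≤ C * HQ l v := by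
  choose C hC0 hC using fun i => ell_sq_le (h i)
  refine ⟨∑ i, 4 * C i, Finset.sum_nonneg fun i _ => by linarith [hC0 i], fun l hl v => ?_⟩
  rw [Finset.sum_mul]
  refine Finset.sum_le_sum fun i _ => (hC i l hl v).trans ?_
  nlinarith [mul_le_mul_of_nonneg_left (le_HQ hl.1 v) (hC0 i)]

lemma contr_q {m : ℕ} {β : Fin m → ℝ → ℝ} {R : ℝ} (h : ∀ i, IsBump R (β i)) :
    ∃ C, 0 ≤ C ∧ ∀ l ∈ Ioc (0 : ℝ) 1, ∀ c : Fin m → ℝ,
      HQ l (∑ i, c i • pb l (β i)) ≤ C * ∑ i, c i ^ 2 := by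
  choose C hC0 hC using fun i => pb_N2 (h i) 13 0
  have hS : 0 ≤ ∑ i, C i := Finset.sum_nonneg fun i _ => hC0 i
  refine ⟨m * ∑ i, C i, by positivity, fun l hl c => ?_⟩
  have hl0 := hl.1
  have h1 := N2_sum_le hl0 13 0 Finset.univ fun i => c i • pb l (β i)
  rw [N2_zero, Finset.card_univ, Fintype.card_fin] at h1
  refine (HQ_le hl0 _).trans ((mul_le_mul_of_nonneg_left h1 (by positivity)).trans ?_)
  rw [mul_left_comm, mul_assoc]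
  refine mul_le_mul_of_nonneg_left ?_ (Nat.cast_nonneg m)
  rw [Finset.mul_sum, Finset.mul_sum]
  refine Finset.sum_le_sum fun i _ => ?_
  have h2 : l ^ 3 * N2 l 13 0 (pb l (β i)) ≤ ∑ i, C i := by
    refine (mul_le_mul_of_nonneg_left (hC i l hl) (pow_pos hl0 3).le).trans (le_trans (le_of_eq ?_)
      (Finset.single_le_sum (f := C) (fun j _ => hC0 j) (Finset.mem_univ i)))
    rw [show (10 - 13 : ℤ) = -3 by norm_num, zpow_neg, zpow_ofNat]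
    field_simp
  rw [N2_smul, mul_left_comm, mul_comm]
  exact mul_le_mul_of_nonneg_right h2 (sq_nonneg _)

lemma contr_L {a b : ℝ → Sm} (hC : Coef a b) {m : ℕ} {β : Fin m → ℝ → ℝ} {R : ℝ}
    (h : ∀ i, IsBump R (β i)) : ∃ C, 0 ≤ C ∧ ∀ l ∈ Ioc (0 : ℝ) 1, ∀ l', 0 < l' → l' ≤ l →
      l ≤ 2 * l' → ∀ i v, l ^ 4 * ell l (β i) (Lop (a l') (b l') v) ^ 2 ≤ C * HQ l' v := by
  obtain ⟨Ca, hCa, ha⟩ := hC.sa 4
  obtain ⟨Cb, hCb, hb⟩ := hC.sb 0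
  choose C hC0 hC using fun i => ell_Lop (h i) (16 * Ca + 4 * Cb)
  have hS : 0 ≤ ∑ i, C i := Finset.sum_nonneg fun i _ => hC0 i
  refine ⟨32 * ∑ i, C i, by positivity, fun l hl l' h0 h1 h2 i v => ?_⟩
  have hl0 := hl.1
  have hl' : l' ∈ Ioc (0 : ℝ) 1 := ⟨h0, h1.trans hl.2⟩
  have a1 := ((ha l' hl').rescale h0 hl0 (by linarith) h2 hCa).mono_C hl0
    (C' := 16 * Ca + 4 * Cb) (by norm_num; linarith)
  have b1 := ((hb l' hl').rescale h0 hl0 (by linarith) h2 hCb).mono_C hl0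
    (C' := 16 * Ca + 4 * Cb) (by norm_num; linarith)
  have h3 := hC i l hl _ _ a1 b1 v
  have h4 : lev l 13 0 v ≤ lev l' 13 0 v := lev_anti_scale h0 h1 (by norm_num) v
  have h5 : l ^ 3 * lev l 13 0 v ≤ 32 * HQ l' v := by
    calc l ^ 3 * lev l 13 0 v ≤ (2 * l') ^ 3 * lev l' 13 0 v :=
          mul_le_mul (by gcongr) h4 (lev_nonneg hl0 _ _ _) (by positivity)
      _ = 8 * (l' ^ 3 * lev l' 13 0 v) := by ring
      _ ≤ _ := by linarith [le_HQ h0 v]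
  calc l ^ 4 * ell l (β i) (Lop (a l') (b l') v) ^ 2 ≤ l ^ 4 * (C i * l⁻¹ * lev l 13 0 v) :=
        mul_le_mul_of_nonneg_left h3 (by positivity)
    _ = C i * (l ^ 3 * lev l 13 0 v) := by field_simp
    _ ≤ (∑ i, C i) * (32 * HQ l' v) :=
        mul_le_mul (Finset.single_le_sum (fun j _ => hC0 j) (Finset.mem_univ i)) h5
          (mul_nonneg (by positivity) (lev_nonneg hl0 _ _ _)) hS
    _ = _ := by ring

lemma contr_mvt {f f' : ℝ → ℝ} {t₀ s c K : ℝ} (h : t₀ ≤ s)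
    (hf : ContinuousOn f (Icc t₀ s)) (hd : ∀ t ∈ Ioo t₀ s, HasDerivAt f (f' t) t)
    (hb : ∀ t ∈ Ioo t₀ s, c * f' t ^ 2 ≤ K) : c * (f s - f t₀) ^ 2 ≤ K * (s - t₀) ^ 2 := by
  rcases h.eq_or_lt with rfl | h
  · simp
  obtain ⟨t, ht, e⟩ := exists_hasDerivAt_eq_slope f f' h hf hd
  have : f s - f t₀ = f' t * (s - t₀) := by
    rw [e, div_mul_cancel₀ _ (sub_pos.2 h).ne']
  rw [this, mul_pow, ← mul_assoc]
  exact mul_le_mul_of_nonneg_right (hb t ht) (sq_nonneg _)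

lemma contr_HB (l : ℝ) (w : Sm) {m : ℕ} (c : Fin m → ℝ) (p : Fin m → Sm) :
    HB l w (∑ i, c i • p i) = ∑ i, c i * HB l w (p i) := by
  simp only [HB, Finset.mul_sum, map_sum, mul_smul_comm, map_smul, smul_eq_mul]
  exact Finset.sum_congr rfl fun i _ => by ring

lemma contr_HQ (l η : ℝ) (w q : Sm) :
    HQ l (w - η • q) = HQ l w - 2 * η * HB l w q + η ^ 2 * HQ l q := by
  simp only [HQ]
  rw [HB_sub, HB_smul, HB_comm l w, HB_comm l q, HB_sub, HB_sub, HB_smul, HB_smul, HB_comm l q w]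
  ring

lemma contr_exp {δ : ℝ} (h0 : 0 < δ) (h1 : δ ≤ 1 / 4) :
    1 / 2 ≤ Real.exp (-(7 / 5) * δ) ∧ Real.exp (-(7 / 5) * δ) ≤ 1 ∧
      Real.exp (-(7 / 5) * δ) + δ / 10 ≤ Real.exp (-(6 / 5) * δ) ∧ Real.exp δ - 1 ≤ 2 * δ := by
  have e1 : 1 / 2 ≤ Real.exp (-(7 / 5) * δ) := by
    linarith [Real.add_one_le_exp (-(7 / 5) * δ)]
  refine ⟨e1, Real.exp_le_one_iff.2 (by linarith), ?_, ?_⟩
  · rw [show -(6 / 5) * δ = -(7 / 5) * δ + δ / 5 by ring, Real.exp_add]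
    nlinarith [Real.add_one_le_exp (δ / 5)]
  · have := Real.abs_exp_sub_one_le (x := δ) (by rw [abs_of_pos h0]; linarith)
    rw [abs_of_pos h0] at this
    exact (le_abs_self _).trans this

lemma contr_fin {δ M C₁ C₂ S H H₀ : ℝ} (h0 : 0 < δ) (h1 : δ ≤ 1 / 4) (hM : 0 ≤ M) (hC₁ : 0 ≤ C₁)
    (hC₂ : 0 ≤ C₂) (h2 : (C₁ + 2 * M * C₂) * δ ≤ 1 / 10) (hS : 0 ≤ S) (hH : 0 ≤ H)
    (h3 : H₀ ≤ H - 12 * M * δ * S + C₁ * δ ^ 2 * H) :
    Real.exp (-(7 / 5) * δ) * H₀ + (Real.exp δ - 1) * (M * (3 * S + C₂ * δ ^ 2 * H)) ≤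
      Real.exp (-(6 / 5) * δ) * H := by
  obtain ⟨e1, e2, e3, e4⟩ := contr_exp h0 h1
  have r3 := mul_le_mul_of_nonneg_right e4 (show 0 ≤ M * (3 * S + C₂ * δ ^ 2 * H) by positivity)
  have r4 := mul_le_mul_of_nonneg_left h3 (Real.exp_pos (-(7 / 5) * δ)).le
  have r5 := mul_le_mul_of_nonneg_right e1 (show 0 ≤ 12 * M * δ * S by positivity)
  have r6 := mul_le_mul_of_nonneg_right e2 (show 0 ≤ C₁ * δ ^ 2 * H by positivity)
  have r7 := mul_le_mul_of_nonneg_right e3 hH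
  have r8 := mul_le_mul_of_nonneg_right h2 (show 0 ≤ δ * H by positivity)
  have r9 : 2 * M * C₂ * δ ^ 2 * H * δ ≤ 2 * M * C₂ * δ ^ 2 * H * 1 :=
    mul_le_mul_of_nonneg_left (by linarith) (by positivity)
  linarith

lemma contr_three {x y z K : ℝ} (h : (z - (x - y)) ^ 2 ≤ K) :
    z ^ 2 ≤ 3 * x ^ 2 + 3 * y ^ 2 + 3 * K := by
  nlinarith [sq_nonneg (x + y), sq_nonneg (z - (x - y) - x), sq_nonneg (z - (x - y) + y)]

lemma contr_tr {δ : ℝ} (r : ℕ) : tr δ r = Real.exp δ * tr δ (r + 1) ∧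
    tr δ (r + 1) - tr δ r ≤ δ * lr δ r ^ 2 := by
  have hsq : lr δ r ^ 2 = -tr δ r := by rw [← lam_tr, lam_sq (tr_neg δ r).le]
  have hq : tr δ r = Real.exp δ * tr δ (r + 1) := by
    simp only [tr, mul_neg, ← Real.exp_add]
    congr 2
    push_cast
    ring
  refine ⟨hq, ?_⟩
  have h3 : tr δ (r + 1) = Real.exp (-δ) * tr δ r := by
    rw [hq, ← mul_assoc, ← Real.exp_add, neg_add_cancel, Real.exp_zero, one_mul]
  rw [hsq, h3]
  nlinarith [Real.add_one_le_exp (-δ), tr_neg δ r]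

lemma contr_delta {K : ℝ} (hK : 0 ≤ K) : ∃ δ : ℝ, 0 < δ ∧ δ ≤ 1 / 4 ∧ K * δ ≤ 1 / 10 := by
  refine ⟨1 / (10 * (K + 1)), by positivity, one_div_le_one_div_of_le (by norm_num) (by linarith), ?_⟩
  rw [mul_one_div, div_le_div_iff₀ (by positivity) (by norm_num)]
  linarith

theorem contraction {a b : ℝ → Sm} (hC : Coef a b) : ∃ δ ∈ Ioc (0 : ℝ) 1, ∃ η : ℝ,
    ∃ (m : ℕ) (β : Fin m → ℝ → ℝ) (R : ℝ), 0 < R ∧ (∀ i, IsBump R (β i)) ∧
    ∀ r : ℕ, R * lr δ r ≤ 1 / 16 → ∀ w v,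
      Sol (fun t => a (lam t)) (fun t => b (lam t)) (fun _ => 0) (tr δ r) (tr δ (r + 1)) v →
      v (tr δ r) = w - ∑ i, (η * ell (lr δ r) (β i) w) • pb (lr δ r) (β i) →
      HQ (lr δ (r + 1)) (v (tr δ (r + 1))) ≤ Real.exp (-(6 / 5) * δ) * HQ (lr δ r) w := by
  obtain ⟨m, β, R, M, hR, hM, hβ, hD⟩ := high_deriv hC
  obtain ⟨Ce, hCe, ke⟩ := contr_ell hβ
  obtain ⟨Cq, hCq, kq⟩ := contr_q hβ
  obtain ⟨CL, hCL, kL⟩ := contr_L hC hβ
  obtain ⟨Cc, hCc, kc⟩ := high_crude hC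
  obtain ⟨C₁, hC₁⟩ : ∃ C₁, C₁ = 36 * M ^ 2 * (Cq * Ce) := ⟨_, rfl⟩
  obtain ⟨C₂, hC₂⟩ : ∃ C₂, C₂ = 3 * (Ce * C₁) + 3 * (m * (CL * Cc * (1 + C₁))) := ⟨_, rfl⟩
  have hC₁0 : 0 ≤ C₁ := by rw [hC₁]; positivity
  have hC₂0 : 0 ≤ C₂ := by rw [hC₂]; positivity
  obtain ⟨δ, h0, h1, h2⟩ := contr_delta (K := C₁ + 2 * M * C₂) (by positivity)
  have e2 := (contr_exp h0 h1).2.1
  refine ⟨δ, ⟨h0, by linarith⟩, 6 * M * δ, m, β, R, hR, hβ, fun r hr w v hv hw => ?_⟩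
  have hl := lr_mem h0.le r
  have hl2 := lr_le_two (δ := δ) (by linarith) r
  have ht : tr δ r ≤ tr δ (r + 1) := tr_mono h0.le (Nat.le_succ r)
  have ht0 := neg_one_le_tr h0.le r
  have ht1 := tr_neg δ (r + 1)
  obtain ⟨hq, hlen⟩ := contr_tr (δ := δ) r
  rw [← lam_tr δ (r + 1)]
  rw [← lam_tr δ (r + 1)] at hl2
  have hlam := lam_tr δ r
  generalize tr δ (r + 1) = t₁ at *
  generalize tr δ r = t₀ at *
  generalize lr δ r = l at *
  have hl0 := hl.1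
  have hs1 : ∀ s ∈ Icc t₀ t₁, s < 0 ∧ lam s ≤ l ∧ l ≤ 2 * lam s := fun s hs =>
    ⟨hs.2.trans_lt ht1, hlam ▸ lam_anti hs.1, by linarith [lam_anti hs.2]⟩
  set q := ∑ i, ell l (β i) w • pb l (β i) with hqd
  set S := ∑ i, ell l (β i) w ^ 2 with hS
  set H := HQ l w with hH
  have hH0 : 0 ≤ H := HQ_nonneg hl0 w
  have hS0 : 0 ≤ S := Finset.sum_nonneg fun i _ => sq_nonneg _
  have hw' : v t₀ = w - (6 * M * δ) • q := by
    rw [hw, hqd, Finset.smul_sum]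
    simp only [mul_smul]
  have q1 : HB l w q = S := by
    rw [hqd, contr_HB]
    exact Finset.sum_congr rfl fun i _ => by rw [← ell_eq_HB (hβ i) hl0 hr, sq]
  have q2 : (6 * M * δ) ^ 2 * HQ l q ≤ C₁ * δ ^ 2 * H := by
    have := (kq l hl _).trans (mul_le_mul_of_nonneg_left (ke l hl w) hCq)
    calc (6 * M * δ) ^ 2 * HQ l q ≤ (6 * M * δ) ^ 2 * (Cq * (Ce * H)) :=
          mul_le_mul_of_nonneg_left this (sq_nonneg _)
      _ = _ := by rw [hC₁]; ring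
  have q3 : HQ l (v t₀) ≤ H - 12 * M * δ * S + C₁ * δ ^ 2 * H := by
    rw [hw', contr_HQ, q1]
    linarith
  clear_value q S H
  have hδ2 : δ ^ 2 ≤ 1 := by nlinarith
  have q4 : HQ l (v t₀) ≤ (1 + C₁) * H := by
    have a1 : 0 ≤ 12 * M * δ * S := by positivity
    have a2 : C₁ * δ ^ 2 * H ≤ C₁ * 1 * H := by gcongr
    linarith
  have q5 : ∀ s ∈ Icc t₀ t₁, HQ (lam s) (v s) ≤ Cc * ((1 + C₁) * H) := fun s hs => by
    have := kc t₀ s ht0 hs.1 (hs1 s hs).1 (hlam ▸ (hs1 s hs).2.2) _ v (CC.const 0)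
      (hv.mono le_rfl hs.2)
    simp only [lev_zero, intervalIntegral.integral_zero, mul_zero, add_zero, hlam] at this
    exact this.trans (mul_le_mul_of_nonneg_left q4 hCc)
  have hd : ∀ t ∈ Ioo t₀ t₁, CD v (Lop (a (lam t)) (b (lam t)) (v t)) t := fun t ht =>
    (hv.2 t ht).congr_deriv (add_zero _)
  have q6 : ∀ s ∈ Icc t₀ t₁, ∀ i, (ell l (β i) (v s) - ell l (β i) (v t₀)) ^ 2 ≤
      CL * Cc * (1 + C₁) * δ ^ 2 * H := fun s hs i => by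
    have a1 := contr_mvt (f := fun t => ell l (β i) (v t))
      (f' := fun t => ell l (β i) (Lop (a (lam t)) (b (lam t)) (v t))) (c := l ^ 4)
      (K := CL * (Cc * ((1 + C₁) * H))) hs.1
      ((hv.1.ell l (β i)).mono (Icc_subset_Icc_right hs.2))
      (fun t ht => (hd t ⟨ht.1, ht.2.trans_le hs.2⟩).ell l (β i)) fun t ht => by
        have ht' : t ∈ Icc t₀ t₁ := ⟨ht.1.le, ht.2.le.trans hs.2⟩
        exact (kL l hl _ (lam_pos (hs1 t ht').1) (hs1 t ht').2.1 (hs1 t ht').2.2 i _).trans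
          (mul_le_mul_of_nonneg_left (q5 t ht') hCL)
    have a2 : (s - t₀) ^ 2 ≤ (δ * l ^ 2) ^ 2 :=
      pow_le_pow_left₀ (sub_nonneg.2 hs.1) (by linarith [hs.2]) 2
    refine le_of_mul_le_mul_left (a1.trans ?_) (pow_pos hl0 4)
    calc CL * (Cc * ((1 + C₁) * H)) * (s - t₀) ^ 2 ≤ CL * (Cc * ((1 + C₁) * H)) * (δ * l ^ 2) ^ 2 :=
          mul_le_mul_of_nonneg_left a2 (by positivity)
      _ = _ := by ring
  have q7 : ∀ s ∈ Icc t₀ t₁, ∑ i, ell l (β i) (v s) ^ 2 ≤ 3 * S + C₂ * δ ^ 2 * H := fun s hs => by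
    have a1 : ∑ i, ell l (β i) (v s) ^ 2 ≤ ∑ i, (3 * ell l (β i) w ^ 2 +
        3 * ((6 * M * δ) ^ 2 * ell l (β i) q ^ 2) + 3 * (CL * Cc * (1 + C₁) * δ ^ 2 * H)) := by
      refine Finset.sum_le_sum fun i _ => ?_
      have b1 := q6 s hs i
      rw [hw', map_sub, map_smul, smul_eq_mul] at b1
      rw [← mul_pow]
      exact contr_three b1
    rw [Finset.sum_add_distrib, Finset.sum_add_distrib, ← Finset.mul_sum, ← Finset.mul_sum,
      ← Finset.mul_sum, Finset.sum_const, Finset.card_univ, Fintype.card_fin, nsmul_eq_mul] at a1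
    have a2 : (6 * M * δ) ^ 2 * ∑ i, ell l (β i) q ^ 2 ≤ Ce * (C₁ * δ ^ 2 * H) := by
      calc (6 * M * δ) ^ 2 * ∑ i, ell l (β i) q ^ 2 ≤ (6 * M * δ) ^ 2 * (Ce * HQ l q) :=
            mul_le_mul_of_nonneg_left (ke l hl q) (sq_nonneg _)
        _ = Ce * ((6 * M * δ) ^ 2 * HQ l q) := by ring
        _ ≤ _ := mul_le_mul_of_nonneg_left q2 hCe
    rw [hC₂]
    linarith
  have hB : 0 ≤ 3 * S + C₂ * δ ^ 2 * H := by positivity
  have ht1' : 0 < -t₁ := by linarith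
  have g := gronwall_sim (f := fun s => HQ (lam s) (v s))
    (g := fun _ => M * (-t₁)⁻¹ * (3 * S + C₂ * δ ^ 2 * H)) (p := -(7 / 5)) ht ht1
    (hv.1.HQ fun s hs => (hs1 s hs).1) continuousOn_const (fun _ _ => by positivity)
    fun t ht => by
      have ht' : t ∈ Icc t₀ t₁ := Ioo_subset_Icc_self ht
      obtain ⟨H', d1, d2⟩ := hD l hl hr t (hs1 t ht').1 (hs1 t ht').2.1 (hs1 t ht').2.2 v (hd t ht)
      refine ⟨H', d1, d2.trans (add_le_add le_rfl ?_)⟩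
      exact mul_le_mul (mul_le_mul_of_nonneg_left (inv_anti₀ ht1' (by linarith [ht.2])) hM)
        (q7 t ht') (Finset.sum_nonneg fun i _ => sq_nonneg _) (by positivity)
  have r1 : (t₀ / t₁) ^ (-(7 / 5) : ℝ) = Real.exp (-(7 / 5) * δ) := by
    rw [hq, mul_div_cancel_right₀ _ ht1.ne, ← Real.exp_mul, mul_comm]
  have r2 : (t₁ - t₀) * (-t₁)⁻¹ = Real.exp δ - 1 := by
    rw [hq]
    field_simp [ht1.ne]
    ring
  rw [r1, max_eq_left e2, one_mul, intervalIntegral.integral_const, smul_eq_mul, hlam] at g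
  refine g.trans ?_
  rw [mul_assoc M, mul_left_comm M, ← mul_assoc (t₁ - t₀), r2]
  exact contr_fin h0 h1 hM hC₁0 hC₂0 h2 hS0 hH0 q3

end Crest.Agent.R213
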