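import Crest.Agent.R213.Cut
import Crest.Agent.R213.Alg

/-! # Row 213, calculus of curves in `Sm` (`jet_mul`, `jet_succ`, Banach algebra `C(I,ℝ)`) -/

set_option autoImplicit false
open Set Filter Topology
open scoped ContDiff

noncomputable section
namespace Crest.Agent.R213

lemma cv_jet_Dpow (j i : ℕ) (f : Sm) : jet j ((D ^ i) f) = jet (j + i) f := by
  rw [jet_def, jet_def, Dpow_add]

lemma cv_scl {κ : ℝ} (hκ : κ ∈ I) (j : ℕ) :
    ∃ L : C(I, ℝ) →L[ℝ] C(I, ℝ), ∀ f, jet j (scl κ f) = L (jet j f) := by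
  refine ⟨κ ^ j • ContinuousMap.compCLM ℝ ℝ
    ⟨fun x : I => ⟨κ * x, mul_nonneg hκ.1 x.2.1, mul_le_one₀ hκ.2 x.2.1 x.2.2⟩, by fun_prop⟩,
    fun f => ?_⟩
  ext x
  rw [jet_apply, Dpow_scl hκ, ev_smul, ev_scl hκ _ x.2]
  exact congrArg (κ ^ j * ·)
    (jet_apply j f ⟨κ * x, mul_nonneg hκ.1 x.2.1, mul_le_one₀ hκ.2 x.2.1 x.2.2⟩).symm

section CK
variable {n : WithTop ℕ∞} {J : Set ℝ} {u v : ℝ → Sm}
lemma CK.const (f : Sm) : CK n J fun _ => f := fun _ => contDiffOn_const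
lemma CK.add (hu : CK n J u) (hv : CK n J v) : CK n J fun t => u t + v t := fun j => by
  simp only [map_add]; exact (hu j).add (hv j)
lemma CK.neg (hu : CK n J u) : CK n J fun t => -u t := fun j => by
  simp only [map_neg]; exact (hu j).neg
lemma CK.sub (hu : CK n J u) (hv : CK n J v) : CK n J fun t => u t - v t := fun j => by
  simp only [map_sub]; exact (hu j).sub (hv j)
lemma CK.mul (hu : CK n J u) (hv : CK n J v) : CK n J fun t => u t * v t := fun j => by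
  simp only [jet_mul]
  exact ContDiffOn.sum fun i _ => ((hu i).mul (hv _)).const_smul _
lemma CK.pow (hu : CK n J u) (k : ℕ) : CK n J fun t => u t ^ k := by
  induction k with
  | zero => simpa using CK.const 1
  | succ k ih => simpa only [pow_succ] using ih.mul hu
lemma CK.smul {c : ℝ → ℝ} (hc : ContDiffOn ℝ n c J) (hu : CK n J u) : CK n J fun t => c t • u t := fun j => by
  simp only [map_smul]; exact hc.smul (hu j)
lemma CK.D (hu : CK n J u) : CK n J fun t => D (u t) := fun j => by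
  simp only [← jet_succ]; exact hu _
lemma CK.Dpow (hu : CK n J u) (i : ℕ) : CK n J fun t => (R213.D ^ i) (u t) := fun j => by
  simp only [cv_jet_Dpow]; exact hu _
lemma CK.dl (hu : CK n J u) (m : ℕ) : CK n J fun t => dl m (u t) :=
  ((CK.const ph).mul hu.D).add ((CK.const (pm m)).mul hu)
lemma CK.T (hu : CK n J u) (m : ℕ) : CK n J fun t => T m (u t) := (hu.dl (m + 1)).dl m
lemma CK.That (hu : CK n J u) : CK n J fun t => That (u t) :=
  (((CK.const 110).mul hu).add ((CK.const (22 * X)).mul hu.D)).add ((CK.const (X ^ 2)).mul hu.D.D)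
lemma CK.A0 (hu : CK n J u) : CK n J fun t => A0 (u t) := (hu.T 0).D.D
lemma CK.Lop {a b : ℝ → Sm} (ha : CK n J a) (hb : CK n J b) (hu : CK n J u) :
    CK n J fun t => Lop (a t) (b t) (u t) := (ha.mul hu.A0).neg.add (hb.mul hu)
lemma CK.NL {q G : ℝ → Sm} (hq : CK n J q) (hG : CK n J G) (hu : CK n J u) :
    CK n J fun t => NL (q t) (G t) (u t) :=
  ((((((CK.const 2).mul hq).mul (CK.const ph)).mul hu).sub ((CK.const (ph ^ 2)).mul (hu.pow 2))).mul
    hu.A0).sub (((CK.const (ph ^ 2)).mul (hu.pow 2)).mul hG)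
lemma CK.mono {J' : Set ℝ} (hu : CK n J u) (h : J' ⊆ J) : CK n J' u := fun j => (hu j).mono h
lemma CK.of_le {m : WithTop ℕ∞} (hu : CK n J u) (h : m ≤ n) : CK m J u := fun j => (hu j).of_le h
lemma CK.congr (hu : CK n J u) (h : ∀ t ∈ J, v t = u t) : CK n J v := fun j =>
  (hu j).congr fun t ht => by rw [h t ht]
lemma CK.cc (hu : CK n J u) : CC J u := fun j => (hu j).continuousOn
lemma ck_zero_iff : CK 0 J u ↔ CC J u := forall_congr' fun _ => contDiffOn_zero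
lemma ck_infty_iff : CK ∞ J u ↔ ∀ m : ℕ, CK m J u :=
  ⟨fun h m j => contDiffOn_infty.1 (h j) m, fun h j => contDiffOn_infty.2 fun m => h m j⟩
lemma CK.ev (hu : CK n J u) (x : ℝ) : ContDiffOn ℝ n (fun t => ev (u t) x) J := by
  simp only [ev_eq_jet]
  exact (ContinuousMap.evalCLM ℝ (Set.projIcc 0 1 zero_le_one x)).contDiff.comp_contDiffOn (hu 0)
lemma CK.Ii (hu : CK n J u) : ContDiffOn ℝ n (fun t => Ii (u t)) J :=
  IiC.contDiff.comp_contDiffOn (hu 0)
lemma CK.comp {J' : Set ℝ} {φ : ℝ → ℝ} (hu : CK n J u) (hφ : ContDiffOn ℝ n φ J') (h : MapsTo φ J' J) :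
    CK n J' fun t => u (φ t) := fun j => (hu j).comp hφ h
/-- bootstrap -/
lemma CK.succ_of_CD {m : ℕ} {w : ℝ → Sm} (hJ : IsOpen J) (hd : ∀ t ∈ J, CD v (w t) t) (hw : CK m J w) :
    CK (m + 1 : ℕ) J v := fun j => by
  push_cast
  exact (contDiffOn_succ_iff_deriv_of_isOpen hJ).2
    ⟨fun t ht => (hd t ht j).differentiableAt.differentiableWithinAt, by simp,
      (hw j).congr fun t ht => (hd t ht j).deriv⟩
end CK

section CC
variable {J : Set ℝ} {u v : ℝ → Sm}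
lemma CC.const (f : Sm) : CC J fun _ => f := fun _ => continuousOn_const
lemma CC.add (hu : CC J u) (hv : CC J v) : CC J fun t => u t + v t :=
  ((ck_zero_iff.2 hu).add (ck_zero_iff.2 hv)).cc
lemma CC.neg (hu : CC J u) : CC J fun t => -u t := (ck_zero_iff.2 hu).neg.cc
lemma CC.sub (hu : CC J u) (hv : CC J v) : CC J fun t => u t - v t :=
  ((ck_zero_iff.2 hu).sub (ck_zero_iff.2 hv)).cc
lemma CC.mul (hu : CC J u) (hv : CC J v) : CC J fun t => u t * v t :=
  ((ck_zero_iff.2 hu).mul (ck_zero_iff.2 hv)).cc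
lemma CC.pow (hu : CC J u) (k : ℕ) : CC J fun t => u t ^ k := ((ck_zero_iff.2 hu).pow k).cc
lemma CC.smul {c : ℝ → ℝ} (hc : ContinuousOn c J) (hu : CC J u) : CC J fun t => c t • u t :=
  ((ck_zero_iff.2 hu).smul (contDiffOn_zero.2 hc)).cc
lemma CC.sum {ι : Type*} (s : Finset ι) {u : ι → ℝ → Sm} (hu : ∀ i ∈ s, CC J (u i)) :
    CC J fun t => ∑ i ∈ s, u i t := fun j => by
  simp only [map_sum]; exact continuousOn_finsetSum _ fun i hi => hu i hi j
lemma CC.D (hu : CC J u) : CC J fun t => D (u t) := (ck_zero_iff.2 hu).D.cc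
lemma CC.Dpow (hu : CC J u) (i : ℕ) : CC J fun t => (R213.D ^ i) (u t) :=
  ((ck_zero_iff.2 hu).Dpow i).cc
lemma CC.T (hu : CC J u) (m : ℕ) : CC J fun t => T m (u t) := ((ck_zero_iff.2 hu).T m).cc
lemma CC.A0 (hu : CC J u) : CC J fun t => A0 (u t) := (ck_zero_iff.2 hu).A0.cc
lemma CC.Lop {a b : ℝ → Sm} (ha : CC J a) (hb : CC J b) (hu : CC J u) :
    CC J fun t => Lop (a t) (b t) (u t) :=
  ((ck_zero_iff.2 ha).Lop (ck_zero_iff.2 hb) (ck_zero_iff.2 hu)).cc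
lemma CC.NL {q G : ℝ → Sm} (hq : CC J q) (hG : CC J G) (hu : CC J u) :
    CC J fun t => NL (q t) (G t) (u t) :=
  ((ck_zero_iff.2 hq).NL (ck_zero_iff.2 hG) (ck_zero_iff.2 hu)).cc
lemma CC.mono {J' : Set ℝ} (hu : CC J u) (h : J' ⊆ J) : CC J' u := fun j => (hu j).mono h
lemma CC.congr (hu : CC J u) (h : ∀ t ∈ J, v t = u t) : CC J v := fun j =>
  (hu j).congr fun t ht => by simp only [h t ht]
lemma CC.ev (hu : CC J u) (x : ℝ) : ContinuousOn (fun t => ev (u t) x) J :=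
  ((ck_zero_iff.2 hu).ev x).continuousOn
lemma CC.Ii (hu : CC J u) : ContinuousOn (fun t => Ii (u t)) J := (ck_zero_iff.2 hu).Ii.continuousOn
lemma CC.comp {J' : Set ℝ} {φ : ℝ → ℝ} (hu : CC J u) (hφ : ContinuousOn φ J') (h : MapsTo φ J' J) :
    CC J' fun t => u (φ t) := fun j => (hu j).comp hφ h
/-- (`jet j (scl κ f) = κ^j • (jet j f ∘ (κ ·))`, a continuous linear map of `jet j f`; `Dpow_scl`) -/
lemma CC.scl (hu : CC J u) {κ : ℝ} (hκ : κ ∈ I) : CC J fun t => scl κ (u t) := fun j => by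
  obtain ⟨L, hL⟩ := cv_scl hκ j
  simp only [hL]
  exact L.continuous.comp_continuousOn (hu j)
lemma CC.Xi (hu : CC J u) {κ : ℝ} (hκ : κ ∈ I) : CC J fun t => Xi κ (u t) :=
  ((CC.const kap1).mul (((CC.const ((1 - X) ^ 2)).mul hu).scl hκ)).smul (c := fun _ => κ)
    continuousOn_const
/-- on a compact time interval a continuous curve is uniformly a symbol at scale `1` -/
lemma CC.symb (hu : CC J u) (hJ : IsCompact J) (s : ℤ) (K : ℕ) :
    ∃ C, 0 ≤ C ∧ ∀ t ∈ J, Symb 1 s K C (u t) := by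
  choose B hB using fun j => hJ.exists_bound_of_continuousOn (hu j)
  choose B' hB' using fun i : ℕ => (isCompact_Icc (a := (0 : ℝ)) (b := 1)).exists_bound_of_continuousOn
    (f := fun x : ℝ => ((x + 1) ^ (s - (i : ℤ)))⁻¹) (by
      refine ContinuousOn.inv₀ ?_ fun x hx => by have := hx.1; positivity
      exact ContinuousOn.zpow₀ (by fun_prop) _ fun x hx => Or.inl (by have := hx.1; positivity))
  refine ⟨∑ i ∈ Finset.range (K + 1), |B i| * |B' i|, by positivity, fun t ht i hi x hx => ?_⟩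
  have h0 : 0 < (x + 1) ^ (s - (i : ℤ)) := by have := hx.1; positivity
  have h1 : |R213.ev ((R213.D ^ i) (u t)) x| ≤ |B i| :=
    (abs_ev_le_jet i _ hx).trans ((hB i t ht).trans (le_abs_self _))
  have h2 : 1 ≤ |B' i| * (x + 1) ^ (s - (i : ℤ)) := by
    rw [← inv_le_iff_one_le_mul₀ h0]
    exact (le_abs_self _).trans ((hB' i x hx).trans (le_abs_self _))
  have h3 : |B i| * |B' i| ≤ ∑ i ∈ Finset.range (K + 1), |B i| * |B' i| :=
    Finset.single_le_sum (f := fun i => |B i| * |B' i|) (fun _ _ => by positivity)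
      (Finset.mem_range.2 (Nat.lt_succ_of_le hi))
  calc _ ≤ |B i| * (|B' i| * (x + 1) ^ (s - (i : ℤ))) :=
        h1.trans (le_mul_of_one_le_right (abs_nonneg _) h2)
    _ ≤ _ := by rw [← mul_assoc]; gcongr
lemma CC.jet_bound (hu : CC J u) (hJ : IsCompact J) (j : ℕ) : ∃ B, ∀ t ∈ J, ‖jet j (u t)‖ ≤ B :=
  hJ.exists_bound_of_continuousOn (hu j)
lemma CC.N2_bound (hu : CC J u) (hJ : IsCompact J) (e : ℤ) (k : ℕ) :
    ∃ B, ∀ t ∈ J, N2 1 e k (u t) ≤ B := by
  obtain ⟨C, hC, h⟩ := N2_le_jet e k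
  choose B hB using fun j => hu.jet_bound hJ j
  refine ⟨C * ∑ j ∈ Finset.range (k + 1), B j ^ 2, fun t ht => (h _).trans ?_⟩
  gcongr with j
  exact hB j t ht
lemma CC.pos (hu : CC J u) (hJ : IsCompact J) (h : ∀ t ∈ J, ∀ x ∈ I, 0 < R213.ev (u t) x) :
    ∃ a₀ > (0 : ℝ), ∀ t ∈ J, ∀ x ∈ I, a₀ ≤ R213.ev (u t) x := by
  have h1 : ContinuousOn (fun p : ℝ × I => jet 0 (u p.1) p.2) (J ×ˢ univ) :=
    ContinuousOn.eval ((hu 0).comp continuousOn_fst fun p hp => hp.1) continuousOn_snd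
  obtain ⟨a, ha, h2⟩ := (hJ.prod isCompact_univ).exists_forall_le' h1 (a := 0) fun p hp => by
    rw [jet_apply]; exact h _ hp.1 _ p.2.2
  refine ⟨a, ha, fun t ht x hx => ?_⟩
  have := h2 (t, ⟨x, hx⟩) ⟨ht, mem_univ _⟩
  rwa [jet_apply] at this
end CC

section CD
variable {u v : ℝ → Sm} {u' v' : Sm} {t : ℝ}
lemma CD.const (f : Sm) : CD (fun _ => f) 0 t := fun j => by
  simpa using hasDerivAt_const t (jet j f)
lemma CD.add (hu : CD u u' t) (hv : CD v v' t) : CD (fun s => u s + v s) (u' + v') t := fun j => by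
  simp only [map_add]; exact (hu j).add (hv j)
lemma CD.neg (hu : CD u u' t) : CD (fun s => -u s) (-u') t := fun j => by
  simp only [map_neg]; exact (hu j).neg
lemma CD.sub (hu : CD u u' t) (hv : CD v v' t) : CD (fun s => u s - v s) (u' - v') t := fun j => by
  simp only [map_sub]; exact (hu j).sub (hv j)
lemma CD.mul (hu : CD u u' t) (hv : CD v v' t) : CD (fun s => u s * v s) (u' * v t + u t * v') t :=
  fun j => by
  simp only [map_add, jet_mul, ← Finset.sum_add_distrib, ← smul_add]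
  exact HasDerivAt.fun_sum fun i _ => ((hu i).fun_mul (hv (j - i))).fun_const_smul _
lemma CD.const_mul (hu : CD u u' t) (f : Sm) : CD (fun s => f * u s) (f * u') t := by
  simpa using (CD.const f).mul hu
lemma CD.smul {c : ℝ → ℝ} {c' : ℝ} (hc : HasDerivAt c c' t) (hu : CD u u' t) :
    CD (fun s => c s • u s) (c' • u t + c t • u') t := fun j => by
  simp only [map_add, map_smul, add_comm (c' • _)]; exact hc.smul (hu j)
lemma CD.const_smul (hu : CD u u' t) (c : ℝ) : CD (fun s => c • u s) (c • u') t := fun j => by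
  simp only [map_smul]; exact (hu j).const_smul c
lemma CD.sum {ι : Type*} (s : Finset ι) {u : ι → ℝ → Sm} {u' : ι → Sm} (hu : ∀ i ∈ s, CD (u i) (u' i) t) :
    CD (fun τ => ∑ i ∈ s, u i τ) (∑ i ∈ s, u' i) t := fun j => by
  simp only [map_sum]; exact HasDerivAt.fun_sum fun i hi => hu i hi j
lemma CD.D (hu : CD u u' t) : CD (fun s => D (u s)) (D u') t := fun j => by
  simp only [← jet_succ]; exact hu _
lemma CD.Dpow (hu : CD u u' t) (i : ℕ) : CD (fun s => (R213.D ^ i) (u s)) ((R213.D ^ i) u') t :=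
  fun j => by
  simp only [cv_jet_Dpow]; exact hu _
lemma CD.congr (hu : CD u u' t) (h : v =ᶠ[𝓝 t] u) : CD v u' t := fun j =>
  (hu j).congr_of_eventuallyEq (h.mono fun s hs => by simp only [hs])
lemma CD.congr_deriv (hu : CD u u' t) (h : u' = v') : CD u v' t := h ▸ hu
lemma CD.unique (h : CD u u' t) (h' : CD u v' t) : u' = v' := val_injective ((h 0).unique (h' 0))
lemma CD.ev (hu : CD u u' t) (x : ℝ) : HasDerivAt (fun s => ev (u s) x) (ev u' x) t := by
  simp only [ev_eq_jet]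
  exact (ContinuousMap.evalCLM ℝ (Set.projIcc 0 1 zero_le_one x)).hasFDerivAt.comp_hasDerivAt t (hu 0)
lemma CD.Ii (hu : CD u u' t) : HasDerivAt (fun s => Ii (u s)) (Ii u') t :=
  IiC.hasFDerivAt.comp_hasDerivAt t (hu 0)
lemma CD.ell (hu : CD u u' t) (l : ℝ) (β : ℝ → ℝ) :
    HasDerivAt (fun s => ell l β (u s)) (ell l β u') t := (hu.const_mul _).Ii
lemma CD.comp {φ : ℝ → ℝ} {φ' : ℝ} (hu : CD u u' (φ t)) (hφ : HasDerivAt φ φ' t) :
    CD (fun s => u (φ s)) (φ' • u') t := fun j => by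
  rw [map_smul]; exact (hu j).scomp t hφ
lemma CD.scl (hu : CD u u' t) {κ : ℝ} (hκ : κ ∈ I) : CD (fun s => scl κ (u s)) (scl κ u') t :=
  fun j => by
  obtain ⟨L, hL⟩ := cv_scl hκ j
  simp only [hL]
  exact L.hasFDerivAt.comp_hasDerivAt t (hu j)
lemma CD.Xi (hu : CD u u' t) {κ : ℝ} (hκ : κ ∈ I) : CD (fun s => Xi κ (u s)) (Xi κ u') t :=
  (((hu.const_mul ((1 - X) ^ 2)).scl hκ).const_mul kap1).const_smul κ
lemma cc_of_cd {J : Set ℝ} {w : ℝ → Sm} (h : ∀ t ∈ J, CD u (w t) t) : CC J u := fun j t ht =>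
  (h t ht j).continuousAt.continuousWithinAt
end CD

section Sol
variable {a b F F' u v : ℝ → Sm} {t₀ t₁ : ℝ}
lemma Lop_add (a b u v : Sm) : Lop a b (u + v) = Lop a b u + Lop a b v := by
  simp only [Lop, map_add]; ring
lemma Lop_sub (a b u v : Sm) : Lop a b (u - v) = Lop a b u - Lop a b v := by
  simp only [Lop, map_sub]; ring
lemma Lop_smul (a b : Sm) (c : ℝ) (v : Sm) : Lop a b (c • v) = c • Lop a b v := by
  simp only [Lop, map_smul, mul_smul_comm, smul_add, smul_neg]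
lemma Sol.add (hu : Sol a b F t₀ t₁ u) (hv : Sol a b F' t₀ t₁ v) :
    Sol a b (fun t => F t + F' t) t₀ t₁ fun t => u t + v t :=
  ⟨hu.1.add hv.1, fun t ht => ((hu.2 t ht).add (hv.2 t ht)).congr_deriv (by rw [Lop_add]; ring)⟩
lemma Sol.sub (hu : Sol a b F t₀ t₁ u) (hv : Sol a b F' t₀ t₁ v) :
    Sol a b (fun t => F t - F' t) t₀ t₁ fun t => u t - v t :=
  ⟨hu.1.sub hv.1, fun t ht => ((hu.2 t ht).sub (hv.2 t ht)).congr_deriv (by rw [Lop_sub]; ring)⟩
lemma Sol.smul (hu : Sol a b F t₀ t₁ u) (c : ℝ) : Sol a b (fun t => c • F t) t₀ t₁ fun t => c • u t :=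
  ⟨hu.1.smul (c := fun _ => c) continuousOn_const,
    fun t ht => ((hu.2 t ht).const_smul c).congr_deriv (by rw [Lop_smul, smul_add])⟩
lemma Sol.congr_F (hu : Sol a b F t₀ t₁ u) (h : ∀ t ∈ Ioo t₀ t₁, F' t = F t) : Sol a b F' t₀ t₁ u :=
  ⟨hu.1, fun t ht => (hu.2 t ht).congr_deriv (by rw [h t ht])⟩
lemma Sol.mono (hu : Sol a b F t₀ t₁ u) {s₀ s₁ : ℝ} (h₀ : t₀ ≤ s₀) (h₁ : s₁ ≤ t₁) : Sol a b F s₀ s₁ u :=
  ⟨hu.1.mono (Icc_subset_Icc h₀ h₁), fun t ht => hu.2 t (Ioo_subset_Ioo h₀ h₁ ht)⟩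
lemma SolO.sol (hu : SolO a b F t₀ u) {s₀ s₁ : ℝ} (h₀ : t₀ ≤ s₀) (h₁ : s₁ < 0) : Sol a b F s₀ s₁ u :=
  ⟨hu.1.mono fun _ ht => ⟨h₀.trans ht.1, ht.2.trans_lt h₁⟩,
    fun t ht => hu.2 t (Ioo_subset_Ioo h₀ h₁.le ht)⟩
lemma SolO.add (hu : SolO a b F t₀ u) (hv : SolO a b F' t₀ v) :
    SolO a b (fun t => F t + F' t) t₀ fun t => u t + v t :=
  ⟨hu.1.add hv.1, fun t ht => ((hu.2 t ht).add (hv.2 t ht)).congr_deriv (by rw [Lop_add]; ring)⟩
lemma SolO.congr_F (hu : SolO a b F t₀ u) (h : ∀ t ∈ Ioo t₀ 0, F' t = F t) : SolO a b F' t₀ u :=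
  ⟨hu.1, fun t ht => (hu.2 t ht).congr_deriv (by rw [h t ht])⟩
end Sol

end Crest.Agent.R213
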