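import Crest.Agent.R213.Basic

/-! # Row 213, cutoffs, profiles, scalings, `EqOn0` -/

set_option autoImplicit false
open Set Filter Topology
open scoped ContDiff

noncomputable section
namespace Crest.Agent.R213

lemma cut_smooth (a : ℝ) : ContDiff ℝ ∞ fun x : ℝ => Real.smoothTransition (2 - a * x) :=
  Real.smoothTransition.contDiff.comp (contDiff_const.sub (contDiff_const.mul contDiff_id))

lemma cut_smooth_div {a : ℝ} (ha : 4 ≤ a) :
    ContDiffOn ℝ ∞ (fun x : ℝ => Real.smoothTransition (2 - a * x) / (1 - x) ^ 2) I := by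
  intro x _
  refine ContDiffAt.contDiffWithinAt ?_
  rcases lt_or_ge x 1 with h | h
  · exact (cut_smooth a).contDiffAt.div ((contDiff_const.sub contDiff_id).pow 2).contDiffAt
      (pow_ne_zero 2 (sub_pos.2 h).ne')
  · refine (contDiffAt_const (c := (0 : ℝ))).congr_of_eventuallyEq ?_
    filter_upwards [Ioi_mem_nhds (show (1 / 2 : ℝ) < x by linarith)] with y hy
    have hy' : 1 / 2 < y := hy
    rw [Real.smoothTransition.zero_of_nonpos (by nlinarith), zero_div]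

lemma cut_mul_div {a : ℝ} (ha : 4 ≤ a) (x : ℝ) :
    (1 - x) ^ 2 * (Real.smoothTransition (2 - a * x) / (1 - x) ^ 2) =
      Real.smoothTransition (2 - a * x) := by
  rcases eq_or_ne x 1 with rfl | h
  · rw [Real.smoothTransition.zero_of_nonpos (by linarith), zero_div, mul_zero]
  · exact mul_div_cancel₀ _ (pow_ne_zero 2 (sub_ne_zero.2 h.symm))

lemma cut_D {r : ℝ} {f g : Sm} (h : EqOn0 r f g) : EqOn0 r (D f) (D g) := fun x hx hr => by
  rw [ev_D f hx, ev_D g hx]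
  refine Filter.EventuallyEq.derivWithin_eq ?_ (h x hx hr)
  filter_upwards [self_mem_nhdsWithin, mem_nhdsWithin_of_mem_nhds (Iio_mem_nhds hr)] with y h1 h2
  exact h y h1 h2

lemma cut_Dpow {r : ℝ} {f g : Sm} (h : EqOn0 r f g) (i : ℕ) :
    EqOn0 r ((D ^ i) f) ((D ^ i) g) := by
  induction i with
  | zero => exact h
  | succ i ih =>
    rw [Dpow_succ, Dpow_succ]
    exact cut_D ih

lemma cut_mem {κ x : ℝ} (hκ : κ ∈ I) (hx : x ∈ I) : κ * x ∈ I :=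
  ⟨mul_nonneg hκ.1 hx.1, mul_le_one₀ hκ.2 hx.1 hx.2⟩

lemma cut_lev (l : ℝ) (v : Sm) : lev l 13 0 v = Ii (mu 2 * sp l (-13) * v ^ 2) := by
  rw [lev, wl, Dpow_zero, show ((0 : ℕ) : ℤ) - 13 = -13 by norm_num]

lemma cut_w_nonneg {l : ℝ} (hl : 0 < l) (v : Sm) {x : ℝ} (hx : x ∈ I) :
    0 ≤ ev (mu 2 * sp l (-13) * v ^ 2) x := by
  rw [ev_mul, ev_mul, ev_mu 2 hx, ev_sp hl _ hx, ev_pow]
  have := hx.1
  positivity

lemma ev_chi {x : ℝ} (hx : x ∈ I) : ev chi x = Real.smoothTransition (2 - 4 * x) :=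
  ev_mk0 (cut_smooth 4).contDiffOn hx
lemma ev_chi1 {x : ℝ} (hx : x ∈ I) : ev chi1 x = Real.smoothTransition (2 - 16 * x) :=
  ev_mk0 (cut_smooth 16).contDiffOn hx
/-- (smoothness of the quotient: near `x < 1` it is a quotient, near `x > 1/2` it is `0`) -/
lemma ev_kap {x : ℝ} (hx : x ∈ I) : ev kap x = Real.smoothTransition (2 - 4 * x) / (1 - x) ^ 2 :=
  ev_mk0 (cut_smooth_div le_rfl) hx
lemma ev_kap1 {x : ℝ} (hx : x ∈ I) :
    ev kap1 x = Real.smoothTransition (2 - 16 * x) / (1 - x) ^ 2 :=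
  ev_mk0 (cut_smooth_div (by norm_num)) hx
lemma kap_spec : (1 - X) ^ 2 * kap = chi :=
  Sm.ext' fun x hx => by
    rw [ev_mul, ev_pow, ev_sub, ev_one, ev_X hx, ev_kap hx, ev_chi hx, cut_mul_div le_rfl]
lemma kap1_spec : (1 - X) ^ 2 * kap1 = chi1 :=
  Sm.ext' fun x hx => by
    rw [ev_mul, ev_pow, ev_sub, ev_one, ev_X hx, ev_kap1 hx, ev_chi1 hx,
      cut_mul_div (by norm_num)]
lemma chi_mem {x : ℝ} (hx : x ∈ I) : ev chi x ∈ I := by
  rw [ev_chi hx]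
  exact ⟨Real.smoothTransition.nonneg _, Real.smoothTransition.le_one _⟩
lemma chi1_mem {x : ℝ} (hx : x ∈ I) : ev chi1 x ∈ I := by
  rw [ev_chi1 hx]
  exact ⟨Real.smoothTransition.nonneg _, Real.smoothTransition.le_one _⟩
lemma chi_one {x : ℝ} (hx : x ∈ I) (h : x ≤ 1 / 4) : ev chi x = 1 := by
  rw [ev_chi hx, Real.smoothTransition.one_of_one_le (by linarith)]
lemma chi_zero {x : ℝ} (hx : x ∈ I) (h : 1 / 2 ≤ x) : ev chi x = 0 := by
  rw [ev_chi hx, Real.smoothTransition.zero_of_nonpos (by linarith)]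
lemma chi1_one {x : ℝ} (hx : x ∈ I) (h : x ≤ 1 / 16) : ev chi1 x = 1 := by
  rw [ev_chi1 hx, Real.smoothTransition.one_of_one_le (by linarith)]
lemma chi1_zero {x : ℝ} (hx : x ∈ I) (h : 1 / 8 ≤ x) : ev chi1 x = 0 := by
  rw [ev_chi1 hx, Real.smoothTransition.zero_of_nonpos (by linarith)]
lemma kap1_zero {x : ℝ} (hx : x ∈ I) (h : 1 / 8 ≤ x) : ev kap1 x = 0 := by
  rw [ev_kap1 hx, Real.smoothTransition.zero_of_nonpos (by linarith), zero_div]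
lemma kap_zero {x : ℝ} (hx : x ∈ I) (h : 1 / 2 ≤ x) : ev kap x = 0 := by
  rw [ev_kap hx, Real.smoothTransition.zero_of_nonpos (by linarith), zero_div]
lemma ev_kap_zero : ev kap 0 = 1 := by
  rw [ev_kap ⟨le_rfl, zero_le_one⟩, Real.smoothTransition.one_of_one_le (by norm_num)]
  norm_num
lemma psi_mem {x : ℝ} (hx : x ∈ I) : ev psi x ∈ Icc (1 / 4 : ℝ) 1 := by
  have e : ev psi x = ev chi x * (1 - x) ^ 2 + (1 - ev chi x) := by simp [psi, hx]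
  obtain ⟨h0, h1⟩ := chi_mem hx
  have h2 : (1 - x) ^ 2 ≤ 1 := by nlinarith [hx.1, hx.2]
  rw [e]
  refine ⟨?_, by nlinarith⟩
  rcases le_total x (1 / 2) with h | h
  · have h3 : 1 / 4 ≤ (1 - x) ^ 2 := by nlinarith
    nlinarith
  · rw [chi_zero hx h]
    norm_num
lemma psi_eq {x : ℝ} (hx : x ∈ I) (h : x ≤ 1 / 4) : ev psi x = (1 - x) ^ 2 := by
  have e : ev psi x = ev chi x * (1 - x) ^ 2 + (1 - ev chi x) := by simp [psi, hx]
  rw [e, chi_one hx h]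
  ring
/-- the derivatives of `chi1` vanish on `[0,1/16)` -/
lemma Dpow_chi1 (i : ℕ) {x : ℝ} (hx : x ∈ I) (h : x < 1 / 16) : ev ((D ^ (i + 1)) chi1) x = 0 := by
  have h1 : EqOn0 (1 / 16) chi1 1 := fun y hy hy' => by rw [chi1_one hy hy'.le, ev_one]
  rw [cut_Dpow h1 (i + 1) x hx h, Dpow_succ', D_one, map_zero, ev_zero]

lemma HB_comm (l : ℝ) (u v : Sm) : HB l u v = HB l v u := by
  rw [HB, HB, mul_right_comm _ u v]
lemma HB_add (l : ℝ) (u u' v : Sm) : HB l (u + u') v = HB l u v + HB l u' v := by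
  rw [HB, HB, HB, mul_add, add_mul, map_add, mul_add]
lemma HB_sub (l : ℝ) (u u' v : Sm) : HB l (u - u') v = HB l u v - HB l u' v := by
  rw [HB, HB, HB, mul_sub, sub_mul, map_sub, mul_sub]
lemma HB_smul (l : ℝ) (c : ℝ) (u v : Sm) : HB l (c • u) v = c * HB l u v := by
  rw [HB, HB, mul_smul_comm, smul_mul_assoc, map_smul, smul_eq_mul, mul_left_comm]
lemma HB_eq_levB (l : ℝ) (u v : Sm) : HB l u v = l ^ 3 * levB l 13 0 (psi * u) v := by
  rw [HB, levB, Dpow_zero, Dpow_zero, show ((0 : ℕ) : ℤ) - 13 = -13 by norm_num]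
  congr 2
  ring
lemma HQ_nonneg {l : ℝ} (hl : 0 < l) (v : Sm) : 0 ≤ HQ l v := by
  refine mul_nonneg (by positivity) (Ii_nonneg fun x hx => ?_)
  have h1 := cut_w_nonneg hl v hx
  have h2 := (psi_mem hx).1
  simp only [ev_mul, ev_pow] at h1 ⊢
  nlinarith
lemma HQ_le {l : ℝ} (hl : 0 < l) (v : Sm) : HQ l v ≤ l ^ 3 * lev l 13 0 v := by
  refine mul_le_mul_of_nonneg_left ?_ (by positivity)
  rw [cut_lev]
  refine Ii_mono fun x hx => ?_
  have h1 := cut_w_nonneg hl v hx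
  have h2 := (psi_mem hx).2
  simp only [ev_mul, ev_pow] at h1 ⊢
  nlinarith
lemma le_HQ {l : ℝ} (hl : 0 < l) (v : Sm) : l ^ 3 * lev l 13 0 v ≤ 4 * HQ l v := by
  rw [HQ, HB, mul_left_comm]
  refine mul_le_mul_of_nonneg_left ?_ (by positivity)
  rw [cut_lev, ← smul_eq_mul (4 : ℝ), ← map_smul]
  refine Ii_mono fun x hx => ?_
  have h1 := cut_w_nonneg hl v hx
  have h2 := (psi_mem hx).1
  simp only [ev_mul, ev_pow, ev_smul] at h1 ⊢
  nlinarith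
lemma HQ_le_N2 {l : ℝ} (hl : 0 < l) (k : ℕ) (v : Sm) : HQ l v ≤ l ^ 2 * N2 l 12 k v := by
  refine (HQ_le hl v).trans ((mul_le_mul_of_nonneg_left
    (lev_le_inv hl (e := 12) (e' := 13) (by norm_num) 0 v) (by positivity)).trans ?_)
  rw [← mul_assoc, show l ^ 3 * l ^ ((12 : ℤ) - 13) = l ^ 2 by
    rw [show (12 : ℤ) - 13 = -1 by norm_num, zpow_neg_one]
    field_simp]
  exact mul_le_mul_of_nonneg_left (lev_le_N2 hl 12 (Nat.zero_le k) v) (by positivity)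
lemma exists_semH {l : ℝ} (hl : 0 < l) : ∃ p : Seminorm ℝ Sm, ∀ v, p v = √(HQ l v) :=
  exists_seminorm (LinearMap.mk₂ ℝ (HB l) (HB_add l) (HB_smul l)
    (fun u v v' => by rw [HB_comm, HB_add, HB_comm l v, HB_comm l v'])
    (fun c u v => by rw [HB_comm, HB_smul, HB_comm l v, smul_eq_mul])) (HB_comm l) (HQ_nonneg hl)

lemma ev_prof {f : ℝ → ℝ} (hf : ContDiff ℝ ∞ f) (l : ℝ) {x : ℝ} (hx : x ∈ I) :
    ev (prof f l) x = f (x / l) :=
  ev_mk0 (f := fun x => f (x / l)) (hf.comp (contDiff_id.div_const l)).contDiffOn hx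
lemma D_prof {f : ℝ → ℝ} (hf : ContDiff ℝ ∞ f) (l : ℝ) :
    D (prof f l) = l⁻¹ • prof (deriv f) l := by
  refine Sm.ext' fun x hx => ?_
  have h := ((hf.differentiable (by simp) (x / l)).hasDerivAt.comp x
    ((hasDerivAt_id x).div_const l)).hasDerivWithinAt (s := I)
  rw [ev_D_of hx (fun y hy => ev_prof hf l hy) h, ev_smul,
    ev_prof (contDiff_infty_iff_deriv.1 hf).2 l hx, one_div, mul_comm]
lemma ev_Dpow_prof {f : ℝ → ℝ} (hf : ContDiff ℝ ∞ f) (l : ℝ) (i : ℕ) {x : ℝ} (hx : x ∈ I) :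
    ev ((D ^ i) (prof f l)) x = l⁻¹ ^ i * iteratedDeriv i f (x / l) := by
  induction i generalizing f with
  | zero => simpa using ev_prof hf l hx
  | succ i ih =>
    rw [Dpow_succ', D_prof hf, map_smul, ev_smul, ih (contDiff_infty_iff_deriv.1 hf).2,
      iteratedDeriv_succ', pow_succ', mul_assoc]

lemma D_scl {κ : ℝ} (hκ : κ ∈ I) (f : Sm) : D (scl κ f) = κ • scl κ (D f) := by
  refine Sm.ext' fun x hx => ?_
  have h := (hasDerivWithinAt_ev f (cut_mem hκ hx)).comp x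
    ((hasDerivWithinAt_id x I).const_mul κ) fun y hy => cut_mem hκ hy
  rw [ev_D_of hx (fun y hy => ev_scl hκ f hy) h, ev_smul, ev_scl hκ _ hx, mul_one, mul_comm]
lemma Dpow_scl {κ : ℝ} (hκ : κ ∈ I) (i : ℕ) (f : Sm) :
    (D ^ i) (scl κ f) = κ ^ i • scl κ ((D ^ i) f) := by
  induction i with
  | zero => simp
  | succ i ih => rw [Dpow_succ, ih, map_smul, D_scl hκ, Dpow_succ, smul_smul, pow_succ]
lemma scl_X {κ : ℝ} (hκ : κ ∈ I) : scl κ X = κ • X :=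
  Sm.ext' fun x hx => by rw [ev_scl hκ _ hx, ev_X (cut_mem hκ hx), ev_smul, ev_X hx]
lemma That_scl {κ : ℝ} (hκ : κ ∈ I) (u : Sm) : That (scl κ u) = scl κ (That u) := by
  refine Sm.ext' fun x hx => ?_
  rw [That_apply, That_apply, D_scl hκ, map_smul, D_scl hκ]
  simp only [ev_scl hκ _ hx, ev_add, ev_mul, ev_smul, ev_pow, ev_ofNat, ev_X hx,
    ev_X (cut_mem hκ hx)]
  ring
lemma scl_prof {f : ℝ → ℝ} (hf : ContDiff ℝ ∞ f) {κ : ℝ} (hκ : κ ∈ Ioc (0 : ℝ) 1) (l : ℝ) :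
    scl κ (prof f (κ * l)) = prof f l := by
  refine Sm.ext' fun x hx => ?_
  have h : κ ∈ I := ⟨hκ.1.le, hκ.2⟩
  rw [ev_scl h _ hx, ev_prof hf _ (cut_mem h hx), ev_prof hf _ hx, mul_div_mul_left _ _ hκ.1.ne']

lemma EqOn0.refl (r : ℝ) (f : Sm) : EqOn0 r f f := fun _ _ _ => rfl
lemma EqOn0.symm {r : ℝ} {f g : Sm} (h : EqOn0 r f g) : EqOn0 r g f :=
  fun x hx hr => (h x hx hr).symm
lemma EqOn0.trans {r : ℝ} {f g k : Sm} (h : EqOn0 r f g) (h' : EqOn0 r g k) : EqOn0 r f k :=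
  fun x hx hr => (h x hx hr).trans (h' x hx hr)
lemma EqOn0.mono {r r' : ℝ} {f g : Sm} (h : EqOn0 r f g) (hr : r' ≤ r) : EqOn0 r' f g :=
  fun x hx h1 => h x hx (h1.trans_le hr)
lemma EqOn0.add {r : ℝ} {f g f' g' : Sm} (h : EqOn0 r f g) (h' : EqOn0 r f' g') :
    EqOn0 r (f + f') (g + g') := fun x hx hr => by rw [ev_add, ev_add, h x hx hr, h' x hx hr]
lemma EqOn0.sub {r : ℝ} {f g f' g' : Sm} (h : EqOn0 r f g) (h' : EqOn0 r f' g') :
    EqOn0 r (f - f') (g - g') := fun x hx hr => by rw [ev_sub, ev_sub, h x hx hr, h' x hx hr]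
lemma EqOn0.neg {r : ℝ} {f g : Sm} (h : EqOn0 r f g) : EqOn0 r (-f) (-g) :=
  fun x hx hr => by rw [ev_neg, ev_neg, h x hx hr]
lemma EqOn0.mul {r : ℝ} {f g f' g' : Sm} (h : EqOn0 r f g) (h' : EqOn0 r f' g') :
    EqOn0 r (f * f') (g * g') := fun x hx hr => by rw [ev_mul, ev_mul, h x hx hr, h' x hx hr]
lemma EqOn0.pow {r : ℝ} {f g : Sm} (h : EqOn0 r f g) (n : ℕ) : EqOn0 r (f ^ n) (g ^ n) :=
  fun x hx hr => by rw [ev_pow, ev_pow, h x hx hr]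
lemma EqOn0.smul {r : ℝ} {f g : Sm} (h : EqOn0 r f g) (c : ℝ) : EqOn0 r (c • f) (c • g) :=
  fun x hx hr => by rw [ev_smul, ev_smul, h x hx hr]
/-- `D` is local -/
lemma EqOn0.D {r : ℝ} {f g : Sm} (h : EqOn0 r f g) : EqOn0 r (D f) (D g) := cut_D h
lemma EqOn0.Dpow {r : ℝ} {f g : Sm} (h : EqOn0 r f g) (i : ℕ) : EqOn0 r ((R213.D ^ i) f) ((R213.D ^ i) g) :=
  cut_Dpow h i
lemma EqOn0.That {r : ℝ} {f g : Sm} (h : EqOn0 r f g) : EqOn0 r (That f) (That g) := by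
  rw [That_apply, That_apply]
  exact (((EqOn0.refl r _).mul h).add ((EqOn0.refl r _).mul h.D)).add ((EqOn0.refl r _).mul h.D.D)
lemma EqOn0.scl {r : ℝ} {f g : Sm} (h : EqOn0 r f g) {κ : ℝ} (hκ : κ ∈ I) :
    EqOn0 r (scl κ f) (scl κ g) := fun x hx hr => by
  rw [ev_scl hκ _ hx, ev_scl hκ _ hx,
    h _ (cut_mem hκ hx) ((mul_le_of_le_one_left hx.1 hκ.2).trans_lt hr)]
lemma chi_eqOn0 : EqOn0 (1 / 4) chi 1 := fun x hx hr => by rw [chi_one hx hr.le, ev_one]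
/-- a factor supported in `[0,1/8]` only sees `[0,1/4)` -/
lemma EqOn0.kap1_mul {f g : Sm} (h : EqOn0 (1 / 4) f g) : kap1 * f = kap1 * g := by
  refine Sm.ext' fun x hx => ?_
  rw [ev_mul, ev_mul]
  rcases le_or_gt (1 / 8) x with h1 | h1
  · rw [kap1_zero hx h1, zero_mul, zero_mul]
  · rw [h x hx (by linarith)]

/-- composition -/
lemma ev_cmp (f : Sm) {Ψ : Sm} (hΨ : ∀ x ∈ I, ev Ψ x ∈ I) {x : ℝ} (hx : x ∈ I) :
    ev (cmp f Ψ) x = ev f (ev Ψ x) :=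
  ev_mk0 (f := fun x => ev f (ev Ψ x)) ((contDiffOn_ev f).comp (contDiffOn_ev Ψ) hΨ) hx
lemma D_cmp (f : Sm) {Ψ : Sm} (hΨ : ∀ x ∈ I, ev Ψ x ∈ I) : D (cmp f Ψ) = cmp (D f) Ψ * D Ψ := by
  refine Sm.ext' fun x hx => ?_
  rw [ev_D_of hx (fun y hy => ev_cmp f hΨ hy)
    ((hasDerivWithinAt_ev f (hΨ x hx)).comp x (hasDerivWithinAt_ev Ψ hx) hΨ), ev_mul,
    ev_cmp _ hΨ hx]

end Crest.Agent.R213
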