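import Crest.Agent.R213.LemL

/-! # Row 213, symbol bounds at infinity

`decay_tau`: `lemL` for `f₀ = H - c` (`κ = 1/(2 c H)`, `F = -90 (1-c)`) gives `H - c = O(e^{-2τ})`.  Induction on `i ≥ 1`:
`H^{(j)} = O(e^{-2τ})` for `1 ≤ j < i` and `H^{(i)}, H^{(i+1)}, H^{(i+2)}` of exponential growth imply the same for `i + 1`: differentiate the
equation `i` times; with `G = 1/(2c) - 1/(2H)`, `(e^{2τ} G)^{(i)} = e^{2τ} (H^{(i)} / (2H²) + O(e^{-2τ}))` (Leibniz; `G' = H' / (2H²)`, the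
derivatives of order `< i` of `1/H²` are bounded), so `lemL` applies to `f₀ = H^{(i)}` with `κ = 1/(2H²)`, and the equation bounds `H^{(i+3)}`. -/

set_option autoImplicit false
open Set Filter Topology
open scoped ContDiff

noncomputable section
namespace Crest.Agent.R213

open Asymptotics in
lemma dc_iff {f g : ℝ → ℝ} {τ₀ : ℝ} (hg : ∀ τ, 0 ≤ g τ) :
    f =O[𝓟 (Ici τ₀)] g ↔ ∃ C, ∀ τ ≥ τ₀, |f τ| ≤ C * g τ := by
  rw [isBigO_principal]
  simp only [Real.norm_eq_abs, abs_of_nonneg (hg _), mem_Ici, ge_iff_le]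

open Asymptotics in
lemma dc_one {f : ℝ → ℝ} {τ₀ : ℝ} :
    f =O[𝓟 (Ici τ₀)] (fun _ => (1 : ℝ)) ↔ ∃ C, ∀ τ ≥ τ₀, |f τ| ≤ C := by
  simp only [dc_iff fun _ => zero_le_one, mul_one]

lemma dc_at {f : ℝ → ℝ} (hf : ContDiff ℝ ∞ f) (n : ℕ) (x : ℝ) : ContDiffAt ℝ n f x :=
  (hf.of_le (by exact_mod_cast le_top)).contDiffAt

lemma dc_has {f : ℝ → ℝ} (hf : ContDiff ℝ ∞ f) (n : ℕ) (x : ℝ) :
    HasDerivAt (iteratedDeriv n f) (iteratedDeriv (n + 1) f x) x := by
  rw [iteratedDeriv_succ]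
  exact (hf.differentiable_iteratedDeriv n (by exact_mod_cast ENat.natCast_lt_top n) x).hasDerivAt

open Asymptotics in
lemma dc_mul {f g φ ψ : ℝ → ℝ} {l : Filter ℝ} (hf : ContDiff ℝ ∞ f) (hg : ContDiff ℝ ∞ g) {n : ℕ}
    (h₁ : ∀ j ≤ n, iteratedDeriv j f =O[l] φ) (h₂ : ∀ j ≤ n, iteratedDeriv j g =O[l] ψ) :
    iteratedDeriv n (f * g) =O[l] fun τ => φ τ * ψ τ := by
  refine IsBigO.congr_left ?_ fun x => (iteratedDeriv_mul (dc_at hf n x) (dc_at hg n x)).symm
  refine IsBigO.fun_sum fun j hj => ?_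
  exact ((h₁ j (Nat.lt_succ_iff.1 (Finset.mem_range.1 hj))).const_mul_left _).mul
    (h₂ _ (Nat.sub_le _ _))

open Asymptotics in
lemma dc_exp (c : ℝ) (l : Filter ℝ) (j : ℕ) :
    iteratedDeriv j (fun τ => Real.exp (c * τ)) =O[l] fun τ => Real.exp (c * τ) := by
  rw [iteratedDeriv_exp_const_mul]
  exact (isBigO_refl _ _).const_mul_left _

open Asymptotics in
lemma dc_inv {H : ℝ → ℝ} {l : Filter ℝ} (hH : ContDiff ℝ ∞ H) (hpos : ∀ τ, 0 < H τ)
    (h0 : (fun τ => (H τ)⁻¹) =O[l] fun _ => (1 : ℝ)) (n : ℕ)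
    (h : ∀ j < n, iteratedDeriv (j + 1) H =O[l] fun _ => (1 : ℝ)) :
    ∀ j ≤ n, iteratedDeriv j (fun τ => (H τ)⁻¹) =O[l] fun _ => (1 : ℝ) := by
  have hu : ContDiff ℝ ∞ fun τ => (H τ)⁻¹ := hH.inv fun τ => (hpos τ).ne'
  have hd : ContDiff ℝ ∞ (deriv H) := (contDiff_infty_iff_deriv.1 hH).2
  induction n with
  | zero =>
    intro j hj
    obtain rfl : j = 0 := by omega
    exact h0
  | succ n ih =>
    have h1 := ih fun j hj => h j (by omega)
    intro j hj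
    rcases hj.eq_or_lt with rfl | hj
    swap
    · exact h1 j (by omega)
    have e : deriv (fun τ => (H τ)⁻¹) =
        -(deriv H * ((fun τ => (H τ)⁻¹) * fun τ => (H τ)⁻¹)) := by
      funext τ
      rw [((hH.differentiable (by simp) τ).hasDerivAt.fun_inv (hpos τ).ne').deriv]
      simp only [Pi.neg_apply, Pi.mul_apply]
      field_simp
    rw [iteratedDeriv_succ', e]
    refine IsBigO.congr_left ?_ fun x => (iteratedDeriv_neg n _ x).symm
    have h2 := dc_mul hd (hu.mul hu) (n := n)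
      (fun j hj => iteratedDeriv_succ' (f := H) (n := j) ▸ h j (by omega))
      fun j hj => dc_mul hu hu (fun i hi => h1 i (hi.trans hj)) fun i hi => h1 i (hi.trans hj)
    simp only [mul_one] at h2
    exact h2.neg_left

theorem decay_tau {H : ℝ → ℝ} (hH : ContDiff ℝ ∞ H) {c τ₀ K : ℝ} (hc : c ∈ Icc (0.713 : ℝ) 0.715)
    (hpos : ∀ τ, 0 < H τ) (hb : ∀ τ ≥ τ₀, H τ ∈ Icc (0.71 : ℝ) 0.715)
    (hg : ∀ τ ≥ τ₀, |deriv H τ| + |deriv (deriv H) τ| ≤ K * Real.exp (2 * τ))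
    (ode : ∀ τ, deriv (deriv (deriv H)) τ + 18 * deriv (deriv H) τ + 71 * deriv H τ - 90 * H τ + 90
      + Real.exp (2 * τ) * (1 / (2 * c) - 1 / (2 * H τ)) = 0) :
    ∀ i : ℕ, ∃ C, ∀ τ ≥ τ₀, |iteratedDeriv i H τ| ≤ C := by
  obtain ⟨hc1, hc2⟩ := hc
  have hc0 : 0 < c := by linarith
  set f : ℝ → ℝ := fun τ => H τ - c with hf
  have hfs : ContDiff ℝ ∞ f := hH.sub contDiff_const
  have hHf : ∀ j, iteratedDeriv (j + 1) f = iteratedDeriv (j + 1) H := fun j => by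
    rw [iteratedDeriv_succ', iteratedDeriv_succ', hf, deriv_sub_const_fun]
  have hu : ContDiff ℝ ∞ fun τ => (H τ)⁻¹ := hH.inv fun τ => (hpos τ).ne'
  have hE : ContDiff ℝ ∞ fun τ => Real.exp (2 * τ) := by fun_prop
  set a : ℝ → ℝ := (fun τ => Real.exp (2 * τ)) * fun τ => (H τ)⁻¹ with ha
  have has : ContDiff ℝ ∞ a := hE.mul hu
  have hfa : ContDiff ℝ ∞ (f * a) := hfs.mul has
  have heq : ∀ i τ, iteratedDeriv (i + 3) f τ = -18 * iteratedDeriv (i + 2) f τ -
      71 * iteratedDeriv (i + 1) f τ + 90 * iteratedDeriv i f τ -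
      (2 * c)⁻¹ * iteratedDeriv i (f * a) τ + if i = 0 then 90 * c - 90 else 0 := by
    intro i
    induction i with
    | zero =>
      intro τ
      have h1 := ode τ
      have h2 := (hpos τ).ne'
      have h3 : Real.exp (2 * τ) * (1 / (2 * c) - 1 / (2 * H τ)) =
          (2 * c)⁻¹ * ((H τ - c) * (Real.exp (2 * τ) * (H τ)⁻¹)) := by field_simp
      rw [hHf 2, hHf 1, hHf 0]
      simp only [iteratedDeriv_succ, iteratedDeriv_zero, if_true, Pi.mul_apply, ha, hf]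
      linarith
    | succ i ih =>
      intro τ
      have h1 := dc_has hfs (i + 3) τ
      rw [funext ih] at h1
      have h2 := ((((((dc_has hfs (i + 2) τ).const_mul (-18)).sub
        ((dc_has hfs (i + 1) τ).const_mul 71)).add ((dc_has hfs i τ).const_mul 90)).sub
        ((dc_has hfa i τ).const_mul (2 * c)⁻¹)).add_const (if i = 0 then 90 * c - 90 else 0))
      rw [if_neg (Nat.succ_ne_zero i), add_zero]
      exact h1.unique h2
  have h0 : (fun τ => (H τ)⁻¹) =O[𝓟 (Ici τ₀)] fun _ => (1 : ℝ) := dc_one.2 ⟨2, fun τ hτ => by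
    rw [abs_of_pos (inv_pos.2 (hpos τ)), inv_le_comm₀ (hpos τ) two_pos]
    linarith [(hb τ hτ).1]⟩
  have hf0 : f =O[𝓟 (Ici τ₀)] fun _ => (1 : ℝ) := dc_one.2 ⟨1, fun τ hτ => by
    rw [hf, abs_le]
    constructor <;> linarith [(hb τ hτ).1, (hb τ hτ).2]⟩
  have h1E : (fun _ => (1 : ℝ)) =O[𝓟 (Ici τ₀)] fun τ => Real.exp (2 * τ) :=
    (dc_iff fun _ => (Real.exp_pos _).le).2 ⟨Real.exp (-(2 * τ₀)), fun τ hτ => by
      rw [abs_one, ← Real.exp_add]
      exact Real.one_le_exp (by linarith)⟩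
  have hEE : (fun τ => Real.exp (-2 * τ) * (Real.exp (2 * τ) * 1)) = fun _ => (1 : ℝ) := by
    funext τ
    rw [mul_one, ← Real.exp_add]
    simp
  have step : ∀ i, (∀ j < i, iteratedDeriv j f =O[𝓟 (Ici τ₀)] fun τ => Real.exp (-2 * τ)) →
      (∀ j ≤ i, iteratedDeriv j f =O[𝓟 (Ici τ₀)] fun _ => (1 : ℝ)) →
      (iteratedDeriv (i + 1) f =O[𝓟 (Ici τ₀)] fun τ => Real.exp (2 * τ)) →
      (iteratedDeriv (i + 2) f =O[𝓟 (Ici τ₀)] fun τ => Real.exp (2 * τ)) →
      (iteratedDeriv i f =O[𝓟 (Ici τ₀)] fun τ => Real.exp (-2 * τ)) ∧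
      (iteratedDeriv (i + 1) f =O[𝓟 (Ici τ₀)] fun _ => (1 : ℝ)) ∧
      (iteratedDeriv (i + 2) f =O[𝓟 (Ici τ₀)] fun _ => (1 : ℝ)) ∧
      (iteratedDeriv (i + 3) f =O[𝓟 (Ici τ₀)] fun _ => (1 : ℝ)) := by
    intro i h1 h2 h3 h4
    have h5 : ∀ j ≤ i, iteratedDeriv j a =O[𝓟 (Ici τ₀)] fun τ => Real.exp (2 * τ) * 1 :=
      fun j hj => dc_mul hE hu (fun m _ => dc_exp 2 _ m) fun m hm =>
        dc_inv hH hpos h0 i (fun m hm => hHf m ▸ h2 (m + 1) hm) m (hm.trans hj)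
    set R : ℝ → ℝ := fun τ => ∑ j ∈ Finset.range i,
      i.choose j * iteratedDeriv j f τ * iteratedDeriv (i - j) a τ with hR
    have h6 : R =O[𝓟 (Ici τ₀)] fun _ => (1 : ℝ) := by
      rw [← hEE]
      exact Asymptotics.IsBigO.fun_sum fun j hj =>
        ((h1 j (Finset.mem_range.1 hj)).const_mul_left _).mul (h5 _ (Nat.sub_le _ _))
    have h7 : ∀ τ, iteratedDeriv i (f * a) τ = R τ + iteratedDeriv i f τ * a τ := fun τ => by
      rw [iteratedDeriv_mul (dc_at hfs i τ) (dc_at has i τ), Finset.sum_range_succ]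
      simp [hR]
    obtain ⟨B, hB⟩ := dc_one.1 ((h6.const_mul_left (-(2 * c)⁻¹)).add
      (Asymptotics.isBigO_const_const (if i = 0 then 90 * c - 90 else 0) one_ne_zero _))
    obtain ⟨K', hK'⟩ := (dc_iff fun _ => (Real.exp_pos _).le).1
      (((((h2 i le_rfl).trans h1E).abs_left).add h3.abs_left).add h4.abs_left)
    obtain ⟨C, hC⟩ := lemL (τ₀ := τ₀) (f₀ := iteratedDeriv i f) (f₁ := iteratedDeriv (i + 1) f)
      (f₂ := iteratedDeriv (i + 2) f) (κ := fun τ => (2 * c)⁻¹ * (H τ)⁻¹) (K := K') (N := 2)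
      (fun τ _ => dc_has hfs i τ) (fun τ _ => dc_has hfs (i + 1) τ)
      (fun τ _ => by
        refine (dc_has hfs (i + 2) τ).congr_deriv ?_
        rw [heq i τ, h7]
        simp only [ha, Pi.mul_apply]
        ring)
      (fun τ hτ => by
        obtain ⟨g1, g2⟩ := hb τ hτ
        have g3 : 0 < 2 * c * H τ := by have := hpos τ; positivity
        have g4 : (2 * c * H τ)⁻¹ ≤ 1 := inv_le_one_of_one_le₀ (by nlinarith)
        have g5 : 19 / 20 ≤ (2 * c * H τ)⁻¹ := by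
          rw [le_inv_comm₀ (by norm_num) g3]
          nlinarith
        rw [← mul_inv, abs_le]
        constructor <;> linarith)
      hB (fun τ hτ => (le_abs_self _).trans (hK' τ hτ))
    have g0 := (dc_iff fun _ => (Real.exp_pos _).le).2 ⟨C, fun τ hτ => (hC τ hτ).1⟩
    have g1 := dc_one.2 ⟨C, fun τ hτ => (hC τ hτ).2.1⟩
    have g2 := dc_one.2 ⟨C, fun τ hτ => (hC τ hτ).2.2⟩
    refine ⟨g0, g1, g2, ?_⟩
    have g3 : iteratedDeriv i (f * a) =O[𝓟 (Ici τ₀)] fun _ => (1 : ℝ) := by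
      rw [← hEE]
      exact dc_mul hfs has (fun j hj => hj.eq_or_lt.elim (fun e => e ▸ g0) (h1 j)) h5
    rw [funext (heq i)]
    exact ((((g2.const_mul_left _).sub (g1.const_mul_left _)).add
      ((h2 i le_rfl).const_mul_left _)).sub (g3.const_mul_left _)).add
      (Asymptotics.isBigO_const_const _ one_ne_zero _)
  have main : ∀ i, (∀ j < i, iteratedDeriv j f =O[𝓟 (Ici τ₀)] fun τ => Real.exp (-2 * τ)) ∧
      (∀ j ≤ i, iteratedDeriv j f =O[𝓟 (Ici τ₀)] fun _ => (1 : ℝ)) ∧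
      (iteratedDeriv (i + 1) f =O[𝓟 (Ici τ₀)] fun τ => Real.exp (2 * τ)) ∧
      (iteratedDeriv (i + 2) f =O[𝓟 (Ici τ₀)] fun τ => Real.exp (2 * τ)) := by
    intro i
    induction i with
    | zero =>
      refine ⟨fun j hj => absurd hj (Nat.not_lt_zero j), fun j hj => ?_, ?_, ?_⟩
      · obtain rfl : j = 0 := by omega
        exact hf0
      · rw [hHf 0]
        refine (dc_iff fun _ => (Real.exp_pos _).le).2 ⟨K, fun τ hτ => le_trans ?_ (hg τ hτ)⟩
        simp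
      · rw [hHf 1]
        refine (dc_iff fun _ => (Real.exp_pos _).le).2 ⟨K, fun τ hτ => le_trans ?_ (hg τ hτ)⟩
        simp [iteratedDeriv_succ]
    | succ i ih =>
      obtain ⟨h1, h2, h3, h4⟩ := ih
      obtain ⟨g0, g1, g2, g3⟩ := step i h1 h2 h3 h4
      exact ⟨fun j hj => (Nat.lt_succ_iff.1 hj).eq_or_lt.elim (fun e => e ▸ g0) (h1 j),
        fun j hj => hj.eq_or_lt.elim (fun e => e ▸ g1) fun h => h2 j (Nat.lt_succ_iff.1 h),
        g2.trans h1E, g3.trans h1E⟩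
  intro i
  cases i with
  | zero =>
    refine ⟨1, fun τ hτ => ?_⟩
    rw [iteratedDeriv_zero, abs_of_pos (hpos τ)]
    linarith [(hb τ hτ).2]
  | succ i => exact hHf i ▸ dc_one.1 ((main (i + 1)).2.1 _ le_rfl)

/-- from `τ = log y` back to `y`: induction on `i` for all `f, p`, using `f'(e^τ) = e^{-τ} (f ∘ exp)'(τ)` -/
theorem symb_of_tau {f : ℝ → ℝ} (hf : ContDiff ℝ ∞ f) {τ₀ : ℝ} (p : ℕ)
    (h : ∀ i : ℕ, ∃ C, ∀ τ ≥ τ₀, |iteratedDeriv i (fun τ => f (Real.exp τ)) τ| ≤ C * Real.exp (-(p * τ))) :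
    ∀ i : ℕ, ∃ C : ℝ, ∀ y ≥ (0 : ℝ), |iteratedDeriv i f y| ≤ C * (1 + y) ^ (-(p : ℤ) - (i : ℤ)) := by
  intro i
  induction i generalizing f p with
  | zero =>
    obtain ⟨C, hC⟩ := h 0
    obtain ⟨B, hB⟩ := (isCompact_Icc (a := 0) (b := max 1 (Real.exp τ₀))).exists_bound_of_continuousOn
      (f := fun y => f y * (1 + y) ^ p) (hf.continuous.mul (by fun_prop)).continuousOn
    refine ⟨max B (|C| * 2 ^ p), fun y hy => ?_⟩
    have h1 : 0 < 1 + y := by linarith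
    rw [iteratedDeriv_zero, Nat.cast_zero, sub_zero, zpow_neg, zpow_natCast, ← div_eq_mul_inv,
      le_div_iff₀ (by positivity)]
    rcases le_total y (max 1 (Real.exp τ₀)) with h2 | h2
    · have h3 := hB y ⟨hy, h2⟩
      rw [Real.norm_eq_abs, abs_mul, abs_of_pos (pow_pos h1 p)] at h3
      exact h3.trans (le_max_left _ _)
    · have h3 : 1 ≤ y := (le_max_left _ _).trans h2
      have h4 : 0 < y := by linarith
      have h5 := hC (Real.log y) ((Real.le_log_iff_exp_le h4).2 ((le_max_right _ _).trans h2))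
      rw [iteratedDeriv_zero, Real.exp_log h4, Real.exp_neg, Real.exp_nat_mul, Real.exp_log h4,
        ← div_eq_mul_inv, le_div_iff₀ (by positivity)] at h5
      refine le_trans ?_ (le_max_right _ _)
      calc |f y| * (1 + y) ^ p ≤ |f y| * (2 * y) ^ p := by
            gcongr
            linarith
        _ = |f y| * y ^ p * 2 ^ p := by ring
        _ ≤ _ := by
            gcongr
            exact h5.trans (le_abs_self C)
  | succ i ih =>
    have hd : ContDiff ℝ ∞ (deriv f) := (contDiff_infty_iff_deriv.1 hf).2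
    have hg : ContDiff ℝ ∞ fun τ => f (Real.exp τ) := hf.comp Real.contDiff_exp
    have e : (fun τ => deriv f (Real.exp τ)) =
        (fun τ => Real.exp (-1 * τ)) * deriv fun τ => f (Real.exp τ) := by
      funext τ
      have h1 : HasDerivAt (fun τ => f (Real.exp τ)) (deriv f (Real.exp τ) * Real.exp τ) τ :=
        (hf.differentiable (by simp) _).hasDerivAt.comp τ (Real.hasDerivAt_exp τ)
      rw [Pi.mul_apply, h1.deriv, mul_left_comm, ← Real.exp_add]
      simp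
    obtain ⟨C, hC⟩ := ih hd (p + 1) fun j => by
      have h1 := dc_mul (l := 𝓟 (Ici τ₀)) (f := fun τ => Real.exp (-1 * τ)) (by fun_prop)
        (contDiff_infty_iff_deriv.1 hg).2 (n := j) (fun m _ => dc_exp (-1) _ m) fun m _ =>
          iteratedDeriv_succ' (f := fun τ => f (Real.exp τ)) (n := m) ▸
            (dc_iff fun _ => (Real.exp_pos _).le).2 (h (m + 1))
      rw [← e] at h1
      refine (dc_iff fun _ => (Real.exp_pos _).le).1 (h1.congr_right fun τ => ?_)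
      rw [← Real.exp_add]
      congr 1
      push_cast
      ring
    refine ⟨C, fun y hy => ?_⟩
    rw [iteratedDeriv_succ']
    convert hC y hy using 3
    push_cast
    ring

end Crest.Agent.R213
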