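import Crest.Agent.R213.Sm

/-! # Row 213, definitions of the one-dimensional problem

Notation used in all comments: `φ₀ = ph = x(1-x)`, `σ = x + l` (`0 < l ≤ 1`), `μ_m = mu m = x^(9+m) (1-x)^m`,
`δ_m w = dl m w = μ_m⁻¹ (μ_{m+1} w)' = φ₀ w' + p_m w`, `T_k = δ_k δ_{k+1}`, `A₀ = D² T_0`.
The 1D Calabi flow is `g_t = -(1 - φ₀ g)² A₀ g`. -/

set_option autoImplicit false
open Set Filter Topology
open scoped ContDiff

noncomputable section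
namespace Crest.Agent.R213

/-! ## Operators -/

def ph : Sm := X * (1 - X)
def mu (m : ℕ) : Sm := X ^ (9 + m) * (1 - X) ^ m
def pm (m : ℕ) : Sm := (10 + (m : Sm)) * (1 - X) - ((m : Sm) + 1) * X
def dl (m : ℕ) : Module.End ℝ Sm := LinearMap.mulLeft ℝ ph ∘ₗ D + LinearMap.mulLeft ℝ (pm m)
def T (k : ℕ) : Module.End ℝ Sm := dl k ∘ₗ dl (k + 1)
def A0 : Module.End ℝ Sm := D ∘ₗ D ∘ₗ T 0
/-- the scale invariant operator `u ↦ 110 u + 22 x u' + x² u''` -/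
def That : Module.End ℝ Sm :=
  LinearMap.mulLeft ℝ (110 : Sm) + LinearMap.mulLeft ℝ (22 * X) ∘ₗ D + LinearMap.mulLeft ℝ (X ^ 2) ∘ₗ D ∘ₗ D

lemma dl_apply (m : ℕ) (w : Sm) : dl m w = ph * D w + pm m * w := rfl
lemma T_apply (k : ℕ) (w : Sm) : T k w = dl k (dl (k + 1) w) := rfl
lemma A0_apply (v : Sm) : A0 v = D (D (T 0 v)) := rfl
lemma That_apply (u : Sm) : That u = 110 * u + 22 * X * D u + X ^ 2 * D (D u) := rfl

@[simp] lemma ev_ph {x : ℝ} (hx : x ∈ I) : ev ph x = x * (1 - x) := by simp [ph, hx]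
@[simp] lemma ev_mu (m : ℕ) {x : ℝ} (hx : x ∈ I) : ev (mu m) x = x ^ (9 + m) * (1 - x) ^ m := by
  simp [mu, hx]
@[simp] lemma ev_pm (m : ℕ) {x : ℝ} (hx : x ∈ I) :
    ev (pm m) x = (10 + m) * (1 - x) - (m + 1) * x := by simp [pm, hx]
lemma mu_succ (m : ℕ) : mu (m + 1) = mu m * ph := by
  simp only [mu, ph, ← add_assoc, pow_succ]; ring

/-- `σ^m = (x + l)^m` -/
def sp (l : ℝ) (m : ℤ) : Sm := mk0 fun x => (x + l) ^ m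

lemma contDiffOn_sp {l : ℝ} (hl : 0 < l) (m : ℤ) : ContDiffOn ℝ ∞ (fun x : ℝ => (x + l) ^ m) I := by
  have hne : ∀ x ∈ I, x + l ≠ 0 := fun x hx => by have := hx.1; positivity
  cases m with
  | ofNat n =>
    simpa using (contDiffOn_id.add contDiffOn_const).pow n
  | negSucc n =>
    simp only [zpow_negSucc]
    exact ((contDiffOn_id.add contDiffOn_const).pow (n + 1)).inv fun x hx => pow_ne_zero _ (hne x hx)

lemma ev_sp {l : ℝ} (hl : 0 < l) (m : ℤ) {x : ℝ} (hx : x ∈ I) : ev (sp l m) x = (x + l) ^ m :=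
  ev_mk0 (contDiffOn_sp hl m) hx

lemma D_sp {l : ℝ} (hl : 0 < l) (m : ℤ) : D (sp l m) = (m : ℝ) • sp l (m - 1) := by
  refine Sm.ext' fun x hx => ?_
  have hne : x + l ≠ 0 := by have := hx.1; positivity
  have h := (hasDerivAt_zpow m (x + l) (Or.inl hne)).comp_add_const x l
  rw [ev_D_of hx (fun y hy => ev_sp hl m hy) h.hasDerivWithinAt, ev_smul, ev_sp hl _ hx]

lemma sp_add {l : ℝ} (hl : 0 < l) (m n : ℤ) : sp l (m + n) = sp l m * sp l n := by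
  refine Sm.ext' fun x hx => ?_
  have hne : x + l ≠ 0 := by have := hx.1; positivity
  rw [ev_mul, ev_sp hl _ hx, ev_sp hl _ hx, ev_sp hl _ hx, zpow_add₀ hne]

lemma sp_zero {l : ℝ} (hl : 0 < l) : sp l 0 = 1 :=
  Sm.ext' fun x hx => by rw [ev_sp hl _ hx]; simp

/-! ## Weighted norms -/

/-- `∫ μ_{j+2} σ^{j-e} R²` -/
def wl (l : ℝ) (e : ℤ) (j : ℕ) (R : Sm) : ℝ := Ii (mu (j + 2) * sp l ((j : ℤ) - e) * R ^ 2)
/-- level `j` part of the norm: `∫ μ_{j+2} σ^{j-e} (D^j v)²` -/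
def lev (l : ℝ) (e : ℤ) (j : ℕ) (v : Sm) : ℝ := wl l e j ((D ^ j) v)
/-- the bilinear form of `lev` -/
def levB (l : ℝ) (e : ℤ) (j : ℕ) (u v : Sm) : ℝ :=
  Ii (mu (j + 2) * sp l ((j : ℤ) - e) * (D ^ j) u * (D ^ j) v)
/-- squared norm `N²_{e,k}` -/
def N2 (l : ℝ) (e : ℤ) (k : ℕ) (v : Sm) : ℝ := ∑ j ∈ Finset.range (k + 1), lev l e j v
/-- the good term `∫ μ_k σ^{k-e} (T_k D^k v)²` -/
def Gk (l : ℝ) (e : ℤ) (k : ℕ) (v : Sm) : ℝ :=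
  Ii (mu k * sp l ((k : ℤ) - e) * (T k ((D ^ k) v)) ^ 2)
/-- the strong energy -/
def Ek (l : ℝ) (k : ℕ) (v : Sm) : ℝ := lev l 12 k v + lev l 12 0 v

/-- symbol bounds `|D^i b| ≤ C σ^{s-i}`, `i ≤ K` -/
def Symb (l : ℝ) (s : ℤ) (K : ℕ) (C : ℝ) (b : Sm) : Prop :=
  ∀ i ≤ K, ∀ x ∈ I, |ev ((D ^ i) b) x| ≤ C * (x + l) ^ (s - (i : ℤ))
/-- multiplier bounds `(φ₀ σ)^i (D^i b)² ≤ C σ^{2s}`, `i ≤ K` (note: `C`, not `C²`) -/
def Mult (l : ℝ) (s : ℤ) (K : ℕ) (C : ℝ) (b : Sm) : Prop :=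
  ∀ i ≤ K, ∀ x ∈ I, (x * (1 - x) * (x + l)) ^ i * (ev ((D ^ i) b) x) ^ 2 ≤ C * (x + l) ^ (2 * s)
/-- a family (indexed by the scale `l ∈ (0,1]`) of symbols of order `s`, uniformly -/
def SymbF (s : ℤ) (b : ℝ → Sm) : Prop := ∀ K, ∃ C, 0 ≤ C ∧ ∀ l ∈ Ioc (0 : ℝ) 1, Symb l s K C (b l)

/-- equality on `[0, r)` -/
def EqOn0 (r : ℝ) (f g : Sm) : Prop := ∀ x ∈ I, x < r → ev f x = ev g x

/-! ## Cutoffs, profiles, scaling -/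

/-- `1` on `[0,1/4]`, `0` on `[1/2,1]` -/
def chi : Sm := mk0 fun x => Real.smoothTransition (2 - 4 * x)
/-- `1` on `[0,1/16]`, `0` on `[1/8,1]` -/
def chi1 : Sm := mk0 fun x => Real.smoothTransition (2 - 16 * x)
/-- `chi / (1-x)²` -/
def kap : Sm := mk0 fun x => Real.smoothTransition (2 - 4 * x) / (1 - x) ^ 2
/-- `chi1 / (1-x)²` -/
def kap1 : Sm := mk0 fun x => Real.smoothTransition (2 - 16 * x) / (1 - x) ^ 2
/-- `(1-x)²` on `[0,1/4]`, `1` on `[1/2,1]`, values in `[1/4,1]` -/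
def psi : Sm := chi * (1 - X) ^ 2 + (1 - chi)

/-- `x ↦ f (x / l)` -/
def prof (f : ℝ → ℝ) (l : ℝ) : Sm := mk0 fun x => f (x / l)

lemma scl_aux (κ : ℝ) (f : Sm) :
    ContDiffOn ℝ ∞ (fun x => ev f ((Set.projIcc 0 1 zero_le_one κ : ℝ) * x)) I := by
  refine (contDiffOn_ev f).comp (contDiffOn_const.mul contDiffOn_id) fun x hx => ?_
  have h := (Set.projIcc (0 : ℝ) 1 zero_le_one κ).2
  exact ⟨mul_nonneg h.1 hx.1, mul_le_one₀ h.2 hx.1 hx.2⟩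

/-- `x ↦ f (κ x)` for `κ ∈ [0,1]` -/
def scl (κ : ℝ) : Sm →ₐ[ℝ] Sm where
  toFun f := mk _ (scl_aux κ f)
  map_one' := Sm.ext' fun x hx => by simp [ev_mk _ _ hx]
  map_mul' f g := Sm.ext' fun x hx => by simp [ev_mk _ _ hx]
  map_zero' := Sm.ext' fun x hx => by simp [ev_mk _ _ hx]
  map_add' f g := Sm.ext' fun x hx => by simp [ev_mk _ _ hx]
  commutes' c := Sm.ext' fun x hx => by simp [ev_mk _ _ hx]

lemma ev_scl {κ : ℝ} (hκ : κ ∈ I) (f : Sm) {x : ℝ} (hx : x ∈ I) : ev (scl κ f) x = ev f (κ * x) := by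
  have : ev (scl κ f) x = ev f ((Set.projIcc 0 1 zero_le_one κ : ℝ) * x) := ev_mk _ (scl_aux κ f) hx
  rw [this, Set.projIcc_of_mem _ hκ]

/-- composition `f ∘ Ψ` (meaningful when `Ψ` maps `[0,1]` to `[0,1]`) -/
def cmp (f Ψ : Sm) : Sm := mk0 fun x => ev f (ev Ψ x)

/-- the rescale-and-cut map `Ξ_κ v = κ kap1 · ((1-x)² v)(κ x)` -/
def Xi (κ : ℝ) : Module.End ℝ Sm :=
  κ • (LinearMap.mulLeft ℝ kap1 ∘ₗ (scl κ).toLinearMap ∘ₗ LinearMap.mulLeft ℝ ((1 - X) ^ 2))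

lemma Xi_apply (κ : ℝ) (v : Sm) : Xi κ v = κ • (kap1 * scl κ ((1 - X) ^ 2 * v)) := rfl

/-! ## The scale invariant ("high") norm and the bump functionals -/

/-- `l³ ∫ μ₂ ψ σ^{-13} u v` -/
def HB (l : ℝ) (u v : Sm) : ℝ := l ^ 3 * Ii (mu 2 * psi * sp l (-13) * u * v)
def HQ (l : ℝ) (v : Sm) : ℝ := HB l v v

/-- a smooth function with support in a compact part of `(0,R]` -/
def IsBump (R : ℝ) (β : ℝ → ℝ) : Prop :=
  ContDiff ℝ ∞ β ∧ (∃ r > (0 : ℝ), ∀ y ≤ r, β y = 0) ∧ ∀ y ≥ R, β y = 0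

/-- `ℓ(v) = ∫ β(x/l) (1-x)² v` -/
def ell (l : ℝ) (β : ℝ → ℝ) : Sm →ₗ[ℝ] ℝ := Ii ∘ₗ LinearMap.mulLeft ℝ (prof β l * (1 - X) ^ 2)
lemma ell_apply (l : ℝ) (β : ℝ → ℝ) (v : Sm) : ell l β v = Ii (prof β l * (1 - X) ^ 2 * v) := rfl

def bumpP (β : ℝ → ℝ) (y : ℝ) : ℝ := β y * (1 + y) ^ 13 / y ^ 11
/-- the vector representing `ell l β` for `HB l` -/
def pb (l : ℝ) (β : ℝ → ℝ) : Sm := l⁻¹ • (kap1 * prof (bumpP β) l)

/-! ## Curves in `Sm` -/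

/-- all jets are `C^n` in time on `J` -/
def CK (n : WithTop ℕ∞) (J : Set ℝ) (v : ℝ → Sm) : Prop :=
  ∀ j, ContDiffOn ℝ n (fun t => jet j (v t)) J
/-- all jets are continuous in time on `J` -/
def CC (J : Set ℝ) (v : ℝ → Sm) : Prop := ∀ j, ContinuousOn (fun t => jet j (v t)) J
/-- `v` has time derivative `v'` at `t` (for all jets) -/
def CD (v : ℝ → Sm) (v' : Sm) (t : ℝ) : Prop :=
  ∀ j, HasDerivAt (fun s => jet j (v s)) (jet j v') t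
/-- uniform convergence of all jets on `J` -/
def CLim (J : Set ℝ) (u : ℕ → ℝ → Sm) (v : ℝ → Sm) : Prop :=
  ∀ j, TendstoUniformlyOn (fun m t => jet j (u m t)) (fun t => jet j (v t)) atTop J

/-- the linear operator `v ↦ -a A₀ v + b v` -/
def Lop (a b v : Sm) : Sm := -(a * A0 v) + b * v

/-- solutions of `v' = -a A₀ v + b v + F` on `[t₀,t₁]` -/
def Sol (a b F : ℝ → Sm) (t₀ t₁ : ℝ) (v : ℝ → Sm) : Prop :=
  CC (Icc t₀ t₁) v ∧ ∀ t ∈ Ioo t₀ t₁, CD v (Lop (a t) (b t) (v t) + F t) t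
/-- solutions on `[t₀,0)` -/
def SolO (a b F : ℝ → Sm) (t₀ : ℝ) (v : ℝ → Sm) : Prop :=
  CC (Ico t₀ 0) v ∧ ∀ t ∈ Ioo t₀ 0, CD v (Lop (a t) (b t) (v t) + F t) t

/-- the scale at time `t < 0` -/
def lam (t : ℝ) : ℝ := √(-t)
/-- step times `t_r = -e^{-rδ}` -/
def tr (δ : ℝ) (r : ℕ) : ℝ := -Real.exp (-(r * δ))
/-- step scales `λ_r = e^{-rδ/2} = lam (tr δ r)` -/
def lr (δ : ℝ) (r : ℕ) : ℝ := Real.exp (-(r * δ) / 2)

/-- the hypotheses on the coefficient families `a l`, `b l` (`l` the scale) of the linearised operator -/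
structure Coef (a b : ℝ → Sm) : Prop where
  sa : SymbF 0 a
  sb : SymbF (-2) b
  pos : ∃ a₀ > (0 : ℝ), ∀ l ∈ Ioc (0 : ℝ) 1, ∀ x ∈ I, a₀ ≤ ev (a l) x
  ca : CC (Iio 0) fun t => a (lam t)
  cb : CC (Iio 0) fun t => b (lam t)
  sca : ∀ κ ∈ Ioc (0 : ℝ) 1, ∀ l ∈ Ioc (0 : ℝ) 1,
    EqOn0 (1 / 4) (scl κ ((1 - X) ^ 2 * a (κ * l))) ((1 - X) ^ 2 * a l)
  scb : ∀ κ ∈ Ioc (0 : ℝ) 1, ∀ l ∈ Ioc (0 : ℝ) 1, EqOn0 (1 / 4) (κ ^ 2 • scl κ (b (κ * l))) (b l)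

/-- the bound defining the solution space `X_k` -/
def XB (t₀ : ℝ) (k : ℕ) (x : ℝ) (v : ℝ → Sm) : Prop :=
  ∀ t ∈ Ico t₀ 0, N2 (lam t) 12 k (v t) ≤ x ^ 2 ∧
    ∫ s in t₀..t, N2 (lam s) 14 (k + 2) (v s) ≤ x ^ 2 ∧
    ∫ s in t₀..t, (lam s)⁻¹ * N2 (lam s) 13 0 (v s) ≤ x ^ 2
/-- the bound defining the source space (`k` derivatives) -/
def YB (t₀ : ℝ) (k : ℕ) (y : ℝ) (F : ℝ → Sm) : Prop :=
  ∀ t ∈ Ico t₀ 0, ∫ s in t₀..t, N2 (lam s) 11 k (F s) ≤ y ^ 2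

/-- the nonlinearity `(2 q φ₀ v - φ₀² v²) A₀ v - φ₀² v² G` -/
def NL (q G v : Sm) : Sm := (2 * q * ph * v - ph ^ 2 * v ^ 2) * A0 v - ph ^ 2 * v ^ 2 * G

/-- hypotheses on the coefficients of the nonlinearity and on the error term -/
structure NCoef (q G E : ℝ → Sm) : Prop where
  sq : SymbF 0 q
  sG : SymbF (-3) G
  bE : ∀ k, ∃ C, ∀ l ∈ Ioc (0 : ℝ) 1, N2 l 11 k (E l) ≤ C
  cq : CC (Iio 0) fun t => q (lam t)
  cG : CC (Iio 0) fun t => G (lam t)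
  cE : CC (Iio 0) fun t => E (lam t)

/-- polynomials of degree `≤ M` -/
def Pol (M : ℕ) : Submodule ℝ Sm := Submodule.span ℝ (Set.range fun i : Fin (M + 1) => X ^ (i : ℕ))

/-- `Λ̂ = (1-x) q ∂ₓ log det` in momentum coordinates, `q = 1 - φ₀ g` -/
def Lamh (g : Sm) : Sm := -11 * (1 - ph * g) + (1 - X) * D (1 - ph * g) - 10 * (1 - X) * g

/-! ## The shrinker and the approximate solution -/

/-- `h = 1 - y γ` -/
def hh (γ : ℝ → ℝ) (y : ℝ) : ℝ := 1 - y * γ y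
/-- `s = 110 γ + 22 y γ' + y² γ''` -/
def ss (γ : ℝ → ℝ) (y : ℝ) : ℝ := 110 * γ y + 22 * y * deriv γ y + y ^ 2 * deriv (deriv γ) y

/-- the self-similar profile -/
structure Shr (γ : ℝ → ℝ) : Prop where
  smooth : ContDiff ℝ ∞ γ
  pos0 : 0 < γ 0
  hpos : ∃ h₀ > (0 : ℝ), ∀ y ≥ (0 : ℝ), h₀ ≤ hh γ y
  ode : ∀ y ≥ (0 : ℝ), deriv (hh γ) y = 2 * hh γ y ^ 2 * deriv (deriv (ss γ)) y
  symb : ∀ i : ℕ, ∃ C : ℝ, ∀ y ≥ (0 : ℝ), |iteratedDeriv i γ y| ≤ C * (1 + y) ^ (-1 - (i : ℤ))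

def Gam (γ : ℝ → ℝ) (l : ℝ) : Sm := l⁻¹ • prof γ l
def ga (γ : ℝ → ℝ) (l : ℝ) : Sm := kap * (Gam γ l - 1)
def qa (γ : ℝ → ℝ) (l : ℝ) : Sm := 1 - ph * ga γ l
def ca (γ : ℝ → ℝ) (l : ℝ) : Sm := qa γ l ^ 2
def cb (γ : ℝ → ℝ) (l : ℝ) : Sm := 2 * qa γ l * ph * A0 (ga γ l)
/-- the time derivative of `t ↦ ga γ (lam t)` -/
def gat (γ : ℝ → ℝ) (l : ℝ) : Sm := -(kap * (prof (hh γ) l ^ 2 * D (D (That (Gam γ l)))))
/-- the error of the approximate solution -/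
def Err (γ : ℝ → ℝ) (l : ℝ) : Sm := gat γ l + ca γ l * A0 (ga γ l)

end Crest.Agent.R213
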