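import Crest.Agent.R213.Kernel

/-! # Row 213, time derivatives and continuity of the weighted norms along curves -/

set_option autoImplicit false
open Set Filter Topology
open scoped ContDiff

noncomputable section
namespace Crest.Agent.R213

lemma end_lam : ContDiffOn ℝ ∞ (fun p : ℝ × ℝ => lam p.1) (Iio 0 ×ˢ I) :=
  contDiffOn_lam.comp contDiffOn_fst fun _ hp => hp.1

lemma ck_sp (m : ℤ) : CK ∞ (Iio 0) fun t => sp (lam t) m := by
  refine CK_of_kernel isOpen_Iio (Φ := fun p : ℝ × ℝ => (p.2 + lam p.1) ^ m) ?_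
  have hne : ∀ p ∈ Iio (0 : ℝ) ×ˢ I, p.2 + lam p.1 ≠ 0 := fun p hp => by
    have h1 := hp.2.1
    have h2 := lam_pos hp.1
    positivity
  have h := contDiffOn_snd.add end_lam
  cases m with
  | ofNat n => simpa using h.pow n
  | negSucc n =>
    simp only [zpow_negSucc]
    exact (h.pow (n + 1)).inv fun p hp => pow_ne_zero _ (hne p hp)
lemma cd_sp (m : ℤ) {t : ℝ} (ht : t < 0) :
    CD (fun s => sp (lam s) m) ((-(m : ℝ) / (2 * lam t)) • sp (lam t) (m - 1)) t := by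
  refine CD_of_pointwise isOpen_Iio ht (ck_sp m) fun x hx => ?_
  have hl := lam_pos ht
  have hne : x + lam t ≠ 0 := by have := hx.1; positivity
  have h1 := (hasDerivAt_zpow m (x + lam t) (Or.inl hne)).comp t ((hasDerivAt_lam ht).const_add x)
  refine (h1.congr_deriv ?_).congr_of_eventuallyEq ?_
  · rw [ev_smul, ev_sp hl _ hx]
    ring
  · filter_upwards [Iio_mem_nhds ht] with s hs
    exact ev_sp (lam_pos hs) m hx
lemma ck_prof {f : ℝ → ℝ} (hf : ContDiff ℝ ∞ f) : CK ∞ (Iio 0) fun t => prof f (lam t) := CK_of_kernel isOpen_Iio (Φ := fun p : ℝ × ℝ => f (p.2 / lam p.1))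
    (hf.comp_contDiffOn (contDiffOn_snd.div end_lam fun _ hp => (lam_pos hp.1).ne'))

variable {v : ℝ → Sm} {v' : Sm} {t : ℝ} {J : Set ℝ}
lemma hasDerivAt_lev_fixed (h : CD v v' t) (l : ℝ) (e : ℤ) (j : ℕ) :
    HasDerivAt (fun s => lev l e j (v s)) (2 * levB l e j v' (v t)) t := by
  have h1 := (((h.Dpow j).mul (h.Dpow j)).const_mul (mu (j + 2) * sp l ((j : ℤ) - e))).Ii
  simp only [lev, wl, sq]
  refine h1.congr_deriv ?_
  rw [levB, two_mul, ← map_add]
  congr 1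
  ring
lemma hasDerivAt_lev (h : CD v v' t) (ht : t < 0) (e : ℤ) (j : ℕ) :
    HasDerivAt (fun s => lev (lam s) e j (v s))
      (2 * levB (lam t) e j v' (v t) + ((e : ℝ) - j) / (2 * lam t) * lev (lam t) (e + 1) j (v t)) t := by
  have h1 := (((cd_sp ((j : ℤ) - e) ht).const_mul (mu (j + 2))).mul ((h.Dpow j).mul (h.Dpow j))).Ii
  simp only [lev, wl, sq]
  refine h1.congr_deriv ?_
  rw [levB, two_mul (Ii _), ← smul_eq_mul (((e : ℝ) - j) / (2 * lam t)), ← map_smul, ← map_add, ← map_add,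
    show (j : ℤ) - (e + 1) = j - e - 1 by ring,
    show ((e : ℝ) - j) = -(((j : ℤ) - e : ℤ) : ℝ) by push_cast; ring]
  congr 1
  simp only [Algebra.smul_def]
  ring
lemma hasDerivAt_HQ (h : CD v v' t) (ht : t < 0) :
    HasDerivAt (fun s => HQ (lam s) (v s))
      (2 * HB (lam t) v' (v t) - 3 / 2 * (-t)⁻¹ * HQ (lam t) (v t)
        + 13 / 2 * lam t ^ 2 * Ii (mu 2 * psi * sp (lam t) (-14) * v t ^ 2)) t := by
  have hl := lam_pos ht
  have h1 := ((((cd_sp (-13) ht).const_mul (mu 2 * psi)).mul h).mul h).Ii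
  have h2 := ((hasDerivAt_lam ht).pow 3).mul h1
  simp only [HQ, HB]
  refine h2.congr_deriv ?_
  have e : (mu 2 * psi * ((-((-13 : ℤ) : ℝ) / (2 * lam t)) • sp (lam t) (-13 - 1)) * v t +
      mu 2 * psi * sp (lam t) (-13) * v') * v t + mu 2 * psi * sp (lam t) (-13) * v t * v' =
      (13 / (2 * lam t)) • (mu 2 * psi * sp (lam t) (-14) * v t ^ 2) +
      (2 : ℝ) • (mu 2 * psi * sp (lam t) (-13) * v' * v t) := by
    rw [show (-13 - 1 : ℤ) = -14 by norm_num, show (-((-13 : ℤ) : ℝ)) = 13 by norm_num, two_smul]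
    simp only [Algebra.smul_def]
    ring
  rw [e, map_add, map_smul, map_smul, ← lam_sq ht.le]
  simp only [smul_eq_mul, Pi.pow_apply]
  field_simp
  ring
lemma CC.levB_fixed {u : ℝ → Sm} (hu : CC J u) (h : CC J v) (l : ℝ) (e : ℤ) (j : ℕ) :
    ContinuousOn (fun s => levB l e j (u s) (v s)) J := (((CC.const _).mul (hu.Dpow j)).mul (h.Dpow j)).Ii
lemma CC.lev_fixed (h : CC J v) (l : ℝ) (e : ℤ) (j : ℕ) : ContinuousOn (fun s => lev l e j (v s)) J := ((CC.const _).mul ((h.Dpow j).pow 2)).Ii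
lemma CC.N2_fixed (h : CC J v) (l : ℝ) (e : ℤ) (k : ℕ) : ContinuousOn (fun s => N2 l e k (v s)) J := continuousOn_finsetSum _ fun j _ => h.lev_fixed l e j
lemma CC.ell (h : CC J v) (l : ℝ) (β : ℝ → ℝ) : ContinuousOn (fun s => ell l β (v s)) J := ((CC.const _).mul h).Ii
lemma end_cc_sp (hJ : J ⊆ Iio 0) (m : ℤ) : CC J fun t => sp (lam t) m := (ck_sp m).cc.mono hJ
lemma CC.lev (h : CC J v) (hJ : J ⊆ Iio 0) (e : ℤ) (j : ℕ) :
    ContinuousOn (fun s => lev (lam s) e j (v s)) J := (((CC.const _).mul (end_cc_sp hJ _)).mul ((h.Dpow j).pow 2)).Ii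
lemma CC.N2 (h : CC J v) (hJ : J ⊆ Iio 0) (e : ℤ) (k : ℕ) :
    ContinuousOn (fun s => N2 (lam s) e k (v s)) J := continuousOn_finsetSum _ fun j _ => h.lev hJ e j
lemma CC.Gk (h : CC J v) (hJ : J ⊆ Iio 0) (e : ℤ) (k : ℕ) :
    ContinuousOn (fun s => Gk (lam s) e k (v s)) J := (((CC.const _).mul (end_cc_sp hJ _)).mul (((h.Dpow k).T k).pow 2)).Ii
lemma CC.Ek (h : CC J v) (hJ : J ⊆ Iio 0) (k : ℕ) : ContinuousOn (fun s => Ek (lam s) k (v s)) J := (h.lev hJ 12 k).add (h.lev hJ 12 0)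
lemma CC.HQ (h : CC J v) (hJ : J ⊆ Iio 0) : ContinuousOn (fun s => HQ (lam s) (v s)) J := (continuous_lam.pow 3).continuousOn.mul ((((CC.const _).mul (end_cc_sp hJ _)).mul h).mul h).Ii

/-- integrated form of a differential inequality -/
lemma le_of_deriv_le {f g : ℝ → ℝ} {t₀ t₁ : ℝ} (h : t₀ ≤ t₁) (hf : ContinuousOn f (Icc t₀ t₁))
    (hg : ContinuousOn g (Icc t₀ t₁)) (hd : ∀ t ∈ Ioo t₀ t₁, ∃ f', HasDerivAt f f' t ∧ f' ≤ g t) :
    f t₁ ≤ f t₀ + ∫ s in t₀..t₁, g s := by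
  have h1 := intervalIntegral.sub_le_integral_of_hasDeriv_right_of_le (g' := deriv f) h hf
    (fun x hx => by
      obtain ⟨f', h1, -⟩ := hd x hx
      exact h1.differentiableAt.hasDerivAt.hasDerivWithinAt)
    (hg.integrableOn_compact isCompact_Icc)
    (fun x hx => by
      obtain ⟨f', h1, h2⟩ := hd x hx
      rwa [h1.deriv])
  linarith
/-- Gronwall with constant rate -/
lemma gronwall_const {f g : ℝ → ℝ} {t₀ t₁ K : ℝ} (h : t₀ ≤ t₁) (hK : 0 ≤ K)
    (hf : ContinuousOn f (Icc t₀ t₁)) (hg : ContinuousOn g (Icc t₀ t₁)) (hg0 : ∀ t ∈ Icc t₀ t₁, 0 ≤ g t)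
    (hd : ∀ t ∈ Ioo t₀ t₁, ∃ f', HasDerivAt f f' t ∧ f' ≤ K * f t + g t) :
    f t₁ ≤ Real.exp (K * (t₁ - t₀)) * (f t₀ + ∫ s in t₀..t₁, g s) := by
  have h1 := le_of_deriv_le (f := fun t => Real.exp (-(K * (t - t₀))) * f t) h
    (ContinuousOn.mul (by fun_prop) hf) hg fun t ht => by
      obtain ⟨f', a1, a2⟩ := hd t ht
      have a3 := (((hasDerivAt_id t).sub_const t₀).const_mul K).neg.exp.mul a1
      refine ⟨_, a3, ?_⟩
      have a4 := Real.exp_pos (-(K * (t - t₀)))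
      have a5 : Real.exp (-(K * (t - t₀))) ≤ 1 :=
        Real.exp_le_one_iff.2 (neg_nonpos.2 (mul_nonneg hK (sub_nonneg.2 ht.1.le)))
      have a6 := hg0 t (Ioo_subset_Icc_self ht)
      simp only [id, Pi.neg_apply, mul_one]
      nlinarith [mul_le_mul_of_nonneg_left a2 a4.le]
  simp only [sub_self, mul_zero, neg_zero, Real.exp_zero, one_mul] at h1
  have h2 := mul_le_mul_of_nonneg_left h1 (Real.exp_pos (K * (t₁ - t₀))).le
  rwa [← mul_assoc, ← Real.exp_add, add_neg_cancel, Real.exp_zero, one_mul] at h2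
/-- Gronwall with rate `p / (-t)` (integrating factor `(-t)^p`), `p` of either sign:
`f t₁ ≤ (t₀/t₁)^p f t₀ + max 1 ((t₀/t₁)^p) ∫ g` -/
lemma gronwall_sim {f g : ℝ → ℝ} {t₀ t₁ p : ℝ} (h : t₀ ≤ t₁) (h₁ : t₁ < 0)
    (hf : ContinuousOn f (Icc t₀ t₁)) (hg : ContinuousOn g (Icc t₀ t₁)) (hg0 : ∀ t ∈ Icc t₀ t₁, 0 ≤ g t)
    (hd : ∀ t ∈ Ioo t₀ t₁, ∃ f', HasDerivAt f f' t ∧ f' ≤ p * (-t)⁻¹ * f t + g t) :
    f t₁ ≤ (t₀ / t₁) ^ p * f t₀ + max 1 ((t₀ / t₁) ^ p) * ∫ s in t₀..t₁, g s := by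
  have hpos : ∀ t, t ≤ t₁ → 1 ≤ t / t₁ := fun t ht => by
    rw [one_le_div_of_neg h₁]
    exact ht
  have h1 := le_of_deriv_le (f := fun t => (t / t₁) ^ p * f t)
    (g := fun t => max 1 ((t₀ / t₁) ^ p) * g t) h
    (ContinuousOn.mul (ContinuousOn.rpow_const (by fun_prop) fun t ht =>
      Or.inl (by linarith [hpos t ht.2])) hf) (hg.const_mul _) fun t ht => by
      obtain ⟨f', a1, a2⟩ := hd t ht
      have a0 : 0 < t / t₁ := by linarith [hpos t ht.2.le]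
      have a3 := (((hasDerivAt_id t).div_const t₁).rpow_const (p := p) (Or.inl a0.ne')).mul a1
      refine ⟨_, a3, ?_⟩
      have ht0 : t ≠ 0 := (ht.2.trans h₁).ne
      have a4 : 0 < (t / t₁) ^ p := Real.rpow_pos_of_pos a0 p
      have a5 : (t / t₁) ^ p ≤ max 1 ((t₀ / t₁) ^ p) := by
        rcases le_total p 0 with hp | hp
        · exact (Real.rpow_le_one_of_one_le_of_nonpos (hpos t ht.2.le) hp).trans (le_max_left _ _)
        · exact (Real.rpow_le_rpow a0.le (div_le_div_of_nonpos_of_le h₁.le ht.1.le) hp).trans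
            (le_max_right _ _)
      have a6 := hg0 t (Ioo_subset_Icc_self ht)
      have a7 : 1 / t₁ * p * (t / t₁) ^ (p - 1) = -(p * (-t)⁻¹) * (t / t₁) ^ p := by
        rw [Real.rpow_sub_one a0.ne']
        have := h₁.ne
        field_simp
      simp only [id]
      rw [a7]
      nlinarith [mul_le_mul_of_nonneg_left a2 a4.le, mul_le_mul_of_nonneg_right a5 a6]
  rwa [div_self h₁.ne, Real.one_rpow, one_mul, intervalIntegral.integral_const_mul] at h1

end Crest.Agent.R213
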