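import Crest.Agent.R213.Interp
import Crest.Agent.R213.Prod

/-! # Row 213, the two Gårding inequalities -/

set_option autoImplicit false
open Set Filter Topology
open scoped ContDiff

noncomputable section
namespace Crest.Agent.R213

lemma en_young {η : ℝ} (hη : 0 < η) (x y : ℝ) : 2 * (x * y) ≤ η * x ^ 2 + η⁻¹ * y ^ 2 := by
  have h : η * x ^ 2 + η⁻¹ * y ^ 2 - 2 * (x * y) = η⁻¹ * (η * x - y) ^ 2 := by
    field_simp
    ring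
  have : 0 ≤ η⁻¹ * (η * x - y) ^ 2 := by positivity
  linarith

lemma en_mu_nonneg (m : ℕ) {x : ℝ} (hx : x ∈ I) : 0 ≤ ev (mu m) x := by
  rw [ev_mu m hx]
  have h1 := hx.1
  have h2 : 0 ≤ 1 - x := sub_nonneg.2 hx.2
  positivity

lemma en_sp_pos {l : ℝ} (hl : 0 < l) (s : ℤ) {x : ℝ} (hx : x ∈ I) : 0 < ev (sp l s) x := by
  rw [ev_sp hl s hx]
  have h1 := hx.1
  positivity

lemma en_sp_inv {l : ℝ} (hl : 0 < l) (s : ℤ) (x : ℝ) : ev (sp l s) x * ev (sp l (-s)) x = 1 := by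
  rw [← ev_mul, ← sp_add hl, add_neg_cancel, sp_zero hl, ev_one]

lemma en_pt0 {a₀ a m o o' t R : ℝ} (ha₀ : 0 < a₀) (ha : a₀ ≤ a) (hm : 0 ≤ m) (ho : 0 < o)
    (hoo : o * o' = 1) :
    -2 * (m * t * (a * o * t + R)) ≤ -a₀ * (m * o * t ^ 2) + a₀⁻¹ * (m * o' * R ^ 2) := by
  obtain ⟨r, rfl⟩ : ∃ r, R = o * r := ⟨o' * R, by rw [← mul_assoc, hoo, one_mul]⟩
  have e : m * o' * (o * r) ^ 2 = m * o * r ^ 2 := by
    linear_combination (m * o * r ^ 2) * hoo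
  have h1 := en_young ha₀ t (-r)
  have h2 := mul_le_mul_of_nonneg_right ha (sq_nonneg t)
  have h3 : -2 * (t * (a * t + r)) ≤ -a₀ * t ^ 2 + a₀⁻¹ * r ^ 2 := by
    rw [neg_sq] at h1
    linarith
  have h4 := mul_le_mul_of_nonneg_left h3 (mul_nonneg hm ho.le)
  rw [e]
  linarith

lemma en_pt {a₀ Ca a m o o' t Z f R : ℝ} (ha₀ : 0 < a₀) (ha : a₀ ≤ a) (hCa : |a| ≤ Ca) (hm : 0 ≤ m)
    (ho : 0 < o) (hoo : o * o' = 1) :
    2 * (m * (-(a * t) + Z + f) * (o * t + R)) ≤ -(4 / 3 * a₀) * (m * o * t ^ 2) +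
      4 / a₀ * (m * o * f ^ 2) + (a₀ + 6 * Ca ^ 2 / a₀ + 1) * (m * o' * R ^ 2) +
      (6 / a₀ + 1) * (m * o * Z ^ 2) := by
  obtain ⟨r, rfl⟩ : ∃ r, R = o * r := ⟨o' * R, by rw [← mul_assoc, hoo, one_mul]⟩
  have e : m * o' * (o * r) ^ 2 = m * o * r ^ 2 := by
    linear_combination (m * o * r ^ 2) * hoo
  have h1 := en_young (show 0 < a₀ / 3 by positivity) t f
  have h2 := en_young ha₀ r f
  have h3 := en_young (show 0 < a₀ / 6 by positivity) t (-(a * r))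
  have h4 := en_young (show 0 < a₀ / 6 by positivity) t Z
  have h5 := en_young one_pos Z r
  have h6 := mul_le_mul_of_nonneg_right ha (sq_nonneg t)
  have h7 : a ^ 2 ≤ Ca ^ 2 := by
    rw [← sq_abs a]
    exact pow_le_pow_left₀ (abs_nonneg a) hCa 2
  have h8 := mul_le_mul_of_nonneg_right h7 (show 0 ≤ a₀⁻¹ * r ^ 2 by positivity)
  rw [inv_div, div_eq_mul_inv 3] at h1
  rw [inv_div, div_eq_mul_inv 6 a₀] at h3 h4
  have h9 : 2 * ((-(a * t) + Z + f) * (t + r)) ≤ -(4 / 3 * a₀) * t ^ 2 + 4 * a₀⁻¹ * f ^ 2 +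
      (a₀ + 6 * Ca ^ 2 * a₀⁻¹ + 1) * r ^ 2 + (6 * a₀⁻¹ + 1) * Z ^ 2 := by
    rw [inv_one] at h5
    linarith
  have h10 := mul_le_mul_of_nonneg_left h9 (mul_nonneg hm ho.le)
  rw [e, div_eq_mul_inv 4 a₀, div_eq_mul_inv _ a₀, div_eq_mul_inv 6 a₀]
  linarith

lemma en_int0 {a₀ l : ℝ} (ha₀ : 0 < a₀) (hl : 0 < l) (s : ℤ) {a : Sm} (ha : ∀ x ∈ I, a₀ ≤ ev a x)
    (t R : Sm) : -2 * Ii (mu 0 * t * (a * sp l s * t + R)) ≤
      -a₀ * Ii (mu 0 * sp l s * t ^ 2) + a₀⁻¹ * Ii (mu 0 * sp l (-s) * R ^ 2) := by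
  simp only [← smul_eq_mul (α := ℝ), ← map_smul, ← map_add]
  refine Ii_mono fun x hx => ?_
  simp only [ev_add, ev_smul, ev_mul, ev_pow]
  exact en_pt0 ha₀ (ha x hx) (en_mu_nonneg 0 hx) (en_sp_pos hl s hx) (en_sp_inv hl s x)

lemma en_int {a₀ Ca l : ℝ} (ha₀ : 0 < a₀) (hl : 0 < l) (m : ℕ) (s : ℤ) {a : Sm}
    (ha : ∀ x ∈ I, a₀ ≤ ev a x) (hCa : ∀ x ∈ I, |ev a x| ≤ Ca) (t Z f R : Sm) :
    2 * Ii (mu m * (-(a * t) + Z + f) * (sp l s * t + R)) ≤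
      -(4 / 3 * a₀) * Ii (mu m * sp l s * t ^ 2) + 4 / a₀ * Ii (mu m * sp l s * f ^ 2) +
      (a₀ + 6 * Ca ^ 2 / a₀ + 1) * Ii (mu m * sp l (-s) * R ^ 2) +
      (6 / a₀ + 1) * Ii (mu m * sp l s * Z ^ 2) := by
  have h := Ii_mono (f := (2 : ℝ) • (mu m * (-(a * t) + Z + f) * (sp l s * t + R)))
    (g := (-(4 / 3 * a₀)) • (mu m * sp l s * t ^ 2) + (4 / a₀) • (mu m * sp l s * f ^ 2) +
      (a₀ + 6 * Ca ^ 2 / a₀ + 1) • (mu m * sp l (-s) * R ^ 2) +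
      (6 / a₀ + 1) • (mu m * sp l s * Z ^ 2)) fun x hx => by
    simp only [ev_add, ev_smul, ev_mul, ev_pow, ev_neg]
    exact en_pt ha₀ (ha x hx) (hCa x hx) (en_mu_nonneg m hx) (en_sp_pos hl s hx) (en_sp_inv hl s x)
  simpa only [map_add, map_smul, smul_eq_mul] using h

lemma en_low {l Ca : ℝ} (hl : 0 < l) (e : ℤ) {b : Sm} (hb : Symb l (-2) 0 Ca b) (v F : Sm) :
    2 * Ii (mu 2 * sp l (-e) * (b * v + F) * v) ≤
      (2 * Ca + 1) * lev l (e + 2) 0 v + lev l (e - 2) 0 F := by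
  have e1 : lev l (e + 2) 0 v = Ii (mu 2 * (sp l (-e) * sp l (-2)) * v ^ 2) := by
    rw [← sp_add hl, show -e + -2 = ((0 : ℕ) : ℤ) - (e + 2) by push_cast; ring]
    rfl
  have e2 : lev l (e - 2) 0 F = Ii (mu 2 * (sp l (-e) * sp l 2) * F ^ 2) := by
    rw [← sp_add hl, show -e + 2 = ((0 : ℕ) : ℤ) - (e - 2) by push_cast; ring]
    rfl
  have h := Ii_mono (f := (2 : ℝ) • (mu 2 * sp l (-e) * (b * v + F) * v))
    (g := (2 * Ca + 1) • (mu 2 * (sp l (-e) * sp l (-2)) * v ^ 2) +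
      mu 2 * (sp l (-e) * sp l 2) * F ^ 2) fun x hx => by
    simp only [ev_add, ev_smul, ev_mul, ev_pow]
    have h1 : ev b x ≤ Ca * ev (sp l (-2)) x := by
      have := hb 0 le_rfl x hx
      rw [ev_sp hl _ hx]
      exact (le_abs_self _).trans (by simpa using this)
    have h2 := en_young (en_sp_pos hl 2 hx) (ev F x) (ev v x)
    rw [← eq_inv_of_mul_eq_one_right (en_sp_inv hl 2 x)] at h2
    have h3 := mul_le_mul_of_nonneg_right h1 (sq_nonneg (ev v x))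
    have h4 : 2 * ((ev b x * ev v x + ev F x) * ev v x) ≤
        (2 * Ca + 1) * (ev (sp l (-2)) x * ev v x ^ 2) + ev (sp l 2) x * ev F x ^ 2 := by
      linarith
    have h5 := mul_le_mul_of_nonneg_left h4
      (mul_nonneg (en_mu_nonneg 2 hx) (en_sp_pos hl (-e) hx).le)
    linarith
  rw [e1, e2]
  simpa only [map_add, map_smul, smul_eq_mul] using h

lemma en_Ca {Ca l : ℝ} {K : ℕ} {a : Sm} (h : Symb l 0 K Ca a) : 0 ≤ Ca :=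
  (abs_nonneg _).trans (h.abs_le (x := 0) (by simp))

/-- Level `0`.  `levB (−a A₀ v) v = −∫ μ₀ T₀v T₀(a σ^{-e} v)` (`A0_form`), `T_comm` for `a σ^{-e}`, then
`N2_le_Gk`, `N2_le_eps_Gk` with `k = 0`. -/
theorem energy_zero (e : ℤ) {a₀ : ℝ} (ha₀ : 0 < a₀) (Ca : ℝ) : ∃ c > (0 : ℝ), ∃ C, 0 ≤ C ∧
    ∀ l ∈ Ioc (0 : ℝ) 1, ∀ a b, Symb l 0 2 Ca a → Symb l (-2) 0 Ca b → (∀ x ∈ I, a₀ ≤ ev a x) →
    ∀ v F, 2 * levB l e 0 (Lop a b v + F) v ≤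
      -c * N2 l (e + 2) 2 v + C * lev l (e + 2) 0 v + lev l (e - 2) 0 F := by
  obtain ⟨C₁, hC₁, h₁⟩ := T_comm 0 (-e)
  obtain ⟨C₂, hC₂, h₂⟩ := symb_sp (-e) 2
  obtain ⟨C₃, hC₃, h₃⟩ := N2_le_Gk e 0
  obtain ⟨K, hK⟩ : ∃ K, K = a₀⁻¹ * (C₁ * (2 ^ 2 * Ca * C₂) ^ 2) := ⟨_, rfl⟩
  have hK0 : 0 ≤ K := by rw [hK]; positivity
  obtain ⟨C₄, hC₄, h₄⟩ := N2_le_eps_Gk e 0 (show 0 < a₀ / 2 / (K + 1) by positivity)
  refine ⟨a₀ / 2 / (C₃ + 1), by positivity, K * C₄ + (2 * |Ca| + 1) + a₀ / 2, by positivity,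
    fun l hl a b hsa hsb ha v F => ?_⟩
  have hCa := en_Ca hsa
  rw [abs_of_nonneg hCa]
  have hω : Symb l (-e) 2 (2 ^ 2 * Ca * C₂) (a * sp l (-e)) := by
    have := Symb.mul hl.1 hCa hC₂ hsa (h₂ l hl.1)
    rwa [zero_add] at this
  obtain ⟨R, hR⟩ : ∃ R, R = T 0 (a * sp l (-e) * v) - a * sp l (-e) * T 0 v := ⟨_, rfl⟩
  have a1 := h₁ l hl _ _ v hω
  rw [← hR] at a1
  have e1 : N2 l (e + 2) (0 + 1) v = Ii (mu (0 + 3) * sp l (-e - 1) * (D v) ^ 2) +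
      Ii (mu (0 + 2) * sp l (-e - 2) * v ^ 2) := by
    rw [N2_succ, N2_zero, add_comm, show -e - 1 = ((0 + 1 : ℕ) : ℤ) - (e + 2) by push_cast; ring,
      show -e - 2 = ((0 : ℕ) : ℤ) - (e + 2) by push_cast; ring, ← Dpow_one v]
    rfl
  rw [← e1] at a1
  have e2 : Gk l e 0 v = Ii (mu 0 * sp l (-e) * (T 0 v) ^ 2) := by
    rw [show -e = ((0 : ℕ) : ℤ) - e by push_cast; ring]
    rfl
  have e3 : levB l e 0 (Lop a b v + F) v = -Ii (mu 0 * T 0 v * (a * sp l (-e) * T 0 v + R)) +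
      Ii (mu 2 * sp l (-e) * (b * v + F) * v) := by
    rw [hR, add_sub_cancel, ← A0_form, ← map_neg, ← map_add, levB,
      show ((0 : ℕ) : ℤ) - e = -e by push_cast; ring, Dpow_zero, Dpow_zero, Lop]
    congr 1
    ring
  have a2 := en_int0 ha₀ hl.1 (-e) ha (T 0 v) R
  rw [← e2] at a2
  have a3 := en_low hl.1 e hsb v F
  have a4 := mul_le_mul_of_nonneg_left a1 (inv_pos.2 ha₀).le
  rw [← mul_assoc, ← hK] at a4
  have a5 := mul_le_mul_of_nonneg_left (h₄ l hl v) hK0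
  have hG := Gk_nonneg hl.1 e 0 v
  have hL := lev_nonneg hl.1 (e + 2) 0 v
  have a6 : K * (a₀ / 2 / (K + 1) * Gk l e 0 v) ≤ a₀ / 2 * Gk l e 0 v := by
    rw [← mul_assoc]
    refine mul_le_mul_of_nonneg_right ?_ hG
    rw [← mul_div_assoc, div_le_iff₀ (by positivity)]
    nlinarith
  have a7 : a₀ / 2 / (C₃ + 1) * N2 l (e + 2) 2 v ≤ a₀ / 2 * (Gk l e 0 v + lev l (e + 2) 0 v) := by
    have b1 : N2 l (e + 2) 2 v ≤ (C₃ + 1) * (Gk l e 0 v + lev l (e + 2) 0 v) :=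
      (h₃ l hl v).trans (mul_le_mul_of_nonneg_right (by linarith) (by positivity))
    refine (mul_le_mul_of_nonneg_left b1 (by positivity)).trans (le_of_eq ?_)
    field_simp
  rw [e3]
  rw [mul_add] at a5
  linarith

lemma en_Z (e : ℤ) (k : ℕ) (Ca : ℝ) : ∃ C, 0 ≤ C ∧ ∀ l ∈ Ioc (0 : ℝ) 1, ∀ a b, Symb l 0 k Ca a →
    Symb l (-2) k Ca b → ∀ v, wl l (e - 2) k ((D ^ k) (Lop a b v) + a * T (k + 2) ((D ^ (k + 2)) v)) ≤
      C * N2 l (e + 2) (k + 3) v := by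
  have z1 : ∃ C, 0 ≤ C ∧ ∀ l ∈ Ioc (0 : ℝ) 1, ∀ a, Symb l 0 k Ca a → ∀ v,
      wl l (e - 2) k ((D ^ k) (a * A0 v) - a * (D ^ k) (A0 v)) ≤ C * N2 l (e + 2) (k + 3) v := by
    cases k with
    | zero => exact ⟨0, le_rfl, fun l _ a _ v => by simp⟩
    | succ j =>
      obtain ⟨C₁, hC₁, h₁⟩ := wl_comm_mult (e - 2) 0 j
      obtain ⟨C₂, hC₂, h₂⟩ := N2_A0 (e - 2) j
      refine ⟨C₁ * Ca ^ 2 * C₂, by positivity, fun l hl a ha v => ?_⟩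
      have a1 := h₁ l hl _ a (A0 v) (ha.mult hl.1)
      have a2 := h₂ l hl v
      rw [show e - 2 + 4 = e + 2 by ring] at a2
      rw [show e - 2 - 2 * 0 = e - 2 by ring] at a1
      rw [mul_assoc]
      exact a1.trans (mul_le_mul_of_nonneg_left a2 (by positivity))
  obtain ⟨C₁, hC₁, h₁⟩ := z1
  obtain ⟨C₂, hC₂, h₂⟩ := wl_A0_top e k
  obtain ⟨C₃, hC₃, h₃⟩ := N2_symb (e - 2) (-2) k
  refine ⟨4 * C₁ + 4 * (Ca ^ 2 * (C₂ * 4)) + 2 * (C₃ * Ca ^ 2), by positivity,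
    fun l hl a b ha hb v => ?_⟩
  have e1 : (D ^ k) (Lop a b v) + a * T (k + 2) ((D ^ (k + 2)) v) = (D ^ k) (b * v) -
      (((D ^ k) (a * A0 v) - a * (D ^ k) (A0 v)) +
        a * ((D ^ k) (A0 v) - T (k + 2) ((D ^ (k + 2)) v))) := by
    rw [Lop, map_add, map_neg]
    ring
  have a1 := h₁ l hl a ha v
  have a2 : wl l (e - 2) k (a * ((D ^ k) (A0 v) - T (k + 2) ((D ^ (k + 2)) v))) ≤
      Ca ^ 2 * (C₂ * 4) * N2 l (e + 2) (k + 3) v := by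
    refine (wl_mul_le hl.1 _ _ (C := Ca ^ 2) (fun x hx => ?_) _).trans ?_
    · rw [← sq_abs]
      exact pow_le_pow_left₀ (abs_nonneg _) (ha.abs_le hx) 2
    · have b1 := N2_mono_e hl (show e ≤ e + 2 by omega) (k + 2) v
      rw [add_sub_cancel_left, show (2 : ℝ) ^ (2 : ℤ) = 4 by norm_num] at b1
      have b2 := N2_mono hl.1 (e + 2) (show k + 2 ≤ k + 3 by omega) v
      rw [mul_assoc, mul_assoc]
      refine mul_le_mul_of_nonneg_left ((h₂ l hl v).trans ?_) (sq_nonneg _)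
      exact mul_le_mul_of_nonneg_left (by linarith) hC₂
  have a3 : wl l (e - 2) k ((D ^ k) (b * v)) ≤ C₃ * Ca ^ 2 * N2 l (e + 2) (k + 3) v := by
    have b1 := h₃ l hl _ b v hb
    rw [show e - 2 - 2 * -2 = e + 2 by ring] at b1
    exact (lev_le_N2 hl.1 (e - 2) le_rfl (b * v)).trans (b1.trans (mul_le_mul_of_nonneg_left
      (N2_mono hl.1 (e + 2) (show k ≤ k + 3 by omega) v) (by positivity)))
  rw [e1]
  refine (wl_sub_le hl.1 _ _ _ _).trans ?_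
  have a4 := wl_add_le hl.1 (e - 2) k ((D ^ k) (a * A0 v) - a * (D ^ k) (A0 v))
    (a * ((D ^ k) (A0 v) - T (k + 2) ((D ^ (k + 2)) v)))
  linarith

/-- Level `k+2`.  With `w = D^{k+2} v`, `ω = σ^{k+2-e}`, `G = Lop a b v + F`:
`levB G v = ∫ μ_{k+2} D^k G · T_{k+2}(ω w)` (`ibp2`), `T(ω w) = ω T w + R₂` (`T_comm`, `symb_sp`),
`D^k G = -a T w + Z + D^k F`, where `Z` is controlled by `wl_A0_top`, `wl_comm_mult` + `N2_A0`, `N2_symb`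
through `N2 l (e+2) (k+3) v ≤ ε Gk + C lev (e+2) 0` (`N2_le_eps_Gk`).  The constant of `F` does not depend on `k`. -/
theorem energy_top (e : ℤ) (k : ℕ) {a₀ : ℝ} (ha₀ : 0 < a₀) (Ca : ℝ) : ∃ C, 0 ≤ C ∧
    ∀ l ∈ Ioc (0 : ℝ) 1, ∀ a b, Symb l 0 k Ca a → Symb l (-2) k Ca b → (∀ x ∈ I, a₀ ≤ ev a x) →
    ∀ v F, 2 * levB l e (k + 2) (Lop a b v + F) v ≤
      -a₀ * Gk l e (k + 2) v + 4 / a₀ * lev l (e - 2) k F + C * lev l (e + 2) 0 v := by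
  obtain ⟨s, hs⟩ : ∃ s : ℤ, s = ((k + 2 : ℕ) : ℤ) - e := ⟨_, rfl⟩
  obtain ⟨C₁, hC₁, h₁⟩ := T_comm (k + 2) s
  obtain ⟨C₂, hC₂, h₂⟩ := symb_sp s 2
  obtain ⟨C₃, hC₃, h₃⟩ := en_Z e k Ca
  obtain ⟨K, hK⟩ : ∃ K, K = (a₀ + 6 * Ca ^ 2 / a₀ + 1) * (C₁ * C₂ ^ 2) + (6 / a₀ + 1) * C₃ :=
    ⟨_, rfl⟩
  have hK0 : 0 ≤ K := by rw [hK]; positivity
  obtain ⟨C₄, hC₄, h₄⟩ := N2_le_eps_Gk e (k + 2) (show 0 < a₀ / 3 / (K + 1) by positivity)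
  refine ⟨K * C₄, by positivity, fun l hl a b hsa hsb ha v F => ?_⟩
  obtain ⟨w, hw⟩ : ∃ w, w = (D ^ (k + 2)) v := ⟨_, rfl⟩
  obtain ⟨R, hR⟩ : ∃ R, R = T (k + 2) (sp l s * w) - sp l s * T (k + 2) w := ⟨_, rfl⟩
  obtain ⟨Z, hZ⟩ : ∃ Z, Z = (D ^ k) (Lop a b v) + a * T (k + 2) w := ⟨_, rfl⟩
  have ew : ∀ U, wl l (e - 2) k U = Ii (mu (k + 2) * sp l s * U ^ 2) := fun U => by
    rw [wl, show (k : ℤ) - (e - 2) = s by rw [hs]; push_cast; ring]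
  have e1 : levB l e (k + 2) (Lop a b v + F) v =
      Ii (mu (k + 2) * (-(a * T (k + 2) w) + Z + (D ^ k) F) * (sp l s * T (k + 2) w + R)) := by
    rw [hR, add_sub_cancel, hZ, neg_add_cancel_comm_assoc, ← map_add, ← ibp2, levB, ← hs, ← hw,
      Dpow_succ (k + 1), Dpow_succ k]
    congr 1
    ring
  have e2 : Gk l e (k + 2) v = Ii (mu (k + 2) * sp l s * (T (k + 2) w) ^ 2) := by
    rw [Gk, ← hs, ← hw]
  have e3 : lev l (e + 2) (k + 3) v = Ii (mu (k + 2 + 3) * sp l (s - 1) * (D w) ^ 2) := by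
    rw [hw, ← Dpow_succ, show s - 1 = ((k + 3 : ℕ) : ℤ) - (e + 2) by rw [hs]; push_cast; ring]
    rfl
  have e4 : lev l (e + 2) (k + 2) v = Ii (mu (k + 2 + 2) * sp l (s - 2) * w ^ 2) := by
    rw [hw, show s - 2 = ((k + 2 : ℕ) : ℤ) - (e + 2) by rw [hs]; push_cast; ring]
    rfl
  have a1 := h₁ l hl _ _ w (h₂ l hl.1)
  rw [← hR, ← e3, ← e4] at a1
  have a2 : lev l (e + 2) (k + 3) v + lev l (e + 2) (k + 2) v ≤ N2 l (e + 2) (k + 3) v := by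
    have := lev_le_N2 hl.1 (e + 2) (le_refl (k + 2)) v
    rw [N2_succ l (e + 2) (k + 2)]
    linarith
  have a3 := a1.trans (mul_le_mul_of_nonneg_left a2 (by positivity))
  have a4 := h₃ l hl a b hsa hsb v
  rw [← hw, ← hZ, ew] at a4
  have a5 := en_int ha₀ hl.1 (k + 2) s ha (fun x hx => hsa.abs_le hx) (T (k + 2) w) Z ((D ^ k) F) R
  rw [← e1, ← e2, ← ew ((D ^ k) F)] at a5
  have a6 := mul_le_mul_of_nonneg_left a3 (show 0 ≤ a₀ + 6 * Ca ^ 2 / a₀ + 1 by positivity)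
  have a7 := mul_le_mul_of_nonneg_left a4 (show 0 ≤ 6 / a₀ + 1 by positivity)
  have a8 : K * N2 l (e + 2) (k + 3) v ≤ K * (a₀ / 3 / (K + 1) * Gk l e (k + 2) v +
      C₄ * lev l (e + 2) 0 v) := mul_le_mul_of_nonneg_left (h₄ l hl v) hK0
  have hG := Gk_nonneg hl.1 e (k + 2) v
  have a9 : K * (a₀ / 3 / (K + 1) * Gk l e (k + 2) v) ≤ a₀ / 3 * Gk l e (k + 2) v := by
    rw [← mul_assoc]
    refine mul_le_mul_of_nonneg_right ?_ hG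
    rw [← mul_div_assoc, div_le_iff₀ (by positivity)]
    nlinarith
  have a10 : K * N2 l (e + 2) (k + 3) v =
      (a₀ + 6 * Ca ^ 2 / a₀ + 1) * (C₁ * C₂ ^ 2 * N2 l (e + 2) (k + 3) v) +
        (6 / a₀ + 1) * (C₃ * N2 l (e + 2) (k + 3) v) := by
    rw [hK]
    ring
  rw [mul_add] at a8
  have e5 : lev l (e - 2) k F = wl l (e - 2) k ((D ^ k) F) := rfl
  rw [e5]
  linarith

end Crest.Agent.R213
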