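import Crest.Agent.R213.Galerkin

/-! # Row 213, existence and uniqueness for the linear equation -/

set_option autoImplicit false
open Set Filter Topology
open scoped ContDiff

noncomputable section
namespace Crest.Agent.R213

lemma ex_one : (1 : ℝ) ∈ Ioc (0 : ℝ) 1 := ⟨one_pos, le_rfl⟩

lemma ex_N2_P {P : Module.End ℝ Sm} (hP : ∀ (k : ℕ) w, lev 1 k k (P w) ≤ lev 1 k k w) (k : ℕ) (w : Sm) :
    N2 1 0 k (P w) ≤ 2 ^ k * N2 1 0 k w := by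
  unfold N2
  rw [Finset.mul_sum]
  refine Finset.sum_le_sum fun j hj => ?_
  have hjk : j ≤ k := Nat.lt_succ_iff.1 (Finset.mem_range.1 hj)
  have h1 := lev_mono_e ex_one (e := 0) (e' := j) (Int.natCast_nonneg j) j (P w)
  have h2 := lev_le_inv one_pos (e := 0) (e' := j) (Int.natCast_nonneg j) j w
  rw [one_zpow, one_mul] at h2
  rw [sub_zero, zpow_natCast] at h1
  have h3 : (2 : ℝ) ^ j ≤ 2 ^ k := pow_le_pow_right₀ one_le_two hjk
  calc lev 1 0 j (P w) ≤ 2 ^ j * lev 1 j j (P w) := h1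
    _ ≤ 2 ^ j * lev 1 0 j w := mul_le_mul_of_nonneg_left ((hP j w).trans h2) (by positivity)
    _ ≤ 2 ^ k * lev 1 0 j w := mul_le_mul_of_nonneg_right h3 (lev_nonneg one_pos _ _ _)

lemma ex_N2_Lop {a b : ℝ → Sm} {J : Set ℝ} (hJ : IsCompact J) (ha : CC J a) (hb : CC J b) (k : ℕ) :
    ∃ C, 0 ≤ C ∧ ∀ t ∈ J, ∀ v, N2 1 0 k (Lop (a t) (b t) v) ≤ C * N2 1 0 (k + 4) v := by
  obtain ⟨Ca, -, hCa⟩ := ha.symb hJ 0 k
  obtain ⟨Cb, -, hCb⟩ := hb.symb hJ 0 k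
  obtain ⟨C₁, hC₁, h₁⟩ := N2_symb 0 0 k
  obtain ⟨C₂, hC₂, h₂⟩ := N2_A0 0 k
  refine ⟨2 * (C₁ * Ca ^ 2 * C₂) + 2 * (C₁ * Cb ^ 2), by positivity, fun t ht v => ?_⟩
  have a1 := h₁ 1 ex_one Ca (a t) (A0 v) (hCa t ht)
  have a2 := h₁ 1 ex_one Cb (b t) v (hCb t ht)
  have a3 := h₂ 1 ex_one v
  have a4 := N2_le_inv one_pos (e := 0) (e' := 0 + 4) (by norm_num) (k + 4) v
  rw [one_zpow, one_mul] at a4
  have a5 := N2_mono one_pos 0 (Nat.le_add_right k 4) v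
  have a6 := N2_add_le one_pos 0 k (-(a t * A0 v)) (b t * v)
  rw [N2_neg] at a6
  rw [show (0 : ℤ) - 2 * 0 = 0 by norm_num] at a1 a2
  have a7 : N2 1 0 k (a t * A0 v) ≤ C₁ * Ca ^ 2 * C₂ * N2 1 0 (k + 4) v := by
    rw [mul_assoc (C₁ * Ca ^ 2)]
    exact a1.trans (mul_le_mul_of_nonneg_left
      (a3.trans (mul_le_mul_of_nonneg_left a4 hC₂)) (by positivity))
  have a8 : N2 1 0 k (b t * v) ≤ C₁ * Cb ^ 2 * N2 1 0 (k + 4) v :=
    a2.trans (mul_le_mul_of_nonneg_left a5 (by positivity))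
  unfold Lop
  nlinarith

/-- the projection error of a bounded family is uniformly small -/
lemma ex_small {PM : ℕ → Module.End ℝ Sm}
    (h4 : ∀ (M : ℕ) w, lev 1 0 0 (w - PM M w) ≤ ‖jet 1 w‖ ^ 2 / (M + 1)) {J : Set ℝ}
    {G : ℕ → ℝ → Sm} (hG : ∀ k, ∃ B, ∀ m, ∀ t ∈ J, N2 1 0 k (G m t) ≤ B) :
    ∀ ε > (0 : ℝ), ∃ M, ∀ m ≥ M, ∀ t ∈ J, lev 1 0 0 (PM m (G m t) - G m t) ≤ ε := by
  intro ε hε
  obtain ⟨C, hC, hj⟩ := jet_le 1
  obtain ⟨B, hB⟩ := hG (2 * 1 + 13)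
  obtain ⟨M, hM⟩ := exists_nat_ge (C * B / ε)
  refine ⟨M, fun m hm t ht => ?_⟩
  rw [← lev_neg, neg_sub]
  refine (h4 m _).trans ?_
  have h1 : ‖jet 1 (G m t)‖ ^ 2 ≤ C * B :=
    (hj _).trans (mul_le_mul_of_nonneg_left (hB m t ht) hC)
  have h2 : (M : ℝ) ≤ m := by exact_mod_cast hm
  rw [div_le_iff₀ hε] at hM
  rw [div_le_iff₀ (by positivity)]
  nlinarith

lemma ex_clim {PM : ℕ → Module.End ℝ Sm}
    (h3 : ∀ (M k : ℕ) w, lev 1 k k (PM M w) ≤ lev 1 k k w)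
    (h4 : ∀ (M : ℕ) w, lev 1 0 0 (w - PM M w) ≤ ‖jet 1 w‖ ^ 2 / (M + 1)) {J : Set ℝ}
    {G : ℕ → ℝ → Sm} (hG : ∀ k, ∃ B, ∀ m, ∀ t ∈ J, N2 1 0 k (G m t) ≤ B) :
    CLim J (fun m t => PM m (G m t) - G m t) fun _ => 0 := by
  refine clim_zero _ (fun k => ?_) (ex_small h4 hG)
  obtain ⟨B, hB⟩ := hG k
  refine ⟨2 * (2 ^ k * B) + 2 * B, fun m t ht => ?_⟩
  have a1 := N2_sub_le one_pos 0 k (PM m (G m t)) (G m t)
  have a2 := ex_N2_P (h3 m) k (G m t)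
  have a3 := hB m t ht
  have a4 : (2 : ℝ) ^ k * N2 1 0 k (G m t) ≤ 2 ^ k * B :=
    mul_le_mul_of_nonneg_left a3 (by positivity)
  linarith

/-- Galerkin solutions `v_M` (`exists_proj`, `galerkin_exists`) are bounded in all norms (`galerkin_bound`), hence so are
`G_M = Lop a b v_M + F` (`N2_A0`, `N2_symb`, `CC.symb`) and `PM G_M` (`N2_le_unw`/`lev_mono_e`: `lev 1 k k` and `lev 1 0 k` are
comparable); `lev 1 0 0 (G_M - PM G_M) → 0` uniformly (`jet_le 1`).  `v_M - v_{M'}` solves the homogeneous equation with source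
`(PM G_M - G_M) - (PM' G_M' - G_M')`, so `stability` gives the Cauchy property; `lim_exists`, `clim_zero`, `CLim.cd`. -/
theorem exists_sol {a b F : ℝ → Sm} {t₀ t₁ : ℝ} (h : t₀ ≤ t₁)
    (ha : CC (Icc t₀ t₁) a) (hb : CC (Icc t₀ t₁) b) (hF : CC (Icc t₀ t₁) F)
    (hpos : ∀ t ∈ Icc t₀ t₁, ∀ x ∈ I, 0 < ev (a t) x) (v₀ : Sm) :
    ∃ v, v t₀ = v₀ ∧ Sol a b F t₀ t₁ v := by
  obtain ⟨PM, -, h2, h3, h4, h5⟩ := exists_proj
  choose n e he hP using h5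
  choose v hv0 hsp hcc hcd using fun M => galerkin_exists (hP M) h ha hb hF v₀
  have hpol : ∀ M t, v M t ∈ Pol M := fun M t =>
    (Submodule.span_le.2 (by rintro _ ⟨i, rfl⟩; exact he M i)) (hsp M t)
  have hJ : IsCompact (Icc t₀ t₁) := isCompact_Icc
  obtain ⟨G, hG⟩ : ∃ G : ℕ → ℝ → Sm, ∀ M t, G M t = Lop (a t) (b t) (v M t) + F t :=
    ⟨_, fun _ _ => rfl⟩
  have hvb : ∀ k, ∃ B, ∀ m, ∀ t ∈ Icc t₀ t₁, N2 1 0 k (v m t) ≤ B := by
    intro k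
    obtain ⟨B, hB⟩ := galerkin_bound h ha hb hF hpos v₀ k
    refine ⟨B, fun m => hB (v m) (fun t => PM m (Lop (a t) (b t) (v m t) + F t)) (hcc m)
      (fun j => ?_) fun t ht => ⟨hcd m t ht, fun j => h2 m j _ _ (hpol m t)⟩⟩
    rw [hv0]
    exact h3 m j v₀
  have hGb : ∀ k, ∃ B, ∀ m, ∀ t ∈ Icc t₀ t₁, N2 1 0 k (G m t) ≤ B := by
    intro k
    obtain ⟨B, hB⟩ := hvb (k + 4)
    obtain ⟨C, hC, hL⟩ := ex_N2_Lop hJ ha hb k
    obtain ⟨B', hB'⟩ := hF.N2_bound hJ 0 k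
    refine ⟨2 * (C * B) + 2 * B', fun m t ht => ?_⟩
    rw [hG]
    have a1 := N2_add_le one_pos 0 k (Lop (a t) (b t) (v m t)) (F t)
    have a2 := (hL t ht (v m t)).trans (mul_le_mul_of_nonneg_left (hB m t ht) hC)
    have a3 := hB' t ht
    linarith
  have hGc : ∀ m, CC (Icc t₀ t₁) (G m) := fun m =>
    ((ha.Lop hb (hcc m)).add hF).congr fun t _ => hG m t
  have hRc : ∀ m, CC (Icc t₀ t₁) fun t => PM m (G m t) - G m t := by
    intro m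
    refine CC.sub ?_ (hGc m)
    refine (CC.sum Finset.univ (u := fun i t => levB 1 0 0 (G m t) (e m i) • e m i)
      fun i _ => CC.smul ((hGc m).levB_fixed (CC.const _) 1 0 0) (CC.const _)).congr
      fun t _ => hP m _
  have hsol : ∀ m, Sol a b (fun t => F t + (PM m (G m t) - G m t)) t₀ t₁ (v m) := fun m =>
    ⟨hcc m, fun t ht => (hcd m t ht).congr_deriv (by simp only [hG]; abel)⟩
  have h0b : ∀ k, ∃ B, ∀ (_ : ℕ), ∀ t ∈ Icc t₀ t₁, N2 1 0 k v₀ ≤ B :=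
    fun k => ⟨_, fun _ _ _ => le_rfl⟩
  obtain ⟨C, hC, hst⟩ := stability ha hb hpos
  obtain ⟨w, hw⟩ := lim_exists {Icc t₀ t₁} v (by rintro _ rfl; exact hvb) (by
    rintro _ rfl ε hε
    have hδ : 0 < ε / (8 * (C + 1)) := by positivity
    obtain ⟨M₁, hM₁⟩ := ex_small h4 hGb _ hδ
    obtain ⟨M₂, hM₂⟩ := ex_small (G := fun _ _ => v₀) h4 h0b _ hδ
    refine ⟨max M₁ M₂, fun m hm m' hm' t ht => ?_⟩
    have s1 := ((hsol m).sub (hsol m')).congr_F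
      (F' := fun t => (PM m (G m t) - G m t) - (PM m' (G m' t) - G m' t)) fun t _ => by abel
    have s2 := hst _ _ (4 * (ε / (8 * (C + 1)))) ((hRc m).sub (hRc m')) s1 (fun s hs => by
      have a1 := lev_sub_le one_pos 0 0 (PM m (G m s) - G m s) (PM m' (G m' s) - G m' s)
      have a2 := hM₁ m (le_of_max_le_left hm) s hs
      have a3 := hM₁ m' (le_of_max_le_left hm') s hs
      linarith) t ht
    have s3 : lev 1 0 0 (v m t₀ - v m' t₀) ≤ 4 * (ε / (8 * (C + 1))) := by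
      have a1 := lev_sub_le one_pos 0 0 (PM m v₀ - v₀) (PM m' v₀ - v₀)
      have a2 := hM₂ m (le_of_max_le_right hm) t ht
      have a3 := hM₂ m' (le_of_max_le_right hm') t ht
      rw [sub_sub_sub_cancel_right] at a1
      rw [hv0, hv0]
      linarith
    refine s2.trans ((mul_le_mul_of_nonneg_left (add_le_add s3 le_rfl) hC).trans ?_)
    have : C * (4 * (ε / (8 * (C + 1))) + 4 * (ε / (8 * (C + 1)))) = ε * (C / (C + 1)) := by
      field_simp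
      ring
    rw [this]
    exact mul_le_of_le_one_right hε.le ((div_le_one (by positivity)).2 (by linarith)))
  have hw' : CLim (Icc t₀ t₁) v w := hw _ rfl
  have hwc : CC (Icc t₀ t₁) w := hw'.cc hcc
  refine ⟨w, ?_, hwc, ?_⟩
  · have l1 := (ex_clim (G := fun _ _ => v₀) h3 h4 h0b).add (CLim.const fun _ => v₀)
    refine hw'.eq_of_tendsto (left_mem_Icc.2 h) fun j => ?_
    have := (l1 j).tendsto_at (left_mem_Icc.2 h)
    simpa only [sub_add_cancel, zero_add, hv0] using this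
  · have l1 := ((hw'.Lop hJ ha hb hwc).add (CLim.const F)).add (ex_clim h3 h4 hGb)
    have l2 : CLim (Icc t₀ t₁) (fun m t => PM m (Lop (a t) (b t) (v m t) + F t))
        fun t => Lop (a t) (b t) (w t) + F t :=
      l1.congr (fun m t _ => by rw [hG]; abel) fun t _ => (add_zero _).symm
    exact (hw'.mono Ioo_subset_Icc_self).cd isOpen_Ioo (l2.mono Ioo_subset_Icc_self) hcd

theorem sol_unique {a b F u v : ℝ → Sm} {t₀ t₁ : ℝ} (ha : CC (Icc t₀ t₁) a) (hb : CC (Icc t₀ t₁) b)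
    (hpos : ∀ t ∈ Icc t₀ t₁, ∀ x ∈ I, 0 < ev (a t) x) (hu : Sol a b F t₀ t₁ u) (hv : Sol a b F t₀ t₁ v)
    (h₀ : u t₀ = v t₀) : ∀ t ∈ Icc t₀ t₁, u t = v t := by
  intro t ht
  obtain ⟨C, -, hst⟩ := stability ha hb hpos
  have s1 := (hu.sub hv).congr_F (F' := fun _ => 0) fun t _ => (sub_self _).symm
  have s2 := hst _ _ 0 (CC.const 0) s1 (fun _ _ => (lev_zero _ _ _).le) t ht
  simp only [h₀, sub_self, lev_zero, add_zero, mul_zero] at s2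
  exact sub_eq_zero.1 (eq_zero_of_lev one_pos 0 s2)

/-- glue the solutions on `[t₀, t₀/(n+2)]` by uniqueness -/
theorem exists_solO {a b F : ℝ → Sm} {t₀ : ℝ} (h : t₀ < 0)
    (ha : CC (Ico t₀ 0) a) (hb : CC (Ico t₀ 0) b) (hF : CC (Ico t₀ 0) F)
    (hpos : ∀ t ∈ Ico t₀ 0, ∀ x ∈ I, 0 < ev (a t) x) (v₀ : Sm) :
    ∃ v, v t₀ = v₀ ∧ SolO a b F t₀ v := by
  have hsub : ∀ s ∈ Ico t₀ 0, Icc t₀ s ⊆ Ico t₀ 0 := fun s hs => Icc_subset_Ico_right hs.2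
  have hex : ∀ s ∈ Ico t₀ 0, ∃ v, v t₀ = v₀ ∧ Sol a b F t₀ s v := fun s hs =>
    exists_sol hs.1 (ha.mono (hsub s hs)) (hb.mono (hsub s hs)) (hF.mono (hsub s hs))
      (fun t ht => hpos t (hsub s hs ht)) v₀
  choose! V hV0 hV using hex
  have hhalf : ∀ t ∈ Ico t₀ 0, t / 2 ∈ Ico t₀ 0 ∧ t < t / 2 := fun t ht =>
    ⟨⟨by linarith [ht.1, ht.2], by linarith [ht.2]⟩, by linarith [ht.2]⟩
  have key : ∀ s ∈ Ico t₀ 0, ∀ t ∈ Icc t₀ s, V (t / 2) t = V s t := by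
    intro s hs t ht
    have ht' : t ∈ Ico t₀ 0 := hsub s hs ht
    obtain ⟨h1, h2⟩ := hhalf t ht'
    exact sol_unique (ha.mono (hsub t ht')) (hb.mono (hsub t ht'))
      (fun r hr => hpos r (hsub t ht' hr)) ((hV _ h1).mono le_rfl h2.le)
      ((hV s hs).mono le_rfl ht.2) ((hV0 _ h1).trans (hV0 s hs).symm) t (right_mem_Icc.2 ht.1)
  refine ⟨fun t => V (t / 2) t, hV0 _ (hhalf t₀ ⟨le_rfl, h⟩).1, fun j t ht => ?_, fun t ht => ?_⟩
  · obtain ⟨h1, h2⟩ := hhalf t ht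
    have c1 : CC (Icc t₀ (t / 2)) fun r => V (r / 2) r := (hV _ h1).1.congr (key _ h1)
    refine (c1 j t ⟨ht.1, h2.le⟩).mono_of_mem_nhdsWithin ?_
    filter_upwards [self_mem_nhdsWithin, mem_nhdsWithin_of_mem_nhds (Iio_mem_nhds h2)] with r hr hr'
    exact ⟨hr.1, le_of_lt hr'⟩
  · obtain ⟨h1, h2⟩ := hhalf t (Ioo_subset_Ico_self ht)
    refine ((hV _ h1).2 t ⟨ht.1, h2⟩).congr ?_
    filter_upwards [Icc_mem_nhds ht.1 h2] with r hr using key _ h1 r hr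

/-- the linear evolution operator -/
theorem exists_evol {a b : ℝ → Sm} {t₀ t₁ : ℝ} (h : t₀ ≤ t₁) (ha : CC (Icc t₀ t₁) a) (hb : CC (Icc t₀ t₁) b)
    (hpos : ∀ t ∈ Icc t₀ t₁, ∀ x ∈ I, 0 < ev (a t) x) :
    ∃ U : Module.End ℝ Sm, ∀ v, Sol a b (fun _ => 0) t₀ t₁ v → v t₁ = U (v t₀) := by
  choose S hS0 hS using fun v₀ => exists_sol h ha hb (CC.const 0) hpos v₀
  have key : ∀ v, Sol a b (fun _ => 0) t₀ t₁ v → v t₁ = S (v t₀) t₁ := fun v hv =>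
    sol_unique ha hb hpos hv (hS _) (hS0 _).symm t₁ (right_mem_Icc.2 h)
  refine ⟨⟨⟨fun v₀ => S v₀ t₁, fun u v => ?_⟩, fun c v => ?_⟩, key⟩
  · have := key _ (((hS u).add (hS v)).congr_F fun _ _ => (add_zero _).symm)
    simp only [hS0] at this
    exact this.symm
  · have := key _ (((hS v).smul c).congr_F fun _ _ => (smul_zero _).symm)
    simp only [hS0] at this
    exact this.symm

end Crest.Agent.R213
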