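import Crest.Agent.R213.VoltP

/-! # Row 213, the far field tube

With `U₀ = e0`, `k = kk y ≥ 25`, `θ = y ∂_y`, `h_N = pe H (tf y) + δ`, at a point where `hs ≥ 1/10`:
`θ U₀ = k U₁ - 6 U₀`, `θ U₁ = k U₂ - (20/3) U₁`, `θ U₂ = -k U₀ - (22/3) U₂ + π`,
`π = 37 U₁/k + 84 U₀/k² - k (1/(2 h h_N) - 1) U₀ - k Wf/(2 h_N)` (use `k³ = y²`).  Hence
`θ g₁ = k g₂ - (20/3) g₁ + (2/3) U₀`, `θ g₂ = k (g₂ - g₁) - (20/3) g₂ - (2/3) U₂ + π`, `θ d = -(k + 20/3) d + (2/3)(g₁ - g₂) + π`,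
`θ Q = (k - 40/3) Q + (2g₁ - g₂)(2/3) U₀ + (2g₂ - g₁)(π - (2/3) U₂)`.  In the tube `Q ≤ r²`, `|d| ≤ r/4`:
`|2g₁-g₂|, |2g₂-g₁|, |g₁+g₂| ≤ 2r`, `|g₁-g₂| ≤ 1.16 r`, `U₀ = (2g₁-g₂+d)/3`, `U₁ = (g₁+g₂-d)/3`, `U₂ = (2g₂-g₁+d)/3` are `≤ 3r/4`,
`|1/(2 h h_N) - 1| ≤ 0.03`, `|π| ≤ 1.22 r + 0.041 k r`. -/

set_option autoImplicit false
open Set Filter Topology
open scoped ContDiff

noncomputable section
namespace Crest.Agent.R213

lemma far_U {a b c r : ℝ} (hr : 0 < r) (hQ : QQ (a + b) (b + c) ≤ r ^ 2) (hd : |a - b + c| ≤ r / 4) :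
    |a| ≤ 3 / 4 * r ∧ |b| ≤ 3 / 4 * r ∧ |c| ≤ 3 / 4 * r ∧ |2 * (a + b) - (b + c)| ≤ 2 * r ∧
      |2 * (b + c) - (a + b)| ≤ 2 * r ∧ |a - c| ≤ 1.16 * r := by
  unfold QQ at hQ
  have h1 : |2 * (a + b) - (b + c)| ≤ 2 * r :=
    abs_le_of_sq_le_sq (by nlinarith [sq_nonneg (b + c)]) (by positivity)
  have h2 : |2 * (b + c) - (a + b)| ≤ 2 * r :=
    abs_le_of_sq_le_sq (by nlinarith [sq_nonneg (a + b)]) (by positivity)
  have h3 : |(a + b) + (b + c)| ≤ 2 * r :=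
    abs_le_of_sq_le_sq (by nlinarith [sq_nonneg (a - c)]) (by positivity)
  have h4 : |a - c| ≤ 1.16 * r :=
    abs_le_of_sq_le_sq (by nlinarith [sq_nonneg (a + b + (b + c)), sq_nonneg r]) (by positivity)
  refine ⟨?_, ?_, ?_, h1, h2, h4⟩ <;> rw [abs_le] at * <;> constructor <;>
    linarith [h1.1, h1.2, h2.1, h2.2, h3.1, h3.2, hd.1, hd.2]

lemma far_tf {y : ℝ} (hy : 125 ≤ y) : tf y ∈ Icc (0 : ℝ) 1 := by
  unfold tf
  refine ⟨by positivity, ?_⟩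
  rw [div_le_one (by positivity)]
  gcongr

/-- the perturbation term -/
def farP (k h hN W a b : ℝ) : ℝ :=
  37 * b / k + 84 * a / k ^ 2 - k * ((1 / (2 * h * hN) - 1) * a) - k * (W / (2 * hN))

lemma far_P {k n W a b r : ℝ} (hr : 0 < r) (hr' : r ≤ 1 / 10000) (hk : 25 ≤ k)
    (hN : n ∈ Icc (0.712 : ℝ) 0.7142) (hW : |W| ≤ r / 40) (ha : |a| ≤ 3 / 4 * r)
    (hb : |b| ≤ 3 / 4 * r) : |farP k (n + a) n W a b| ≤ 1.22 * r + 0.041 * (k * r) := by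
  have hk0 : 0 < k := by linarith
  have hn0 : 0 < n := by linarith [hN.1]
  have h1 : |37 * b / k| ≤ 1.11 * r := by
    rw [abs_div, abs_mul, abs_of_pos hk0, div_le_iff₀ hk0, abs_of_pos (by norm_num : (0 : ℝ) < 37)]
    linarith [mul_le_mul_of_nonneg_left hk hr.le]
  have h2 : |84 * a / k ^ 2| ≤ 0.11 * r := by
    rw [abs_div, abs_mul, abs_of_pos (pow_pos hk0 2), div_le_iff₀ (pow_pos hk0 2),
      abs_of_pos (by norm_num : (0 : ℝ) < 84)]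
    linarith [mul_le_mul_of_nonneg_left (pow_le_pow_left₀ (by norm_num) hk 2) hr.le]
  have h3 : |1 / (2 * (n + a) * n) - 1| ≤ 0.03 := by
    have l1 : 0.7119 ≤ n + a := by linarith [hN.1, (abs_le.1 ha).1]
    have l2 : n + a ≤ 0.7143 := by linarith [hN.2, (abs_le.1 ha).2]
    have m1 : 0.7119 * 0.712 ≤ (n + a) * n := mul_le_mul l1 hN.1 (by norm_num) (by linarith)
    have m2 : (n + a) * n ≤ 0.7143 * 0.7142 := mul_le_mul l2 hN.2 hn0.le (by norm_num)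
    have m0 : 0 < 2 * (n + a) * n := by linarith
    rw [abs_le, sub_le_iff_le_add, le_sub_iff_add_le, div_le_iff₀ m0, le_div_iff₀ m0]
    constructor <;> linarith
  have h4 : |(1 / (2 * (n + a) * n) - 1) * a| ≤ 0.0225 * r := by
    rw [abs_mul]
    exact (mul_le_mul h3 ha (abs_nonneg _) (by norm_num)).trans (le_of_eq (by ring))
  have h5 : |W / (2 * n)| ≤ 0.0185 * r := by
    rw [abs_div, abs_of_pos (by positivity : 0 < 2 * n), div_le_iff₀ (by positivity)]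
    linarith [mul_le_mul_of_nonneg_left hN.1 hr.le]
  have h6 := mul_le_mul_of_nonneg_left h4 hk0.le
  have h7 := mul_le_mul_of_nonneg_left h5 hk0.le
  rw [← abs_of_pos hk0, ← abs_mul, abs_of_pos hk0, abs_le] at h6 h7
  rw [farP, abs_le] at *
  constructor <;> linarith [h1.1, h1.2, h2.1, h2.2, h6.1, h6.2, h7.1, h7.2]

lemma far_der {H : List ℚ} {δ s₀ C : ℝ} {s : ℝ → ℝ} (h : IsVolt s₀ C s) {y : ℝ} (hy : 0 < y)
    (hh : 1 / 10 ≤ hs s y) (hN : 0 < pe H (tf y) + δ) :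
    HasDerivAt (e0 H δ s) ((kk y * U1 H δ s y - 6 * e0 H δ s y) / y) y ∧
    HasDerivAt (U1 H δ s) ((kk y * U2 H δ s y - 20 / 3 * U1 H δ s y) / y) y ∧
    HasDerivAt (U2 H δ s) ((-(kk y * e0 H δ s y) - 22 / 3 * U2 H δ s y +
      farP (kk y) (hs s y) (pe H (tf y) + δ) (Wf H δ C (tf y)) (e0 H δ s y) (U1 H δ s y)) / y) y := by
  have hk : 0 < kk y := Real.rpow_pos_of_pos hy _
  have hh0 : 0 < hs s y := by linarith
  have d0 : HasDerivAt (e0 H δ s) (e1 H s y / y) y :=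
    ((hasDerivAt_hs h.1 hy.ne').sub ((hasDerivAt_pe_tf H hy.ne').add_const δ)).congr_deriv
      (by rw [e1, sub_div])
  have d1 : HasDerivAt (e1 H s) (e2 H s y / y) y :=
    ((hasDerivAt_th1 h.1 hy.ne').sub (hasDerivAt_pe_tf (thL H) hy.ne')).congr_deriv
      (by rw [e2, sub_div])
  have d2 : HasDerivAt (e2 H s) ((-18 * e2 H s y - 71 * e1 H s y + 90 * e0 H δ s y - kk y ^ 3 *
      (Wf H δ C (tf y) / (2 * (pe H (tf y) + δ)) +
        e0 H δ s y / (2 * hs s y * (pe H (tf y) + δ)))) / y) y := by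
    refine ((h.hasDerivAt_th2 hy.ne').sub (hasDerivAt_pe_tf (thL (thL H)) hy.ne')).congr_deriv ?_
    have e : tf y / 125 ^ 2 = 1 / y ^ 2 := by
      unfold tf
      field_simp
    rw [kk_cube hy, cl, max_eq_left hh, Wf, e, e0, e1, e2]
    field_simp
    ring
  have dk := hasDerivAt_kk hy
  refine ⟨d0.congr_deriv ?_, ((d1.add (d0.const_mul 6)).div dk hk.ne').congr_deriv ?_,
    (((d2.add (d1.const_mul 12)).add (d0.const_mul 36)).div (dk.pow 2)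
      (pow_ne_zero 2 hk.ne')).congr_deriv ?_⟩
  · simp only [U1]
    field_simp
    ring
  · simp only [U1, U2, Pi.add_apply]
    field_simp
    ring
  · simp only [U1, U2, farP, Pi.add_apply, Pi.pow_apply]
    field_simp
    ring

theorem far_tube {H : List ℚ} {δ s₀ C r : ℝ} {s : ℝ → ℝ} (h : IsVolt s₀ C s) (hr : 0 < r) (hr' : r ≤ 1 / 10000)
    (hH : ∀ t ∈ Icc (0 : ℝ) 1, pe H t + δ ∈ Icc (0.712 : ℝ) 0.7142)
    (hW : ∀ t ∈ Icc (0 : ℝ) 1, |Wf H δ C t| ≤ r / 40) {y : ℝ} (hy : 125 ≤ y) :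
    (QQ (g1 H δ s y) (g2 H δ s y) = r ^ 2 → |dd H δ s y| ≤ r / 4 →
      ∃ Q' > (0 : ℝ), HasDerivAt (fun y => QQ (g1 H δ s y) (g2 H δ s y)) Q' y) ∧
    (QQ (g1 H δ s y) (g2 H δ s y) ≤ r ^ 2 → dd H δ s y = r / 4 →
      ∃ d' < (0 : ℝ), HasDerivAt (dd H δ s) d' y) ∧
    (QQ (g1 H δ s y) (g2 H δ s y) ≤ r ^ 2 → dd H δ s y = -(r / 4) →
      ∃ d' > (0 : ℝ), HasDerivAt (dd H δ s) d' y) := by
  have hy0 : 0 < y := by linarith
  have hk := kk_ge hy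
  have hN := hH _ (far_tf hy)
  have hkr : 25 * r ≤ kk y * r := mul_le_mul_of_nonneg_right hk hr.le
  have key : QQ (g1 H δ s y) (g2 H δ s y) ≤ r ^ 2 → |dd H δ s y| ≤ r / 4 → ∃ π : ℝ,
      |π| ≤ 1.22 * r + 0.041 * (kk y * r) ∧
      HasDerivAt (e0 H δ s) ((kk y * U1 H δ s y - 6 * e0 H δ s y) / y) y ∧
      HasDerivAt (U1 H δ s) ((kk y * U2 H δ s y - 20 / 3 * U1 H δ s y) / y) y ∧
      HasDerivAt (U2 H δ s) ((-(kk y * e0 H δ s y) - 22 / 3 * U2 H δ s y + π) / y) y := by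
    intro hQ hd
    obtain ⟨a0, a1, -⟩ := far_U hr hQ hd
    have e : hs s y = pe H (tf y) + δ + e0 H δ s y := by rw [e0]; ring
    refine ⟨_, ?_, far_der h hy0 ?_ (by linarith [hN.1])⟩
    · rw [e]
      exact far_P hr hr' hk hN (hW _ (far_tf hy)) a0 a1
    · linarith [hN.1, (abs_le.1 a0).1]
  have hdd : QQ (g1 H δ s y) (g2 H δ s y) ≤ r ^ 2 → |dd H δ s y| ≤ r / 4 → ∃ ρ : ℝ,
      |ρ| ≤ 2 * r + 0.041 * (kk y * r) ∧
      HasDerivAt (dd H δ s) ((-(kk y * dd H δ s y) - 20 / 3 * dd H δ s y + ρ) / y) y := by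
    intro hQ hd
    obtain ⟨π, hπ, d0, d1, d2⟩ := key hQ hd
    obtain ⟨-, -, -, -, -, a5⟩ := far_U hr hQ hd
    refine ⟨2 / 3 * (e0 H δ s y - U2 H δ s y) + π, ?_, ((d0.sub d1).add d2).congr_deriv ?_⟩
    · rw [abs_le] at *
      constructor <;> linarith [a5.1, a5.2, hπ.1, hπ.2]
    · simp only [dd]
      ring
  refine ⟨fun hQ hd => ?_, fun hQ hd => ?_, fun hQ hd => ?_⟩
  · obtain ⟨π, hπ, d0, d1, d2⟩ := key hQ.le hd
    obtain ⟨a0, -, a2, a3, a4, -⟩ := far_U hr hQ.le hd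
    have D1 : HasDerivAt (g1 H δ s) _ y := d0.add d1
    have D2 : HasDerivAt (g2 H δ s) _ y := d1.add d2
    refine ⟨((kk y - 40 / 3) * QQ (g1 H δ s y) (g2 H δ s y) +
      (2 * g1 H δ s y - g2 H δ s y) * (2 / 3 * e0 H δ s y) +
      (2 * g2 H δ s y - g1 H δ s y) * (π - 2 / 3 * U2 H δ s y)) / y, div_pos ?_ hy0,
      (((D1.pow 2).sub (D1.mul D2)).add (D2.pow 2)).congr_deriv ?_⟩
    · have b1 : |2 / 3 * e0 H δ s y| ≤ 1 / 2 * r := by
        rw [abs_le] at *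
        constructor <;> linarith [a0.1, a0.2]
      have b2 : |π - 2 / 3 * U2 H δ s y| ≤ 1.72 * r + 0.041 * (kk y * r) := by
        rw [abs_le] at *
        constructor <;> linarith [a2.1, a2.2, hπ.1, hπ.2]
      have c1 := mul_le_mul a3 b1 (abs_nonneg _) (by positivity)
      have c2 := mul_le_mul a4 b2 (abs_nonneg _) (by positivity)
      rw [← abs_mul, abs_le] at c1 c2
      rw [hQ]
      simp only [g1, g2]
      linarith [c1.1, c2.1, mul_le_mul_of_nonneg_right hkr hr.le, mul_pos hr hr]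
    · simp only [QQ, g1, g2]
      field_simp
      ring
  · obtain ⟨ρ, hρ, d⟩ := hdd hQ (by rw [hd, abs_of_pos (by positivity)])
    refine ⟨_, div_neg_of_neg_of_pos ?_ hy0, d⟩
    rw [hd]
    linarith [(abs_le.1 hρ).2]
  · obtain ⟨ρ, hρ, d⟩ := hdd hQ (by rw [hd, abs_neg, abs_of_pos (by positivity)])
    refine ⟨_, div_pos ?_ hy0, d⟩
    rw [hd]
    linarith [(abs_le.1 hρ).1]

/-- what the tube gives for `h` (`pe` is bounded on `[0,1]`, `kk y ≤ y`) -/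
theorem tube_bounds {H : List ℚ} {δ r : ℝ} {s : ℝ → ℝ} (hr : 0 < r) (hr' : r ≤ 1 / 10000)
    (hH : ∀ t ∈ Icc (0 : ℝ) 1, pe H t + δ ∈ Icc (0.712 : ℝ) 0.7142)
    (ht : ∀ y ≥ (125 : ℝ), QQ (g1 H δ s y) (g2 H δ s y) ≤ r ^ 2 ∧ |dd H δ s y| ≤ r / 4) :
    ∃ K : ℝ, ∀ y ≥ (125 : ℝ), hs s y ∈ Icc (0.71 : ℝ) 0.715 ∧ |th1 s y| + |th2 s y| ≤ K * y ^ 2 := by
  obtain ⟨M₁, h₁⟩ := (isCompact_Icc (a := (0 : ℝ)) (b := 1)).exists_bound_of_continuousOn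
    (continuous_pe (thL H)).continuousOn
  obtain ⟨M₂, h₂⟩ := (isCompact_Icc (a := (0 : ℝ)) (b := 1)).exists_bound_of_continuousOn
    (continuous_pe (thL (thL H))).continuousOn
  refine ⟨128 + |M₁| + |M₂|, fun y hy => ?_⟩
  obtain ⟨a0, a1, a2, -⟩ := far_U hr (ht y hy).1 (ht y hy).2
  have hN := hH _ (far_tf hy)
  have hk := kk_ge hy
  have hk0 : 0 < kk y := by linarith
  have hk1 : kk y ≤ y := kk_le (by linarith)
  have hy1 : y ≤ y ^ 2 := by nlinarith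
  have hk2 : kk y ^ 2 ≤ y ^ 2 := pow_le_pow_left₀ hk0.le hk1 2
  have e : hs s y = pe H (tf y) + δ + e0 H δ s y := by rw [e0]; ring
  have e' : th1 s y = kk y * U1 H δ s y - 6 * e0 H δ s y + pe (thL H) (tf y) := by
    simp only [U1, e1]
    field_simp
    ring
  have e'' : th2 s y = kk y ^ 2 * U2 H δ s y - 12 * (kk y * U1 H δ s y) + 36 * e0 H δ s y +
      pe (thL (thL H)) (tf y) := by
    simp only [U1, U2, e2]
    field_simp
    ring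
  have b1 : |kk y * U1 H δ s y| ≤ y ^ 2 := by
    rw [abs_mul, abs_of_pos hk0]
    exact (mul_le_of_le_one_right hk0.le (by linarith)).trans (by linarith)
  have b2 : |kk y ^ 2 * U2 H δ s y| ≤ y ^ 2 := by
    rw [abs_mul, abs_of_pos (pow_pos hk0 2)]
    exact (mul_le_of_le_one_right (sq_nonneg _) (by linarith)).trans hk2
  have c1 : |pe (thL H) (tf y)| ≤ |M₁| * y ^ 2 := ((h₁ _ (far_tf hy)).trans (le_abs_self _)).trans
    (le_mul_of_one_le_right (abs_nonneg _) (by linarith))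
  have c2 : |pe (thL (thL H)) (tf y)| ≤ |M₂| * y ^ 2 :=
    ((h₂ _ (far_tf hy)).trans (le_abs_self _)).trans
      (le_mul_of_one_le_right (abs_nonneg _) (by linarith))
  rw [abs_le] at a0 b1 b2 c1 c2
  have f1 : |th1 s y| ≤ (7 + |M₁|) * y ^ 2 := by
    rw [e', abs_le]
    constructor <;> linarith [a0.1, a0.2, b1.1, b1.2, c1.1, c1.2]
  have f2 : |th2 s y| ≤ (121 + |M₂|) * y ^ 2 := by
    rw [e'', abs_le]
    constructor <;> linarith [a0.1, a0.2, b1.1, b1.2, b2.1, b2.2, c2.1, c2.2]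
  exact ⟨⟨by linarith [hN.1, a0.1], by linarith [hN.2, a0.2]⟩, by linarith⟩

end Crest.Agent.R213
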