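import Mathlib

/-! # Row 213, linear ODE with continuous coefficients on a compact interval -/

set_option autoImplicit false
open Set Filter Topology
open scoped ContDiff

noncomputable section
namespace Crest.Agent.R213

theorem finode_retr {E : Type*} [NormedAddCommGroup E] [NormedSpace ℝ E] {R : ℝ} (hR : 0 < R) :
    ∃ ρ : E → E, (∀ x y, ‖ρ x - ρ y‖ ≤ 2 * ‖x - y‖) ∧ (∀ x, ‖ρ x‖ ≤ ‖x‖) ∧ (∀ x, ‖ρ x‖ ≤ R) ∧
      ∀ x, ‖x‖ ≤ R → ρ x = x := by
  have hm : ∀ x : E, 0 < max R ‖x‖ := fun x => lt_max_of_lt_left hR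
  have h1 : ∀ x : E, R / max R ‖x‖ ≤ 1 := fun x => (div_le_one (hm x)).2 (le_max_left _ _)
  have h2 : ∀ x : E, ‖(R / max R ‖x‖) • x‖ = R / max R ‖x‖ * ‖x‖ := fun x => by
    rw [norm_smul, Real.norm_of_nonneg (div_pos hR (hm x)).le]
  refine ⟨fun x => (R / max R ‖x‖) • x, fun x y => ?_, fun x => ?_, fun x => ?_, fun x hx => ?_⟩
  · have e : (R / max R ‖x‖) • x - (R / max R ‖y‖) • y = (R / max R ‖x‖) • (x - y) +
        ((R / max R ‖x‖) * ((max R ‖y‖ - max R ‖x‖) / max R ‖y‖)) • y := by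
      have := (hm x).ne'
      have := (hm y).ne'
      rw [smul_sub, sub_add, ← sub_smul]
      congr 2
      field_simp
      ring
    have h3 : |max R ‖y‖ - max R ‖x‖| ≤ ‖x - y‖ := by
      rw [max_comm R, max_comm R, norm_sub_rev]
      exact (abs_max_sub_max_le_abs _ _ _).trans (abs_norm_sub_norm_le _ _)
    have h4 : ‖y‖ / max R ‖y‖ ≤ 1 := (div_le_one (hm y)).2 (le_max_right _ _)
    have h5 := (div_pos hR (hm x)).le
    rw [e]
    refine (norm_add_le _ _).trans ?_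
    rw [norm_smul, norm_smul, norm_mul, Real.norm_of_nonneg h5, norm_div, Real.norm_eq_abs,
      Real.norm_of_nonneg (hm y).le]
    have h6 : R / max R ‖x‖ * (|max R ‖y‖ - max R ‖x‖| / max R ‖y‖) * ‖y‖ =
        R / max R ‖x‖ * (‖y‖ / max R ‖y‖) * |max R ‖y‖ - max R ‖x‖| := by ring
    have h7 : R / max R ‖x‖ * (‖y‖ / max R ‖y‖) ≤ 1 := mul_le_one₀ (h1 x) (by positivity) h4
    rw [h6]
    nlinarith [mul_le_mul_of_nonneg_right (h1 x) (norm_nonneg (x - y)),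
      mul_le_mul_of_nonneg_right h7 (abs_nonneg (max R ‖y‖ - max R ‖x‖))]
  · rw [h2]
    exact mul_le_of_le_one_left (norm_nonneg _) (h1 x)
  · rw [h2, div_mul_eq_mul_div, div_le_iff₀ (hm x)]
    exact mul_le_mul_of_nonneg_left (le_max_right _ _) hR.le
  · simp only [max_eq_left hx, div_self hR.ne', one_smul]

/-- (e.g. Banach fixed point in `C(Icc t₀ t₁, E)` with the weight `e^{-K (t - t₀)}`, or some power of the Picard map) -/
theorem exists_linODE {E : Type*} [NormedAddCommGroup E] [NormedSpace ℝ E] [CompleteSpace E]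
    {t₀ t₁ : ℝ} (h : t₀ ≤ t₁) (A : ℝ → E →L[ℝ] E) (f : ℝ → E) (hA : ContinuousOn A (Icc t₀ t₁))
    (hf : ContinuousOn f (Icc t₀ t₁)) (x₀ : E) :
    ∃ x : ℝ → E, x t₀ = x₀ ∧ ContinuousOn x (Icc t₀ t₁) ∧
      ∀ t ∈ Ioo t₀ t₁, HasDerivAt x (A t (x t) + f t) t := by
  obtain ⟨K, hK⟩ := isCompact_Icc.exists_bound_of_continuousOn hA
  obtain ⟨M, hM⟩ := isCompact_Icc.exists_bound_of_continuousOn hf
  have hK0 : 0 ≤ K := (norm_nonneg _).trans (hK t₀ ⟨le_rfl, h⟩)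
  have hM0 : 0 ≤ M := (norm_nonneg _).trans (hM t₀ ⟨le_rfl, h⟩)
  set R := max 1 (gronwallBound ‖x₀‖ K M (t₁ - t₀)) with hRd
  have hR : 0 < R := lt_max_of_lt_left one_pos
  obtain ⟨ρ, h1, h2, h3, h4⟩ := finode_retr (E := E) hR
  have hb : ∀ t ∈ Icc t₀ t₁, ∀ x, ‖A t (ρ x) + f t‖ ≤ K * ‖ρ x‖ + M := fun t ht x =>
    (norm_add_le _ _).trans (add_le_add ((A t).le_of_opNorm_le (hK t ht) _) (hM t ht))
  have hL : 0 ≤ K * R + M := by positivity
  have hT : 0 ≤ t₁ - t₀ := by linarith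
  have hP : IsPicardLindelof (fun t x => A t (ρ x) + f t) (⟨t₀, le_rfl, h⟩ : Icc t₀ t₁) x₀
      ⟨(K * R + M) * (t₁ - t₀), by positivity⟩ 0 ⟨K * R + M, hL⟩ ⟨2 * K, by positivity⟩ := by
    refine ⟨fun t ht => ?_, fun x _ => ?_, fun t ht x _ => ?_, ?_⟩
    · refine (LipschitzWith.of_dist_le_mul fun x y => ?_).lipschitzOnWith
      rw [dist_eq_norm, dist_eq_norm, add_sub_add_right_eq_sub, ← map_sub]
      refine ((A t).le_of_opNorm_le (hK t ht) _).trans ?_
      have := mul_le_mul_of_nonneg_left (h1 x y) hK0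
      change _ ≤ 2 * K * _
      linarith
    · exact (hA.clm_apply continuousOn_const).add hf
    · exact (hb t ht x).trans (add_le_add (mul_le_mul_of_nonneg_left (h3 x) hK0) le_rfl)
    · change (K * R + M) * max (t₁ - t₀) (t₀ - t₀) ≤ (K * R + M) * (t₁ - t₀) - 0
      rw [sub_self, max_eq_left hT, sub_zero]
  obtain ⟨x, hx0, hx⟩ := hP.exists_eq_forall_mem_Icc_hasDerivWithinAt₀
  have hc : ContinuousOn x (Icc t₀ t₁) := fun t ht => (hx t ht).continuousWithinAt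
  have hg := norm_le_gronwallBound_of_norm_deriv_right_le (δ := ‖x₀‖) (K := K) (ε := M) hc
    (fun t ht => (hx t (Ico_subset_Icc_self ht)).mono_of_mem_nhdsWithin (Icc_mem_nhdsGE_of_mem ht))
    (by rw [show x t₀ = x₀ from hx0])
    fun t ht => (hb t (Ico_subset_Icc_self ht) _).trans
      (add_le_add (mul_le_mul_of_nonneg_left (h2 _) hK0) le_rfl)
  refine ⟨x, hx0, hc, fun t ht => ?_⟩
  have h5 := (hx t (Ioo_subset_Icc_self ht)).hasDerivAt (Icc_mem_nhds ht.1 ht.2)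
  rwa [h4 _ ((hg t (Ioo_subset_Icc_self ht)).trans ((gronwallBound_mono (norm_nonneg _) hM0 hK0
    (by linarith [ht.2])).trans (le_max_right _ _)))] at h5

end Crest.Agent.R213
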