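import Crest.Agent.R213.Pic3
import Crest.Agent.R213.Coefs

/-! # Row 213, the one-dimensional blow-up solution

`g t = ga γ (lam t) + v t` with `v` from `picard` (`x₀` so small that `|v| ≤ q₀ / 2` by `sup_zero`); `flow_expand`, `Shr.cd_ga`;
smoothness in time by `cc_of_cd`, `CK.succ_of_CD` and induction for the equation `g' = -(1 - φ₀ g)² A₀ g`. -/

set_option autoImplicit false
open Set Filter Topology
open scoped ContDiff

noncomputable section
namespace Crest.Agent.R213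

theorem final1D {γ : ℝ → ℝ} (h : Shr γ) : ∃ t₀ < (0 : ℝ), ∃ g : ℝ → Sm, CK ∞ (Ioo t₀ 0) g ∧
    (∀ t ∈ Ioo t₀ 0, ∀ x ∈ I, 0 < ev (1 - ph * g t) x) ∧
    (∀ t ∈ Ioo t₀ 0, CD g (-((1 - ph * g t) ^ 2 * A0 (g t))) t) ∧
    Tendsto (fun t => ev (g t) 0 * √(-t)) (𝓝[<] 0) (𝓝 (γ 0)) := by
  obtain ⟨q₀, hq₀, hq⟩ := h.qa_pos
  obtain ⟨C, hC, hs⟩ := sup_zero
  have hx₀ : 0 < q₀ / (2 * (C + 1)) := by positivity
  obtain ⟨t₀, ht₀, v, hv⟩ := picard h.coef h.ncoef hx₀
  have hl : ∀ t ∈ Ioo t₀ 0, lam t ∈ Ioc (0 : ℝ) 1 := fun t ht => lam_mem (ht₀.1.trans ht.1.le) ht.2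
  have hb : ∀ t ∈ Ioo t₀ 0, ∀ x ∈ I, |ev (v t) x| ≤ q₀ / 2 := by
    intro t ht x hx
    refine abs_le_of_sq_le_sq ?_ (by positivity)
    have h1 := hs _ (hl t ht) (v t) x hx
    have h2 := (N2_mono (hl t ht).1 12 (show 13 ≤ 30 by norm_num) (v t)).trans (hv t ht).2
    refine h1.trans ((mul_le_mul_of_nonneg_left h2 hC).trans ?_)
    have h3 : q₀ / 2 = (C + 1) * (q₀ / (2 * (C + 1))) := by field_simp
    rw [h3, mul_pow]
    exact mul_le_mul_of_nonneg_right (by nlinarith) (sq_nonneg _)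
  have hd : ∀ t ∈ Ioo t₀ 0, CD (fun t => ga γ (lam t) + v t)
      (-((1 - ph * (ga γ (lam t) + v t)) ^ 2 * A0 (ga γ (lam t) + v t))) t := by
    intro t ht
    refine ((h.cd_ga ht.2).add (hv t ht).1).congr_deriv ?_
    rw [flow_expand (qa γ (lam t)) _ _ rfl]
    simp only [Err, ca, cb]
    ring
  refine ⟨t₀, ht₀.2, fun t => ga γ (lam t) + v t, ?_, ?_, hd, ?_⟩
  · refine ck_infty_iff.2 fun m => ?_
    induction m with
    | zero => exact ck_zero_iff.2 (cc_of_cd hd)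
    | succ m ih =>
      exact CK.succ_of_CD isOpen_Ioo hd
        ((((CK.const 1).sub ((CK.const ph).mul ih)).pow 2).mul ih.A0).neg
  · intro t ht x hx
    have h1 := hq _ (hl t ht) x hx
    have h2 := abs_le.1 (hb t ht x hx)
    have h3 : ev (1 - ph * (ga γ (lam t) + v t)) x =
        ev (qa γ (lam t)) x - x * (1 - x) * ev (v t) x := by
      simp only [qa, ev_sub, ev_mul, ev_add, ev_one, ev_ph hx]
      ring
    have h4 : 0 ≤ x * (1 - x) := mul_nonneg hx.1 (sub_nonneg.2 hx.2)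
    have h5 : x * (1 - x) ≤ 1 := by nlinarith [hx.1, hx.2]
    rw [h3]
    nlinarith [mul_le_mul_of_nonneg_left h2.2 h4]
  · have hm : Ioo t₀ 0 ∈ 𝓝[<] (0 : ℝ) := Ioo_mem_nhdsLT ht₀.2
    have h1 : Tendsto (fun t : ℝ => √(-t)) (𝓝[<] 0) (𝓝 0) := by
      have : Continuous fun t : ℝ => √(-t) := by fun_prop
      simpa using (this.tendsto 0).mono_left nhdsWithin_le_nhds
    have h2 : Tendsto (fun t : ℝ => (ev (v t) 0 - 1) * √(-t)) (𝓝[<] 0) (𝓝 0) := by
      refine squeeze_zero_norm' (a := fun t => (q₀ / 2 + 1) * √(-t)) ?_ (by simpa using h1.const_mul _)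
      filter_upwards [hm] with t ht
      rw [norm_mul, Real.norm_of_nonneg (Real.sqrt_nonneg _)]
      refine mul_le_mul_of_nonneg_right ((norm_sub_le _ _).trans ?_) (Real.sqrt_nonneg _)
      have := hb t ht 0 (by simp)
      rw [norm_one, Real.norm_eq_abs]
      linarith
    have h3 := h2.const_add (γ 0)
    rw [add_zero] at h3
    refine h3.congr' ?_
    filter_upwards [hm] with t ht
    have h4 : 0 < √(-t) := lam_pos ht.2
    rw [ev_add, h.ev_ga_zero (lam_pos ht.2), lam]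
    field_simp
    ring

end Crest.Agent.R213
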