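import Crest.Agent.R213.Defs
import Crest.Prelude.Def_ProjKahler

/-! # Row 213, geometry: `U(10)`-invariant potentials `η(ξ)`, `ξ = 1 - |Z₀|²/|Z|²` -/

set_option autoImplicit false
open Set Filter Topology
open scoped ContDiff ComplexOrder
open Crest.GeometryTopology.ProjKahler

noncomputable section
namespace Crest.Agent.R213

/-- `ξ` in the affine chart -/
def xi0 (z : V 10) : ℝ := ‖z‖ ^ 2 / (1 + ‖z‖ ^ 2)
/-- `ξ` in the chart `U_k` -/
def xik (k : Fin 10) (w : V 10) : ℝ := 1 - ‖w k‖ ^ 2 / (1 + ‖w‖ ^ 2)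

lemma xi0_mem (z : V 10) : xi0 z ∈ Ico (0 : ℝ) 1 := by
  have h : 0 < 1 + ‖z‖ ^ 2 := by positivity
  exact ⟨by unfold xi0; positivity, by unfold xi0; rw [div_lt_one h]; linarith⟩

lemma xi0_memI (z : V 10) : xi0 z ∈ I := Ico_subset_Icc_self (xi0_mem z)

lemma xik_mem (k : Fin 10) (w : V 10) : xik k w ∈ I := by
  have h : 0 < 1 + ‖w‖ ^ 2 := by positivity
  have h1 : ‖w k‖ ≤ ‖w‖ := PiLp.norm_apply_le w k
  have h2 : ‖w k‖ ^ 2 ≤ ‖w‖ ^ 2 := by gcongr
  have h3 : ‖w k‖ ^ 2 / (1 + ‖w‖ ^ 2) ≤ 1 := by rw [div_le_one h]; linarith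
  have h4 : 0 ≤ ‖w k‖ ^ 2 / (1 + ‖w‖ ^ 2) := by positivity
  exact ⟨by unfold xik; linarith, by unfold xik; linarith⟩

lemma xi_transition (k : Fin 10) (w : V 10) (hw : w k ≠ 0) : xik k w = xi0 (transition k w) := by
  have hk : 0 < ‖w k‖ := norm_pos_iff.2 hw
  have h1 : ‖transition k w‖ ^ 2 = (1 + ‖w‖ ^ 2 - ‖w k‖ ^ 2) / ‖w k‖ ^ 2 := by
    rw [EuclideanSpace.norm_sq_eq, EuclideanSpace.norm_sq_eq,
      ← Finset.add_sum_erase _ _ (Finset.mem_univ k),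
      ← Finset.add_sum_erase _ (fun i => ‖w i‖ ^ 2) (Finset.mem_univ k)]
    have h2 : ∑ i ∈ Finset.univ.erase k, ‖transition k w i‖ ^ 2 =
        (∑ i ∈ Finset.univ.erase k, ‖w i‖ ^ 2) / ‖w k‖ ^ 2 := by
      rw [Finset.sum_div]
      refine Finset.sum_congr rfl fun i hi => ?_
      simp [transition, Finset.ne_of_mem_erase hi, div_pow]
    rw [h2]
    simp only [transition, if_true, norm_inv]
    field_simp
    ring
  unfold xik xi0
  have h : 0 < 1 + ‖w‖ ^ 2 := by positivity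
  have h3 : 1 + ‖transition k w‖ ^ 2 = (1 + ‖w‖ ^ 2) / ‖w k‖ ^ 2 := by
    rw [h1]; field_simp; ring
  rw [h3, h1]
  field_simp

lemma contDiff_xi0 : ContDiff ℝ ∞ xi0 :=
  (contDiff_norm_sq ℝ).div (contDiff_const.add (contDiff_norm_sq ℝ)) fun z => by positivity

lemma contDiff_xik (k : Fin 10) : ContDiff ℝ ∞ (xik k) := by
  have h : ContDiff ℝ ∞ fun w : V 10 => w k :=
    ((EuclideanSpace.proj k : V 10 →L[ℂ] ℂ).restrictScalars ℝ).contDiff
  exact contDiff_const.sub ((h.norm_sq ℂ).div (contDiff_const.add (contDiff_norm_sq ℝ))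
    fun z => by positivity)

/-- the relative potential on `ℂP¹⁰` defined by `η` -/
def PE (η : Sm) : ProjExtension 10 where
  h z := ev η (xi0 z)
  ext k w := ev η (xik k w)
  agree k w hw := by rw [xi_transition k w hw]

/-- `P = 1 + (1-ξ) η'` -/
def Pf (η : Sm) : Sm := 1 + (1 - X) * D η
/-- the moment map `Ψ = ξ P` -/
def Ps (η : Sm) : Sm := X * Pf η

/-- `E = e^{w'}` -/
def Ew (W : Sm) : Sm := mk0 fun x => Real.exp (ev (D W) x)
/-- `1 - x + x E` -/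
def Dn (W : Sm) : Sm := 1 - X + X * Ew W
/-- `Θ = x E / (1 - x + x E)` -/
def Th (W : Sm) : Sm := mk0 fun x => ev (X * Ew W) x / ev (Dn W) x
/-- `H = x w' - w - log (1 - x + x E)` -/
def Hw (W : Sm) : Sm := X * D W - W - mk0 fun x => Real.log (ev (Dn W) x)

end Crest.Agent.R213
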