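import Crest.Agent.R213.Proj
import Crest.Agent.R213.FinODE
import Crest.Agent.R213.EnD
import Crest.Agent.R213.Energy

/-! # Row 213, Galerkin approximations -/

set_option autoImplicit false
open Set Filter Topology
open scoped ContDiff

noncomputable section
namespace Crest.Agent.R213

lemma gal_sum {n : ℕ} (a b u : Sm) (c : Fin n → ℝ) (e : Fin n → Sm) :
    levB 1 0 0 (Lop a b (∑ j, c j • e j)) u = ∑ j, levB 1 0 0 (Lop a b (e j)) u * c j := by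
  let L : Sm →ₗ[ℝ] ℝ :=
    { toFun := fun w => levB 1 0 0 (Lop a b w) u
      map_add' := fun w w' => by rw [Lop_add, levB_add]
      map_smul' := fun r w => by rw [Lop_smul, levB_smul]; rfl }
  have := map_sum L (fun j => c j • e j) Finset.univ
  simp only [map_smul, smul_eq_mul] at this
  refine this.trans (Finset.sum_congr rfl fun j _ => mul_comm _ _)

lemma gal_lev_le {e : ℤ} (he : 0 ≤ e) (v : Sm) : lev 1 e 0 v ≤ lev 1 0 0 v := by
  simpa using lev_le_inv one_pos he 0 v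

/-- Gronwall with constant rate and constant source -/
lemma gal_gron {f : ℝ → ℝ} {t₀ t₁ K g : ℝ} (hK : 0 ≤ K) (hg : 0 ≤ g)
    (hf : ContinuousOn f (Icc t₀ t₁)) (hf0 : 0 ≤ f t₀)
    (hd : ∀ t ∈ Ioo t₀ t₁, ∃ f', HasDerivAt f f' t ∧ f' ≤ K * f t + g) :
    ∀ t ∈ Icc t₀ t₁, f t ≤ Real.exp (K * |t₁ - t₀|) * (f t₀ + |t₁ - t₀| * g) := by
  intro t ht
  have h1 := gronwall_const (g := fun _ => g) ht.1 hK (hf.mono (Icc_subset_Icc_right ht.2))
    continuousOn_const (fun _ _ => hg) fun s hs => hd s (Ioo_subset_Ioo_right ht.2 hs)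
  rw [intervalIntegral.integral_const, smul_eq_mul] at h1
  have h2 : t - t₀ ≤ |t₁ - t₀| := (sub_le_sub_right ht.2 _).trans (le_abs_self _)
  have h3 : 0 ≤ t - t₀ := sub_nonneg.2 ht.1
  refine h1.trans ?_
  gcongr

/-- coordinates `x_i`, `v = ∑ x_i e_i`, `x_i' = levB 1 0 0 (Lop a b v + F) (e i)`, `x_i(t₀) = levB 1 0 0 v₀ (e i)` -/
theorem galerkin_exists {P : Module.End ℝ Sm} {n : ℕ} {e : Fin n → Sm}
    (hP : ∀ w, P w = ∑ i, levB 1 0 0 w (e i) • e i) {a b F : ℝ → Sm} {t₀ t₁ : ℝ} (h : t₀ ≤ t₁)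
    (ha : CC (Icc t₀ t₁) a) (hb : CC (Icc t₀ t₁) b) (hF : CC (Icc t₀ t₁) F) (v₀ : Sm) :
    ∃ v : ℝ → Sm, v t₀ = P v₀ ∧ (∀ t, v t ∈ Submodule.span ℝ (Set.range e)) ∧
      CC (Icc t₀ t₁) v ∧ ∀ t ∈ Ioo t₀ t₁, CD v (P (Lop (a t) (b t) (v t) + F t)) t := by
  let A : ℝ → (Fin n → ℝ) →L[ℝ] (Fin n → ℝ) := fun t => ∑ i, ∑ j,
    levB 1 0 0 (Lop (a t) (b t) (e j)) (e i) •
      ((ContinuousLinearMap.single ℝ (fun _ : Fin n => ℝ) i).comp (ContinuousLinearMap.proj j))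
  have hA : ∀ t x i, A t x i = ∑ j, levB 1 0 0 (Lop (a t) (b t) (e j)) (e i) * x j := by
    intro t x i
    simp only [A, ContinuousLinearMap.sum_apply, Finset.sum_apply, ContinuousLinearMap.smul_apply,
      Pi.smul_apply, ContinuousLinearMap.comp_apply, ContinuousLinearMap.proj_apply,
      ContinuousLinearMap.single_apply, smul_eq_mul]
    rw [Finset.sum_eq_single i]
    · simp
    · intro l _ hl
      simp [Pi.single_eq_of_ne hl.symm]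
    · simp
  obtain ⟨x, hx0, hxc, hxd⟩ := exists_linODE h A (fun t i => levB 1 0 0 (F t) (e i))
    (continuousOn_finsetSum _ fun i _ => continuousOn_finsetSum _ fun j _ =>
      ((ha.Lop hb (CC.const (e j))).levB_fixed (CC.const (e i)) 1 0 0).smul continuousOn_const)
    (continuousOn_pi.2 fun i => hF.levB_fixed (CC.const (e i)) 1 0 0)
    (fun i => levB 1 0 0 v₀ (e i))
  refine ⟨fun t => ∑ i, x t i • e i, by simp only [hx0, hP], fun t =>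
    Submodule.sum_mem _ fun i _ => Submodule.smul_mem _ _ (Submodule.subset_span ⟨i, rfl⟩),
    CC.sum _ fun i _ => (CC.const (e i)).smul (continuousOn_pi.1 hxc i), fun t ht => ?_⟩
  refine (CD.sum _ fun i _ => (CD.const (e i)).smul (hasDerivAt_pi.1 (hxd t ht) i)).congr_deriv ?_
  rw [hP]
  refine Finset.sum_congr rfl fun i _ => ?_
  rw [smul_zero, add_zero, levB_add, gal_sum, Pi.add_apply, hA]

/-- Uniform bounds.  For `E = lev 1 (k+2) (k+2) v + lev 1 0 0 v`: by orthogonality `E' = 2 levB (G) v + …` with the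
unprojected `G = Lop a b v + F`; `energy_top (k+2) k`, `energy_zero 0` at scale `1` (`CC.symb`, `CC.pos`), `lev_mono_e`,
`lev_le_inv` give `E' ≤ K E + K`; `gronwall_const`, `N2_le_lev`. -/
theorem galerkin_bound {a b F : ℝ → Sm} {t₀ t₁ : ℝ} (h : t₀ ≤ t₁)
    (ha : CC (Icc t₀ t₁) a) (hb : CC (Icc t₀ t₁) b) (hF : CC (Icc t₀ t₁) F)
    (hpos : ∀ t ∈ Icc t₀ t₁, ∀ x ∈ I, 0 < ev (a t) x) (v₀ : Sm) (k : ℕ) :
    ∃ B, ∀ (v G : ℝ → Sm), CC (Icc t₀ t₁) v → (∀ j : ℕ, lev 1 j j (v t₀) ≤ lev 1 j j v₀) →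
      (∀ t ∈ Ioo t₀ t₁, CD v (G t) t ∧
        ∀ j : ℕ, levB 1 j j (G t) (v t) = levB 1 j j (Lop (a t) (b t) (v t) + F t) (v t)) →
      ∀ t ∈ Icc t₀ t₁, N2 1 0 k (v t) ≤ B := by
  obtain ⟨a₀, ha₀, hpa⟩ := ha.pos isCompact_Icc hpos
  obtain ⟨Ca, hCa, hsa⟩ := ha.symb isCompact_Icc 0 (k + 2)
  obtain ⟨Cb, hCb, hsb⟩ := hb.symb isCompact_Icc (-2) (k + 2)
  have hsa' : ∀ K ≤ k + 2, ∀ t ∈ Icc t₀ t₁, Symb 1 0 K (Ca + Cb) (a t) := fun K hK t ht i hi x hx =>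
    (hsa t ht i (hi.trans hK) x hx).trans (mul_le_mul_of_nonneg_right (by linarith)
      (by have := hx.1; positivity))
  have hsb' : ∀ K ≤ k + 2, ∀ t ∈ Icc t₀ t₁, Symb 1 (-2) K (Ca + Cb) (b t) := fun K hK t ht i hi x hx =>
    (hsb t ht i (hi.trans hK) x hx).trans (mul_le_mul_of_nonneg_right (by linarith)
      (by have := hx.1; positivity))
  obtain ⟨c, hc, C₀, hC₀, h₀⟩ := energy_zero 0 ha₀ (Ca + Cb)
  obtain ⟨C₁, hC₁, h₁⟩ := energy_top ((k + 2 : ℕ) : ℤ) k ha₀ (Ca + Cb)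
  obtain ⟨B₀, hB₀⟩ := hF.N2_bound isCompact_Icc (0 - 2) 0
  obtain ⟨B₁, hB₁⟩ := hF.N2_bound isCompact_Icc (((k + 2 : ℕ) : ℤ) - 2) k
  obtain ⟨C₂, hC₂, h₂⟩ := N2_le_lev ((k + 2 : ℕ) : ℤ) (k + 2)
  have one_mem : (1 : ℝ) ∈ Ioc (0 : ℝ) 1 := ⟨one_pos, le_rfl⟩
  refine ⟨2 ^ (((k + 2 : ℕ) : ℤ) - 0) * (C₂ * (Real.exp ((C₀ + C₁) * |t₁ - t₀|) *
    (lev 1 (k + 2 : ℕ) (k + 2) v₀ + lev 1 0 0 v₀ + |t₁ - t₀| * (4 / a₀ * |B₁| + |B₀|)))),
    fun v G hv hv₀ hG t ht => ?_⟩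
  have key := gal_gron (f := fun s => lev 1 (k + 2 : ℕ) (k + 2) (v s) + lev 1 0 0 (v s))
    (K := C₀ + C₁) (g := 4 / a₀ * |B₁| + |B₀|) (by positivity) (by positivity)
    ((hv.lev_fixed _ _ _).add (hv.lev_fixed _ _ _))
    (add_nonneg (lev_nonneg one_pos _ _ _) (lev_nonneg one_pos _ _ _)) (fun s hs => by
      obtain ⟨hd, ho⟩ := hG s hs
      have hs' := Ioo_subset_Icc_self hs
      refine ⟨_, (hasDerivAt_lev_fixed hd 1 _ _).add (hasDerivAt_lev_fixed hd 1 _ _), ?_⟩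
      have e0 := ho 0
      rw [Nat.cast_zero] at e0
      rw [ho (k + 2), e0]
      have b0 := h₀ 1 one_mem _ _ (hsa' 2 (by omega) s hs') (hsb' 0 (by omega) s hs') (hpa s hs')
        (v s) (F s)
      have b1 := h₁ 1 one_mem _ _ (hsa' k (by omega) s hs') (hsb' k (by omega) s hs') (hpa s hs')
        (v s) (F s)
      have b2 := mul_nonneg hc.le (N2_nonneg one_pos (0 + 2) 2 (v s))
      have b3 := mul_nonneg ha₀.le (Gk_nonneg one_pos ((k + 2 : ℕ) : ℤ) (k + 2) (v s))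
      have b4 := mul_le_mul_of_nonneg_left (gal_lev_le (e := 0 + 2) (by norm_num) (v s)) hC₀
      have b5 := mul_le_mul_of_nonneg_left
        (gal_lev_le (e := ((k + 2 : ℕ) : ℤ) + 2) (by positivity) (v s)) hC₁
      have b6 := (lev_le_N2 one_pos _ le_rfl _).trans ((hB₀ s hs').trans (le_abs_self _))
      have b7 := mul_le_mul_of_nonneg_left
        ((lev_le_N2 one_pos _ le_rfl _).trans ((hB₁ s hs').trans (le_abs_self _)))
        (show 0 ≤ 4 / a₀ by positivity)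
      have b8 := mul_nonneg (add_nonneg hC₀ hC₁) (lev_nonneg one_pos ((k + 2 : ℕ) : ℤ) (k + 2) (v s))
      linarith) t ht
  have i0 := hv₀ 0
  rw [Nat.cast_zero] at i0
  have i1 := hv₀ (k + 2)
  refine (N2_mono one_pos 0 (show k ≤ k + 2 by omega) _).trans
    ((N2_mono_e one_mem (show (0 : ℤ) ≤ ((k + 2 : ℕ) : ℤ) by positivity) _ _).trans ?_)
  refine mul_le_mul_of_nonneg_left ((h₂ 1 one_mem _).trans
    (mul_le_mul_of_nonneg_left ?_ hC₂)) (by positivity)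
  have i2 := gal_lev_le (e := ((k + 2 : ℕ) : ℤ)) (by positivity) (v t)
  refine le_trans (by linarith) (key.trans ?_)
  gcongr

/-- stability in the weakest norm (`energy_zero 0` at scale `1`, `gronwall_const`) -/
theorem stability {a b : ℝ → Sm} {t₀ t₁ : ℝ} (ha : CC (Icc t₀ t₁) a) (hb : CC (Icc t₀ t₁) b)
    (hpos : ∀ t ∈ Icc t₀ t₁, ∀ x ∈ I, 0 < ev (a t) x) : ∃ C, 0 ≤ C ∧ ∀ (F v : ℝ → Sm) (η : ℝ),
      CC (Icc t₀ t₁) F → Sol a b F t₀ t₁ v → (∀ t ∈ Icc t₀ t₁, lev 1 0 0 (F t) ≤ η) →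
      ∀ t ∈ Icc t₀ t₁, lev 1 0 0 (v t) ≤ C * (lev 1 0 0 (v t₀) + η) := by
  obtain ⟨a₀, ha₀, hpa⟩ := ha.pos isCompact_Icc hpos
  obtain ⟨Ca, hCa, hsa⟩ := ha.symb isCompact_Icc 0 2
  obtain ⟨Cb, hCb, hsb⟩ := hb.symb isCompact_Icc (-2) 0
  have hsa' : ∀ t ∈ Icc t₀ t₁, Symb 1 0 2 (Ca + Cb) (a t) := fun t ht i hi x hx =>
    (hsa t ht i hi x hx).trans (mul_le_mul_of_nonneg_right (by linarith)
      (by have := hx.1; positivity))
  have hsb' : ∀ t ∈ Icc t₀ t₁, Symb 1 (-2) 0 (Ca + Cb) (b t) := fun t ht i hi x hx =>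
    (hsb t ht i hi x hx).trans (mul_le_mul_of_nonneg_right (by linarith)
      (by have := hx.1; positivity))
  obtain ⟨c, hc, C₀, hC₀, h₀⟩ := energy_zero 0 ha₀ (Ca + Cb)
  have one_mem : (1 : ℝ) ∈ Ioc (0 : ℝ) 1 := ⟨one_pos, le_rfl⟩
  refine ⟨Real.exp (C₀ * |t₁ - t₀|) * (1 + |t₁ - t₀| * 4), by positivity,
    fun F v η _ hv hη t ht => ?_⟩
  have hη0 : 0 ≤ η := (lev_nonneg one_pos _ _ _).trans (hη t ht)
  have hv0 := lev_nonneg one_pos 0 0 (v t₀)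
  have key := gal_gron (f := fun s => lev 1 0 0 (v s)) (K := C₀) (g := 4 * η) hC₀ (by positivity)
    (hv.1.lev_fixed _ _ _) hv0 (fun s hs => by
      have hs' := Ioo_subset_Icc_self hs
      refine ⟨_, hasDerivAt_lev_fixed (hv.2 s hs) 1 _ _, ?_⟩
      have b0 := h₀ 1 one_mem _ _ (hsa' s hs') (hsb' s hs') (hpa s hs') (v s) (F s)
      have b2 := mul_nonneg hc.le (N2_nonneg one_pos (0 + 2) 2 (v s))
      have b4 := mul_le_mul_of_nonneg_left (gal_lev_le (e := 0 + 2) (by norm_num) (v s)) hC₀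
      have b5 := lev_mono_e one_mem (show (0 : ℤ) - 2 ≤ 0 by norm_num) 0 (F s)
      rw [show (2 : ℝ) ^ ((0 : ℤ) - (0 - 2)) = 4 by norm_num] at b5
      have b6 := hη s hs'
      linarith) t ht
  refine key.trans ?_
  rw [mul_assoc]
  refine mul_le_mul_of_nonneg_left ?_ (Real.exp_pos _).le
  have := mul_nonneg (abs_nonneg (t₁ - t₀)) hv0
  nlinarith

end Crest.Agent.R213
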