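import Crest.Agent.R213.GDefs

/-! # Row 213, complex Hessians of compositions; radial functions -/

set_option autoImplicit false
open Set Filter Topology
open scoped ContDiff ComplexOrder
open Crest.GeometryTopology.ProjKahler

noncomputable section
namespace Crest.Agent.R213

/-- the two Wirtinger derivatives at once -/
def ghD {n : ℕ} (s : ℂ) (f : V n → ℂ) (z : V n) (a : Fin n) : ℂ :=
  (fderiv ℝ f z (bv a) + s * fderiv ℝ f z (Complex.I • bv a)) / 2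

lemma gh_dz {n : ℕ} (f : V n → ℂ) (z : V n) (a : Fin n) : dz f z a = ghD (-Complex.I) f z a := by
  unfold dz ghD; ring

lemma gh_dzbar {n : ℕ} (f : V n → ℂ) (z : V n) (a : Fin n) : dzbar f z a = ghD Complex.I f z a := rfl

lemma ghD_add {n : ℕ} (s : ℂ) {f g : V n → ℂ} {z : V n} (hf : DifferentiableAt ℝ f z)
    (hg : DifferentiableAt ℝ g z) (a : Fin n) :
    ghD s (fun w => f w + g w) z a = ghD s f z a + ghD s g z a := by
  unfold ghD
  rw [fderiv_fun_add hf hg]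
  simp only [ContinuousLinearMap.add_apply]
  ring

lemma ghD_mul {n : ℕ} (s : ℂ) {f g : V n → ℂ} {z : V n} (hf : DifferentiableAt ℝ f z)
    (hg : DifferentiableAt ℝ g z) (a : Fin n) :
    ghD s (fun w => f w * g w) z a = f z * ghD s g z a + g z * ghD s f z a := by
  unfold ghD
  rw [fderiv_fun_mul hf hg]
  simp only [ContinuousLinearMap.add_apply, ContinuousLinearMap.smul_apply, smul_eq_mul]
  ring

lemma ghD_const_mul {n : ℕ} (s c : ℂ) {f : V n → ℂ} {z : V n} (hf : DifferentiableAt ℝ f z)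
    (a : Fin n) : ghD s (fun w => c * f w) z a = c * ghD s f z a := by
  unfold ghD
  rw [fderiv_const_mul hf]
  simp only [ContinuousLinearMap.smul_apply, smul_eq_mul]
  ring

lemma gh_ofReal {n : ℕ} {u : V n → ℝ} (hu : ContDiff ℝ ∞ u) : ContDiff ℝ ∞ fun w => (u w : ℂ) :=
  Complex.ofRealCLM.contDiff.comp hu

lemma gh_diff {n : ℕ} {f : V n → ℂ} (hf : ContDiff ℝ ∞ f) (z : V n) : DifferentiableAt ℝ f z :=
  hf.differentiable (by simp) z

lemma gh_contDiff {n : ℕ} (s : ℂ) {f : V n → ℂ} (hf : ContDiff ℝ ∞ f) (a : Fin n) :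
    ContDiff ℝ ∞ fun w => ghD s f w a := by
  have h : ContDiff ℝ ∞ (fderiv ℝ f) := hf.fderiv_right (m := ∞) (by simp)
  exact ((h.clm_apply contDiff_const).add
    (contDiff_const.mul (h.clm_apply contDiff_const))).div_const _

lemma gh_hasF {n : ℕ} {S : Set ℝ} {a : V n → ℝ} (ha : ContDiff ℝ ∞ a) (hm : ∀ z, a z ∈ S)
    {g : ℝ → ℝ} {g' : ℝ} {z : V n} (hg : HasDerivWithinAt g g' S (a z)) :
    HasFDerivAt (fun w => (g (a w) : ℂ)) ((g' : ℂ) • fderiv ℝ (fun w => (a w : ℂ)) z) z := by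
  have h1 : HasFDerivAt a (fderiv ℝ a z) z := (ha.differentiable (by simp) z).hasFDerivAt
  have h2 : HasFDerivAt (g ∘ a) (g' • fderiv ℝ a z) z := by
    rw [← hasFDerivWithinAt_univ] at h1 ⊢
    exact hg.comp_hasFDerivWithinAt z h1 fun w _ => hm w
  have h3 := Complex.ofRealCLM.hasFDerivAt.comp z h2
  have h4 : fderiv ℝ (fun w => (a w : ℂ)) z = Complex.ofRealCLM.comp (fderiv ℝ a z) :=
    (Complex.ofRealCLM.hasFDerivAt.comp z h1).fderiv
  have h5 : (g' : ℂ) • fderiv ℝ (fun w => (a w : ℂ)) z =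
      Complex.ofRealCLM.comp (g' • fderiv ℝ a z) := by
    rw [h4]
    ext v
    simp
  rw [h5]
  exact h3

lemma ghD_comp {n : ℕ} (s : ℂ) {S : Set ℝ} {a : V n → ℝ} (ha : ContDiff ℝ ∞ a) (hm : ∀ z, a z ∈ S)
    {g : ℝ → ℝ} {g' : ℝ} {z : V n} (hg : HasDerivWithinAt g g' S (a z)) (p : Fin n) :
    ghD s (fun w => (g (a w) : ℂ)) z p = g' * ghD s (fun w => (a w : ℂ)) z p := by
  unfold ghD
  rw [(gh_hasF ha hm hg).fderiv]
  simp only [ContinuousLinearMap.smul_apply, smul_eq_mul]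
  ring

lemma gh_cHess {n : ℕ} (u : V n → ℝ) (z : V n) (p q : Fin n) : cHess u z p q =
    ghD (-Complex.I) (fun w => ghD Complex.I (fun y => (u y : ℂ)) w q) z p := by
  rw [← gh_dz]; rfl

lemma gh_chain {n : ℕ} {S : Set ℝ} {a : V n → ℝ} (ha : ContDiff ℝ ∞ a) (hm : ∀ z, a z ∈ S)
    {g g1 g2 : ℝ → ℝ} (h1 : ∀ x ∈ S, HasDerivWithinAt g (g1 x) S x)
    (h2 : ∀ x ∈ S, HasDerivWithinAt g1 (g2 x) S x) (z : V n) (p q : Fin n) :
    cHess (fun w => g (a w)) z p q = (g1 (a z) : ℂ) * cHess a z p q +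
      (g2 (a z) : ℂ) * (dz (fun w => (a w : ℂ)) z p * dzbar (fun w => (a w : ℂ)) z q) := by
  rw [gh_cHess, gh_cHess, gh_dz, gh_dzbar]
  have e : (fun w => ghD Complex.I (fun y => (g (a y) : ℂ)) w q) =
      fun w => (g1 (a w) : ℂ) * ghD Complex.I (fun y => (a y : ℂ)) w q :=
    funext fun w => ghD_comp _ ha hm (h1 _ (hm w)) q
  rw [e, ghD_mul _ (gh_hasF ha hm (h2 _ (hm z))).differentiableAt
    (gh_diff (gh_contDiff _ (gh_ofReal ha) q) z), ghD_comp _ ha hm (h2 _ (hm z))]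
  ring

/-- the coordinate functionals -/
def ghP {n : ℕ} (i : Fin n) : V n →L[ℝ] ℂ := (EuclideanSpace.proj i : V n →L[ℂ] ℂ).restrictScalars ℝ

lemma ghP_apply {n : ℕ} (i : Fin n) (v : V n) : ghP i v = v i := rfl

lemma gh_normsq {n : ℕ} (z : V n) : ((‖z‖ ^ 2 : ℝ) : ℂ) = ∑ i, z i * (starRingEnd ℂ) (z i) := by
  rw [EuclideanSpace.norm_sq_eq]
  push_cast
  refine Finset.sum_congr rfl fun i _ => ?_
  rw [Complex.mul_conj, Complex.normSq_eq_norm_sq]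
  push_cast; rfl

lemma gh_fderiv_normsq {n : ℕ} (z v : V n) : fderiv ℝ (fun w : V n => ((‖w‖ ^ 2 : ℝ) : ℂ)) z v =
    ∑ i, (z i * (starRingEnd ℂ) (v i) + (starRingEnd ℂ) (z i) * v i) := by
  simp only [gh_normsq]
  have h : HasFDerivAt (fun w : V n => ∑ i, w i * (starRingEnd ℂ) (w i))
      (∑ i, (z i • ((Complex.conjCLE : ℂ →L[ℝ] ℂ).comp (ghP i)) + (starRingEnd ℂ) (z i) • ghP i)) z := by
    refine HasFDerivAt.fun_sum fun i _ => ?_
    exact (ghP i).hasFDerivAt.fun_mul ((Complex.conjCLE : ℂ →L[ℝ] ℂ).comp (ghP i)).hasFDerivAt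
  rw [h.fderiv]
  simp [ghP_apply]

lemma ghD_normsq {n : ℕ} (s : ℂ) (z : V n) (p : Fin n) :
    ghD s (fun w : V n => ((‖w‖ ^ 2 : ℝ) : ℂ)) z p =
      ((1 - s * Complex.I) * z p + (1 + s * Complex.I) * (starRingEnd ℂ) (z p)) / 2 := by
  unfold ghD
  rw [gh_fderiv_normsq, gh_fderiv_normsq, Finset.sum_eq_single p, Finset.sum_eq_single p]
  · simp [bv]; ring
  · intro b _ hb; simp [bv, hb]
  · simp
  · intro b _ hb; simp [bv, hb]
  · simp

lemma gh_dz_normsq {n : ℕ} (z : V n) (p : Fin n) :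
    dz (fun w : V n => ((‖w‖ ^ 2 : ℝ) : ℂ)) z p = (starRingEnd ℂ) (z p) := by
  rw [gh_dz, ghD_normsq]
  linear_combination (z p - (starRingEnd ℂ) (z p)) / 2 * Complex.I_mul_I

lemma gh_dzbar_normsq {n : ℕ} (z : V n) (p : Fin n) :
    dzbar (fun w : V n => ((‖w‖ ^ 2 : ℝ) : ℂ)) z p = z p := by
  rw [gh_dzbar, ghD_normsq]
  linear_combination ((starRingEnd ℂ) (z p) - z p) / 2 * Complex.I_mul_I

lemma gh_cHess_normsq {n : ℕ} (z : V n) (p q : Fin n) :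
    cHess (fun w : V n => ‖w‖ ^ 2) z p q = if p = q then 1 else 0 := by
  have e : (fun w : V n => dzbar (fun y : V n => ((‖y‖ ^ 2 : ℝ) : ℂ)) w q) = ghP q :=
    funext fun w => gh_dzbar_normsq w q
  change dz (fun w : V n => dzbar (fun y : V n => ((‖y‖ ^ 2 : ℝ) : ℂ)) w q) z p = _
  rw [e, dz, ContinuousLinearMap.fderiv, ghP_apply, ghP_apply]
  by_cases h : p = q
  · subst h
    simp [bv]
  · simp [bv, h, Ne.symm h]

lemma gh_radial {n : ℕ} {g g1 g2 : ℝ → ℝ} (h1 : ∀ x ∈ Ici (0 : ℝ), HasDerivWithinAt g (g1 x) (Ici 0) x)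
    (h2 : ∀ x ∈ Ici (0 : ℝ), HasDerivWithinAt g1 (g2 x) (Ici 0) x) (z : V n) (p q : Fin n) :
    cHess (fun w : V n => g (‖w‖ ^ 2)) z p q = (g1 (‖z‖ ^ 2) : ℂ) * (if p = q then 1 else 0) +
      (g2 (‖z‖ ^ 2) : ℂ) * ((starRingEnd ℂ) (z p) * z q) := by
  rw [gh_chain (a := fun w : V n => ‖w‖ ^ 2) (contDiff_norm_sq ℝ) (fun w => sq_nonneg _) h1 h2,
    gh_cHess_normsq, gh_dz_normsq, gh_dzbar_normsq]

lemma gh_log {x : ℝ} (hx : x ∈ Ici (0 : ℝ)) : HasDerivAt (fun r => Real.log (1 + r)) (1 + x)⁻¹ x := by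
  have h : 1 + x ≠ 0 := by have : 0 ≤ x := hx; positivity
  simpa using ((hasDerivAt_id x).const_add 1).log h

lemma gh_xi_mem {x : ℝ} (hx : x ∈ Ici (0 : ℝ)) : x / (1 + x) ∈ I := by
  have h : 0 ≤ x := hx
  exact ⟨by positivity, by rw [div_le_one (by positivity)]; linarith⟩

lemma gh_ev_xi (f : Sm) {x : ℝ} (hx : x ∈ Ici (0 : ℝ)) :
    HasDerivWithinAt (fun r => ev f (r / (1 + r)))
      ((1 - x / (1 + x)) ^ 2 * ev (D f) (x / (1 + x))) (Ici 0) x := by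
  have h0 : 0 ≤ x := hx
  have h : 1 + x ≠ 0 := by positivity
  have h1 : HasDerivAt (fun r : ℝ => r / (1 + r)) ((1 - x / (1 + x)) ^ 2) x := by
    refine ((hasDerivAt_id x).fun_div ((hasDerivAt_id x).const_add 1) h).congr_deriv ?_
    simp only [id]
    field_simp
    ring
  have h2 := (hasDerivWithinAt_ev f (gh_xi_mem hx)).comp x h1.hasDerivWithinAt
    (s := Ici 0) fun r hr => gh_xi_mem hr
  rw [mul_comm]
  exact h2

lemma contDiff_ev_comp {n : ℕ} (f : Sm) {a : V n → ℝ} (ha : ContDiff ℝ ∞ a) (hm : ∀ z, a z ∈ I) :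
    ContDiff ℝ ∞ fun z => ev f (a z) :=
  (contDiffOn_ev f).comp_contDiff ha hm
lemma cHess_add {n : ℕ} {u v : V n → ℝ} (hu : ContDiff ℝ ∞ u) (hv : ContDiff ℝ ∞ v) (z : V n) :
    cHess (fun w => u w + v w) z = cHess u z + cHess v z := by
  ext p q
  rw [Matrix.add_apply, gh_cHess, gh_cHess, gh_cHess]
  have e : (fun w => ghD Complex.I (fun y => ((u y + v y : ℝ) : ℂ)) w q) = fun w =>
      ghD Complex.I (fun y => (u y : ℂ)) w q + ghD Complex.I (fun y => (v y : ℂ)) w q := by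
    funext w
    simp only [Complex.ofReal_add]
    exact ghD_add _ (gh_diff (gh_ofReal hu) w) (gh_diff (gh_ofReal hv) w) q
  rw [e, ghD_add _ (gh_diff (gh_contDiff _ (gh_ofReal hu) q) z)
    (gh_diff (gh_contDiff _ (gh_ofReal hv) q) z)]
lemma cHess_const_mul {n : ℕ} {u : V n → ℝ} (hu : ContDiff ℝ ∞ u) (c : ℝ) (z : V n) :
    cHess (fun w => c * u w) z = (c : ℂ) • cHess u z := by
  ext p q
  rw [Matrix.smul_apply, gh_cHess, gh_cHess, smul_eq_mul]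
  have e : (fun w => ghD Complex.I (fun y => ((c * u y : ℝ) : ℂ)) w q) = fun w =>
      (c : ℂ) * ghD Complex.I (fun y => (u y : ℂ)) w q := by
    funext w
    simp only [Complex.ofReal_mul]
    exact ghD_const_mul _ _ (gh_diff (gh_ofReal hu) w) q
  rw [e, ghD_const_mul _ _ (gh_diff (gh_contDiff _ (gh_ofReal hu) q) z)]
/-- chain rule (`hasDerivWithinAt_ev`, `HasDerivWithinAt.comp_hasFDerivAt`-type lemmas; valid also where `a z ∈ {0,1}`) -/
lemma cHess_ev_comp {n : ℕ} (f : Sm) {a : V n → ℝ} (ha : ContDiff ℝ ∞ a) (hm : ∀ z, a z ∈ I) (z : V n)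
    (p q : Fin n) : cHess (fun w => ev f (a w)) z p q =
      (ev (D f) (a z) : ℂ) * cHess a z p q +
        (ev (D (D f)) (a z) : ℂ) * (dz (fun w => (a w : ℂ)) z p * dzbar (fun w => (a w : ℂ)) z q) :=
  gh_chain ha hm (fun _ hx => hasDerivWithinAt_ev f hx) (fun _ hx => hasDerivWithinAt_ev (D f) hx) z p q
lemma contDiff_fsPot {n : ℕ} : ContDiff ℝ ∞ (fsPot : V n → ℝ) :=
  (contDiff_const.add (contDiff_norm_sq ℝ)).log fun z => by positivity
lemma cHess_fsPot {n : ℕ} (z : V n) (p q : Fin n) : cHess fsPot z p q =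
    (if p = q then 1 else 0) / ((1 + ‖z‖ ^ 2 : ℝ) : ℂ)
      - (starRingEnd ℂ) (z p) * z q / ((1 + ‖z‖ ^ 2 : ℝ) : ℂ) ^ 2 := by
  have h2 : ∀ x ∈ Ici (0 : ℝ), HasDerivWithinAt (fun r : ℝ => (1 + r)⁻¹) (-1 / (1 + x) ^ 2) (Ici 0) x := by
    intro x hx
    have h : 1 + x ≠ 0 := by have : 0 ≤ x := hx; positivity
    exact (((hasDerivAt_id x).const_add 1).fun_inv h).hasDerivWithinAt
  have h := gh_radial (fun x hx => (gh_log hx).hasDerivWithinAt) h2 z p q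
  refine h.trans ?_
  push_cast
  ring
/-- radial functions: with `ξ = xi0 z`, `G₁ = (1-ξ)(c + (1-ξ) η')` and `G₂ = d G₁ / d r = (1-ξ)² d G₁ / d ξ` -/
lemma cHess_radial (c : ℝ) (η : Sm) (z : V 10) (p q : Fin 10) :
    cHess (fun u => c * fsPot u + ev η (xi0 u)) z p q =
      (ev ((1 - X) * (algebraMap ℝ Sm c + (1 - X) * D η)) (xi0 z) : ℂ) * (if p = q then 1 else 0) +
      (((1 - xi0 z) ^ 2 * ev (D ((1 - X) * (algebraMap ℝ Sm c + (1 - X) * D η))) (xi0 z) : ℝ) : ℂ) *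
        ((starRingEnd ℂ) (z p) * z q) := by
  set G : Sm := (1 - X) * (algebraMap ℝ Sm c + (1 - X) * D η) with hG
  have h1 : ∀ x ∈ Ici (0 : ℝ), HasDerivWithinAt (fun r : ℝ => c * Real.log (1 + r) + ev η (r / (1 + r)))
      (ev G (x / (1 + x))) (Ici 0) x := by
    intro x hx
    have h : 1 + x ≠ 0 := by have : 0 ≤ x := hx; positivity
    refine (((gh_log hx).hasDerivWithinAt.const_mul c).fun_add (gh_ev_xi η hx)).congr_deriv ?_
    simp only [hG, ev_mul, ev_sub, ev_add, ev_one, ev_algebraMap, ev_X (gh_xi_mem hx)]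
    field_simp
    ring
  exact gh_radial h1 (fun x hx => gh_ev_xi G hx) z p q
/-- `F₁ 1 + F₂ z̄ zᵀ` -/
def radM (F₁ F₂ : ℝ) (z : V 10) : Matrix (Fin 10) (Fin 10) ℂ :=
  Matrix.of fun p q => (F₁ : ℂ) * (if p = q then 1 else 0) + (F₂ : ℂ) * ((starRingEnd ℂ) (z p) * z q)
lemma gh_radM_mul (A₁ A₂ B₁ B₂ : ℝ) (z : V 10) : radM A₁ A₂ z * radM B₁ B₂ z =
    radM (A₁ * B₁) (A₁ * B₂ + A₂ * B₁ + ‖z‖ ^ 2 * A₂ * B₂) z := by
  ext p q
  have h := gh_normsq z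
  simp only [radM, Matrix.mul_apply, Matrix.of_apply]
  have e : ∀ j : Fin 10, ((A₁ : ℂ) * (if p = j then 1 else 0) + (A₂ : ℂ) * ((starRingEnd ℂ) (z p) * z j)) *
      ((B₁ : ℂ) * (if j = q then 1 else 0) + (B₂ : ℂ) * ((starRingEnd ℂ) (z j) * z q)) =
      (if p = j then (A₁ : ℂ) * (B₁ * (if j = q then 1 else 0) + B₂ * ((starRingEnd ℂ) (z j) * z q)) else 0)
      + (if j = q then (A₂ : ℂ) * B₁ * ((starRingEnd ℂ) (z p) * z j) else 0)
      + (A₂ : ℂ) * B₂ * ((starRingEnd ℂ) (z p) * z q) * (z j * (starRingEnd ℂ) (z j)) := by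
    intro j
    split_ifs <;> ring
  simp only [e, Finset.sum_add_distrib, Finset.sum_ite_eq, Finset.sum_ite_eq', Finset.mem_univ,
    if_true, ← Finset.mul_sum, ← h]
  push_cast
  ring
lemma gh_radM_one (z : V 10) : radM 1 0 z = 1 := by
  ext p q
  simp [radM, Matrix.one_apply]
lemma gh_radM_trace (A₁ A₂ : ℝ) (z : V 10) :
    (radM A₁ A₂ z).trace = ((10 * A₁ + ‖z‖ ^ 2 * A₂ : ℝ) : ℂ) := by
  have h := gh_normsq z
  simp only [Matrix.trace, Matrix.diag, radM, Matrix.of_apply, if_true, Finset.sum_add_distrib,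
    ← Finset.mul_sum, mul_comm ((starRingEnd ℂ) _), ← h]
  push_cast
  simp
  ring
lemma det_radM {F₁ : ℝ} (h₁ : F₁ ≠ 0) (F₂ : ℝ) (z : V 10) :
    (radM F₁ F₂ z).det = ((F₁ ^ 9 * (F₁ + ‖z‖ ^ 2 * F₂) : ℝ) : ℂ) := by
  have h₁' : (F₁ : ℂ) ≠ 0 := Complex.ofReal_ne_zero.2 h₁
  have e : radM F₁ F₂ z = (F₁ : ℂ) • (1 + Matrix.replicateCol Unit
      (fun p => (F₂ : ℂ) / F₁ * (starRingEnd ℂ) (z p)) * Matrix.replicateRow Unit (fun q => z q)) := by
    ext p q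
    simp only [radM, Matrix.of_apply, Matrix.smul_apply, Matrix.add_apply, Matrix.one_apply,
      Matrix.mul_apply, Matrix.replicateCol_apply, Matrix.replicateRow_apply, Finset.univ_unique,
      Finset.sum_singleton, smul_eq_mul]
    field_simp
  have e2 : (fun q => z q) ⬝ᵥ (fun p => (F₂ : ℂ) / F₁ * (starRingEnd ℂ) (z p)) =
      (F₂ : ℂ) / F₁ * ((‖z‖ ^ 2 : ℝ) : ℂ) := by
    rw [gh_normsq, Finset.mul_sum, dotProduct]
    exact Finset.sum_congr rfl fun i _ => by ring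
  rw [e, Matrix.det_smul, Matrix.det_one_add_replicateCol_mul_replicateRow, e2, Fintype.card_fin]
  push_cast
  field_simp
lemma trace_radM {F₁ F₂ : ℝ} (G₁ G₂ : ℝ) (z : V 10) (h₁ : F₁ ≠ 0) (h₂ : F₁ + ‖z‖ ^ 2 * F₂ ≠ 0) :
    ∑ p, ∑ q, (radM F₁ F₂ z)⁻¹ q p * radM G₁ G₂ z p q =
      ((9 * G₁ / F₁ + (G₁ + ‖z‖ ^ 2 * G₂) / (F₁ + ‖z‖ ^ 2 * F₂) : ℝ) : ℂ) := by
  have e : (radM F₁ F₂ z)⁻¹ = radM F₁⁻¹ (-F₂ / (F₁ * (F₁ + ‖z‖ ^ 2 * F₂))) z := by
    apply Matrix.inv_eq_left_inv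
    rw [gh_radM_mul, inv_mul_cancel₀ h₁, ← gh_radM_one z]
    congr 1
    generalize ‖z‖ ^ 2 = r at h₂ ⊢
    obtain ⟨s, hs⟩ : ∃ s, s = F₁ + r * F₂ := ⟨_, rfl⟩
    rw [← hs] at h₂ ⊢
    field_simp
    rw [hs]
    ring
  have e2 : ∑ p, ∑ q, (radM F₁ F₂ z)⁻¹ q p * radM G₁ G₂ z p q =
      ((radM F₁ F₂ z)⁻¹ * radM G₁ G₂ z).trace := by
    rw [Finset.sum_comm]
    simp only [Matrix.trace, Matrix.diag, Matrix.mul_apply]
  rw [e2, e, gh_radM_mul, gh_radM_trace]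
  congr 1
  field_simp
  ring

end Crest.Agent.R213
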