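import Crest.Agent.R213.GDefs

/-! # Row 213, Wirtinger calculus and linear algebra for `GeoKahler` -/

set_option autoImplicit false
open Set Filter Topology
open scoped ContDiff ComplexOrder ComplexConjugate InnerProductSpace
open Crest.GeometryTopology.ProjKahler

noncomputable section
namespace Crest.Agent.R213.GK

variable {n : ℕ}

/-- `f` has Wirtinger derivatives `A`, `B` at `z` -/
structure HW (f : V n → ℂ) (z : V n) (A B : Fin n → ℂ) : Prop where
  diff : DifferentiableAt ℝ f z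
  hz : ∀ a, dz f z a = A a
  hb : ∀ a, dzbar f z a = B a

lemma HW.congr {f : V n → ℂ} {z : V n} {A B A' B' : Fin n → ℂ} (h : HW f z A B)
    (hA : ∀ a, A a = A' a) (hB : ∀ a, B a = B' a) : HW f z A' B' :=
  ⟨h.diff, fun a => (h.hz a).trans (hA a), fun a => (h.hb a).trans (hB a)⟩

lemma HW.const (c : ℂ) (z : V n) : HW (fun _ => c) z (fun _ => 0) (fun _ => 0) :=
  ⟨differentiableAt_const _, fun a => by simp [dz], fun a => by simp [dzbar]⟩

lemma HW.add {f g : V n → ℂ} {z : V n} {A B A' B' : Fin n → ℂ} (h : HW f z A B) (h' : HW g z A' B') :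
    HW (fun w => f w + g w) z (fun a => A a + A' a) (fun a => B a + B' a) := by
  refine ⟨h.diff.add h'.diff, fun a => ?_, fun a => ?_⟩
  · rw [← h.hz, ← h'.hz]
    simp only [dz, fderiv_fun_add h.diff h'.diff, add_apply]; ring
  · rw [← h.hb, ← h'.hb]
    simp only [dzbar, fderiv_fun_add h.diff h'.diff, add_apply]; ring

lemma HW.sub {f g : V n → ℂ} {z : V n} {A B A' B' : Fin n → ℂ} (h : HW f z A B) (h' : HW g z A' B') :
    HW (fun w => f w - g w) z (fun a => A a - A' a) (fun a => B a - B' a) := by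
  refine ⟨h.diff.sub h'.diff, fun a => ?_, fun a => ?_⟩
  · rw [← h.hz, ← h'.hz]
    simp only [dz, fderiv_fun_sub h.diff h'.diff, sub_apply]; ring
  · rw [← h.hb, ← h'.hb]
    simp only [dzbar, fderiv_fun_sub h.diff h'.diff, sub_apply]; ring

lemma HW.mul {f g : V n → ℂ} {z : V n} {A B A' B' : Fin n → ℂ} (h : HW f z A B) (h' : HW g z A' B') :
    HW (fun w => f w * g w) z (fun a => f z * A' a + g z * A a) (fun a => f z * B' a + g z * B a) := by
  refine ⟨h.diff.mul h'.diff, fun a => ?_, fun a => ?_⟩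
  · rw [← h.hz, ← h'.hz]
    simp only [dz, fderiv_fun_mul h.diff h'.diff, add_apply,
      smul_apply, smul_eq_mul]; ring
  · rw [← h.hb, ← h'.hb]
    simp only [dzbar, fderiv_fun_mul h.diff h'.diff, add_apply,
      smul_apply, smul_eq_mul]; ring

lemma HW.inv {f : V n → ℂ} {z : V n} {A B : Fin n → ℂ} (h : HW f z A B) (h0 : f z ≠ 0) :
    HW (fun w => (f w)⁻¹) z (fun a => -A a / f z ^ 2) (fun a => -B a / f z ^ 2) := by
  have h1 : HasFDerivAt (fun w => (f w)⁻¹) ((-(f z ^ 2)⁻¹) • fderiv ℝ f z) z :=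
    (hasDerivAt_inv h0).comp_hasFDerivAt z h.diff.hasFDerivAt
  refine ⟨h1.differentiableAt, fun a => ?_, fun a => ?_⟩
  · rw [← h.hz]
    simp only [dz, h1.fderiv, smul_apply, smul_eq_mul]; ring
  · rw [← h.hb]
    simp only [dzbar, h1.fderiv, smul_apply, smul_eq_mul]; ring

lemma HW.coord (k : Fin n) (z : V n) :
    HW (fun w => w k) z (fun a => if k = a then 1 else 0) (fun _ => 0) := by
  have h1 : HasFDerivAt (fun w : V n => w k)
      ((EuclideanSpace.proj k : V n →L[ℂ] ℂ).restrictScalars ℝ) z :=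
    ((EuclideanSpace.proj k : V n →L[ℂ] ℂ).restrictScalars ℝ).hasFDerivAt
  refine ⟨h1.differentiableAt, fun a => ?_, fun a => ?_⟩
  · simp only [dz, h1.fderiv]
    by_cases hk : k = a
    · subst hk
      simp [bv]
    · simp [bv, hk]
  · simp only [dzbar, h1.fderiv]
    by_cases hk : k = a
    · subst hk
      simp [bv]
    · simp [bv, hk]

lemma HW.cconj (k : Fin n) (z : V n) :
    HW (fun w => conj (w k)) z (fun _ => 0) (fun a => if k = a then 1 else 0) := by
  have h1 : HasFDerivAt (fun w : V n => conj (w k))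
      ((Complex.conjCLE : ℂ →L[ℝ] ℂ).comp
        ((EuclideanSpace.proj k : V n →L[ℂ] ℂ).restrictScalars ℝ)) z :=
    ((Complex.conjCLE : ℂ →L[ℝ] ℂ).comp
        ((EuclideanSpace.proj k : V n →L[ℂ] ℂ).restrictScalars ℝ)).hasFDerivAt
  refine ⟨h1.differentiableAt, fun a => ?_, fun a => ?_⟩
  · simp only [dz, h1.fderiv]
    by_cases hk : k = a
    · subst hk
      simp [bv]
    · simp [bv, hk]
  · simp only [dzbar, h1.fderiv]
    by_cases hk : k = a
    · subst hk
      simp [bv]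
    · simp [bv, hk]

lemma HW.sum {ι : Type*} (s : Finset ι) {f : ι → V n → ℂ} {z : V n} {A B : ι → Fin n → ℂ}
    (h : ∀ i, HW (f i) z (A i) (B i)) :
    HW (fun w => ∑ i ∈ s, f i w) z (fun a => ∑ i ∈ s, A i a) (fun a => ∑ i ∈ s, B i a) := by
  classical
  induction s using Finset.induction_on with
  | empty => simpa using HW.const 0 z
  | insert i s hi ih =>
    simp only [Finset.sum_insert hi]
    exact (h i).add ih

/-- `N = 1 + |w|²` as a complex number -/
def NN (w : V n) : ℂ := ((1 + ‖w‖ ^ 2 : ℝ) : ℂ)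

lemma NN_eq (w : V n) : NN w = 1 + ∑ j, w j * conj (w j) := by
  unfold NN
  rw [EuclideanSpace.norm_sq_eq]
  push_cast
  congr 1
  refine Finset.sum_congr rfl fun j _ => ?_
  rw [Complex.mul_conj, Complex.normSq_eq_norm_sq]; push_cast; ring

lemma NN_ne (w : V n) : NN w ≠ 0 := by
  unfold NN
  have : (0 : ℝ) < 1 + ‖w‖ ^ 2 := by positivity
  exact_mod_cast this.ne'

lemma HW.nn (z : V n) : HW NN z (fun a => conj (z a)) (fun a => z a) := by
  have h := (HW.const 1 z).add (HW.sum Finset.univ fun j => (HW.coord j z).mul (HW.cconj j z))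
  have e : (NN : V n → ℂ) = fun w => 1 + ∑ j, w j * conj (w j) := funext NN_eq
  rw [e]
  refine h.congr (fun a => ?_) (fun a => ?_) <;> simp

lemma xik_eq (k : Fin 10) (w : V 10) :
    ((xik k w : ℝ) : ℂ) = 1 - w k * conj (w k) * (NN w)⁻¹ := by
  unfold xik NN
  rw [Complex.mul_conj, Complex.normSq_eq_norm_sq]; push_cast; ring

lemma hw_xik (k : Fin 10) (z : V 10) : HW (fun w => ((xik k w : ℝ) : ℂ)) z
    (fun a => -(conj (z k) * ((if k = a then 1 else 0) - z k * conj (z a) * (NN z)⁻¹) * (NN z)⁻¹))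
    (fun a => -(z k * ((if k = a then 1 else 0) - conj (z k) * z a * (NN z)⁻¹) * (NN z)⁻¹)) := by
  have h := (HW.const 1 z).sub
    (((HW.coord k z).mul (HW.cconj k z)).mul ((HW.nn z).inv (NN_ne z)))
  have e : (fun w => ((xik k w : ℝ) : ℂ)) = fun w => 1 - w k * conj (w k) * (NN w)⁻¹ :=
    funext (xik_eq k)
  rw [e]
  have := NN_ne z
  refine h.congr (fun a => ?_) (fun a => ?_) <;> field_simp <;> ring

/-- the vector `c_p = δ_{kp} - λ w̄_p / N` -/
def cv (k : Fin n) (z : V n) (p : Fin n) : ℂ := (if k = p then 1 else 0) - z k * conj (z p) * (NN z)⁻¹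

lemma conj_NN (z : V n) : conj (NN z) = NN z := Complex.conj_ofReal _

lemma conj_cv (k : Fin n) (z : V n) (p : Fin n) :
    conj (cv k z p) = (if k = p then 1 else 0) - conj (z k) * z p * (NN z)⁻¹ := by
  unfold cv
  by_cases h : k = p <;> simp [h, conj_NN]

lemma cHess_xik (k : Fin 10) (z : V 10) (p q : Fin 10) : cHess (xik k) z p q =
    -(cv k z p * conj (cv k z q) * (NN z)⁻¹ -
      z k * conj (z k) * (NN z)⁻¹ * ((if p = q then 1 else 0) / NN z - conj (z p) * z q / NN z ^ 2)) := by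
  have e : (fun w => dzbar (fun u => ((xik k u : ℝ) : ℂ)) w q) = fun w =>
      0 - w k * ((if k = q then 1 else 0) - conj (w k) * w q * (NN w)⁻¹) * (NN w)⁻¹ := by
    funext w
    rw [(hw_xik k w).hb q]; ring
  have hi := (HW.nn z).inv (NN_ne z)
  have h := (HW.const 0 z).sub (((HW.coord k z).mul ((HW.const (if k = q then 1 else 0) z).sub
    (((HW.cconj k z).mul (HW.coord q z)).mul hi))).mul hi)
  show dz (fun w => dzbar (fun u => ((xik k u : ℝ) : ℂ)) w q) z p = _
  rw [e, h.hz p, conj_cv]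
  unfold cv
  have := NN_ne z
  have e3 : (if q = p then (1 : ℂ) else 0) = if p = q then 1 else 0 := by simp only [eq_comm]
  rw [e3]
  field_simp
  ring

/-- a Hermitian matrix `P 1 + R w̄ wᵀ + S c c*` -/
lemma posDef_of_form {M : Matrix (Fin n) (Fin n) ℂ} (P R S : ℝ) (w c : Fin n → ℂ)
    (hM : ∀ p q, M p q = (P : ℂ) * (if p = q then 1 else 0) + (R : ℂ) * (conj (w p) * w q) +
      (S : ℂ) * (c p * conj (c q)))
    (hpos : ∀ v : V n, v ≠ 0 →
      0 < P * ‖v‖ ^ 2 + R * ‖∑ p, v p * conj (w p)‖ ^ 2 + S * ‖∑ p, v p * c p‖ ^ 2) :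
    M.PosDef := by
  refine Matrix.PosDef.of_dotProduct_mulVec_pos ?_ fun x hx => ?_
  · ext p q
    rw [Matrix.conjTranspose_apply, hM, hM]
    by_cases h : p = q
    · subst h
      simp [mul_comm]
    · simp [h, Ne.symm h, mul_comm]
  · set v : V n := WithLp.toLp 2 fun p => conj (x p) with hv
    have hv0 : v ≠ 0 := by
      intro h
      apply hx
      funext p
      have : v p = 0 := by rw [h]; rfl
      simpa [hv] using this
    have key : star x ⬝ᵥ M.mulVec x = ((P * ‖v‖ ^ 2 + R * ‖∑ p, v p * conj (w p)‖ ^ 2 +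
        S * ‖∑ p, v p * c p‖ ^ 2 : ℝ) : ℂ) := by
      have e1 : ((‖v‖ ^ 2 : ℝ) : ℂ) = ∑ p, conj (x p) * x p := by
        rw [EuclideanSpace.norm_sq_eq]
        push_cast
        refine Finset.sum_congr rfl fun j _ => ?_
        rw [mul_comm, Complex.mul_conj, Complex.normSq_eq_norm_sq]
        simp [hv]
      have e2 : ∀ u : Fin n → ℂ, ((‖∑ p, v p * u p‖ ^ 2 : ℝ) : ℂ) =
          ∑ p, ∑ q, conj (x p) * (u p * conj (u q)) * x q := by
        intro u
        rw [← Complex.normSq_eq_norm_sq, ← Complex.mul_conj, map_sum, Finset.sum_mul_sum]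
        refine Finset.sum_congr rfl fun p _ => Finset.sum_congr rfl fun q _ => ?_
        simp [hv]; ring
      rw [Complex.ofReal_add, Complex.ofReal_add, Complex.ofReal_mul, Complex.ofReal_mul,
        Complex.ofReal_mul, e1, e2, e2]
      simp only [dotProduct, Matrix.mulVec, hM, Finset.mul_sum, ← Finset.sum_add_distrib,
        Pi.star_apply, RCLike.star_def, Complex.conj_conj]
      refine Finset.sum_congr rfl fun p _ => ?_
      have : (P : ℂ) * (conj (x p) * x p) =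
          ∑ q, (P : ℂ) * (conj (x p) * (if p = q then 1 else 0) * x q) := by simp
      rw [this, ← Finset.sum_add_distrib, ← Finset.sum_add_distrib]
      refine Finset.sum_congr rfl fun q _ => ?_
      ring
    rw [key]
    exact_mod_cast hpos v hv0

lemma inner_eq (w v : V n) : ⟪w, v⟫_ℂ = ∑ p, v p * conj (w p) := by
  simp [PiLp.inner_apply]

/-- Cauchy–Schwarz for the Fubini–Study form -/
lemma cs_form (w u v : V n) :
    ‖⟪u, v⟫_ℂ - conj ⟪w, u⟫_ℂ * ⟪w, v⟫_ℂ * (NN w)⁻¹‖ ^ 2 ≤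
      (‖u‖ ^ 2 - ‖⟪w, u⟫_ℂ‖ ^ 2 / (1 + ‖w‖ ^ 2)) * (‖v‖ ^ 2 - ‖⟪w, v⟫_ℂ‖ ^ 2 / (1 + ‖w‖ ^ 2)) := by
  set r : ℝ := √(1 + ‖w‖ ^ 2) with hr
  have hr0 : 0 < r := Real.sqrt_pos.2 (by positivity)
  have hr2 : r ^ 2 = 1 + ‖w‖ ^ 2 := Real.sq_sqrt (by positivity)
  set θ : ℝ := 1 / (r * (r + 1)) with hθ
  let U : V n → V n := fun v => v - ((θ : ℂ) * ⟪w, v⟫_ℂ) • w
  have hN : NN w = (r : ℂ) ^ 2 := by unfold NN; rw [← hr2]; push_cast; ring
  have hww : ⟪w, w⟫_ℂ = (r : ℂ) ^ 2 - 1 := by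
    rw [inner_self_eq_norm_sq_to_K]
    have : ((r ^ 2 : ℝ) : ℂ) = ((1 + ‖w‖ ^ 2 : ℝ) : ℂ) := by rw [hr2]
    push_cast at this
    rw [this]
    simp
  have hr0' : (r : ℂ) ≠ 0 := by exact_mod_cast hr0.ne'
  have hr1' : (r : ℂ) + 1 ≠ 0 := by exact_mod_cast (by positivity : r + 1 ≠ 0)
  have hU : ∀ u v, ⟪U u, U v⟫_ℂ = ⟪u, v⟫_ℂ - conj ⟪w, u⟫_ℂ * ⟪w, v⟫_ℂ * (NN w)⁻¹ := by
    intro u v
    simp only [U, inner_sub_left, inner_sub_right, inner_smul_left, inner_smul_right, hww, hN, hθ,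
      map_mul, Complex.conj_ofReal, inner_conj_symm]
    push_cast
    field_simp
    ring
  have hn : ∀ u, ‖U u‖ ^ 2 = ‖u‖ ^ 2 - ‖⟪w, u⟫_ℂ‖ ^ 2 / (1 + ‖w‖ ^ 2) := by
    intro u
    have h := hU u u
    rw [inner_self_eq_norm_sq_to_K, inner_self_eq_norm_sq_to_K, mul_comm (conj _), Complex.mul_conj,
      Complex.normSq_eq_norm_sq] at h
    unfold NN at h
    rw [div_eq_mul_inv]
    apply Complex.ofReal_injective
    push_cast at h ⊢
    exact h
  rw [← hU, ← hn, ← hn, ← mul_pow]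
  exact pow_le_pow_left₀ (norm_nonneg _) (norm_inner_le_norm _ _) 2

end Crest.Agent.R213.GK
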