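import Crest.Agent.R213.GeoHess
import Crest.Agent.R213.GeoKahlerAux

/-! # Row 213, positivity in every chart

In a chart with coordinates `w`, let `N = 1 + |w|²`, `λ = ℓ(w)` (`ℓ = 1` in the affine chart, `ℓ(w) = w_k` in `U_k`), `a = |λ|²/N`,
`ξ = 1 - a`.  For a vector `v` let `p = ∑ w̄_j v_j`, `μ = 0` resp. `v_k`, `b = μ - λ p / N`, `ω = |v|²/N - |p|²/N² ≥ |v|²/N²`.
Then `∑ v_j ∂_j a = λ̄ b / N`, the Hessian form of `a` is `|b|²/N - a ω`, so (`cHess_ev_comp`, `cHess_fsPot`) the form of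
`log N + η(ξ)` is `P ω + Q |b|²/N` with `P = 1 + a η' = Pf η`, `Q = a η'' - η'`, `P + ξ Q = D (Ps η)`; and `|b|²/N ≤ ξ ω`
(Cauchy–Schwarz in `ℂ^{11}`: `Ṽ = (0,v) - (p/N)(1,w) ⊥ (1,w)`, `|Ṽ|² = N ω`, `b` is one coordinate of `Ṽ`).
(Mind the convention: `star x ⬝ᵥ G x` with `G p q = ∂_p ∂̄_q` is this form at `v = star x`.) -/

set_option autoImplicit false
open Set Filter Topology
open scoped ContDiff ComplexOrder ComplexConjugate InnerProductSpace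
open Crest.GeometryTopology.ProjKahler

noncomputable section
namespace Crest.Agent.R213

private lemma ev_Pf (η : Sm) {ξ : ℝ} (h : ξ ∈ I) : ev (Pf η) ξ = 1 + (1 - ξ) * ev (D η) ξ := by
  simp [Pf, h]

private lemma ev_DPs (η : Sm) {ξ : ℝ} (h : ξ ∈ I) : ev (D (Ps η)) ξ =
    (1 + (1 - ξ) * ev (D η) ξ) + ξ * ((1 - ξ) * ev (D (D η)) ξ - ev (D η) ξ) := by
  simp only [Ps, Pf, D_mul, map_add, map_sub, D_one, D_X, ev_add, ev_sub, ev_mul, ev_one, ev_zero,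
    ev_X h]
  ring

theorem posDef_chart0 {η : Sm} (hP : ∀ ξ ∈ I, 0 < ev (Pf η) ξ) (hΨ : ∀ ξ ∈ I, 0 < ev (D (Ps η)) ξ)
    (z : V 10) : (cHess (fun u => fsPot u + ev η (xi0 u)) z).PosDef := by
  have hI := xi0_memI z
  have h1 := hP _ hI
  have h2 := hΨ _ hI
  rw [ev_Pf η hI] at h1
  rw [ev_DPs η hI] at h2
  set ξ := xi0 z with hξ
  have hN : 0 < 1 + ‖z‖ ^ 2 := by positivity
  have hξ1 : ξ < 1 := (xi0_mem z).2
  have hz : ‖z‖ ^ 2 * (1 - ξ) = ξ := by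
    rw [hξ]; unfold xi0; field_simp; ring
  set e1 := ev (D η) ξ
  set e2 := ev (D (D η)) ξ
  set F1 : ℝ := (1 - ξ) * (1 + (1 - ξ) * e1) with hF1
  set F2 : ℝ := (1 - ξ) ^ 2 * (-(1 + (1 - ξ) * e1) + (1 - ξ) * ((1 - ξ) * e2 - e1)) with hF2
  refine GK.posDef_of_form F1 F2 0 (fun p => z p) (fun _ => 0) (fun p q => ?_) fun v hv => ?_
  · have h := cHess_radial 1 η z p q
    simp only [one_mul] at h
    rw [h, ← hξ]
    have a1 : ev ((1 - X) * (algebraMap ℝ Sm 1 + (1 - X) * D η)) ξ = F1 := by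
      simp [hF1, hI, e1]
    have a2 : (1 - ξ) ^ 2 * ev (D ((1 - X) * (algebraMap ℝ Sm 1 + (1 - X) * D η))) ξ = F2 := by
      rw [hF2]; congr 1
      simp only [D_mul, map_add, map_sub, D_one, D_X, ev_add, ev_sub, ev_mul, ev_one, ev_zero,
        ev_X hI, D_algebraMap, ev_algebraMap, e1, e2]
      ring
    rw [a1, a2]; simp
  · have hv2 : 0 < ‖v‖ ^ 2 := pow_pos (norm_pos_iff.2 hv) 2
    rw [← GK.inner_eq, zero_mul, add_zero]
    have cs : ‖⟪z, v⟫_ℂ‖ ^ 2 ≤ ‖z‖ ^ 2 * ‖v‖ ^ 2 := by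
      rw [← mul_pow]; exact pow_le_pow_left₀ (norm_nonneg _) (norm_inner_le_norm _ _) 2
    have p1 : 0 < F1 := mul_pos (by linarith) h1
    have p2 : 0 < F1 + ‖z‖ ^ 2 * F2 := by
      have : F1 + ‖z‖ ^ 2 * F2 =
          (1 - ξ) ^ 2 * ((1 + (1 - ξ) * e1) + ξ * ((1 - ξ) * e2 - e1)) := by
        have : ‖z‖ ^ 2 * F2 = (‖z‖ ^ 2 * (1 - ξ)) * ((1 - ξ) *
          (-(1 + (1 - ξ) * e1) + (1 - ξ) * ((1 - ξ) * e2 - e1))) := by rw [hF2]; ring
        rw [this, hz, hF1]; ring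
      rw [this]
      exact mul_pos (pow_pos (by linarith) 2) h2
    rcases le_total 0 F2 with h | h
    · have := mul_pos p1 hv2
      have := mul_nonneg h (sq_nonneg ‖⟪z, v⟫_ℂ‖)
      linarith
    · have := mul_pos p2 hv2
      have := mul_le_mul_of_nonpos_left cs h
      nlinarith
theorem posDef_chartk {η : Sm} (hP : ∀ ξ ∈ I, 0 < ev (Pf η) ξ) (hΨ : ∀ ξ ∈ I, 0 < ev (D (Ps η)) ξ)
    (k : Fin 10) (w : V 10) : (cHess (fun u => fsPot u + ev η (xik k u)) w).PosDef := by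
  have hI := xik_mem k w
  have h1 := hP _ hI
  have h2 := hΨ _ hI
  rw [ev_Pf η hI] at h1
  rw [ev_DPs η hI] at h2
  set ξ := xik k w with hξ
  have hN : 0 < 1 + ‖w‖ ^ 2 := by positivity
  set e1 := ev (D η) ξ with he1
  set e2 := ev (D (D η)) ξ with he2
  set N : ℝ := 1 + ‖w‖ ^ 2 with hNdef
  set P : ℝ := 1 + (1 - ξ) * e1 with hPdef
  set Q : ℝ := (1 - ξ) * e2 - e1 with hQdef
  have hNN : GK.NN w = (N : ℂ) := rfl
  have hN0 : (N : ℂ) ≠ 0 := by exact_mod_cast hN.ne'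
  have hxi : (ξ : ℂ) = 1 - w k * conj (w k) * (N : ℂ)⁻¹ := GK.xik_eq k w
  refine GK.posDef_of_form (P / N) (-(P / N ^ 2)) (Q / N) (fun p => w p) (GK.cv k w)
    (fun p q => ?_) fun v hv => ?_
  · rw [cHess_add contDiff_fsPot (contDiff_ev_comp η (contDiff_xik k) (xik_mem k)), Matrix.add_apply,
      cHess_fsPot, cHess_ev_comp η (contDiff_xik k) (xik_mem k), GK.cHess_xik,
      (GK.hw_xik k w).hz p, (GK.hw_xik k w).hb q, ← GK.conj_cv, ← hξ, ← he1, ← he2, ← hNdef]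
    have hc : (if k = p then (1 : ℂ) else 0) - w k * conj (w p) * (GK.NN w)⁻¹ = GK.cv k w p := rfl
    rw [hc, hNN, hPdef, hQdef]
    push_cast
    rw [hxi]
    field_simp
    ring
  · have hv2 : 0 < ‖v‖ ^ 2 := pow_pos (norm_pos_iff.2 hv) 2
    have cs : ‖⟪w, v⟫_ℂ‖ ^ 2 ≤ ‖w‖ ^ 2 * ‖v‖ ^ 2 := by
      rw [← mul_pow]; exact pow_le_pow_left₀ (norm_nonneg _) (norm_inner_le_norm _ _) 2
    have hcs := GK.cs_form w (EuclideanSpace.single k 1) v
    have b1 : ⟪EuclideanSpace.single k (1 : ℂ), v⟫_ℂ -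
        conj ⟪w, EuclideanSpace.single k (1 : ℂ)⟫_ℂ * ⟪w, v⟫_ℂ * (GK.NN w)⁻¹ =
        ∑ p, v p * GK.cv k w p := by
      rw [GK.inner_eq w v]
      simp only [GK.cv, mul_sub, Finset.sum_sub_distrib, Finset.mul_sum, Finset.sum_mul]
      congr 1
      · simp [EuclideanSpace.inner_single_left]
      · refine Finset.sum_congr rfl fun p _ => ?_
        simp [EuclideanSpace.inner_single_right]; ring
    have b2 : ‖EuclideanSpace.single k (1 : ℂ)‖ ^ 2 -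
        ‖⟪w, EuclideanSpace.single k (1 : ℂ)⟫_ℂ‖ ^ 2 / (1 + ‖w‖ ^ 2) = ξ := by
      rw [hξ]; unfold xik
      simp [EuclideanSpace.inner_single_right]
    rw [b1, b2, ← hNdef] at hcs
    rw [← GK.inner_eq]
    set s := ‖⟪w, v⟫_ℂ‖ ^ 2
    set b := ‖∑ p, v p * GK.cv k w p‖ ^ 2 with hb
    have hb0 : 0 ≤ b := sq_nonneg _
    set om := ‖v‖ ^ 2 - s / N with hom
    have hom0 : 0 < om := by
      rw [hom, sub_pos, div_lt_iff₀ hN]
      nlinarith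
    have e : P / N * ‖v‖ ^ 2 + -(P / N ^ 2) * s + Q / N * b = (P * om + Q * b) / N := by
      rw [hom]; field_simp; ring
    rw [e]
    refine div_pos ?_ hN
    rcases le_total 0 Q with h | h
    · have := mul_pos h1 hom0
      have := mul_nonneg h hb0
      linarith
    · have := mul_pos h2 hom0
      have := mul_le_mul_of_nonpos_left hcs h
      nlinarith
theorem isKahler_PE {η : Sm} (hP : ∀ ξ ∈ I, 0 < ev (Pf η) ξ) (hΨ : ∀ ξ ∈ I, 0 < ev (D (Ps η)) ξ) :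
    IsKahlerWith fsPot (PE η) :=
  ⟨contDiff_ev_comp η contDiff_xi0 xi0_memI, fun k => contDiff_ev_comp η (contDiff_xik k) (xik_mem k),
    posDef_chart0 hP hΨ, posDef_chartk hP hΨ⟩

end Crest.Agent.R213
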