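import Crest.Agent.R213.Leg
import Crest.Agent.R213.Final1D

/-! # Row 213, the main theorem from the shrinker

`g` on `(t₀,0)` from `final1D`, `η` from `legendre`, `T = -t₀/2`, `h t = PE (η (t - T))`, `p = 0`, `a = 110 γ 0`.  Joint smoothness:
`kernel_of_CK` composed with `(t,z) ↦ (t - T, xi0 z)`. -/

set_option autoImplicit false
open Set Filter Topology
open scoped ContDiff ComplexOrder
open Crest.GeometryTopology.ProjKahler

noncomputable section
namespace Crest.Agent.R213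

theorem main_of_shr {γ : ℝ → ℝ} (h : Shr γ) :
    ∃ T : ℝ, 0 < T ∧ ∃ h : ℝ → ProjExtension 10, IsCalabiFlowFS h T ∧
      IsUnitarilyInvariant (h 0).h ∧
      ∃ (p : V 10) (a : ℝ), 0 < a ∧
        Filter.Tendsto (fun t => scalarCurv (fun u => fsPot u + (h t).h u) p * Real.sqrt (T - t))
          (nhdsWithin T (Set.Iio T)) (nhds a) := by
  obtain ⟨t₀, ht₀, g, hg, hq, hd, hlim⟩ := final1D h
  obtain ⟨η, hη, H⟩ := legendre hg hq hd
  obtain ⟨T, hT⟩ : ∃ T, T = -t₀ / 2 := ⟨_, rfl⟩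
  have hm : ∀ t ∈ Ico 0 T, t - T ∈ Ioo t₀ 0 := fun t ht => ⟨by linarith [ht.1], by linarith [ht.2]⟩
  have hs : ∀ ξ : V 10 → ℝ, ContDiff ℝ ∞ ξ → (∀ z, ξ z ∈ I) →
      ContDiffOn ℝ ∞ (fun p : ℝ × V 10 => ev (η (p.1 - T)) (ξ p.2)) (Ico 0 T ×ˢ univ) :=
    fun ξ h1 h2 => (kernel_of_CK isOpen_Ioo hη).comp (f := fun p : ℝ × V 10 => (p.1 - T, ξ p.2))
      ((contDiff_fst.sub contDiff_const).prodMk (h1.comp contDiff_snd)).contDiffOn
      fun p hp => ⟨hm _ hp.1, h2 _⟩
  refine ⟨T, by linarith, fun t => PE (η (t - T)), ⟨fun t ht => (H _ (hm t ht)).1,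
    hs _ contDiff_xi0 xi0_memI, fun k => hs _ (contDiff_xik k) (xik_mem k), fun t ht z => ?_⟩,
    fun U z => by simp [PE, xi0], 0, 110 * γ 0, by linarith [h.pos0], ?_⟩
  · rw [(((H _ (hm t (Ioo_subset_Ico_self ht))).2.1 z).comp_sub_const t T).deriv]
    norm_num
  · have h0 : Tendsto (fun t => t - T) (𝓝[<] T) (𝓝[<] 0) :=
      tendsto_nhdsWithin_iff.2 ⟨by
        simpa using ((continuous_sub_right T).tendsto T).mono_left nhdsWithin_le_nhds,
        eventually_nhdsWithin_of_forall fun t ht => mem_Iio.2 (sub_neg.2 ht)⟩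
    have h1 : Tendsto (fun t : ℝ => √(-t)) (𝓝[<] 0) (𝓝 0) := by
      have : Continuous fun t : ℝ => √(-t) := by fun_prop
      simpa using (this.tendsto 0).mono_left nhdsWithin_le_nhds
    have h2 := ((h1.add hlim).const_mul 110).comp h0
    rw [zero_add] at h2
    refine h2.congr' ?_
    filter_upwards [Ioo_mem_nhdsLT (show 0 < T by linarith)] with t ht
    rw [(H _ (hm t (Ioo_subset_Ico_self ht))).2.2, Function.comp, neg_sub]
    ring

end Crest.Agent.R213
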