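import Crest.Agent.R213.GeoHess

/-! # Row 213, the scalar curvature of a radial metric

`cHess = radM F₁ F₂` with `F₁ = (1-ξ) P`, `F₁ + r F₂ = (1-ξ)² Ψ'` (`r = ξ/(1-ξ)`), so
`log det = -11 fsPot + ℒ(ξ)` with `ℒ = mk0 (9 log P + log Ψ')` (`1 - ξ = (1 + r)⁻¹`); its Hessian is `radM G₁ G₂` with
`G₁ = (1-ξ) Λ`, `G₁ + r G₂ = (1-ξ)² (ξ Λ)'`, because `-11 + (1-X) D ℒ = Λ`. -/

set_option autoImplicit false
open Set Filter Topology
open scoped ContDiff ComplexOrder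
open Crest.GeometryTopology.ProjKahler

noncomputable section
namespace Crest.Agent.R213

lemma GeoScal_one_sub (z : V 10) : 1 - xi0 z = (1 + ‖z‖ ^ 2)⁻¹ := by
  have h : 0 < 1 + ‖z‖ ^ 2 := by positivity
  unfold xi0
  field_simp
  ring

lemma GeoScal_rad (c : ℝ) (η Q : Sm) (hQ : algebraMap ℝ Sm c + (1 - X) * D η = Q) (z : V 10) :
    cHess (fun u => c * fsPot u + ev η (xi0 u)) z =
      radM ((1 - xi0 z) * ev Q (xi0 z)) ((1 - xi0 z) ^ 2 * ev (D ((1 - X) * Q)) (xi0 z)) z := by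
  ext p q
  rw [cHess_radial, hQ, ev_mul, ev_sub, ev_one, ev_X (xi0_memI z)]
  rfl

lemma GeoScal_sum (Q : Sm) (z : V 10) :
    (1 - xi0 z) * ev Q (xi0 z) + ‖z‖ ^ 2 * ((1 - xi0 z) ^ 2 * ev (D ((1 - X) * Q)) (xi0 z)) =
      (1 - xi0 z) ^ 2 * ev (D (X * Q)) (xi0 z) := by
  have h : 0 < 1 + ‖z‖ ^ 2 := by positivity
  have h1 : ‖z‖ ^ 2 * (1 - xi0 z) = xi0 z := by
    rw [GeoScal_one_sub]
    rfl
  simp only [D_mul, map_sub, D_one, D_X, ev_add, ev_mul, ev_sub, ev_one, ev_zero, ev_X (xi0_memI z)]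
  linear_combination (1 - xi0 z) * (-ev Q (xi0 z) + (1 - xi0 z) * ev (D Q) (xi0 z)) * h1

theorem scal_formula {η Λ : Sm} (hP : ∀ ξ ∈ I, 0 < ev (Pf η) ξ) (hΨ : ∀ ξ ∈ I, 0 < ev (D (Ps η)) ξ)
    (hΛ : Pf η * D (Ps η) * (Λ + 11) = (1 - X) * (9 * D (Pf η) * D (Ps η) + Pf η * D (D (Ps η))))
    (z : V 10) : scalarCurv (fun u => fsPot u + ev η (xi0 u)) z =
      -(9 * ev Λ (xi0 z) / ev (Pf η) (xi0 z) + ev (D (X * Λ)) (xi0 z) / ev (D (Ps η)) (xi0 z)) := by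
  have hsm : ContDiffOn ℝ ∞
      (fun x => 9 * Real.log (ev (Pf η) x) + Real.log (ev (D (Ps η)) x)) I :=
    (contDiffOn_const.mul ((contDiffOn_ev _).log fun x hx => (hP x hx).ne')).add
      ((contDiffOn_ev _).log fun x hx => (hΨ x hx).ne')
  obtain ⟨L, hL⟩ : ∃ L : Sm, ∀ x ∈ I,
      ev L x = 9 * Real.log (ev (Pf η) x) + Real.log (ev (D (Ps η)) x) :=
    ⟨mk0 _, fun x hx => ev_mk0 hsm hx⟩
  have hQ : algebraMap ℝ Sm (-11) + (1 - X) * D L = Λ := Sm.ext' fun x hx => by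
    have h1 := ev_D_of hx hL ((((hasDerivWithinAt_ev (Pf η) hx).log (hP x hx).ne').const_mul 9).add
      ((hasDerivWithinAt_ev (D (Ps η)) hx).log (hΨ x hx).ne'))
    have h2 := congrArg (fun f => ev f x) hΛ
    simp only [ev_mul, ev_add, ev_sub, ev_one, ev_X hx, ev_ofNat] at h2
    have h3 := (hP x hx).ne'
    have h4 := (hΨ x hx).ne'
    rw [ev_add, ev_mul, ev_sub, ev_one, ev_X hx, ev_algebraMap, h1]
    field_simp
    linear_combination -h2
  have hξ : ∀ w : V 10, 0 < 1 - xi0 w := fun w => sub_pos.2 (xi0_mem w).2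
  have h1 : ∀ w, cHess (fun u => fsPot u + ev η (xi0 u)) w =
      radM ((1 - xi0 w) * ev (Pf η) (xi0 w))
        ((1 - xi0 w) ^ 2 * ev (D ((1 - X) * Pf η)) (xi0 w)) w := fun w => by
    have := GeoScal_rad 1 η (Pf η) (by rw [map_one]; rfl) w
    simpa only [one_mul] using this
  have h2 : (fun w => Real.log ((cHess (fun u => fsPot u + ev η (xi0 u)) w).det.re)) =
      fun w => -11 * fsPot w + ev L (xi0 w) := funext fun w => by
    have a1 := hP _ (xi0_memI w)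
    have a2 := hΨ _ (xi0_memI w)
    have a3 := hξ w
    rw [h1, det_radM (mul_pos a3 a1).ne', Complex.ofReal_re, GeoScal_sum, hL _ (xi0_memI w), ← Ps,
      Real.log_mul (by positivity) (mul_pos (pow_pos a3 2) a2).ne', Real.log_pow,
      Real.log_mul a3.ne' a1.ne', Real.log_mul (by positivity) a2.ne', Real.log_pow,
      GeoScal_one_sub, Real.log_inv, fsPot]
    push_cast
    ring
  have a1 := hP _ (xi0_memI z)
  have a2 := hΨ _ (xi0_memI z)
  have a3 := hξ z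
  unfold scalarCurv
  rw [h2, h1, GeoScal_rad _ L Λ hQ, trace_radM _ _ _ (mul_pos a3 a1).ne'
    (by rw [GeoScal_sum]; exact (mul_pos (pow_pos a3 2) a2).ne'), Complex.ofReal_re, GeoScal_sum,
    GeoScal_sum, Ps]
  field_simp

end Crest.Agent.R213
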