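import Crest.Agent.R213.Hardy
import Crest.Agent.R213.Cut

/-! # Row 213, Poincaré inequality with finitely many bump functionals

Three regions.  `x ≥ R l`: `σ^{-15} ≤ (R l)^{-2} σ^{-13}`.  `x ≤ r l`: `μ₂ ≤ r l μ₁`, then `hardy_mu 1 (-15)` and
`σ ≥ l` give `≤ C r (lev 15 1 + l⁻² lev 13 0)`.  `r l ≤ x ≤ R l ≤ 1/2`: with `u = (1-x)² v` the integrand is
`≤ 4 l⁻⁴ u²`; cut `[r,R]` in `m` intervals `I_i` of length `h`, take smooth `β_i ≥ 0` with `∫ β_i = 1` supported in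
`I_i` (e.g. a normed `ContDiffBump`); for `x ∈ l I_i`: `|u x| ≤ l⁻¹ |ell l β_i v| + ∫_{l I_i} |u'|`, so
`∫_{l I_i} u² ≤ 2 h l⁻¹ ell² + 2 (h l)² ∫_{l I_i} u'²`, and `∫_{rl}^{Rl} u'² ≤ C(r,R) l² (lev 15 1 + lev 13 0)`. -/

set_option autoImplicit false
open Set Filter Topology
open scoped ContDiff

noncomputable section
namespace Crest.Agent.R213

lemma poinc_c2 (u : Sm) : Continuous fun x => ev u x ^ 2 := (continuous_ev u).pow 2

/-- a piece of an integral against a nonnegative majorant on a larger interval -/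
lemma poinc_sub {f g : ℝ → ℝ} (hf : Continuous f) (hg : Continuous g) {c a b d : ℝ} (hca : c ≤ a)
    (hab : a ≤ b) (hbd : b ≤ d) (h : ∀ x ∈ Icc a b, f x ≤ g x) (h0 : ∀ x ∈ Icc c d, 0 ≤ g x) :
    ∫ x in a..b, f x ≤ ∫ x in c..d, g x := by
  refine (intervalIntegral.integral_mono_on hab (hf.intervalIntegrable _ _)
    (hg.intervalIntegrable _ _) h).trans ?_
  refine intervalIntegral.integral_mono_interval hca hab hbd ?_ (hg.intervalIntegrable _ _)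
  filter_upwards [MeasureTheory.ae_restrict_mem measurableSet_Ioc] with x hx
  exact h0 x (Ioc_subset_Icc_self hx)

lemma poinc_cs {f : ℝ → ℝ} (hf : Continuous f) {y x : ℝ} (h : y ≤ x) :
    (∫ t in y..x, f t) ^ 2 ≤ (x - y) * ∫ t in y..x, f t ^ 2 := by
  rcases h.eq_or_lt with rfl | h'
  · simp
  have hd : 0 < x - y := by linarith
  set W := ∫ t in y..x, f t with hW
  set c := W / (x - y) with hc
  have h0 : 0 ≤ ∫ t in y..x, (f t - c) ^ 2 :=
    intervalIntegral.integral_nonneg h fun t _ => sq_nonneg _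
  have h1 : ∫ t in y..x, (f t - c) ^ 2 = (∫ t in y..x, f t ^ 2) - 2 * c * W + (x - y) * c ^ 2 := by
    have e : (fun t => (f t - c) ^ 2) = fun t => (f t ^ 2 - 2 * c * f t) + c ^ 2 := by
      funext t; ring
    rw [e, intervalIntegral.integral_add ((by fun_prop : Continuous _).intervalIntegrable _ _)
      (continuous_const.intervalIntegrable _ _),
      intervalIntegral.integral_sub ((by fun_prop : Continuous _).intervalIntegrable _ _)
      ((by fun_prop : Continuous _).intervalIntegrable _ _), intervalIntegral.integral_const_mul,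
      intervalIntegral.integral_const, smul_eq_mul]
  have h2 : W = c * (x - y) := by rw [hc]; field_simp
  rw [h1] at h0
  have h3 := mul_nonneg hd.le h0
  rw [h2] at h3 ⊢
  nlinarith

lemma poinc_osc (u : Sm) {a b : ℝ} (ha : 0 ≤ a) (hb : b ≤ 1) {x y : ℝ} (hx : x ∈ Icc a b)
    (hy : y ∈ Icc a b) : (ev u x - ev u y) ^ 2 ≤ (b - a) * ∫ t in a..b, ev (D u) t ^ 2 := by
  wlog h : y ≤ x generalizing x y
  · have := this hy hx (le_of_not_ge h)
    rwa [← neg_sub, neg_sq] at this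
  rw [← integral_ev_D u (a := y) (b := x) ⟨ha.trans hy.1, hy.2.trans hb⟩
    ⟨ha.trans hx.1, hx.2.trans hb⟩]
  refine (poinc_cs (continuous_ev _) h).trans (mul_le_mul (by linarith [hx.2, hy.1]) ?_
    (intervalIntegral.integral_nonneg h fun t _ => sq_nonneg _) (by linarith [hx.2, hx.1]))
  have hc : Continuous fun t => ev (D u) t ^ 2 := (continuous_ev _).pow 2
  exact poinc_sub hc hc hy.1 h hx.2 (fun _ _ => le_rfl) fun _ _ => sq_nonneg _

lemma poinc_bump (a : ℝ) {h : ℝ} (hh : 0 < h) : ∃ β : ℝ → ℝ, ContDiff ℝ ∞ β ∧ (∀ y, 0 ≤ β y) ∧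
    (∀ y, β y ≠ 0 → y ∈ Ioo a (a + h)) ∧ ∫ y, β y = 1 := by
  let φ : ContDiffBump (a + h / 2) := ⟨h / 4, h / 2, by positivity, by linarith⟩
  refine ⟨φ.normed MeasureTheory.volume, φ.contDiff_normed, φ.nonneg_normed, fun y hy => ?_,
    φ.integral_normed⟩
  have : y ∈ Metric.ball (a + h / 2) φ.rOut := by
    rw [← φ.support_normed_eq (μ := MeasureTheory.volume)]
    exact hy
  rw [Real.ball_eq_Ioo] at this
  have e : φ.rOut = h / 2 := rfl
  rw [e] at this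
  exact ⟨by linarith [this.1], by linarith [this.2]⟩

/-- the Poincaré inequality on one cell -/
lemma poinc_cell {β : ℝ → ℝ} {a h l : ℝ} (hβ : ContDiff ℝ ∞ β) (h0 : ∀ y, 0 ≤ β y)
    (hs : ∀ y, β y ≠ 0 → y ∈ Ioo a (a + h)) (h1 : ∫ y, β y = 1) (ha : 0 ≤ a) (hh : 0 ≤ h)
    (hl : 0 < l) (hb : (a + h) * l ≤ 1) (u : Sm) :
    ∫ x in (a * l)..((a + h) * l), ev u x ^ 2 ≤ 2 * h * l⁻¹ * Ii (prof β l * u) ^ 2 +
      2 * (h * l) ^ 2 * ∫ t in (a * l)..((a + h) * l), ev (D u) t ^ 2 := by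
  have hab : a * l ≤ (a + h) * l := by nlinarith
  set Q := ∫ t in (a * l)..((a + h) * l), ev (D u) t ^ 2 with hQ
  have hQ0 : 0 ≤ Q := intervalIntegral.integral_nonneg hab fun t _ => sq_nonneg _
  have hP : Ii (prof β l) = l := by
    rw [Ii_def, intervalIntegral.integral_congr (g := fun x => β (x / l))
      (fun x hx => ev_prof hβ l (by simpa using hx)),
      intervalIntegral.integral_eq_integral_of_support_subset, MeasureTheory.Measure.integral_comp_div,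
      h1, abs_of_pos hl, smul_eq_mul, mul_one]
    intro x hx
    obtain ⟨h2, h3⟩ := hs _ hx
    rw [lt_div_iff₀ hl] at h2
    rw [div_lt_iff₀ hl] at h3
    exact ⟨lt_of_le_of_lt (by positivity) h2, h3.le.trans hb⟩
  have key : ∀ x ∈ Icc (a * l) ((a + h) * l),
      ev u x ^ 2 ≤ 2 * (l⁻¹ * Ii (prof β l * u)) ^ 2 + 2 * (h * l * Q) := by
    intro x hx
    set W := √(h * l * Q) with hW
    have hW2 : W ^ 2 = h * l * Q := Real.sq_sqrt (by positivity)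
    have hosc : ∀ y ∈ I, ev (prof β l) y ≠ 0 → |ev u x - ev u y| ≤ W := by
      intro y hy hne
      rw [ev_prof hβ l hy] at hne
      obtain ⟨h2, h3⟩ := hs _ hne
      rw [lt_div_iff₀ hl] at h2
      rw [div_lt_iff₀ hl] at h3
      refine Real.abs_le_sqrt ?_
      have := poinc_osc u (by positivity) hb hx ⟨h2.le, h3.le⟩
      rwa [show (a + h) * l - a * l = h * l by ring] at this
    have hp : ∀ y ∈ I, 0 ≤ ev (prof β l) y := fun y hy => by
      rw [ev_prof hβ l hy]; exact h0 _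
    have e1 : Ii ((ev u x - W) • prof β l) ≤ Ii (prof β l * u) := by
      refine Ii_mono fun y hy => ?_
      rw [ev_smul, ev_mul]
      by_cases hne : ev (prof β l) y = 0
      · simp [hne]
      · have := abs_le.1 (hosc y hy hne)
        nlinarith [hp y hy]
    have e2 : Ii (prof β l * u) ≤ Ii ((ev u x + W) • prof β l) := by
      refine Ii_mono fun y hy => ?_
      rw [ev_smul, ev_mul]
      by_cases hne : ev (prof β l) y = 0
      · simp [hne]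
      · have := abs_le.1 (hosc y hy hne)
        nlinarith [hp y hy]
    rw [map_smul, hP, smul_eq_mul] at e1 e2
    set m := l⁻¹ * Ii (prof β l * u) with hm
    have e3 : Ii (prof β l * u) = m * l := by rw [hm]; field_simp
    rw [e3] at e1 e2
    have e4 := le_of_mul_le_mul_right e1 hl
    have e5 := le_of_mul_le_mul_right e2 hl
    have e6 : (ev u x - m) ^ 2 ≤ W ^ 2 := sq_le_sq' (by linarith) (by linarith)
    nlinarith [sq_nonneg (ev u x - 2 * m)]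
  refine (intervalIntegral.integral_mono_on hab
    ((poinc_c2 _).intervalIntegrable _ _)
    (continuous_const.intervalIntegrable _ _) key).trans (le_of_eq ?_)
  rw [intervalIntegral.integral_const, smul_eq_mul]
  field_simp
  ring

/-- the Poincaré inequality on `m` adjacent cells -/
lemma poinc_cells {r h : ℝ} (hr : 0 < r) (hh : 0 < h) (m : ℕ) : ∃ β : Fin m → ℝ → ℝ,
    (∀ i, IsBump (r + m * h) (β i)) ∧ ∀ l, 0 < l → (r + m * h) * l ≤ 1 → ∀ u : Sm,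
    ∫ x in (r * l)..((r + m * h) * l), ev u x ^ 2 ≤
      2 * h * l⁻¹ * ∑ i, Ii (prof (β i) l * u) ^ 2 +
      2 * (h * l) ^ 2 * ∫ t in (r * l)..((r + m * h) * l), ev (D u) t ^ 2 := by
  choose β b1 b2 b3 b4 using fun i : ℕ => poinc_bump (r + i * h) hh
  have hle : ∀ i < m, r + (i : ℝ) * h + h ≤ r + m * h := by
    intro i hi
    have : (i : ℝ) + 1 ≤ m := by exact_mod_cast hi
    nlinarith
  refine ⟨fun i => β i, fun i => ⟨b1 i, ⟨r, hr, fun y hy => ?_⟩, fun y hy => ?_⟩,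
    fun l hl hb u => ?_⟩
  · by_contra hne
    have := (b3 i y hne).1
    have : 0 ≤ ((i : ℕ) : ℝ) * h := by positivity
    linarith
  · by_contra hne
    have := (b3 i y hne).2
    have := hle i i.2
    linarith
  have hsum : ∀ g : ℝ → ℝ, Continuous g → ∫ x in (r * l)..((r + m * h) * l), g x =
      ∑ i ∈ Finset.range m, ∫ x in ((r + i * h) * l)..((r + i * h + h) * l), g x := by
    intro g hg
    have := intervalIntegral.sum_integral_adjacent_intervals (f := g) (μ := MeasureTheory.volume)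
      (a := fun i : ℕ => (r + i * h) * l) (n := m) fun k _ => hg.intervalIntegrable _ _
    simp only [Nat.cast_zero, zero_mul, add_zero] at this
    rw [← this]
    refine Finset.sum_congr rfl fun i _ => ?_
    congr 2
    push_cast
    ring
  rw [hsum _ (poinc_c2 _), hsum _ (poinc_c2 _),
    Fin.sum_univ_eq_sum_range (fun i => Ii (prof (β i) l * u) ^ 2) m, Finset.mul_sum, Finset.mul_sum,
    ← Finset.sum_add_distrib]
  refine Finset.sum_le_sum fun i hi => ?_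
  exact poinc_cell (b1 i) (b2 i) (b3 i) (b4 i) (by positivity) hh.le hl
    ((mul_le_mul_of_nonneg_right (hle i (Finset.mem_range.1 hi)) hl.le).trans hb) u

lemma poinc_ev15 {l : ℝ} (hl : 0 < l) (v : Sm) {x : ℝ} (hx : x ∈ I) :
    ev (mu (0 + 2) * sp l (((0 : ℕ) : ℤ) - 15) * (D ^ 0) v ^ 2) x =
      x ^ 11 * (1 - x) ^ 2 * (x + l)⁻¹ ^ 15 * ev v x ^ 2 := by
  rw [ev_mul, ev_mul, ev_mu _ hx, ev_sp hl _ hx, ev_pow, Dpow_zero, inv_pow, ← zpow_natCast (x + l),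
    ← zpow_neg]
  norm_num

lemma poinc_ev13 {l : ℝ} (hl : 0 < l) (v : Sm) {x : ℝ} (hx : x ∈ I) :
    ev (mu (0 + 2) * sp l (((0 : ℕ) : ℤ) - 13) * (D ^ 0) v ^ 2) x =
      x ^ 11 * (1 - x) ^ 2 * (x + l)⁻¹ ^ 13 * ev v x ^ 2 := by
  rw [ev_mul, ev_mul, ev_mu _ hx, ev_sp hl _ hx, ev_pow, Dpow_zero, inv_pow, ← zpow_natCast (x + l),
    ← zpow_neg]
  norm_num

lemma poinc_ev14 {l : ℝ} (hl : 0 < l) (v : Sm) {x : ℝ} (hx : x ∈ I) :
    ev (mu (1 + 2) * sp l (((1 : ℕ) : ℤ) - 15) * (D ^ 1) v ^ 2) x =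
      x ^ 12 * (1 - x) ^ 3 * (x + l)⁻¹ ^ 14 * ev (D v) x ^ 2 := by
  rw [ev_mul, ev_mul, ev_mu _ hx, ev_sp hl _ hx, ev_pow, Dpow_one, inv_pow, ← zpow_natCast (x + l),
    ← zpow_neg]
  norm_num

lemma poinc_ev (m n : ℕ) {l : ℝ} (hl : 0 < l) (w : Sm) {x : ℝ} (hx : x ∈ I) :
    ev (mu m * sp l (-(n : ℤ)) * w ^ 2) x =
      x ^ (9 + m) * (1 - x) ^ m * (x + l)⁻¹ ^ n * ev w x ^ 2 := by
  rw [ev_mul, ev_mul, ev_mu _ hx, ev_sp hl _ hx, ev_pow, inv_pow, ← zpow_natCast (x + l),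
    ← zpow_neg]

/-- the region near `0` -/
lemma poinc_low : ∃ C, 0 ≤ C ∧ ∀ l ∈ Ioc (0 : ℝ) 1, ∀ r, 0 ≤ r → r * l ≤ 1 → ∀ v,
    ∫ x in (0 : ℝ)..(r * l), ev (mu (0 + 2) * sp l (((0 : ℕ) : ℤ) - 15) * (D ^ 0) v ^ 2) x ≤
      r * C * (lev l 15 1 v + l⁻¹ ^ 2 * lev l 13 0 v) := by
  obtain ⟨C, hC, h⟩ := hardy_mu 1 (-((15 : ℕ) : ℤ))
  refine ⟨C, hC, fun l hl r hr hrl v => ?_⟩
  have hl0 := hl.1
  have h1 : ∫ x in (0 : ℝ)..(r * l), ev (mu (0 + 2) * sp l (((0 : ℕ) : ℤ) - 15) * (D ^ 0) v ^ 2) x ≤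
      Ii ((r * l) • (mu 1 * sp l (-((15 : ℕ) : ℤ)) * v ^ 2)) := by
    refine poinc_sub (continuous_ev _) (continuous_ev _) le_rfl (by positivity) hrl
      (fun x hx => ?_) fun x hx => ?_
    · have hx' : x ∈ I := ⟨hx.1, hx.2.trans hrl⟩
      rw [poinc_ev15 hl0 v hx', ev_smul, poinc_ev 1 15 hl0 v hx']
      have h0 := hx.1
      have h2 : 0 ≤ 1 - x := by linarith [hx'.2]
      have h3 : x * (1 - x) ≤ r * l := by nlinarith [hx.2]
      calc x ^ 11 * (1 - x) ^ 2 * (x + l)⁻¹ ^ 15 * ev v x ^ 2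
          = x * (1 - x) * (x ^ (9 + 1) * (1 - x) ^ 1 * (x + l)⁻¹ ^ 15 * ev v x ^ 2) := by ring
        _ ≤ _ := by gcongr
    · rw [ev_smul, poinc_ev 1 15 hl0 v hx]
      have h0 := hx.1
      have h2 : 0 ≤ 1 - x := by linarith [hx.2]
      positivity
  rw [map_smul, smul_eq_mul] at h1
  have hs : ∀ x ∈ I, l * (x + l)⁻¹ ≤ 1 := fun x hx => by
    have := hx.1
    rw [← div_eq_mul_inv, div_le_one (by positivity)]
    linarith
  have h2 : Ii (l • (mu (1 + 2) * sp l (-((15 : ℕ) : ℤ)) * D v ^ 2)) ≤ lev l 15 1 v := by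
    refine Ii_mono fun x hx => ?_
    rw [ev_smul, poinc_ev 3 15 hl0 _ hx, poinc_ev14 hl0 v hx]
    have h0 := hx.1
    have h2 : 0 ≤ 1 - x := by linarith [hx.2]
    calc l * (x ^ (9 + 3) * (1 - x) ^ 3 * (x + l)⁻¹ ^ 15 * ev (D v) x ^ 2)
        = l * (x + l)⁻¹ * (x ^ 12 * (1 - x) ^ 3 * (x + l)⁻¹ ^ 14 * ev (D v) x ^ 2) := by ring
      _ ≤ _ := mul_le_of_le_one_left (by positivity) (hs x hx)
  have h3 : Ii (l • (mu (1 + 1) * sp l (-((15 : ℕ) : ℤ) - 1) * v ^ 2)) ≤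
      l⁻¹ ^ 2 * lev l 13 0 v := by
    rw [lev, wl, ← smul_eq_mul (l⁻¹ ^ 2), ← map_smul]
    refine Ii_mono fun x hx => ?_
    rw [show -((15 : ℕ) : ℤ) - 1 = -((16 : ℕ) : ℤ) by norm_num, ev_smul, ev_smul,
      poinc_ev 2 16 hl0 _ hx, poinc_ev13 hl0 v hx]
    have h0 := hx.1
    have h2 : 0 ≤ 1 - x := by linarith [hx.2]
    calc l * (x ^ (9 + 2) * (1 - x) ^ 2 * (x + l)⁻¹ ^ 16 * ev v x ^ 2)
        = (l * (x + l)⁻¹) ^ 3 *
          (l⁻¹ ^ 2 * (x ^ 11 * (1 - x) ^ 2 * (x + l)⁻¹ ^ 13 * ev v x ^ 2)) := by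
          field_simp
      _ ≤ _ := mul_le_of_le_one_left (by positivity) (pow_le_one₀ (by positivity) (hs x hx))
  rw [map_smul, smul_eq_mul] at h2 h3
  have h4 := h l hl v
  calc _ ≤ _ := h1
    _ ≤ r * l * (C * (Ii (mu (1 + 2) * sp l (-((15 : ℕ) : ℤ)) * D v ^ 2) +
        Ii (mu (1 + 1) * sp l (-((15 : ℕ) : ℤ) - 1) * v ^ 2))) := by gcongr
    _ = r * C * (l * Ii (mu (1 + 2) * sp l (-((15 : ℕ) : ℤ)) * D v ^ 2) +
        l * Ii (mu (1 + 1) * sp l (-((15 : ℕ) : ℤ) - 1) * v ^ 2)) := by ring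
    _ ≤ _ := by gcongr

/-- the outer region -/
lemma poinc_high {l R : ℝ} (hl : 0 < l) (hR : 0 < R) (hRl : R * l ≤ 1) (v : Sm) :
    ∫ x in (R * l)..1, ev (mu (0 + 2) * sp l (((0 : ℕ) : ℤ) - 15) * (D ^ 0) v ^ 2) x ≤
      R⁻¹ ^ 2 * (l⁻¹ ^ 2 * lev l 13 0 v) := by
  rw [← mul_assoc, lev, wl, ← smul_eq_mul (R⁻¹ ^ 2 * l⁻¹ ^ 2), ← map_smul]
  refine poinc_sub (continuous_ev _) (continuous_ev _) (by positivity) hRl le_rfl
    (fun x hx => ?_) fun x hx => ?_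
  · have hRl0 : 0 < R * l := by positivity
    have h0 : 0 ≤ x := hRl0.le.trans hx.1
    have hx' : x ∈ I := ⟨h0, hx.2⟩
    rw [poinc_ev15 hl v hx', ev_smul, poinc_ev13 hl v hx']
    have h3 : (x + l)⁻¹ ≤ R⁻¹ * l⁻¹ := by
      rw [← mul_inv]
      exact inv_anti₀ hRl0 (by linarith [hx.1])
    calc x ^ 11 * (1 - x) ^ 2 * (x + l)⁻¹ ^ 15 * ev v x ^ 2
        = (x + l)⁻¹ ^ 2 * (x ^ 11 * (1 - x) ^ 2 * (x + l)⁻¹ ^ 13 * ev v x ^ 2) := by ring
      _ ≤ (R⁻¹ * l⁻¹) ^ 2 * (x ^ 11 * (1 - x) ^ 2 * (x + l)⁻¹ ^ 13 * ev v x ^ 2) := by gcongr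
      _ = _ := by ring
  · rw [ev_smul, poinc_ev13 hl v hx]
    have h0 := hx.1
    positivity

/-- the middle region: the integrand -/
lemma poinc_mid1 {l a b : ℝ} (hl : 0 < l) (ha : 0 ≤ a) (hab : a ≤ b) (hb : b ≤ 1 / 2) (v : Sm) :
    ∫ x in a..b, ev (mu (0 + 2) * sp l (((0 : ℕ) : ℤ) - 15) * (D ^ 0) v ^ 2) x ≤
      4 * l⁻¹ ^ 4 * ∫ x in a..b, ev ((1 - X) ^ 2 * v) x ^ 2 := by
  rw [← intervalIntegral.integral_const_mul]
  refine intervalIntegral.integral_mono_on hab ((continuous_ev _).intervalIntegrable _ _)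
    ((continuous_const.mul (poinc_c2 _)).intervalIntegrable _ _) fun x hx => ?_
  have h0 : 0 ≤ x := ha.trans hx.1
  have h1 : x ≤ 1 / 2 := hx.2.trans hb
  have hx' : x ∈ I := ⟨h0, by linarith⟩
  rw [poinc_ev15 hl v hx']
  simp only [ev_mul, ev_pow, ev_sub, ev_one, ev_X hx']
  have h2 : x * (x + l)⁻¹ ≤ 1 := by
    rw [← div_eq_mul_inv, div_le_one (by positivity)]
    linarith
  have h3 : (x + l)⁻¹ ≤ l⁻¹ := inv_anti₀ hl (by linarith)
  have h4 : 1 ≤ 4 * (1 - x) ^ 2 := by nlinarith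
  calc x ^ 11 * (1 - x) ^ 2 * (x + l)⁻¹ ^ 15 * ev v x ^ 2
      = (x * (x + l)⁻¹) ^ 11 * (x + l)⁻¹ ^ 4 * 1 * ((1 - x) ^ 2 * ev v x ^ 2) := by ring
    _ ≤ 1 ^ 11 * l⁻¹ ^ 4 * (4 * (1 - x) ^ 2) * ((1 - x) ^ 2 * ev v x ^ 2) := by gcongr
    _ = _ := by ring

/-- the middle region: the derivative -/
lemma poinc_mid2 {l r R : ℝ} (hl : l ∈ Ioc (0 : ℝ) 1) (hr : 0 < r) (hrR : r ≤ R) (hb : R * l ≤ 1)
    (v : Sm) : ∫ x in (r * l)..(R * l), ev (D ((1 - X) ^ 2 * v)) x ^ 2 ≤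
      8 * (1 + r⁻¹) ^ 12 * (R + 1) ^ 2 * l ^ 2 * (lev l 15 1 v + l⁻¹ ^ 2 * lev l 13 0 v) := by
  have hl0 := hl.1
  have hR : 0 < R := hr.trans_le hrR
  have h13 : lev l 13 0 v ≤ l⁻¹ ^ 2 * lev l 13 0 v :=
    le_mul_of_one_le_left (lev_nonneg hl0 _ _ _) (one_le_pow₀ ((one_le_inv₀ hl0).2 hl.2))
  refine le_trans ?_ (mul_le_mul_of_nonneg_left (add_le_add le_rfl h13) (by positivity))
  rw [lev, lev, wl, wl, ← map_add, ← smul_eq_mul (8 * (1 + r⁻¹) ^ 12 * (R + 1) ^ 2 * l ^ 2),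
    ← map_smul]
  refine poinc_sub (poinc_c2 _) (continuous_ev _) (by positivity)
    (mul_le_mul_of_nonneg_right hrR hl0.le) hb (fun x hx => ?_) fun x hx => ?_
  · have hrl0 : 0 < r * l := by positivity
    have h0 : 0 < x := hrl0.trans_le hx.1
    have hx' : x ∈ I := ⟨h0.le, hx.2.trans hb⟩
    have h1 : 0 ≤ 1 - x := by linarith [hx'.2]
    have h1' : 1 - x ≤ 1 := by linarith
    rw [ev_smul, ev_add, poinc_ev14 hl0 v hx', poinc_ev13 hl0 v hx']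
    simp only [D_mul, D_sq, map_sub, D_one, D_X, ev_add, ev_mul, ev_pow, ev_sub, ev_one, ev_zero,
      ev_ofNat, ev_X hx']
    have hρ : 1 ≤ 1 + r⁻¹ := le_add_of_nonneg_right (by positivity)
    have h2 : 1 ≤ (1 + r⁻¹) * (x * (x + l)⁻¹) := by
      rw [← mul_assoc, ← div_eq_mul_inv, one_le_div (by positivity)]
      have : l ≤ r⁻¹ * x := by
        rw [← div_eq_inv_mul, le_div_iff₀ hr]
        linarith [hx.1]
      linarith
    have h3 : 1 ≤ (R + 1) * l * (x + l)⁻¹ := by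
      rw [← div_eq_mul_inv, one_le_div (by positivity)]
      linarith [hx.2]
    have h4 : 1 ≤ ((1 + r⁻¹) * (x * (x + l)⁻¹)) ^ 12 * ((R + 1) * l * (x + l)⁻¹) ^ 2 :=
      one_le_mul_of_one_le_of_one_le (one_le_pow₀ h2) (one_le_pow₀ h3)
    have h5 : 1 ≤ (1 + r⁻¹) * (((1 + r⁻¹) * (x * (x + l)⁻¹)) ^ 11 *
        ((R + 1) * l * (x + l)⁻¹) ^ 2) :=
      one_le_mul_of_one_le_of_one_le hρ
        (one_le_mul_of_one_le_of_one_le (one_le_pow₀ h2) (one_le_pow₀ h3))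
    have h6 : (1 - x) ^ 4 ≤ (1 - x) ^ 3 := pow_le_pow_of_le_one h1 h1' (by norm_num)
    calc (2 * (1 - x) * (0 - 1) * ev v x + (1 - x) ^ 2 * ev (D v) x) ^ 2
        ≤ 8 * ((1 - x) ^ 4 * ev (D v) x ^ 2) + 8 * ((1 - x) ^ 2 * ev v x ^ 2) := by
          nlinarith [sq_nonneg (2 * (1 - x) * ev v x + (1 - x) ^ 2 * ev (D v) x),
            sq_nonneg ((1 - x) ^ 2 * ev (D v) x)]
      _ ≤ 8 * ((1 - x) ^ 3 * ev (D v) x ^ 2) + 8 * ((1 - x) ^ 2 * ev v x ^ 2) := by gcongr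
      _ ≤ (((1 + r⁻¹) * (x * (x + l)⁻¹)) ^ 12 * ((R + 1) * l * (x + l)⁻¹) ^ 2) *
            (8 * ((1 - x) ^ 3 * ev (D v) x ^ 2)) +
          ((1 + r⁻¹) * (((1 + r⁻¹) * (x * (x + l)⁻¹)) ^ 11 * ((R + 1) * l * (x + l)⁻¹) ^ 2)) *
            (8 * ((1 - x) ^ 2 * ev v x ^ 2)) :=
          add_le_add (le_mul_of_one_le_left (by positivity) h4)
            (le_mul_of_one_le_left (by positivity) h5)
      _ = _ := by ring
  · rw [ev_smul, ev_add, poinc_ev14 hl0 v hx, poinc_ev13 hl0 v hx]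
    have h0 := hx.1
    have h1 : 0 ≤ 1 - x := by linarith [hx.2]
    positivity

theorem poincare {ε : ℝ} (hε : 0 < ε) : ∃ (m : ℕ) (β : Fin m → ℝ → ℝ) (R M : ℝ), 0 < R ∧ 0 ≤ M ∧
    (∀ i, IsBump R (β i)) ∧ ∀ l ∈ Ioc (0 : ℝ) 1, R * l ≤ 1 / 2 → ∀ v,
      lev l 15 0 v ≤ ε * lev l 15 1 v + ε * l⁻¹ ^ 2 * lev l 13 0 v
        + M * l⁻¹ ^ 5 * ∑ i, ell l (β i) v ^ 2 := by
  obtain ⟨C, hC, hlow⟩ := poinc_low
  obtain ⟨r, hr, hr1, hrC⟩ : ∃ r : ℝ, 0 < r ∧ r ≤ 1 ∧ r * C ≤ ε / 3 := by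
    refine ⟨min 1 (ε / (3 * (C + 1))), by positivity, min_le_left _ _, ?_⟩
    have h1 := min_le_right 1 (ε / (3 * (C + 1)))
    rw [le_div_iff₀ (by positivity)] at h1
    have h2 : 0 < min 1 (ε / (3 * (C + 1))) := by positivity
    nlinarith
  obtain ⟨R, hR2, hRε⟩ : ∃ R : ℝ, 2 ≤ R ∧ R⁻¹ ^ 2 ≤ ε / 3 := by
    have h0 : 0 < 3 / ε := by positivity
    refine ⟨2 + 3 / ε, by linarith, ?_⟩
    rw [inv_pow, inv_le_comm₀ (by positivity) (by positivity), inv_div]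
    nlinarith
  have hR : 0 < R := by linarith
  set K : ℝ := 8 * (1 + r⁻¹) ^ 12 * (R + 1) ^ 2 with hK
  have hK0 : 0 < K := by positivity
  obtain ⟨m, h, hh, hm, hhK⟩ : ∃ (m : ℕ) (h : ℝ), 0 < h ∧ r + m * h = R ∧ 8 * h ^ 2 * K ≤ ε / 3 := by
    obtain ⟨m, hm⟩ := exists_nat_ge ((R - r) * (1 + 24 * K / ε))
    have hd : 0 < R - r := by linarith
    have hq : 0 < 24 * K / ε := by positivity
    have hm0 : (0 : ℝ) < m := lt_of_lt_of_le (by positivity) hm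
    refine ⟨m, (R - r) / m, by positivity, by field_simp; ring, ?_⟩
    have h1 : (R - r) / m * (1 + 24 * K / ε) ≤ 1 := by
      rwa [div_mul_eq_mul_div, div_le_one hm0]
    have h2 : 0 < (R - r) / m := by positivity
    generalize (R - r) / m = h at h1 h2
    have h3 : h ≤ 1 := by nlinarith
    have h4 : h * (24 * K / ε) ≤ 1 := by nlinarith
    rw [← mul_div_assoc, div_le_one hε] at h4
    nlinarith [mul_pos h2 hK0]
  obtain ⟨β, hβ, hcell⟩ := poinc_cells hr hh m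
  rw [hm] at hβ hcell
  refine ⟨m, β, R, 8 * h, hR, by positivity, hβ, fun l hl hRl v => ?_⟩
  have hl0 := hl.1
  have hRl1 : R * l ≤ 1 := by linarith
  have hrR : r * l ≤ R * l := mul_le_mul_of_nonneg_right (by linarith) hl0.le
  have e1 := hlow l hl r hr.le (hrR.trans hRl1) v
  have e2 := poinc_high hl0 hR hRl1 v
  have e3 := poinc_mid1 hl0 (by positivity) hrR hRl v
  have e4 := hcell l hl0 hRl1 ((1 - X) ^ 2 * v)
  have e5 := poinc_mid2 hl hr (by linarith) hRl1 v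
  rw [← hK] at e5
  have hB := lev_nonneg hl0 15 1 v
  have hC' : 0 ≤ l⁻¹ ^ 2 * lev l 13 0 v := mul_nonneg (by positivity) (lev_nonneg hl0 13 0 v)
  simp only [ell_apply, mul_assoc (prof _ l)]
  rw [lev, wl, Ii_def, ← intervalIntegral.integral_add_adjacent_intervals (b := R * l)
    ((continuous_ev _).intervalIntegrable _ _) ((continuous_ev _).intervalIntegrable _ _),
    ← intervalIntegral.integral_add_adjacent_intervals (a := 0) (b := r * l)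
    ((continuous_ev _).intervalIntegrable _ _) ((continuous_ev _).intervalIntegrable _ _),
    mul_assoc ε]
  generalize ∑ i, Ii (prof (β i) l * ((1 - X) ^ 2 * v)) ^ 2 = S at *
  generalize l⁻¹ ^ 2 * lev l 13 0 v = Cc at *
  generalize lev l 15 1 v = B at *
  have e6 : 4 * l⁻¹ ^ 4 * ∫ x in r * l..R * l, ev ((1 - X) ^ 2 * v) x ^ 2 ≤
      8 * h * l⁻¹ ^ 5 * S + 8 * h ^ 2 * K * (B + Cc) := by
    calc _ ≤ 4 * l⁻¹ ^ 4 * (2 * h * l⁻¹ * S + 2 * (h * l) ^ 2 * (K * l ^ 2 * (B + Cc))) := by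
          gcongr
          exact e4.trans (by gcongr)
      _ = _ := by field_simp; ring
  have e7 : r * C * (B + Cc) ≤ ε / 3 * (B + Cc) := by gcongr
  have e8 : R⁻¹ ^ 2 * Cc ≤ ε / 3 * (B + Cc) := by
    gcongr
    linarith
  have e9 : 8 * h ^ 2 * K * (B + Cc) ≤ ε / 3 * (B + Cc) := by gcongr
  refine (add_le_add (add_le_add (e1.trans e7) (e3.trans (e6.trans (add_le_add le_rfl e9))))
    (e2.trans e8)).trans (le_of_eq ?_)
  ring

end Crest.Agent.R213
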