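import Crest.Agent.R213.EnD
import Crest.Agent.R213.Energy
import Crest.Agent.R213.Poinc
import Crest.Agent.R213.Bump

/-! # Row 213, the scale invariant energy `HQ` -/

set_option autoImplicit false
open Set Filter Topology
open scoped ContDiff

noncomputable section
namespace Crest.Agent.R213

lemma high_key {a b : ℝ → Sm} (hC : Coef a b) : ∃ c > (0 : ℝ), ∃ C, 0 ≤ C ∧ ∀ l ∈ Ioc (0 : ℝ) 1, ∀ v F,
    2 * HB l (Lop (a l) (b l) v + F) v ≤
      l ^ 3 * (-c * N2 l 15 2 v + C * lev l 15 0 v + lev l 11 0 F) := by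
  obtain ⟨a₀, ha₀, hpos⟩ := hC.pos
  obtain ⟨C1, hC1, h1⟩ := ((SymbF.const psi).mul hC.sa) 2
  obtain ⟨C2, hC2, h2⟩ := ((SymbF.const psi).mul hC.sb) 0
  obtain ⟨c, hc, C, hC0, h⟩ := energy_zero 13 (a₀ := a₀ / 4) (by positivity) (C1 + C2)
  refine ⟨c, hc, C, hC0, fun l hl v F => ?_⟩
  have e1 : psi * (Lop (a l) (b l) v + F) = Lop (psi * a l) (psi * b l) v + psi * F := by
    unfold Lop; ring
  have h3 := h l hl (psi * a l) (psi * b l)
    (by simpa using (h1 l hl).mono_C hl.1 (by linarith))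
    (by simpa using (h2 l hl).mono_C hl.1 (by linarith))
    (fun x hx => by
      rw [ev_mul]
      have := hpos l hl x hx
      have := (psi_mem hx).1
      nlinarith) v (psi * F)
  have h4 : lev l 11 0 (psi * F) ≤ lev l 11 0 F := by
    have := wl_mul_le hl.1 11 0 (b := psi) (C := 1) (fun x hx => by
      have h5 := psi_mem hx
      nlinarith [h5.1, h5.2]) F
    simpa [lev] using this
  rw [HB_eq_levB, e1]
  have hl3 : 0 < l ^ 3 := pow_pos hl.1 3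
  norm_num at h3
  nlinarith [mul_le_mul_of_nonneg_left h3 hl3.le, mul_le_mul_of_nonneg_left h4 hl3.le]

lemma high_weight {l η : ℝ} (hl : 0 < l) (hη : 0 < η) (v : Sm) :
    l ^ 2 * Ii (mu 2 * psi * sp l (-14) * v ^ 2) ≤
      η * (l * lev l 13 0 v) + η⁻¹ * (l ^ 3 * lev l 15 0 v) := by
  have e13 : lev l 13 0 v = Ii (mu 2 * sp l (-13) * v ^ 2) := cut_lev l v
  have e15 : lev l 15 0 v = Ii (mu 2 * sp l (-15) * v ^ 2) := by simp [lev, wl]
  rw [e13, e15, ← smul_eq_mul, ← map_smul, ← mul_assoc, ← mul_assoc, ← smul_eq_mul (η * l), ← map_smul,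
    ← smul_eq_mul (η⁻¹ * l ^ 3), ← map_smul, ← map_add]
  refine Ii_mono fun x hx => ?_
  have hσ : 0 < x + l := by have := hx.1; positivity
  have hm : 0 ≤ ev (mu 2) x := bas_mu_nonneg 2 hx
  have hp := psi_mem hx
  simp only [ev_smul, ev_add, ev_mul, ev_pow, ev_sp hl _ hx]
  set s := (x + l)⁻¹ with hs
  have hs0 : 0 < s := inv_pos.2 hσ
  have z13 : (x + l) ^ (-13 : ℤ) = s ^ 13 := by rw [hs, zpow_neg, inv_pow]; norm_cast
  have z14 : (x + l) ^ (-14 : ℤ) = s ^ 14 := by rw [hs, zpow_neg, inv_pow]; norm_cast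
  have z15 : (x + l) ^ (-15 : ℤ) = s ^ 15 := by rw [hs, zpow_neg, inv_pow]; norm_cast
  rw [z13, z14, z15]
  have hy : l * s ≤ η + η⁻¹ * (l * s) ^ 2 := by
    have := en_young hη 1 (l * s)
    have : 0 ≤ l * s := by positivity
    nlinarith
  have hW : 0 ≤ l * (ev (mu 2) x * s ^ 13 * ev v x ^ 2) := by positivity
  calc l ^ 2 * (ev (mu 2) x * ev psi x * s ^ 14 * ev v x ^ 2)
      = ev psi x * (l * s * (l * (ev (mu 2) x * s ^ 13 * ev v x ^ 2))) := by ring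
    _ ≤ 1 * (l * s * (l * (ev (mu 2) x * s ^ 13 * ev v x ^ 2))) :=
        mul_le_mul_of_nonneg_right hp.2 (by positivity)
    _ ≤ (η + η⁻¹ * (l * s) ^ 2) * (l * (ev (mu 2) x * s ^ 13 * ev v x ^ 2)) := by
        rw [one_mul]; exact mul_le_mul_of_nonneg_right hy hW
    _ = _ := by ring

lemma high_13 {t : ℝ} (ht : t < 0) (v : Sm) :
    lam t * lev (lam t) 13 0 v ≤ 4 * ((-t)⁻¹ * HQ (lam t) v) := by
  have hl := lam_pos ht
  have h := le_HQ hl v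
  rw [← lam_sq ht.le]
  calc lam t * lev (lam t) 13 0 v = (lam t ^ 2)⁻¹ * (lam t ^ 3 * lev (lam t) 13 0 v) := by
        field_simp
    _ ≤ (lam t ^ 2)⁻¹ * (4 * HQ (lam t) v) := by gcongr
    _ = _ := by ring

lemma high_15 {l : ℝ} (hl : 0 < l) (v : Sm) : l ^ 3 * lev l 15 0 v ≤ l * lev l 13 0 v := by
  have h := lev_le_inv hl (e := 13) (e' := 15) (by norm_num) 0 v
  have e : l ^ ((13 : ℤ) - 15) = (l ^ 2)⁻¹ := by norm_num
  rw [e] at h
  calc l ^ 3 * lev l 15 0 v ≤ l ^ 3 * ((l ^ 2)⁻¹ * lev l 13 0 v) := by gcongr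
    _ = _ := by field_simp

/-- `hasDerivAt_HQ`, `HB_eq_levB`, `psi * Lop a b v = Lop (psi a) (psi b) v`, `energy_zero 13`; all terms `lev λ 15 0` and
`λ⁻¹ lev λ 14 0` are `≤ λ⁻² lev λ 13 0 ≤ 4 λ⁻⁵ HQ`; `gronwall_sim` with `t₁/t₂ ≤ 4`. -/
theorem high_crude {a b : ℝ → Sm} (hC : Coef a b) : ∃ C, 0 ≤ C ∧ ∀ t₁ t₂ : ℝ, -1 ≤ t₁ → t₁ ≤ t₂ → t₂ < 0 →
    lam t₁ ≤ 2 * lam t₂ → ∀ F v, CC (Icc t₁ t₂) F →
    Sol (fun t => a (lam t)) (fun t => b (lam t)) F t₁ t₂ v →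
    HQ (lam t₂) (v t₂) ≤
      C * (HQ (lam t₁) (v t₁) + lam t₁ ^ 3 * ∫ s in t₁..t₂, lev (lam s) 11 0 (F s)) := by
  obtain ⟨c, hc, C, hC0, h⟩ := high_key hC
  set p : ℝ := 4 * C + 52 with hp
  have hp0 : 0 ≤ p := by positivity
  refine ⟨4 ^ p, by positivity, fun t₁ t₂ h1 h12 h2 hl F v hF hv => ?_⟩
  have hJ : Icc t₁ t₂ ⊆ Iio 0 := fun s hs => lt_of_le_of_lt hs.2 h2
  have ht₁ : t₁ < 0 := lt_of_le_of_lt h12 h2
  have hl1 := lam_pos ht₁
  have hg := gronwall_sim (f := fun s => HQ (lam s) (v s))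
    (g := fun s => lam t₁ ^ 3 * lev (lam s) 11 0 (F s)) (p := p) h12 h2 (hv.1.HQ hJ)
    (continuousOn_const.mul (hF.lev hJ 11 0))
    (fun s hs => mul_nonneg (by positivity) (lev_nonneg (lam_pos (hJ hs)) _ _ _))
    (fun s hs => by
      have hs0 : s < 0 := hs.2.trans h2
      have hm := lam_mem (h1.trans hs.1.le) hs0
      refine ⟨_, hasDerivAt_HQ (hv.2 s hs) hs0, ?_⟩
      have k1 := h (lam s) hm (v s) (F s)
      have k2 := high_weight hm.1 one_pos (v s)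
      have k3 := high_13 hs0 (v s)
      have k4 := high_15 hm.1 (v s)
      have k5 : 0 ≤ lam s ^ 3 * (c * N2 (lam s) 15 2 (v s)) :=
        mul_nonneg (pow_nonneg hm.1.le 3) (mul_nonneg hc.le (N2_nonneg hm.1 _ _ _))
      have k6 : lam s ^ 3 * lev (lam s) 11 0 (F s) ≤ lam t₁ ^ 3 * lev (lam s) 11 0 (F s) :=
        mul_le_mul_of_nonneg_right (pow_le_pow_left₀ hm.1.le (lam_anti hs.1.le) 3)
          (lev_nonneg hm.1 _ _ _)
      have k7 : 0 ≤ (-s)⁻¹ * HQ (lam s) (v s) :=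
        mul_nonneg (inv_nonneg.2 (by linarith)) (HQ_nonneg hm.1 _)
      have k8 := mul_le_mul_of_nonneg_left (k4.trans k3) hC0
      rw [inv_one] at k2
      simp only [hp]
      nlinarith)
  have hq : t₁ / t₂ ≤ 4 := by
    have e1 := lam_sq ht₁.le
    have e2 := lam_sq h2.le
    have : lam t₁ ^ 2 ≤ (2 * lam t₂) ^ 2 := pow_le_pow_left₀ hl1.le hl 2
    rw [div_le_iff_of_neg h2]
    nlinarith
  have hq0 : 0 ≤ t₁ / t₂ := (div_pos_of_neg_of_neg ht₁ h2).le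
  have hq1 : (t₁ / t₂) ^ p ≤ 4 ^ p := Real.rpow_le_rpow hq0 hq hp0
  have hq2 : max 1 ((t₁ / t₂) ^ p) ≤ 4 ^ p := max_le (Real.one_le_rpow (by norm_num) hp0) hq1
  have hI : 0 ≤ ∫ s in t₁..t₂, lam t₁ ^ 3 * lev (lam s) 11 0 (F s) :=
    intervalIntegral.integral_nonneg h12 fun s hs =>
      mul_nonneg (by positivity) (lev_nonneg (lam_pos (hJ hs)) _ _ _)
  rw [← intervalIntegral.integral_const_mul, mul_add]
  exact hg.trans (add_le_add (mul_le_mul_of_nonneg_right hq1 (HQ_nonneg hl1 _))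
    (mul_le_mul_of_nonneg_right hq2 hI))

/-- As above, but `λ⁻¹ σ⁻¹ ≤ ε λ⁻² + C σ⁻²` for the weight term, and `C lev λ 15 0` is absorbed by `poincare` at the
scale `l` (`lev_compare` with `M = 2`, `lev_anti_scale`) into `c N2 λ 15 2`; total rate `3/2 - 1/10`. -/
theorem high_deriv {a b : ℝ → Sm} (hC : Coef a b) : ∃ (m : ℕ) (β : Fin m → ℝ → ℝ) (R M : ℝ),
    0 < R ∧ 0 ≤ M ∧ (∀ i, IsBump R (β i)) ∧ ∀ l ∈ Ioc (0 : ℝ) 1, R * l ≤ 1 / 16 →
    ∀ t < (0 : ℝ), lam t ≤ l → l ≤ 2 * lam t → ∀ v : ℝ → Sm,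
      CD v (Lop (a (lam t)) (b (lam t)) (v t)) t →
      ∃ H', HasDerivAt (fun s => HQ (lam s) (v s)) H' t ∧
        H' ≤ -(7 / 5) * (-t)⁻¹ * HQ (lam t) (v t) + M * (-t)⁻¹ * ∑ i, ell l (β i) (v t) ^ 2 := by
  obtain ⟨c, hc, C, hC0, h⟩ := high_key hC
  set K : ℝ := (C + 13 / 2 * 520) * 2 ^ 15 with hK
  have hK0 : 0 < K := by positivity
  set ε : ℝ := min c (1 / 80) / K with hε
  have hε0 : 0 < ε := by positivity
  have hε1 : K * ε ≤ c := by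
    rw [hε, mul_div_cancel₀ _ hK0.ne']; exact min_le_left _ _
  have hε2 : K * ε ≤ 1 / 80 := by
    rw [hε, mul_div_cancel₀ _ hK0.ne']; exact min_le_right _ _
  obtain ⟨m, β, R, M, hR, hM, hβ, hP⟩ := poincare hε0
  refine ⟨m, β, R, K * M, hR, by positivity, hβ, fun l hl hRl t ht h1 h2 v hv => ?_⟩
  have hL := lam_pos ht
  have hm : lam t ∈ Ioc (0 : ℝ) 1 := ⟨hL, h1.trans hl.2⟩
  refine ⟨_, hasDerivAt_HQ hv ht, ?_⟩
  have k1 := h (lam t) hm (v t) 0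
  rw [add_zero, lev_zero, add_zero] at k1
  have k2 := high_weight hL (η := 1 / 520) (by norm_num) (v t)
  have k3 := high_13 ht (v t)
  have k4 := hP l hl (by linarith) (v t)
  have k5 := lev_compare hL hl.1 (M := 2) (by norm_num) (by linarith [hl.1]) h2 15 0 (v t)
  have k6 : lev l 15 1 (v t) ≤ N2 (lam t) 15 2 (v t) :=
    (lev_anti_scale hL h1 (by norm_num) _).trans (lev_le_N2 hL 15 (by norm_num) _)
  have k7 : lev l 13 0 (v t) ≤ lev (lam t) 13 0 (v t) := lev_anti_scale hL h1 (by norm_num) _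
  have hinv : l⁻¹ ≤ (lam t)⁻¹ := inv_anti₀ hL h1
  have hl0 : 0 ≤ l⁻¹ := inv_nonneg.2 hl.1.le
  set S := ∑ i, ell l (β i) (v t) ^ 2 with hS
  have hS0 : 0 ≤ S := Finset.sum_nonneg fun i _ => sq_nonneg _
  have n13 := lev_nonneg hl.1 13 0 (v t)
  have nN := N2_nonneg hL 15 2 (v t)
  have k8 : lev l 15 0 (v t) ≤ ε * N2 (lam t) 15 2 (v t) + ε * (lam t)⁻¹ ^ 2 * lev (lam t) 13 0 (v t)
      + M * (lam t)⁻¹ ^ 5 * S := by
    have i2 : l⁻¹ ^ 2 ≤ (lam t)⁻¹ ^ 2 := pow_le_pow_left₀ hl0 hinv 2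
    have i5 : l⁻¹ ^ 5 ≤ (lam t)⁻¹ ^ 5 := pow_le_pow_left₀ hl0 hinv 5
    refine k4.trans (add_le_add (add_le_add (mul_le_mul_of_nonneg_left k6 hε0.le) ?_) ?_)
    · exact mul_le_mul (mul_le_mul_of_nonneg_left i2 hε0.le) k7 n13 (by positivity)
    · exact mul_le_mul_of_nonneg_right (mul_le_mul_of_nonneg_left i5 hM) hS0
  have e5 : (((0 : ℕ) : ℤ) - 15).natAbs = 15 := by norm_num
  rw [e5] at k5
  have k9 : lam t ^ 3 * lev (lam t) 15 0 (v t) ≤ 2 ^ 15 * (ε * (lam t ^ 3 * N2 (lam t) 15 2 (v t)) +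
      ε * (lam t * lev (lam t) 13 0 (v t)) + M * ((-t)⁻¹ * S)) := by
    rw [← lam_sq ht.le]
    calc lam t ^ 3 * lev (lam t) 15 0 (v t)
        ≤ lam t ^ 3 * (2 ^ 15 * (ε * N2 (lam t) 15 2 (v t) +
            ε * (lam t)⁻¹ ^ 2 * lev (lam t) 13 0 (v t) + M * (lam t)⁻¹ ^ 5 * S)) := by
          exact mul_le_mul_of_nonneg_left
            (k5.trans (mul_le_mul_of_nonneg_left k8 (by norm_num))) (pow_nonneg hL.le 3)
      _ = _ := by field_simp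
  set A := lam t ^ 3 * N2 (lam t) 15 2 (v t) with hA
  set B := lam t * lev (lam t) 13 0 (v t) with hB
  set E := lam t ^ 3 * lev (lam t) 15 0 (v t) with hE
  set Q := (-t)⁻¹ * HQ (lam t) (v t) with hQ
  set W := lam t ^ 2 * Ii (mu 2 * psi * sp (lam t) (-14) * v t ^ 2) with hW
  have hA0 : 0 ≤ A := mul_nonneg (pow_nonneg hL.le 3) nN
  have hB0 : 0 ≤ B := mul_nonneg hL.le (lev_nonneg hL _ _ _)
  have k10 : (C + 13 / 2 * 520) * E ≤ K * ε * A + K * ε * B + K * M * ((-t)⁻¹ * S) := by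
    calc (C + 13 / 2 * 520) * E ≤ (C + 13 / 2 * 520) * (2 ^ 15 * (ε * A + ε * B + M * ((-t)⁻¹ * S))) :=
          mul_le_mul_of_nonneg_left k9 (by positivity)
      _ = _ := by rw [hK]; ring
  have k11 := mul_le_mul_of_nonneg_right hε1 hA0
  have k12 := mul_le_mul_of_nonneg_right hε2 hB0
  have k13 : 2 * HB (lam t) (Lop (a (lam t)) (b (lam t)) (v t)) (v t) ≤ -c * A + C * E := by
    refine k1.trans (le_of_eq ?_)
    rw [hA, hE]; ring
  have e1 : 3 / 2 * (-t)⁻¹ * HQ (lam t) (v t) = 3 / 2 * Q := by rw [hQ]; ring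
  have e2 : -(7 / 5) * (-t)⁻¹ * HQ (lam t) (v t) = -(7 / 5) * Q := by rw [hQ]; ring
  have e3 : 13 / 2 * lam t ^ 2 * Ii (mu 2 * psi * sp (lam t) (-14) * v t ^ 2) = 13 / 2 * W := by
    rw [hW]; ring
  have e4 : K * M * (-t)⁻¹ * S = K * M * ((-t)⁻¹ * S) := by ring
  rw [e1, e2, e3, e4]
  norm_num at k2
  linarith

end Crest.Agent.R213
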