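import Crest.Agent.R213.Hardy

/-! # Row 213, interpolation inequalities

Basic step (integrate by parts with `ibp`, `dl_mul`, `W2`): for `η > 0`,
`lev (j+1) ≤ η C (lev (j+2) + lev (j+1)) + lev j / (4 η)`. -/

set_option autoImplicit false
open Set Filter Topology
open scoped ContDiff

noncomputable section
namespace Crest.Agent.R213

lemma interp_basic (m : ℕ) (s : ℤ) {l η : ℝ} (hl : 0 < l) (hη : 0 < η) (u : Sm) :
    Ii (mu (m + 1) * sp l (s + 1) * D u ^ 2) ≤ (4 * η)⁻¹ * Ii (mu m * sp l s * u ^ 2) +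
      2 * η * Ii (mu m * sp l (s + 2) * dl m (D u) ^ 2) +
      2 * η * ((s : ℝ) + 1) ^ 2 * Ii (mu (m + 1) * sp l (s + 1) * D u ^ 2) := by
  have h1 := ibp m u (sp l (s + 1) * D u)
  rw [dl_mul, D_sp hl, add_sub_cancel_right] at h1
  have h2 : Ii (mu (m + 1) * sp l (s + 1) * D u ^ 2) =
      Ii (-(mu m * u * (sp l (s + 1) * dl m (D u) + ph * ((s + 1 : ℤ) : ℝ) • sp l s * D u))) := by
    rw [map_neg, h1, neg_neg]
    congr 1
    ring
  refine h2.trans_le ?_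
  rw [← smul_eq_mul (4 * η)⁻¹, ← smul_eq_mul (2 * η), ← smul_eq_mul (2 * η * _), ← map_smul, ← map_smul,
    ← map_smul, ← map_add, ← map_add]
  refine Ii_mono fun x hx => ?_
  have hσ : 0 < x + l := by have := hx.1; positivity
  have hμ : 0 ≤ ev (mu m) x := by
    rw [ev_mu _ hx]
    have := hx.1
    have := sub_nonneg.2 hx.2
    positivity
  have hφ : 0 ≤ ev ph x := by
    rw [ev_ph hx]
    exact mul_nonneg hx.1 (sub_nonneg.2 hx.2)
  have hφσ : ev ph x ≤ x + l := by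
    rw [ev_ph hx]
    nlinarith [hx.1]
  simp only [mu_succ, ev_add, ev_neg, ev_mul, ev_smul, ev_pow, ev_sp hl _ hx, zpow_add₀ hσ.ne',
    zpow_ofNat, Int.cast_add, Int.cast_one]
  have hP : 0 ≤ ev (mu m) x * (x + l) ^ s := mul_nonneg hμ (zpow_pos hσ s).le
  generalize ev u x = a
  generalize ev (D u) x = w
  generalize ev (dl m (D u)) x = δ
  generalize (s : ℝ) + 1 = c
  generalize ev ph x = φ at hφ hφσ
  generalize ev (mu m) x = μ at hP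
  generalize (x + l) ^ s = τ at hP
  generalize x + l = σ at hφσ
  have g1 : -(a * (σ * δ + φ * c * w)) ≤ (4 * η)⁻¹ * a ^ 2 + η * (σ * δ + φ * c * w) ^ 2 := by
    have : 0 ≤ (4 * η)⁻¹ * (a + 2 * η * (σ * δ + φ * c * w)) ^ 2 := by positivity
    have e : (4 * η)⁻¹ * (a + 2 * η * (σ * δ + φ * c * w)) ^ 2 =
        (4 * η)⁻¹ * a ^ 2 + η * (σ * δ + φ * c * w) ^ 2 + a * (σ * δ + φ * c * w) := by
      field_simp
      ring
    linarith
  have g2 : (σ * δ + φ * c * w) ^ 2 ≤ 2 * (σ * δ) ^ 2 + 2 * (φ * σ * (c * w) ^ 2) := by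
    have := mul_le_mul_of_nonneg_right (mul_le_mul_of_nonneg_left hφσ hφ) (sq_nonneg (c * w))
    nlinarith [sq_nonneg (σ * δ - φ * c * w)]
  have g3 := mul_le_mul_of_nonneg_left (g1.trans (add_le_add le_rfl
    (mul_le_mul_of_nonneg_left g2 hη.le))) hP
  linarith

lemma interp_step (e : ℤ) (j : ℕ) {ε : ℝ} (hε : 0 < ε) : ∃ C, 0 ≤ C ∧ ∀ l ∈ Ioc (0 : ℝ) 1, ∀ v,
    lev l e (j + 1) v ≤ ε * lev l e (j + 2) v + C * lev l e j v := by
  obtain ⟨C, hC, h⟩ := W2 (j + 2) ((j : ℤ) - e + 2)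
  obtain ⟨K, hK⟩ : ∃ K : ℝ, K = 2 * C + 2 * ((((j : ℤ) - e : ℤ) : ℝ) + 1) ^ 2 := ⟨_, rfl⟩
  have hK0 : 0 ≤ K := by rw [hK]; positivity
  have hm : 0 < min 1 ε := lt_min one_pos hε
  obtain ⟨η, hη, hηK⟩ : ∃ η : ℝ, 0 < η ∧ 2 * (η * K) ≤ min 1 ε :=
    ⟨min 1 ε / (2 * (K + 1)), by positivity, by
      rw [div_mul_eq_mul_div, ← mul_div_assoc, div_le_iff₀ (by positivity)]
      nlinarith⟩
  refine ⟨2 * (4 * η)⁻¹, by positivity, fun l hl v => ?_⟩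
  have h1 := interp_basic (j + 2) ((j : ℤ) - e) hl.1 hη ((D ^ j) v)
  have h2 := h l hl (D ((D ^ j) v))
  have e0 : lev l e j v = Ii (mu (j + 2) * sp l ((j : ℤ) - e) * (D ^ j) v ^ 2) := rfl
  have e1 : lev l e (j + 1) v =
      Ii (mu (j + 2 + 1) * sp l ((j : ℤ) - e + 1) * D ((D ^ j) v) ^ 2) := by
    rw [lev, wl, Dpow_succ, show ((j + 1 : ℕ) : ℤ) - e = (j : ℤ) - e + 1 by push_cast; ring]
  have e2 : lev l e (j + 2) v =
      Ii (mu (j + 2 + 2) * sp l ((j : ℤ) - e + 2) * D (D ((D ^ j) v)) ^ 2) := by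
    rw [lev, wl, Dpow_succ, Dpow_succ,
      show ((j + 2 : ℕ) : ℤ) - e = (j : ℤ) - e + 2 by push_cast; ring]
  rw [show (j : ℤ) - e + 2 - 1 = (j : ℤ) - e + 1 by ring, ← e1, ← e2] at h2
  rw [← e0, ← e1] at h1
  have n1 := lev_nonneg hl.1 e (j + 1) v
  have n2 := lev_nonneg hl.1 e (j + 2) v
  have h3 := mul_le_mul_of_nonneg_left h2 (show 0 ≤ 2 * η by positivity)
  have h4 := mul_le_mul_of_nonneg_right (hηK.trans (min_le_left _ _)) n1
  have h5 := mul_le_mul_of_nonneg_right (hηK.trans (min_le_right _ _)) n2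
  have h6 : 0 ≤ η * ((((j : ℤ) - e : ℤ) : ℝ) + 1) ^ 2 * lev l e (j + 2) v := by positivity
  rw [hK] at h4 h5
  linarith
lemma interp (e : ℤ) (k : ℕ) {ε : ℝ} (hε : 0 < ε) : ∃ C, 0 ≤ C ∧ ∀ l ∈ Ioc (0 : ℝ) 1, ∀ v,
    N2 l e k v ≤ ε * lev l e (k + 1) v + C * lev l e 0 v := by
  induction k generalizing ε with
  | zero =>
    refine ⟨1, zero_le_one, fun l hl v => ?_⟩
    have := mul_nonneg hε.le (lev_nonneg hl.1 e (0 + 1) v)
    rw [N2_zero]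
    linarith
  | succ k ih =>
    obtain ⟨C₁, hC₁, h₁⟩ := interp_step e k (show 0 < ε / 4 by positivity)
    obtain ⟨C₂, hC₂, h₂⟩ := ih (show 0 < (2 * (C₁ + 1))⁻¹ by positivity)
    refine ⟨4 * (C₁ * C₂) + C₂, by positivity, fun l hl v => ?_⟩
    have g1 := h₁ l hl v
    have g2 := h₂ l hl v
    have g3 := mul_le_mul_of_nonneg_left ((lev_le_N2 hl.1 e le_rfl v).trans g2) hC₁
    have n1 := lev_nonneg hl.1 e (k + 1) v
    have g4 : C₁ * (2 * (C₁ + 1))⁻¹ ≤ 1 / 2 := by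
      rw [← div_eq_mul_inv, div_le_iff₀ (by positivity)]
      linarith
    have g5 : (2 * (C₁ + 1))⁻¹ ≤ 1 := inv_le_one_of_one_le₀ (by linarith)
    have g6 := mul_le_mul_of_nonneg_right g4 n1
    have g7 := mul_le_mul_of_nonneg_right g5 n1
    rw [N2_succ]
    linarith
lemma N2_le_lev (e : ℤ) (k : ℕ) : ∃ C, 0 ≤ C ∧ ∀ l ∈ Ioc (0 : ℝ) 1, ∀ v,
    N2 l e k v ≤ C * (lev l e k v + lev l e 0 v) := by
  cases k with
  | zero =>
    refine ⟨1, zero_le_one, fun l hl v => ?_⟩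
    have := lev_nonneg hl.1 e 0 v
    rw [N2_zero]
    linarith
  | succ k =>
    obtain ⟨C, hC, h⟩ := interp e k one_pos
    refine ⟨C + 2, by positivity, fun l hl v => ?_⟩
    have g1 := h l hl v
    have n0 := lev_nonneg hl.1 e 0 v
    have n1 := mul_nonneg hC (lev_nonneg hl.1 e (k + 1) v)
    rw [N2_succ]
    linarith
lemma N2_le_Ek (k : ℕ) : ∃ C, 0 ≤ C ∧ ∀ l ∈ Ioc (0 : ℝ) 1, ∀ v, N2 l 12 k v ≤ C * Ek l k v := by
  exact N2_le_lev 12 k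
lemma N2_le_Gk (e : ℤ) (k : ℕ) : ∃ C, 0 ≤ C ∧ ∀ l ∈ Ioc (0 : ℝ) 1, ∀ v,
    N2 l (e + 2) (k + 2) v ≤ C * (Gk l e k v + lev l (e + 2) 0 v) := by
  obtain ⟨C, hC, h⟩ := top_le_Gk e k
  obtain ⟨C', hC', h'⟩ := interp (e + 2) (k + 1) (show 0 < (2 * (C + 1))⁻¹ by positivity)
  refine ⟨4 * C + 4 * (C * C') + C', by positivity, fun l hl v => ?_⟩
  have g1 := h l hl v
  have g2 := h' l hl v
  have g3 := mul_le_mul_of_nonneg_left g2 hC
  have n1 := lev_nonneg hl.1 (e + 2) (k + 1 + 1) v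
  have g4 : C * (2 * (C + 1))⁻¹ ≤ 1 / 2 := by
    rw [← div_eq_mul_inv, div_le_iff₀ (by positivity)]
    linarith
  have g5 : (2 * (C + 1))⁻¹ ≤ 1 := inv_le_one_of_one_le₀ (by linarith)
  have g6 := mul_le_mul_of_nonneg_right g4 n1
  have g7 := mul_le_mul_of_nonneg_right g5 n1
  have n2 := mul_nonneg hC (lev_nonneg hl.1 (e + 2) 0 v)
  have n3 := mul_nonneg hC' (Gk_nonneg hl.1 e k v)
  have n4 := mul_nonneg (mul_nonneg hC hC') (Gk_nonneg hl.1 e k v)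
  rw [N2_succ]
  change lev l (e + 2) (k + 1 + 1) v ≤ _ at g1
  linarith
lemma N2_le_eps_Gk (e : ℤ) (k : ℕ) {ε : ℝ} (hε : 0 < ε) : ∃ C, 0 ≤ C ∧ ∀ l ∈ Ioc (0 : ℝ) 1, ∀ v,
    N2 l (e + 2) (k + 1) v ≤ ε * Gk l e k v + C * lev l (e + 2) 0 v := by
  obtain ⟨C, hC, h⟩ := N2_le_Gk e k
  obtain ⟨C', hC', h'⟩ := interp (e + 2) (k + 1) (show 0 < ε / (C + 1) by positivity)
  refine ⟨ε + C', by positivity, fun l hl v => ?_⟩
  have g1 := mul_le_mul_of_nonneg_left ((lev_le_N2 hl.1 (e + 2) le_rfl v).trans (h l hl v))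
    (show 0 ≤ ε / (C + 1) by positivity)
  have g2 := h' l hl v
  have g3 : ε / (C + 1) * C ≤ ε := by
    rw [div_mul_eq_mul_div, div_le_iff₀ (by positivity)]
    linarith
  have g4 := mul_le_mul_of_nonneg_right g3
    (add_nonneg (Gk_nonneg hl.1 e k v) (lev_nonneg hl.1 (e + 2) 0 v))
  change _ ≤ _ * lev l (e + 2) (k + 2) v + _ at g2
  linarith

end Crest.Agent.R213
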