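import Crest.Agent.R213.Kernel

/-! # Row 213, inverse of a smooth family of diffeomorphisms of `[0,1]`

`Θ̂ (t,x) = (t, Θ(t,x))` is a bijection of `J ×ˢ I`, smooth (`kernel_of_CK`), with inverse `Ψ̂` continuous on `J ×ˢ I` (strict
monotonicity, or compactness on `K ×ˢ I`).  `HasFDerivWithinAt.of_local_left_inverse` gives the derivative of `Ψ̂` within `J ×ˢ I`:
`∂_ξ Ψ = 1 / Θ_x ∘ Ψ̂`, `∂_t Ψ = -(Θ_t / Θ_x) ∘ Ψ̂`; bootstrap with `contDiffOn_succ_of_fderivWithin`; `CK_of_kernel`. -/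

set_option autoImplicit false
open Set Filter Topology
open scoped ContDiff

noncomputable section
namespace Crest.Agent.R213

theorem exists_inverse {J : Set ℝ} (hJ : IsOpen J) {Θ : ℝ → Sm} (hΘ : CK ∞ J Θ)
    (h₀ : ∀ t ∈ J, ev (Θ t) 0 = 0) (h₁ : ∀ t ∈ J, ev (Θ t) 1 = 1)
    (hpos : ∀ t ∈ J, ∀ x ∈ I, 0 < ev (D (Θ t)) x) :
    ∃ Ψ : ℝ → Sm, CK ∞ J Ψ ∧ ∀ t ∈ J, (∀ ξ ∈ I, ev (Ψ t) ξ ∈ I ∧ ev (Θ t) (ev (Ψ t) ξ) = ξ) ∧
      ev (Ψ t) 0 = 0 := by
  have mono : ∀ t ∈ J, StrictMonoOn (ev (Θ t)) I := fun t ht =>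
    strictMonoOn_of_deriv_pos (convex_Icc 0 1) (continuous_ev _).continuousOn fun x hx => by
      rw [interior_Icc] at hx
      rw [(hasDerivAt_ev _ hx).deriv]
      exact hpos t ht x (Ioo_subset_Icc_self hx)
  have hex : ∀ p : ℝ × ℝ, ∃ x, p ∈ J ×ˢ I → x ∈ I ∧ ev (Θ p.1) x = p.2 := fun p => by
    by_cases hp : p ∈ J ×ˢ I
    · obtain ⟨x, hx, e⟩ := intermediate_value_Icc zero_le_one (continuous_ev (Θ p.1)).continuousOn
        (show p.2 ∈ Icc (ev (Θ p.1) 0) (ev (Θ p.1) 1) by rw [h₀ _ hp.1, h₁ _ hp.1]; exact hp.2)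
      exact ⟨x, fun _ => ⟨hx, e⟩⟩
    · exact ⟨0, fun h => absurd h hp⟩
  choose ψ hψ using hex
  have hΦ := kernel_of_CK hJ hΘ
  have hsl : ∀ a ∈ I, ContinuousOn (fun p : ℝ × ℝ => ev (Θ p.1) a - p.2) (J ×ˢ I) := fun a ha =>
    (hΦ.continuousOn.comp (f := fun p : ℝ × ℝ => (p.1, a)) (by fun_prop)
      fun p hp => ⟨hp.1, ha⟩).sub continuousOn_snd
  have hc : ContinuousOn ψ (J ×ˢ I) := by
    intro p hp
    refine tendsto_order.2 ⟨fun a ha => ?_, fun a ha => ?_⟩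
    · rcases lt_or_ge a 0 with h | h
      · filter_upwards [self_mem_nhdsWithin] with q hq
        exact h.trans_le (hψ q hq).1.1
      · have haI : a ∈ I := ⟨h, ha.le.trans (hψ p hp).1.2⟩
        have h1 : ev (Θ p.1) a - p.2 < 0 := by
          have := mono _ hp.1 haI (hψ p hp).1 ha
          rw [(hψ p hp).2] at this
          linarith
        filter_upwards [self_mem_nhdsWithin, (hsl a haI p hp).eventually (gt_mem_nhds h1)] with q hq h2
        refine ((mono _ hq.1).lt_iff_lt haI (hψ q hq).1).1 ?_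
        rw [(hψ q hq).2]
        linarith
    · rcases lt_or_ge 1 a with h | h
      · filter_upwards [self_mem_nhdsWithin] with q hq
        exact (hψ q hq).1.2.trans_lt h
      · have haI : a ∈ I := ⟨(hψ p hp).1.1.trans ha.le, h⟩
        have h1 : 0 < ev (Θ p.1) a - p.2 := by
          have := mono _ hp.1 (hψ p hp).1 haI ha
          rw [(hψ p hp).2] at this
          linarith
        filter_upwards [self_mem_nhdsWithin, (hsl a haI p hp).eventually (lt_mem_nhds h1)] with q hq h2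
        refine ((mono _ hq.1).lt_iff_lt (hψ q hq).1 haI).1 ?_
        rw [(hψ q hq).2]
        linarith
  obtain ⟨w, hw, hd⟩ := hΘ.exists_deriv hJ
  have hm : MapsTo (fun p : ℝ × ℝ => (p.1, ψ p)) (J ×ˢ I) (J ×ˢ I) := fun p hp => ⟨hp.1, (hψ p hp).1⟩
  have hf : ∀ p ∈ J ×ˢ I, HasFDerivWithinAt ψ ((ev (D (Θ p.1)) (ψ p))⁻¹ •
      (ContinuousLinearMap.snd ℝ ℝ ℝ - ev (w p.1) (ψ p) • ContinuousLinearMap.fst ℝ ℝ ℝ))
      (J ×ˢ I) p := by
    intro p hp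
    have hb := (hpos _ hp.1 _ (hψ p hp).1).ne'
    have h1 := (hasFDerivWithinAt_fst (𝕜 := ℝ) (s := J ×ˢ I) (p := (p.1, ψ p))).prodMk
      ((ker_hasFDerivWithinAt (hd p.1 hp.1) (hψ p hp).1).mono (prod_mono (subset_univ _) Subset.rfl))
    have h2 : Tendsto (fun p : ℝ × ℝ => (p.1, ψ p)) (𝓝[J ×ˢ I] p) (𝓝[J ×ˢ I] (p.1, ψ p)) :=
      ((continuousOn_fst.prodMk hc) p hp).tendsto_nhdsWithin hm
    have h3 := HasFDerivWithinAt.of_comp_of_leftInverse (g := fun p : ℝ × ℝ => (p.1, ψ p))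
      (f'symm := (ContinuousLinearMap.fst ℝ ℝ ℝ).prod ((ev (D (Θ p.1)) (ψ p))⁻¹ •
        (ContinuousLinearMap.snd ℝ ℝ ℝ - ev (w p.1) (ψ p) • ContinuousLinearMap.fst ℝ ℝ ℝ)))
      h2 h1 (hasFDerivWithinAt_id p (J ×ˢ I)) (by
        filter_upwards [self_mem_nhdsWithin] with q hq
        exact Prod.ext rfl (hψ q hq).2) (fun u => by
        refine Prod.ext rfl ?_
        simp
        field_simp) hp
    exact h3.snd
  have hs : ContDiffOn ℝ ∞ ψ (J ×ˢ I) := by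
    refine contDiffOn_infty.2 fun n => ?_
    induction n with
    | zero => exact contDiffOn_zero.2 hc
    | succ n ih =>
      have hg : ContDiffOn ℝ n (fun p : ℝ × ℝ => (p.1, ψ p)) (J ×ˢ I) := contDiffOn_fst.prodMk ih
      have a1 : ContDiffOn ℝ n (fun p : ℝ × ℝ => ev (w p.1) (ψ p)) (J ×ˢ I) :=
        (contDiffOn_infty.1 (kernel_of_CK hJ hw) n).comp hg hm
      have a2 : ContDiffOn ℝ n (fun p : ℝ × ℝ => ev (D (Θ p.1)) (ψ p)) (J ×ˢ I) :=
        (contDiffOn_infty.1 (kernel_of_CK hJ hΘ.D) n).comp hg hm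
      rw [Nat.cast_succ]
      refine contDiffOn_succ_of_fderivWithin (fun p hp => (hf p hp).differentiableWithinAt)
        (by simp) ?_
      exact ((a2.inv fun p hp => (hpos _ hp.1 _ (hψ p hp).1).ne').smul
        (contDiffOn_const.sub (a1.smul contDiffOn_const))).congr
        fun p hp => (hf p hp).fderivWithin (hJ.uniqueDiffOn.prod uI p hp)
  have h0I : (0 : ℝ) ∈ I := ⟨le_rfl, zero_le_one⟩
  refine ⟨fun t => mk0 fun x => ψ (t, x), CK_of_kernel hJ hs, fun t ht => ⟨fun ξ hξ => ?_, ?_⟩⟩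
  · rw [ev_mk0 (ker_slice hs ht) hξ]
    exact hψ (t, ξ) ⟨ht, hξ⟩
  · rw [ev_mk0 (ker_slice hs ht) h0I]
    refine (mono t ht).injOn (hψ (t, 0) ⟨ht, h0I⟩).1 h0I ?_
    rw [h₀ t ht]
    exact (hψ (t, 0) ⟨ht, h0I⟩).2

end Crest.Agent.R213
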