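import Crest.Agent.R213.Tower

/-! # Row 213, smooth curves in `Sm` are the jointly smooth functions -/

set_option autoImplicit false
open Set Filter Topology
open scoped ContDiff

noncomputable section
namespace Crest.Agent.R213

lemma ker_slice {J : Set ℝ} {Φ : ℝ × ℝ → ℝ} (hΦ : ContDiffOn ℝ ∞ Φ (J ×ˢ I)) {t : ℝ} (ht : t ∈ J) :
    ContDiffOn ℝ ∞ (fun x => Φ (t, x)) I :=
  hΦ.comp (contDiffOn_const.prodMk contDiffOn_id) fun _ hx => ⟨ht, hx⟩

/-- pointwise derivatives with a continuous derivative curve give a derivative in `C(I,ℝ)` -/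
lemma ker_hasDerivAt {J : Set ℝ} (hJ : IsOpen J) {c c' : ℝ → C(I, ℝ)} (hc' : ContinuousOn c' J)
    (h : ∀ t ∈ J, ∀ x, HasDerivAt (fun s => c s x) (c' t x) t) {t : ℝ} (ht : t ∈ J) :
    HasDerivAt c (c' t) t := by
  rw [hasDerivAt_iff_isLittleO, Asymptotics.isLittleO_iff]
  intro ε hε
  have h1 : ∀ᶠ s in 𝓝 t, s ∈ J ∧ dist (c' s) (c' t) < ε :=
    (hJ.eventually_mem ht).and
      (Metric.tendsto_nhds.1 (hc'.continuousAt (hJ.mem_nhds ht)) ε hε)
  obtain ⟨δ, hδ, h2⟩ := Metric.eventually_nhds_iff_ball.1 h1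
  filter_upwards [Metric.ball_mem_nhds t hδ] with s hs
  refine (ContinuousMap.norm_le _ (by positivity)).2 fun x => ?_
  have h3 := Convex.norm_image_sub_le_of_norm_hasDerivWithin_le
    (f := fun r => c r x - r * c' t x) (f' := fun r => c' r x - c' t x) (C := ε)
    (s := Metric.ball t δ) (fun r hr => by
      have := (h r (h2 r hr).1 x).sub ((hasDerivAt_id r).mul_const (c' t x))
      rw [one_mul] at this
      exact this.hasDerivWithinAt)
    (fun r hr => by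
      have := (c' r - c' t).norm_coe_le_norm x
      rw [← dist_eq_norm (c' r)] at this
      exact this.trans (h2 r hr).2.le)
    (convex_ball t δ) (Metric.mem_ball_self hδ) hs
  refine le_trans (le_of_eq ?_) h3
  congr 1
  simp only [ContinuousMap.sub_apply, ContinuousMap.smul_apply, smul_eq_mul]
  ring

lemma ker_pd {J : Set ℝ} (hJ : IsOpen J) {Φ : ℝ × ℝ → ℝ} (hΦ : ContDiffOn ℝ ∞ Φ (J ×ˢ I))
    (e : ℝ × ℝ) : ContDiffOn ℝ ∞ (fun p => fderivWithin ℝ Φ (J ×ˢ I) p e) (J ×ˢ I) :=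
  (hΦ.fderivWithin (hJ.uniqueDiffOn.prod uI) (m := ∞) (by simp)).clm_apply contDiffOn_const

lemma ker_zero_nat {J : Set ℝ} (hJ : IsOpen J) (n : ℕ) : ∀ {Φ : ℝ × ℝ → ℝ},
    ContDiffOn ℝ ∞ Φ (J ×ˢ I) → ContDiffOn ℝ n (fun t => jet 0 (mk0 fun x => Φ (t, x))) J := by
  have hval : ∀ {Φ : ℝ × ℝ → ℝ}, ContDiffOn ℝ ∞ Φ (J ×ˢ I) → ∀ t ∈ J, ∀ x : I,
      jet 0 (mk0 fun x => Φ (t, x)) x = Φ (t, x) := fun hΦ t ht x => by
    rw [jet_zero, val_apply, ev_mk0 (ker_slice hΦ ht) x.2]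
  have hcont : ∀ {Φ : ℝ × ℝ → ℝ}, ContDiffOn ℝ ∞ Φ (J ×ˢ I) →
      ContinuousOn (fun t => jet 0 (mk0 fun x => Φ (t, x))) J := fun {Φ} hΦ => by
    refine ContinuousMap.continuousOn_of_continuousOn_uncurry _ ?_
    have h1 : ContinuousOn (fun p : ℝ × I => Φ (p.1, p.2)) (J ×ˢ univ) :=
      hΦ.continuousOn.comp (by fun_prop) fun p hp => ⟨hp.1, p.2.2⟩
    exact h1.congr fun p hp => hval hΦ p.1 hp.1 p.2
  induction n with
  | zero => exact fun hΦ => contDiffOn_zero.2 (hcont hΦ)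
  | succ n ih =>
    intro Φ hΦ
    have hd : ∀ t ∈ J, HasDerivAt (fun t => jet 0 (mk0 fun x => Φ (t, x)))
        (jet 0 (mk0 fun x => fderivWithin ℝ Φ (J ×ˢ I) (t, x) (1, 0))) t := by
      intro t ht
      refine ker_hasDerivAt hJ (hcont (ker_pd hJ hΦ (1, 0))) (fun s hs x => ?_) ht
      have h1 := (hΦ.differentiableOn (by simp) (s, x) ⟨hs, x.2⟩).hasFDerivWithinAt
      have h2 : HasDerivWithinAt (fun r : ℝ => ((r, x) : ℝ × ℝ)) (1, 0) J s :=
        ((hasDerivAt_id s).prodMk (hasDerivAt_const s (x : ℝ))).hasDerivWithinAt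
      have h3 := (h1.comp_hasDerivWithinAt s h2 fun r hr => mk_mem_prod hr x.2).hasDerivAt (hJ.mem_nhds hs)
      rw [hval (ker_pd hJ hΦ (1, 0)) s hs x]
      refine h3.congr_of_eventuallyEq ?_
      filter_upwards [hJ.mem_nhds hs] with r hr
      exact hval hΦ r hr x
    rw [Nat.cast_succ, contDiffOn_succ_iff_deriv_of_isOpen hJ]
    refine ⟨fun t ht => (hd t ht).differentiableAt.differentiableWithinAt, by simp, ?_⟩
    exact (ih (ker_pd hJ hΦ (1, 0))).congr fun t ht => (hd t ht).deriv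

lemma ker_D {J : Set ℝ} (hJ : IsOpen J) {Φ : ℝ × ℝ → ℝ} (hΦ : ContDiffOn ℝ ∞ Φ (J ×ˢ I)) {t : ℝ}
    (ht : t ∈ J) : D (mk0 fun x => Φ (t, x)) =
      mk0 fun x => fderivWithin ℝ Φ (J ×ˢ I) (t, x) (0, 1) := by
  refine Sm.ext' fun x hx => ?_
  rw [ev_mk0 (ker_slice (ker_pd hJ hΦ (0, 1)) ht) hx]
  refine ev_D_of hx (fun y hy => ev_mk0 (ker_slice hΦ ht) hy) ?_
  have h1 := (hΦ.differentiableOn (by simp) (t, x) ⟨ht, hx⟩).hasFDerivWithinAt
  have h2 : HasDerivWithinAt (fun r : ℝ => ((t, r) : ℝ × ℝ)) (0, 1) I x :=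
    ((hasDerivAt_const x t).prodMk (hasDerivAt_id x)).hasDerivWithinAt
  exact h1.comp_hasDerivWithinAt x h2 fun r hr => ⟨ht, hr⟩

/-- the total derivative of the kernel of a differentiable curve -/
lemma ker_hasFDerivWithinAt {v : ℝ → Sm} {v' : Sm} {t x : ℝ} (hd : CD v v' t) (hx : x ∈ I) :
    HasFDerivWithinAt (fun p : ℝ × ℝ => ev (v p.1) p.2)
      (ev v' x • ContinuousLinearMap.fst ℝ ℝ ℝ + ev (D (v t)) x • ContinuousLinearMap.snd ℝ ℝ ℝ)
      (univ ×ˢ I) (t, x) := by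
  have hsnd : ∀ f : Sm, HasFDerivWithinAt (fun p : ℝ × ℝ => ev f p.2)
      (ev (D f) x • ContinuousLinearMap.snd ℝ ℝ ℝ) (univ ×ˢ I) (t, x) := fun f =>
    (hasDerivWithinAt_ev f hx).comp_hasFDerivWithinAt (t, x) (hasFDerivWithinAt_snd (𝕜 := ℝ))
      fun p hp => hp.2
  have h1 : HasFDerivWithinAt
      (fun p : ℝ × ℝ => ev (v p.1) p.2 - ev (v t) p.2 - (p.1 - t) * ev v' p.2)
      (0 : ℝ × ℝ →L[ℝ] ℝ) (univ ×ˢ I) (t, x) := by
    refine HasFDerivAt.hasFDerivWithinAt ?_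
    rw [hasFDerivAt_iff_isLittleO]
    have a1 := (hd 0).isLittleO.comp_tendsto (continuous_fst.tendsto ((t, x) : ℝ × ℝ))
    have a2 : (fun p : ℝ × ℝ => p.1 - t) =O[𝓝 (t, x)] fun p : ℝ × ℝ => p - (t, x) :=
      Asymptotics.IsBigO.of_bound 1 (Eventually.of_forall fun p => by
        rw [one_mul]
        exact norm_fst_le (p - (t, x)))
    refine Asymptotics.IsBigO.trans_isLittleO
      (Asymptotics.IsBigO.of_bound 1 (Eventually.of_forall fun p => ?_)) (a1.trans_isBigO a2)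
    have a3 := (jet 0 (v p.1) - jet 0 (v t) - (p.1 - t) • jet 0 v').norm_coe_le_norm
      (Set.projIcc 0 1 zero_le_one p.2)
    rw [one_mul]
    refine le_trans (le_of_eq ?_) a3
    simp only [sub_self, zero_mul, zero_apply, sub_zero]
    rfl
  have h2 := ((hasFDerivWithinAt_fst (𝕜 := ℝ) (s := univ ×ˢ I) (p := ((t, x) : ℝ × ℝ))).sub_const t).mul
    (hsnd v')
  have h3 := (h1.add h2).add (hsnd (v t))
  refine (h3.congr_fderiv (by simp)).congr (fun p _ => by simp) (by simp)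

/-- Let `𝒦` be the functions smooth on `J ×ˢ I` (a set of unique differentiability); it is closed under
`∂_t Φ = fderivWithin ℝ Φ (J ×ˢ I) · (1,0)` and `∂_x Φ = fderivWithin … (0,1)`.  For `Φ ∈ 𝒦` the curve
`c_Φ : t ↦ Φ(t,·) ∈ C(I,ℝ)` is continuous on `J` and has derivative `c_{∂_t Φ}` (mean value inequality and uniform
continuity on compacts); by induction it is `C^n` for all `n`; `jet j (mk0 Φ(t,·)) = c_{∂_x^j Φ} t`. -/
theorem CK_of_kernel {J : Set ℝ} (hJ : IsOpen J) {Φ : ℝ × ℝ → ℝ} (hΦ : ContDiffOn ℝ ∞ Φ (J ×ˢ I)) :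
    CK ∞ J fun t => mk0 fun x => Φ (t, x) := by
  intro j
  induction j generalizing Φ with
  | zero => exact contDiffOn_infty.2 fun n => ker_zero_nat hJ n hΦ
  | succ j ih =>
    refine (ih (ker_pd hJ hΦ (0, 1))).congr fun t ht => ?_
    rw [jet_succ, ker_D hJ hΦ ht]
lemma contDiffOn_slice {J : Set ℝ} {Φ : ℝ × ℝ → ℝ} (hΦ : ContDiffOn ℝ ∞ Φ (J ×ˢ I)) {t : ℝ} (ht : t ∈ J) :
    ContDiffOn ℝ ∞ (fun x => Φ (t, x)) I := ker_slice hΦ ht
/-- every smooth curve has a smooth derivative curve (`exists_CD`) -/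
theorem CK.exists_deriv {J : Set ℝ} (hJ : IsOpen J) {v : ℝ → Sm} (hv : CK ∞ J v) :
    ∃ w, CK ∞ J w ∧ ∀ t ∈ J, CD v (w t) t := by
  have h : ∀ t, ∃ w, t ∈ J → CD v w t := fun t => by
    by_cases ht : t ∈ J
    · obtain ⟨w, hw⟩ := exists_CD (v := v) (t := t) fun j =>
        ((hv j).differentiableOn (by simp)).differentiableAt (hJ.mem_nhds ht)
      exact ⟨w, fun _ => hw⟩
    · exact ⟨0, fun h => absurd h ht⟩
  choose w hw using h
  exact ⟨w, fun j => ((contDiffOn_infty_iff_deriv_of_isOpen hJ).1 (hv j)).2.congr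
    fun t ht => (hw t ht j).deriv.symm, hw⟩
/-- Induction on `n`, for all smooth curves at once: `(t,x) ↦ ev (v t) x` is continuous on `J ×ˢ I` and has
`fderivWithin` `(τ,ξ) ↦ τ ev (w t) x + ξ ev (D (v t)) x` with `w` from `CK.exists_deriv`. -/
theorem kernel_of_CK {J : Set ℝ} (hJ : IsOpen J) {v : ℝ → Sm} (hv : CK ∞ J v) :
    ContDiffOn ℝ ∞ (fun p : ℝ × ℝ => ev (v p.1) p.2) (J ×ˢ I) := by
  refine contDiffOn_infty.2 fun n => ?_
  induction n generalizing v with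
  | zero =>
    refine contDiffOn_zero.2 ?_
    have h1 : ContinuousOn (fun p : ℝ × ℝ => jet 0 (v p.1)) (J ×ˢ I) :=
      (hv 0).continuousOn.comp continuousOn_fst fun p hp => hp.1
    exact h1.eval (continuous_projIcc.comp continuous_snd).continuousOn
  | succ n ih =>
    obtain ⟨w, hw, hd⟩ := hv.exists_deriv hJ
    have hf : ∀ p ∈ J ×ˢ I, HasFDerivWithinAt (fun p : ℝ × ℝ => ev (v p.1) p.2)
        (ev (w p.1) p.2 • ContinuousLinearMap.fst ℝ ℝ ℝ +
          ev (D (v p.1)) p.2 • ContinuousLinearMap.snd ℝ ℝ ℝ) (J ×ˢ I) p := fun p hp =>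
      (ker_hasFDerivWithinAt (hd p.1 hp.1) hp.2).mono (prod_mono (subset_univ _) Subset.rfl)
    rw [Nat.cast_succ]
    refine contDiffOn_succ_of_fderivWithin (fun p hp => (hf p hp).differentiableWithinAt) (by simp) ?_
    exact (((ih hw).smul contDiffOn_const).add ((ih hv.D).smul contDiffOn_const)).congr
      fun p hp => (hf p hp).fderivWithin (hJ.uniqueDiffOn.prod uI p hp)
/-- the chain rule along a path `(s, x s)` in `J ×ˢ I` -/
theorem hasDerivAt_ev_path {J : Set ℝ} (hJ : IsOpen J) {v : ℝ → Sm} (hv : CK ∞ J v) {v' : Sm} {t : ℝ}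
    (ht : t ∈ J) (hd : CD v v' t) {x : ℝ → ℝ} {x' : ℝ} (hx : HasDerivAt x x' t)
    (hm : ∀ s ∈ J, x s ∈ I) :
    HasDerivAt (fun s => ev (v s) (x s)) (ev v' (x t) + ev (D (v t)) (x t) * x') t := by
  have h1 := ker_hasFDerivWithinAt hd (hm t ht)
  have h2 : HasDerivWithinAt (fun s : ℝ => ((s, x s) : ℝ × ℝ)) (1, x') J t :=
    ((hasDerivAt_id t).prodMk hx).hasDerivWithinAt
  have h3 := (h1.comp_hasDerivWithinAt t h2 fun s hs => mk_mem_prod (mem_univ _) (hm s hs)).hasDerivAt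
    (hJ.mem_nhds ht)
  exact h3.congr_deriv (by simp)

end Crest.Agent.R213
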