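import Crest.Agent.R213.Kernel

/-! # Row 213, the symplectic potential

`y = g / q` is a smooth curve (`kernel_of_CK`, `CK_of_kernel`) with `y' = g' / q² = -A₀ g` (differentiate `q y = g`).  With the
antiderivative `𝒥 f = mk0 (x ↦ ∫₀ˣ f)` (`jet (j+1) (𝒥 f) = jet j f`, `jet 0 (𝒥 f)` a continuous linear function of `jet 0 f`),
`W = 𝒥 𝒥 y + α + β X`, `α' = -(T₀ g)(0)`, `β' = -(T₀ g)'(0)`. -/

set_option autoImplicit false
open Set Filter Topology
open scoped ContDiff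

noncomputable section
namespace Crest.Agent.R213

/-- the antiderivative on continuous functions -/
def potP : C(I, ℝ) →L[ℝ] C(I, ℝ) :=
  LinearMap.mkContinuous
    { toFun := fun f => ⟨fun x => ∫ y in (0 : ℝ)..x, ext0 f y,
        (intervalIntegral.continuous_primitive
          (fun _ _ => (continuous_ext0 f).intervalIntegrable _ _) 0).comp continuous_subtype_val⟩
      map_add' := fun f g => ContinuousMap.ext fun x => (towI x).map_add f g
      map_smul' := fun c f => ContinuousMap.ext fun x => (towI x).map_smul c f } 1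
    (fun f => (ContinuousMap.norm_le _ (by positivity)).2 fun x => by
      have := intervalIntegral.norm_integral_le_of_norm_le_const (a := 0) (b := x) (f := ext0 f)
        (C := ‖f‖) (fun x _ => f.norm_coe_le_norm _)
      refine this.trans ?_
      rw [sub_zero, abs_of_nonneg x.2.1, one_mul]
      exact mul_le_of_le_one_right (norm_nonneg _) x.2.2)

lemma potP_apply (f : C(I, ℝ)) {x : ℝ} (hx : x ∈ I) :
    ext0 (potP f) x = ∫ y in (0 : ℝ)..x, ext0 f y := ext0_of_mem _ hx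

lemma pot_exists (f : Sm) :
    ∃ F : Sm, jet 0 F = potP (jet 0 f) ∧ ∀ j, jet (j + 1) F = jet j f := by
  obtain ⟨F, hF⟩ := exists_of_tower (fun j => Nat.casesOn j (potP (jet 0 f)) fun i => jet i f) (by
    intro j x hx
    cases j with
    | zero =>
      show ext0 (potP (jet 0 f)) x = ext0 (potP (jet 0 f)) 0 + ∫ y in (0 : ℝ)..x, ext0 (jet 0 f) y
      rw [potP_apply _ hx, potP_apply _ (by simp), intervalIntegral.integral_same, zero_add]
    | succ j =>
      have := integral_ev_D ((D ^ j) f) (a := 0) (b := x) (by simp) hx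
      rw [← Dpow_succ] at this
      show ev ((D ^ j) f) x = ev ((D ^ j) f) 0 + ∫ y in (0 : ℝ)..x, ev ((D ^ (j + 1)) f) y
      rw [this]; ring)
  exact ⟨F, hF 0, fun j => hF (j + 1)⟩

/-- the antiderivative vanishing at `0` -/
def potJ (f : Sm) : Sm := (pot_exists f).choose

lemma jet_zero_potJ (f : Sm) : jet 0 (potJ f) = potP (jet 0 f) := (pot_exists f).choose_spec.1
lemma jet_succ_potJ (j : ℕ) (f : Sm) : jet (j + 1) (potJ f) = jet j f :=
  (pot_exists f).choose_spec.2 j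

lemma D_potJ (f : Sm) : D (potJ f) = f := by
  have := jet_succ_potJ 0 f
  rw [jet_succ] at this
  exact val_injective this

lemma potJ_D (f : Sm) : potJ (D f) = f - ev f 0 • (1 : Sm) := by
  refine Sm.ext' fun x hx => ?_
  have h1 : ev (potJ (D f)) x = ext0 (jet 0 (potJ (D f))) x := rfl
  rw [h1, jet_zero_potJ, potP_apply _ hx, ev_sub, ev_smul, ev_one, mul_one]
  exact integral_ev_D f (by simp) hx

lemma pot_CK {n : WithTop ℕ∞} {J : Set ℝ} {u : ℝ → Sm} (hu : CK n J u) :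
    CK n J fun t => potJ (u t) := by
  intro j
  cases j with
  | zero =>
    simp only [jet_zero_potJ]
    exact potP.contDiff.comp_contDiffOn (hu 0)
  | succ j =>
    simp only [jet_succ_potJ]
    exact hu j

lemma pot_CD {u : ℝ → Sm} {u' : Sm} {t : ℝ} (hu : CD u u' t) :
    CD (fun s => potJ (u s)) (potJ u') t := by
  intro j
  cases j with
  | zero =>
    simp only [jet_zero_potJ]
    exact potP.hasFDerivAt.comp_hasDerivAt t (hu 0)
  | succ j =>
    simp only [jet_succ_potJ]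
    exact hu j

lemma pot_prim {t₀ t₁ : ℝ} {a : ℝ → ℝ} (ha : ContDiffOn ℝ ∞ a (Ioo t₀ t₁)) :
    ∃ α : ℝ → ℝ, ContDiffOn ℝ ∞ α (Ioo t₀ t₁) ∧ ∀ t ∈ Ioo t₀ t₁, HasDerivAt α (a t) t := by
  have hc := ha.continuousOn
  have h : ∀ t ∈ Ioo t₀ t₁, HasDerivAt (fun s => ∫ r in ((t₀ + t₁) / 2)..s, a r) (a t) t := by
    intro t ht
    have hm : (t₀ + t₁) / 2 ∈ Ioo t₀ t₁ := ⟨by linarith [ht.1, ht.2], by linarith [ht.1, ht.2]⟩
    exact intervalIntegral.integral_hasDerivAt_right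
      (hc.mono (ordConnected_Ioo.uIcc_subset hm ht)).intervalIntegrable
      (hc.stronglyMeasurableAtFilter isOpen_Ioo t ht) (hc.continuousAt (isOpen_Ioo.mem_nhds ht))
  refine ⟨_, (contDiffOn_infty_iff_deriv_of_isOpen isOpen_Ioo).2
    ⟨fun t ht => (h t ht).differentiableAt.differentiableWithinAt, ?_⟩, h⟩
  exact ha.congr fun t ht => (h t ht).deriv

theorem exists_potential {t₀ t₁ : ℝ} {g : ℝ → Sm} (hg : CK ∞ (Ioo t₀ t₁) g)
    (hq : ∀ t ∈ Ioo t₀ t₁, ∀ x ∈ I, 0 < ev (1 - ph * g t) x)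
    (hd : ∀ t ∈ Ioo t₀ t₁, CD g (-((1 - ph * g t) ^ 2 * A0 (g t))) t) :
    ∃ W : ℝ → Sm, CK ∞ (Ioo t₀ t₁) W ∧ ∀ t ∈ Ioo t₀ t₁,
      (1 - ph * g t) * D (D (W t)) = g t ∧ CD W (-T 0 (g t)) t := by
  have hq' : CK ∞ (Ioo t₀ t₁) fun t => 1 - ph * g t := (CK.const 1).sub ((CK.const ph).mul hg)
  have hΦ : ContDiffOn ℝ ∞ (fun p : ℝ × ℝ => ev (g p.1) p.2 / ev (1 - ph * g p.1) p.2)
      (Ioo t₀ t₁ ×ˢ I) :=
    (kernel_of_CK isOpen_Ioo hg).div (kernel_of_CK isOpen_Ioo hq')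
      fun p hp => (hq p.1 hp.1 p.2 hp.2).ne'
  obtain ⟨y, hy, hqy⟩ : ∃ y : ℝ → Sm, CK ∞ (Ioo t₀ t₁) y ∧
      ∀ t ∈ Ioo t₀ t₁, (1 - ph * g t) * y t = g t := by
    refine ⟨_, CK_of_kernel isOpen_Ioo hΦ, fun t ht => Sm.ext' fun x hx => ?_⟩
    rw [ev_mul, ev_mk0 (contDiffOn_slice hΦ ht) hx]
    exact mul_div_cancel₀ _ (hq t ht x hx).ne'
  obtain ⟨w, -, hw⟩ := hy.exists_deriv isOpen_Ioo
  have hyd : ∀ t ∈ Ioo t₀ t₁, CD y (-A0 (g t)) t := fun t ht => by
    have h1 := ((CD.const 1).sub ((hd t ht).const_mul ph)).mul (hw t ht)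
    have h2 := (h1.congr (v := g) (by
      filter_upwards [isOpen_Ioo.mem_nhds ht] with s hs using (hqy s hs).symm)).unique (hd t ht)
    have h3 : (1 - ph * g t) ^ 2 * (w t + A0 (g t)) = 0 := by
      linear_combination (1 - ph * g t) * h2 - ph * (1 - ph * g t) ^ 2 * A0 (g t) * hqy t ht
    refine (hw t ht).congr_deriv (Sm.ext' fun x hx => ?_)
    have h4 := congrArg (fun f => ev f x) h3
    simp only [ev_mul, ev_pow, ev_add, ev_zero] at h4
    have h5 := (mul_eq_zero.1 h4).resolve_left (pow_ne_zero 2 (hq t ht x hx).ne')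
    rw [ev_neg]
    linarith
  obtain ⟨α, hα, hα'⟩ := pot_prim ((hg.T 0).ev 0).neg
  obtain ⟨β, hβ, hβ'⟩ := pot_prim ((hg.T 0).D.ev 0).neg
  refine ⟨fun t => potJ (potJ (y t)) + α t • (1 : Sm) + β t • X,
    ((pot_CK (pot_CK hy)).add ((CK.const 1).smul hα)).add ((CK.const X).smul hβ), fun t ht => ⟨?_, ?_⟩⟩
  · simp only [map_add, map_smul, D_potJ, D_one, D_X, smul_zero, add_zero]
    exact hqy t ht
  · refine (((pot_CD (pot_CD (hyd t ht))).add ((CD.const 1).smul (hα' t ht))).add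
      ((CD.const X).smul (hβ' t ht))).congr_deriv ?_
    have e1 : potJ (-A0 (g t)) = D (-T 0 (g t) + ev (D (T 0 (g t))) 0 • X) := by
      rw [A0_apply, ← map_neg, potJ_D]
      simp
    rw [e1, potJ_D]
    have h0 : ev X 0 = 0 := ev_X (by simp)
    simp only [ev_add, ev_neg, ev_smul, h0, mul_zero, add_zero, smul_zero, neg_smul]
    ring

end Crest.Agent.R213
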