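import Crest.Agent.R213.LegS
import Crest.Agent.R213.Inv
import Crest.Agent.R213.Pot
import Crest.Agent.R213.GeoScal
import Crest.Agent.R213.GeoKahler

/-! # Row 213, from the 1D flow to the Calabi flow

`W` from `exists_potential`; `t ↦ Th (W t)`, `Hw (W t)` are smooth curves (`kernel_of_CK`, `CK_of_kernel`), `Ψ` from `exists_inverse`,
`η t = cmp (Hw (W t)) (Ψ t)`.  Time derivative at fixed `ξ` (`hasDerivAt_ev_path`, `CK.exists_deriv`): with `x = Ψ(t,ξ)`,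
`Θ_t + Θ_x x_t = 0`, `Θ_t = x (1-x) E w'_t / Dn²`, `H_t = x w'_t - w_t - x E w'_t / Dn`, `H_x / Θ_x = (1-E) Dn / E`, hence
`η_t = H_t + H_x x_t = -w_t = T₀ g (x)`. -/

set_option autoImplicit false
open Set Filter Topology
open scoped ContDiff ComplexOrder
open Crest.GeometryTopology.ProjKahler

noncomputable section
namespace Crest.Agent.R213

lemma leg_Ew {J : Set ℝ} (hJ : IsOpen J) {W : ℝ → Sm} (hW : CK ∞ J W) : CK ∞ J fun t => Ew (W t) :=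
  CK_of_kernel hJ (kernel_of_CK hJ hW.D).exp

lemma leg_Dn {J : Set ℝ} (hJ : IsOpen J) {W : ℝ → Sm} (hW : CK ∞ J W) : CK ∞ J fun t => Dn (W t) :=
  (CK.const _).add ((CK.const _).mul (leg_Ew hJ hW))

lemma leg_Th {J : Set ℝ} (hJ : IsOpen J) {W : ℝ → Sm} (hW : CK ∞ J W) : CK ∞ J fun t => Th (W t) :=
  CK_of_kernel hJ ((kernel_of_CK hJ ((CK.const X).mul (leg_Ew hJ hW))).div
    (kernel_of_CK hJ (leg_Dn hJ hW)) fun _ hp => (Dn_pos _ hp.2).ne')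

lemma leg_Hw {J : Set ℝ} (hJ : IsOpen J) {W : ℝ → Sm} (hW : CK ∞ J W) : CK ∞ J fun t => Hw (W t) :=
  (((CK.const _).mul hW.D).sub hW).sub (CK_of_kernel hJ
    ((kernel_of_CK hJ (leg_Dn hJ hW)).log fun _ hp => (Dn_pos _ hp.2).ne'))

lemma leg_Dn_ev (W : Sm) {x : ℝ} (hx : x ∈ I) : ev (Dn W) x = 1 - x + x * Real.exp (ev (D W) x) := by
  simp [Dn, hx, ev_Ew W hx]

/-- the time derivative of the Legendre transform at fixed `ξ` -/
lemma leg_deriv {J : Set ℝ} (hJ : IsOpen J) {W : ℝ → Sm} (hW : CK ∞ J W) {W' : Sm} {t : ℝ} (ht : t ∈ J)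
    (hd : CD W W' t) {x : ℝ → ℝ} {x' ξ : ℝ} (hx : HasDerivAt x x' t) (hm : ∀ s ∈ J, x s ∈ I)
    (hξ : ∀ s ∈ J, ev (Th (W s)) (x s) = ξ) :
    HasDerivAt (fun s => ev (Hw (W s)) (x s)) (-ev W' (x t)) t := by
  have hw := hasDerivAt_ev_path hJ hW ht hd hx hm
  have hu := hasDerivAt_ev_path hJ hW.D ht hd.D hx hm
  generalize ev (D W') (x t) + ev (D (D (W t))) (x t) * x' = u' at hu
  have hN := (hx.const_sub 1).add (hx.mul hu.exp)
  have hp := Dn_pos (W t) (hm t ht)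
  rw [leg_Dn_ev _ (hm t ht)] at hp
  have h1 := (hx.mul hu.exp).div hN hp.ne'
  have h2 : HasDerivAt (fun _ : ℝ => ξ) _ t := h1.congr_of_eventuallyEq (by
    filter_upwards [hJ.mem_nhds ht] with s hs
    rw [← hξ s hs, ev_Th _ (hm s hs), leg_Dn_ev _ (hm s hs), ev_Ew _ (hm s hs)]
    rfl)
  have h3 := h2.unique (hasDerivAt_const t ξ)
  have h4 := (((hx.mul hu).sub hw).sub (hN.log hp.ne')).congr_of_eventuallyEq
    (f₁ := fun s => ev (Hw (W s)) (x s)) (by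
    filter_upwards [hJ.mem_nhds ht] with s hs
    rw [ev_Hw _ (hm s hs), leg_Dn_ev _ (hm s hs)]
    rfl)
  refine h4.congr_deriv ?_
  simp only [Pi.add_apply, Pi.mul_apply] at h3 ⊢
  have hE := Real.exp_pos (ev (D (W t)) (x t))
  generalize Real.exp (ev (D (W t)) (x t)) = E at *
  rw [div_eq_zero_iff, or_iff_left (pow_ne_zero _ hp.ne')] at h3
  have h5 : x' + x t * (1 - x t) * u' = 0 := by
    refine (mul_eq_zero.1 (show E * _ = 0 from ?_)).resolve_left hE.ne'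
    linear_combination h3
  have h6 : (-x' + (x' * E + x t * (E * u'))) / (1 - x t + x t * E) = x t * u' := by
    rw [div_eq_iff hp.ne']
    linear_combination (E - 1) * h5
  rw [h6]
  ring

theorem legendre {t₀ t₁ : ℝ} {g : ℝ → Sm} (hg : CK ∞ (Ioo t₀ t₁) g)
    (hq : ∀ t ∈ Ioo t₀ t₁, ∀ x ∈ I, 0 < ev (1 - ph * g t) x)
    (hd : ∀ t ∈ Ioo t₀ t₁, CD g (-((1 - ph * g t) ^ 2 * A0 (g t))) t) :
    ∃ η : ℝ → Sm, CK ∞ (Ioo t₀ t₁) η ∧ ∀ t ∈ Ioo t₀ t₁, IsKahlerWith fsPot (PE (η t)) ∧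
      (∀ z : V 10, HasDerivAt (fun s => (PE (η s)).h z)
        (scalarCurv (fun u => fsPot u + (PE (η t)).h u) z - 110) t) ∧
      scalarCurv (fun u => fsPot u + (PE (η t)).h u) 0 = 110 * (1 + ev (g t) 0) := by
  obtain ⟨W, hW, HW⟩ := exists_potential hg hq hd
  obtain ⟨Ψ, hΨ, HΨ⟩ := exists_inverse isOpen_Ioo (leg_Th isOpen_Ioo hW)
    (fun t _ => by rw [ev_Th _ (by simp)]; simp)
    (fun t _ => by
      rw [ev_Th _ (by simp), leg_Dn_ev _ (by simp), ev_Ew _ (by simp)]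
      simp)
    fun t ht x hx => D_Th_pos (hq t ht) (HW t ht).1 hx
  obtain ⟨Ψ', -, hΨ'⟩ := hΨ.exists_deriv isOpen_Ioo
  refine ⟨fun t => cmp (Hw (W t)) (Ψ t), ?_, fun t ht => ?_⟩
  · exact CK_of_kernel isOpen_Ioo (Φ := fun p => ev (Hw (W p.1)) (ev (Ψ p.1) p.2))
      ((kernel_of_CK isOpen_Ioo (leg_Hw isOpen_Ioo hW)).comp
        (contDiffOn_fst.prodMk (kernel_of_CK isOpen_Ioo hΨ))
        fun p hp => ⟨hp.1, ((HΨ p.1 hp.1).1 p.2 hp.2).1⟩)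
  obtain ⟨h1, h2, Λ, h3, h4⟩ := legendre_static (hq t ht) (HW t ht).1 (HΨ t ht).1
  have hs : ∀ z : V 10, scalarCurv (fun u => fsPot u + (PE (cmp (Hw (W t)) (Ψ t))).h u) z =
      110 + ev (T 0 (g t)) (ev (Ψ t) (xi0 z)) := fun z =>
    (scal_formula h1 h2 h3 z).trans (h4 _ (xi0_memI z))
  refine ⟨isKahler_PE h1 h2, fun z => ?_, ?_⟩
  · have := leg_deriv isOpen_Ioo hW ht (HW t ht).2 ((hΨ' t ht).ev (xi0 z))
      (fun s hs => ((HΨ s hs).1 _ (xi0_memI z)).1) fun s hs => ((HΨ s hs).1 _ (xi0_memI z)).2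
    rw [hs]
    refine (this.congr_of_eventuallyEq ?_).congr_deriv (by simp)
    filter_upwards [isOpen_Ioo.mem_nhds ht] with s hs
    exact ev_cmp _ (fun x hx => ((HΨ s hs).1 x hx).1) (xi0_memI z)
  · have h0 : (0 : ℝ) ∈ I := by simp
    rw [hs, show xi0 0 = 0 by simp [xi0], (HΨ t ht).2]
    simp [T_apply, dl_apply, h0]
    ring

end Crest.Agent.R213
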