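import Crest.Agent.R213.GDefs
import Crest.Agent.R213.Cut
import Crest.Agent.R213.Alg

/-! # Row 213, the Legendre transform at a fixed time

With `E = Ew W`, `Dn = Dn W > 0`, `q = 1 - φ₀ g`, `1 + φ₀ w'' = 1/q`:
`E' = E w''`, `Θ' = E / (q Dn²)`, `H' = (1 - E) / (q Dn)`, `1 - Θ = (1-x)/Dn`.  For `η = H ∘ Ψ`, `x = Ψ(ξ)`: `Ψ' = q Dn² / E`,
`η' = (1-E) Dn / E`, `P = Dn / E`, `ξ P = x`, `(1-ξ) Ψ' = (1-x) q P`, and `(1-x) q Dn' - E = -q Dn` gives `Λ = P · Λ̂(x)`,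
`ξ Λ = (x Λ̂)(x)`; finish with `scal_identity`. -/

set_option autoImplicit false
open Set Filter Topology
open scoped ContDiff ComplexOrder
open Crest.GeometryTopology.ProjKahler

noncomputable section
namespace Crest.Agent.R213

lemma ev_Ew (W : Sm) {x : ℝ} (hx : x ∈ I) : ev (Ew W) x = Real.exp (ev (D W) x) :=
  ev_mk0 (contDiffOn_ev _).exp hx
lemma D_Ew (W : Sm) : D (Ew W) = Ew W * D (D W) := by
  refine Sm.ext' fun x hx => ?_
  rw [ev_D_of hx (fun y hy => ev_Ew W hy) (hasDerivWithinAt_ev (D W) hx).exp, ev_mul, ev_Ew W hx]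
lemma legs_E_pos (W : Sm) {x : ℝ} (hx : x ∈ I) : 0 < ev (Ew W) x := by
  rw [ev_Ew W hx]; exact Real.exp_pos _
lemma Dn_pos (W : Sm) {x : ℝ} (hx : x ∈ I) : 0 < ev (Dn W) x := by
  have h := legs_E_pos W hx
  simp only [Dn, ev_add, ev_sub, ev_mul, ev_one, ev_X hx]
  rcases hx.1.eq_or_lt with h0 | h0
  · rw [← h0]; norm_num
  · have := mul_pos h0 h
    linarith [hx.2]
lemma ev_Th (W : Sm) {x : ℝ} (hx : x ∈ I) : ev (Th W) x = x * ev (Ew W) x / ev (Dn W) x := by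
  rw [Th, ev_mk0 (f := fun x => ev (X * Ew W) x / ev (Dn W) x)
    ((contDiffOn_ev _).div (contDiffOn_ev _) fun y hy => (Dn_pos W hy).ne') hx, ev_mul, ev_X hx]
lemma Th_mul (W : Sm) : Th W * Dn W = X * Ew W := by
  refine Sm.ext' fun x hx => ?_
  rw [ev_mul, ev_Th W hx, div_mul_cancel₀ _ (Dn_pos W hx).ne', ev_mul, ev_X hx]
lemma legs_D_Dn (W : Sm) : D (Dn W) = -1 + Ew W + X * Ew W * D (D W) := by
  simp only [Dn, map_add, map_sub, D_mul, D_one, D_X, D_Ew]; ring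
lemma D_Th (W : Sm) : D (Th W) * Dn W ^ 2 = Ew W * (1 + ph * D (D W)) := by
  have h1 := Th_mul W
  have h2 := congrArg D h1
  rw [D_mul, D_mul, D_X, D_Ew, legs_D_Dn] at h2
  have h3 : Dn W = 1 - X + X * Ew W := rfl
  rw [ph]
  linear_combination Dn W * h2 - (-1 + Ew W + X * Ew W * D (D W)) * h1 +
    (Ew W + X * Ew W * D (D W)) * h3
lemma legs_ev_log (W : Sm) {x : ℝ} (hx : x ∈ I) :
    ev (mk0 fun x => Real.log (ev (Dn W) x)) x = Real.log (ev (Dn W) x) :=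
  ev_mk0 ((contDiffOn_ev _).log fun _ hy => (Dn_pos W hy).ne') hx
lemma ev_Hw (W : Sm) {x : ℝ} (hx : x ∈ I) :
    ev (Hw W) x = x * ev (D W) x - ev W x - Real.log (ev (Dn W) x) := by
  rw [Hw, ev_sub, ev_sub, ev_mul, ev_X hx, legs_ev_log W hx]
lemma D_Hw (W : Sm) : D (Hw W) * Dn W = (1 - Ew W) * (1 + ph * D (D W)) := by
  have h1 : D (mk0 fun x => Real.log (ev (Dn W) x)) * Dn W = D (Dn W) := by
    refine Sm.ext' fun x hx => ?_
    rw [ev_mul, ev_D_of hx (fun y hy => legs_ev_log W hy)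
      ((hasDerivWithinAt_ev (Dn W) hx).log (Dn_pos W hx).ne'), div_mul_cancel₀ _ (Dn_pos W hx).ne']
  rw [legs_D_Dn] at h1
  have h3 : Dn W = 1 - X + X * Ew W := rfl
  rw [Hw, map_sub, map_sub, D_mul, D_X, ph]
  linear_combination -h1 + X * D (D W) * h3
lemma legs_q {W g : Sm} (hW : (1 - ph * g) * D (D W) = g) :
    (1 - ph * g) * (1 + ph * D (D W)) = 1 := by
  linear_combination ph * hW
lemma legs_Th {W g : Sm} (hW : (1 - ph * g) * D (D W) = g) :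
    (1 - ph * g) * Dn W ^ 2 * D (Th W) = Ew W := by
  linear_combination (1 - ph * g) * D_Th W + Ew W * legs_q hW
lemma legs_Hw {W g : Sm} (hW : (1 - ph * g) * D (D W) = g) :
    (1 - ph * g) * Dn W * D (Hw W) = 1 - Ew W := by
  linear_combination (1 - ph * g) * D_Hw W + (1 - Ew W) * legs_q hW
lemma legs_Dn {W g : Sm} (hW : (1 - ph * g) * D (D W) = g) :
    (1 - X) * (1 - ph * g) * D (Dn W) - Ew W = -((1 - ph * g) * Dn W) := by
  have h := legs_q hW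
  have h3 : Dn W = 1 - X + X * Ew W := rfl
  have h4 : ph = X * (1 - X) := rfl
  rw [legs_D_Dn]
  linear_combination Ew W * h + (1 - ph * g) * h3 - Ew W * (1 - ph * g) * D (D W) * h4
lemma D_Th_pos {W g : Sm} (hq : ∀ x ∈ I, 0 < ev (1 - ph * g) x) (hW : (1 - ph * g) * D (D W) = g)
    {x : ℝ} (hx : x ∈ I) : 0 < ev (D (Th W)) x := by
  have h := congrArg (fun f => ev f x) (legs_Th hW)
  simp only [ev_mul, ev_pow] at h
  have h1 := legs_E_pos W hx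
  rw [← h] at h1
  exact pos_of_mul_pos_right h1 (mul_pos (hq x hx) (pow_pos (Dn_pos W hx) 2)).le

/-- composition with `Ψ` as a ring homomorphism -/
def legs_c {Ψ : Sm} (hΨ : ∀ x ∈ I, ev Ψ x ∈ I) : Sm →+* Sm where
  toFun f := cmp f Ψ
  map_one' := Sm.ext' fun x hx => by simp [ev_cmp _ hΨ hx]
  map_mul' f g := Sm.ext' fun x hx => by simp [ev_cmp _ hΨ hx]
  map_zero' := Sm.ext' fun x hx => by simp [ev_cmp _ hΨ hx]
  map_add' f g := Sm.ext' fun x hx => by simp [ev_cmp _ hΨ hx]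

lemma legs_cancel {e f g : Sm} (he : ∀ x ∈ I, ev e x ≠ 0) (h : e * f = e * g) : f = g := by
  refine Sm.ext' fun x hx => mul_left_cancel₀ (he x hx) ?_
  rw [← ev_mul, ← ev_mul, h]

lemma legs_alg {e n P P1 S1 S2 Q dq G W2 dN A y : Sm} (he : ∀ x ∈ I, ev e x ≠ 0)
    (h1 : P * e = n) (h2 : e * S1 = Q * n ^ 2) (h3 : P1 * e + P * (e * W2 * S1) = dN * S1)
    (h4 : e * W2 * S1 * S1 + e * S2 = dq * S1 * n ^ 2 + Q * (2 * n * (dN * S1)))
    (h5 : A * n = y) (h6 : Q * W2 = G) (h7 : y * Q * dN - e = -(Q * n)) :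
    P * S1 * (P * (-11 * Q + y * dq - 10 * y * G) + 11) = A * (9 * P1 * S1 + P * S2) := by
  subst h1 h5 h6
  have e1 : S1 = Q * P ^ 2 * e := legs_cancel he (by linear_combination h2)
  have e2 : P1 = (dN - P * e * W2) * Q * P ^ 2 :=
    legs_cancel he (by linear_combination h3 + (dN - P * e * W2) * e1)
  have e3 : S2 = S1 * (dq * P ^ 2 * e + 2 * Q * P * dN - W2 * S1) :=
    legs_cancel he (by linear_combination h4)
  have e4 : A * P * Q * dN - 1 = -(Q * P) := legs_cancel he (by linear_combination h7)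
  rw [e3, e2, e1]
  linear_combination (-11 * P * Q * P ^ 2 * e) * e4

theorem legendre_static {W g Ψ : Sm} (hq : ∀ x ∈ I, 0 < ev (1 - ph * g) x)
    (hW : (1 - ph * g) * D (D W) = g) (hΨ : ∀ ξ ∈ I, ev Ψ ξ ∈ I ∧ ev (Th W) (ev Ψ ξ) = ξ) :
    (∀ ξ ∈ I, 0 < ev (Pf (cmp (Hw W) Ψ)) ξ) ∧ (∀ ξ ∈ I, 0 < ev (D (Ps (cmp (Hw W) Ψ))) ξ) ∧
    ∃ Λ : Sm, Pf (cmp (Hw W) Ψ) * D (Ps (cmp (Hw W) Ψ)) * (Λ + 11) =
        (1 - X) * (9 * D (Pf (cmp (Hw W) Ψ)) * D (Ps (cmp (Hw W) Ψ)) +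
          Pf (cmp (Hw W) Ψ) * D (D (Ps (cmp (Hw W) Ψ)))) ∧
      ∀ ξ ∈ I, -(9 * ev Λ ξ / ev (Pf (cmp (Hw W) Ψ)) ξ +
        ev (D (X * Λ)) ξ / ev (D (Ps (cmp (Hw W) Ψ))) ξ) = 110 + ev (T 0 g) (ev Ψ ξ) := by
  have hI : ∀ x ∈ I, ev Ψ x ∈ I := fun x hx => (hΨ x hx).1
  set c := legs_c hI with hc
  have cev : ∀ f, ∀ x ∈ I, ev (c f) x = ev f (ev Ψ x) := fun f x hx => ev_cmp f hI hx
  have cD : ∀ f, D (c f) = c (D f) * D Ψ := fun f => D_cmp f hI
  have cX : c X = Ψ := Sm.ext' fun x hx => by rw [cev _ x hx, ev_X (hI x hx)]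
  have cT : c (Th W) = X := Sm.ext' fun x hx => by rw [cev _ x hx, (hΨ x hx).2, ev_X hx]
  have cH : cmp (Hw W) Ψ = c (Hw W) := rfl
  have he : ∀ x ∈ I, 0 < ev (c (Ew W)) x := fun x hx => by
    rw [cev _ x hx]; exact legs_E_pos W (hI x hx)
  have he' : ∀ x ∈ I, ev (c (Ew W)) x ≠ 0 := fun x hx => (he x hx).ne'
  have hn : ∀ x ∈ I, 0 < ev (c (Dn W)) x := fun x hx => by
    rw [cev _ x hx]; exact Dn_pos W (hI x hx)
  have hQ : ∀ x ∈ I, 0 < ev (c (1 - ph * g)) x := fun x hx => by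
    rw [cev _ x hx]; exact hq _ (hI x hx)
  have a1 : c (D (Th W)) * D Ψ = 1 := by rw [← cD, cT, D_X]
  have a2 := congrArg c (legs_Th hW)
  have a3 := congrArg c (legs_Hw hW)
  have a4 := congrArg c (Th_mul W)
  have a5 : c (Dn W) = 1 - Ψ + Ψ * c (Ew W) := by
    rw [Dn, map_add, map_sub, map_mul, map_one, cX]
  have a6 := congrArg c hW
  have a7 := congrArg c (legs_Dn hW)
  rw [map_mul, map_mul, map_pow] at a2
  rw [map_mul, map_mul, map_sub c 1 (Ew W), map_one] at a3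
  rw [map_mul, map_mul, cT, cX] at a4
  rw [map_mul] at a6
  rw [map_sub, map_mul, map_mul, map_sub c 1 X, map_one, cX, map_neg, map_mul] at a7
  have h2 : c (Ew W) * D Ψ = c (1 - ph * g) * c (Dn W) ^ 2 := by
    linear_combination (c (1 - ph * g) * c (Dn W) ^ 2) * a1 - D Ψ * a2
  have h5 : (1 - X) * c (Dn W) = 1 - Ψ := by linear_combination a5 - a4
  have h1 : Pf (c (Hw W)) * c (Ew W) = c (Dn W) := by
    rw [Pf, cD]
    linear_combination (1 - X) * c (D (Hw W)) * h2 + (1 - X) * c (Dn W) * a3 +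
      (1 - c (Ew W)) * h5 - a5
  have hPs : Ps (c (Hw W)) = Ψ := legs_cancel he' (by
    rw [Ps]; linear_combination X * h1 + a4)
  have hP : ∀ x ∈ I, 0 < ev (Pf (c (Hw W))) x := fun x hx => by
    have := hn x hx
    rw [← h1, ev_mul] at this
    exact pos_of_mul_pos_left this (he x hx).le
  have hS : ∀ x ∈ I, 0 < ev (D Ψ) x := fun x hx => by
    have : 0 < ev (c (1 - ph * g) * c (Dn W) ^ 2) x := by
      rw [ev_mul, ev_pow]; exact mul_pos (hQ x hx) (pow_pos (hn x hx) 2)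
    rw [← h2, ev_mul] at this
    exact pos_of_mul_pos_right this (he x hx).le
  have dE : D (c (Ew W)) = c (Ew W) * c (D (D W)) * D Ψ := by rw [cD, D_Ew, map_mul]
  have h3 := congrArg D h1
  have h4 := congrArg D h2
  rw [D_mul, dE, cD (Dn W)] at h3
  rw [D_mul, D_mul, D_sq, dE, cD (Dn W), cD (1 - ph * g)] at h4
  rw [cH, hPs]
  refine ⟨hP, hS, Pf (c (Hw W)) * c (Lamh g), ?_, fun ξ hξ => ?_⟩
  · have hL : c (Lamh g) = -11 * c (1 - ph * g) + (1 - Ψ) * c (D (1 - ph * g)) -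
        10 * (1 - Ψ) * c g := by
      rw [Lamh, map_sub c _ (10 * (1 - X) * g), map_add, map_mul, map_mul, map_mul, map_mul,
        map_sub c 1 X, map_one, cX, map_neg, map_ofNat, map_ofNat]
    rw [hL]
    exact legs_alg he' h1 h2 h3 h4 h5 a6 a7
  · have b1 : X * (Pf (c (Hw W)) * c (Lamh g)) = c (X * Lamh g) := by
      rw [map_mul, cX, ← mul_assoc]
      exact congrArg (· * c (Lamh g)) hPs
    have b2 := congrArg (fun f => ev f (ev Ψ ξ)) (scal_identity g)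
    simp only [ev_neg, ev_add, ev_mul, ev_ofNat] at b2
    rw [b1, cD, ev_mul, ev_mul, cev _ ξ hξ, cev _ ξ hξ, ← b2,
      mul_div_cancel_right₀ _ (hS ξ hξ).ne']
    have := (hP ξ hξ).ne'
    field_simp

end Crest.Agent.R213
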