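import Crest.Agent.R213.ODefs

/-! # Row 213, solutions of exponential growth of the far field linear equation decay

`k = e^{2τ/3}`, `V = e^{2τ} (f₀, f₁/k, f₂/k²)`: `V₀' = k V₁ + 2 V₀`, `V₁' = k V₂ + (4/3) V₁`,
`V₂' = -k V₀ + π₂`, `π₂ = -k (κ-1) V₀ + (2/3 - 18) V₂ - 71 V₁/k + 90 V₀/k² + k F`.  Let `g₁ = V₀+V₁`, `g₂ = V₁+V₂`, `d = V₀-V₁+V₂`,
`Q = QQ g₁ g₂`, `M = 100 |B| + 1`; `|V_i| ≤ (2√Q + |d|)/3`, `Q' = k Q + (2g₁-g₂)(π₀+π₁) + (2g₂-g₁)(π₁+π₂)`, `d' = -k d + π₀-π₁+π₂`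
(`π₀ = 2V₀`, `π₁ = (4/3) V₁`).  For `τ ≥ τ₁` (`k ≥ 200`) the cone `{Q ≥ d², Q ≥ M²}` is forward invariant and there `Q' ≥ k Q/2`,
which contradicts the growth bound; so `Q < max d² M²` on `[τ₁,∞)`, and then `(d²)' < 0` whenever `|d| ≥ M`. -/

set_option autoImplicit false
open Set Filter Topology
open scoped ContDiff

noncomputable section
namespace Crest.Agent.R213

/-! The proof below uses `w = (Q - d²)/3 = V₀V₁ - V₀V₂ + V₁V₂`, which satisfies `w' ≥ k (|V|²/4 - 5 B²)` for large `k`;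
so `w ≤ 10 B²` by the growth bound, `|V|² ≤ 2 d² + 2 w`, and `(d²)' ≤ -k (d² - 4 B²)`. -/

lemma lemL_in1 {x y z k ε F B a b : ℝ} (hk : 1000 ≤ k) (hε : |ε| ≤ 1 / 20) (hF : |F| ≤ B)
    (ha : 0 ≤ a) (ha' : a ≤ 1) (hb : 0 ≤ b) (hb' : b ≤ 1) :
    k / 2 * (x * y - x * z + y * z - 10 * B ^ 2) ≤
      (2 * x + k * y) * (y - z) + (4 / 3 * y + k * z) * (x + z) +
        (-(k * (1 + ε) * x) - 52 / 3 * z - a * y + b * x + k * F) * (y - x) := by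
  obtain ⟨S, hS⟩ : ∃ S, S = x ^ 2 + y ^ 2 + z ^ 2 := ⟨_, rfl⟩
  have hS0 : 0 ≤ S := by rw [hS]; positivity
  have hF2 : F ^ 2 ≤ B ^ 2 := sq_le_sq' (abs_le.1 hF).1 (abs_le.1 hF).2
  obtain ⟨e1, e2⟩ := abs_le.1 hε
  have h1 : S / 2 ≤ x ^ 2 + y ^ 2 + z ^ 2 - x * y + x * z - y * z := by
    nlinarith [sq_nonneg (x - y + z)]
  have h2 : -(3 / 40 * S) ≤ -(ε * (x * (y - x))) := by
    have a1 : x * (y - x) ≤ 3 / 2 * S := by nlinarith [sq_nonneg (x - y), sq_nonneg z, sq_nonneg x]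
    have a2 : -(3 / 2 * S) ≤ x * (y - x) := by nlinarith [sq_nonneg (x + y), sq_nonneg z, sq_nonneg y]
    nlinarith
  have h3 : -(S / 10) - 5 * B ^ 2 ≤ F * (y - x) := by
    nlinarith [sq_nonneg (y - x + 10 * F), sq_nonneg (x + y), sq_nonneg z]
  have h4 : -(3 / 2 * S) ≤ -(a * (y * (y - x))) := by
    have a1 : y * (y - x) ≤ 3 / 2 * S := by nlinarith [sq_nonneg (x + y), sq_nonneg z, sq_nonneg x]
    nlinarith
  have h5 : -(3 / 2 * S) ≤ b * (x * (y - x)) := by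
    have a2 : -(3 / 2 * S) ≤ x * (y - x) := by nlinarith [sq_nonneg (x + y), sq_nonneg z, sq_nonneg y]
    nlinarith
  have h6 : -(40 * S) ≤ 2 * x * (y - z) + 4 / 3 * y * (x + z) - 52 / 3 * z * (y - x) := by
    nlinarith [sq_nonneg (x + y), sq_nonneg (x + z), sq_nonneg (y - z), sq_nonneg x, sq_nonneg y,
      sq_nonneg z]
  have h7 : 2 * (x * y - x * z + y * z) ≤ S := by
    nlinarith [sq_nonneg (x - y + z)]
  have hk0 : 0 ≤ k := by linarith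
  have h8 := mul_le_mul_of_nonneg_left (add_le_add (add_le_add h1 h2) h3) hk0
  have h9 := mul_le_mul_of_nonneg_left h7 hk0
  have h10 := mul_le_mul_of_nonneg_right hk hS0
  nlinarith

lemma lemL_in2 {x y z k ε F B a b : ℝ} (hk : 1000 ≤ k) (hε : |ε| ≤ 1 / 20) (hF : |F| ≤ B)
    (ha : 0 ≤ a) (ha' : a ≤ 1) (hb : 0 ≤ b) (hb' : b ≤ 1)
    (hw : x * y - x * z + y * z ≤ 10 * B ^ 2) :
    2 * (x - y + z) * ((2 * x + k * y) - (4 / 3 * y + k * z) +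
        (-(k * (1 + ε) * x) - 52 / 3 * z - a * y + b * x + k * F)) ≤
      -k * ((x - y + z) ^ 2 - 4 * B ^ 2) := by
  obtain ⟨d, hd⟩ : ∃ d, d = x - y + z := ⟨_, rfl⟩
  have hS : x ^ 2 + y ^ 2 + z ^ 2 ≤ 2 * d ^ 2 + 20 * B ^ 2 := by
    rw [hd]; nlinarith [sq_nonneg (x - y + z)]
  have hF2 : F ^ 2 ≤ B ^ 2 := sq_le_sq' (abs_le.1 hF).1 (abs_le.1 hF).2
  obtain ⟨e1, e2⟩ := abs_le.1 hε
  have h1 : -(ε * (2 * (d * x))) ≤ (x ^ 2 + d ^ 2) / 20 := by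
    have a1 : 2 * (d * x) ≤ x ^ 2 + d ^ 2 := by nlinarith [sq_nonneg (x - d)]
    have a2 : -(x ^ 2 + d ^ 2) ≤ 2 * (d * x) := by nlinarith [sq_nonneg (x + d)]
    nlinarith
  have h2 : 2 * (d * F) ≤ d ^ 2 / 2 + 2 * B ^ 2 := by nlinarith [sq_nonneg (d - 2 * F)]
  have h3 : b * (2 * (d * x)) ≤ x ^ 2 + d ^ 2 := by
    have a1 : 2 * (d * x) ≤ x ^ 2 + d ^ 2 := by nlinarith [sq_nonneg (x - d)]
    nlinarith [sq_nonneg x, sq_nonneg d]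
  have h4 : -(a * (2 * (d * y))) ≤ y ^ 2 + d ^ 2 := by
    have a2 : -(y ^ 2 + d ^ 2) ≤ 2 * (d * y) := by nlinarith [sq_nonneg (y + d)]
    nlinarith [sq_nonneg y, sq_nonneg d]
  have h5 : 2 * d * (2 * x - 4 / 3 * y - 52 / 3 * z) ≤
      21 * d ^ 2 + 18 * (x ^ 2 + y ^ 2 + z ^ 2) := by
    nlinarith [sq_nonneg (x - d), sq_nonneg (y + d), sq_nonneg (z + d), sq_nonneg x, sq_nonneg y,
      sq_nonneg z, sq_nonneg d]
  have hk0 : 0 ≤ k := by linarith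
  have h6 : x ^ 2 ≤ 2 * d ^ 2 + 20 * B ^ 2 := by nlinarith [sq_nonneg y, sq_nonneg z]
  have h7 : -(ε * (2 * (d * x))) + 2 * (d * F) ≤ 13 / 20 * d ^ 2 + 3 * B ^ 2 := by linarith
  have h8 := mul_le_mul_of_nonneg_left h7 hk0
  have h9 := mul_le_mul_of_nonneg_right hk (sq_nonneg d)
  have h10 := mul_le_mul_of_nonneg_right hk (sq_nonneg B)
  have e : (2 * x + k * y) - (4 / 3 * y + k * z) +
      (-(k * (1 + ε) * x) - 52 / 3 * z - a * y + b * x + k * F) =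
      -(k * d) + (2 * x - 4 / 3 * y - 52 / 3 * z) - a * y + b * x - k * ε * x + k * F := by
    rw [hd]; ring
  rw [e, ← hd]
  nlinarith [sq_nonneg z, sq_nonneg d, sq_nonneg B]

lemma lemL_k (τ : ℝ) : HasDerivAt (fun s : ℝ => Real.exp (2 / 3 * s)) (2 / 3 * Real.exp (2 / 3 * τ)) τ := by
  simpa [mul_comm] using ((hasDerivAt_id τ).const_mul (2 / 3 : ℝ)).exp

/-- `u' ≥ c k u` makes `u exp (-(3/2) c k)` monotone. -/
lemma lemL_mono {u : ℝ → ℝ} {τ₁ c : ℝ}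
    (h : ∀ τ ≥ τ₁, ∃ u', HasDerivAt u u' τ ∧ c * Real.exp (2 / 3 * τ) * u τ ≤ u') :
    MonotoneOn (fun τ => u τ * Real.exp (-(3 / 2 * c) * Real.exp (2 / 3 * τ))) (Ici τ₁) := by
  have key : ∀ τ ≥ τ₁, ∃ v', HasDerivAt
      (fun τ => u τ * Real.exp (-(3 / 2 * c) * Real.exp (2 / 3 * τ))) v' τ ∧ 0 ≤ v' := by
    intro τ hτ
    obtain ⟨u', h1, h2⟩ := h τ hτ
    refine ⟨_, h1.mul ((lemL_k τ).const_mul (-(3 / 2 * c))).exp, ?_⟩
    have := mul_le_mul_of_nonneg_right h2 (Real.exp_pos (-(3 / 2 * c) * Real.exp (2 / 3 * τ))).le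
    nlinarith
  refine monotoneOn_of_deriv_nonneg (convex_Ici _) (fun τ hτ => ?_) (fun τ hτ => ?_) fun τ hτ => ?_
  · obtain ⟨v', h1, -⟩ := key τ hτ
    exact h1.continuousAt.continuousWithinAt
  · obtain ⟨v', h1, -⟩ := key τ (interior_subset hτ)
    exact h1.differentiableAt.differentiableWithinAt
  · obtain ⟨v', h1, h2⟩ := key τ (interior_subset hτ)
    rwa [h1.deriv]

lemma lemL_core {τ₁ B A p : ℝ} {x y z ε F a b : ℝ → ℝ}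
    (hk : ∀ τ ≥ τ₁, 1000 ≤ Real.exp (2 / 3 * τ))
    (hx : ∀ τ ≥ τ₁, HasDerivAt x (2 * x τ + Real.exp (2 / 3 * τ) * y τ) τ)
    (hy : ∀ τ ≥ τ₁, HasDerivAt y (4 / 3 * y τ + Real.exp (2 / 3 * τ) * z τ) τ)
    (hz : ∀ τ ≥ τ₁, HasDerivAt z (-(Real.exp (2 / 3 * τ) * (1 + ε τ) * x τ) - 52 / 3 * z τ - a τ * y τ
      + b τ * x τ + Real.exp (2 / 3 * τ) * F τ) τ)
    (hε : ∀ τ ≥ τ₁, |ε τ| ≤ 1 / 20) (hF : ∀ τ ≥ τ₁, |F τ| ≤ B)
    (ha : ∀ τ ≥ τ₁, 0 ≤ a τ ∧ a τ ≤ 1) (hb : ∀ τ ≥ τ₁, 0 ≤ b τ ∧ b τ ≤ 1)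
    (hg : ∀ τ ≥ τ₁, x τ ^ 2 + y τ ^ 2 + z τ ^ 2 ≤ A * Real.exp (2 / 3 * τ) ^ p) :
    ∃ C, ∀ τ ≥ τ₁, x τ ^ 2 + y τ ^ 2 + z τ ^ 2 ≤ C := by
  have m1 := lemL_mono (u := fun τ => x τ * y τ - x τ * z τ + y τ * z τ - 10 * B ^ 2) (τ₁ := τ₁)
    (c := 1 / 2) fun τ hτ => by
      refine ⟨_, (((((hx τ hτ).mul (hy τ hτ)).sub ((hx τ hτ).mul (hz τ hτ))).add
        ((hy τ hτ).mul (hz τ hτ))).sub_const _), ?_⟩
      have := lemL_in1 (x := x τ) (y := y τ) (z := z τ) (hk τ hτ) (hε τ hτ) (hF τ hτ) (ha τ hτ).1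
        (ha τ hτ).2 (hb τ hτ).1 (hb τ hτ).2
      linarith
  have hw : ∀ τ ≥ τ₁, x τ * y τ - x τ * z τ + y τ * z τ ≤ 10 * B ^ 2 := by
    intro τ hτ
    have t1 : Tendsto (fun s : ℝ => Real.exp (2 / 3 * s)) atTop atTop :=
      Real.tendsto_exp_atTop.comp (tendsto_id.const_mul_atTop (by norm_num))
    have t2 := ((tendsto_rpow_mul_exp_neg_mul_atTop_nhds_zero p (3 / 2 * (1 / 2))
      (by norm_num)).comp t1).const_mul A
    rw [mul_zero] at t2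
    have h1 : (x τ * y τ - x τ * z τ + y τ * z τ - 10 * B ^ 2) *
        Real.exp (-(3 / 2 * (1 / 2)) * Real.exp (2 / 3 * τ)) ≤ 0 := by
      refine ge_of_tendsto t2 ?_
      filter_upwards [eventually_ge_atTop τ] with s hs
      refine (m1 hτ (hτ.le.trans hs) hs).trans ?_
      simp only [Function.comp]
      rw [← mul_assoc]
      refine mul_le_mul_of_nonneg_right (le_trans ?_ (hg s (hτ.le.trans hs))) (Real.exp_pos _).le
      nlinarith [sq_nonneg (x s - y s + z s), sq_nonneg B, sq_nonneg (x s), sq_nonneg (y s),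
        sq_nonneg (z s)]
    have := nonpos_of_mul_nonpos_left h1 (Real.exp_pos _)
    linarith
  have m2 := lemL_mono (u := fun τ => 4 * B ^ 2 - (x τ - y τ + z τ) ^ 2) (τ₁ := τ₁)
    (c := -1) fun τ hτ => by
      refine ⟨_, ((((hx τ hτ).sub (hy τ hτ)).add (hz τ hτ)).pow 2).const_sub _, ?_⟩
      have := lemL_in2 (x := x τ) (y := y τ) (z := z τ) (hk τ hτ) (hε τ hτ) (hF τ hτ) (ha τ hτ).1
        (ha τ hτ).2 (hb τ hτ).1 (hb τ hτ).2 (hw τ hτ)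
      simp only [Pi.add_apply, Pi.sub_apply, Nat.cast_ofNat, Nat.add_one_sub_one, pow_one]
      linarith
  obtain ⟨D, hD⟩ : ∃ D, D = |(4 * B ^ 2 - (x τ₁ - y τ₁ + z τ₁) ^ 2) *
      Real.exp (-(3 / 2 * -1) * Real.exp (2 / 3 * τ₁))| := ⟨_, rfl⟩
  refine ⟨2 * (4 * B ^ 2 + D) + 20 * B ^ 2, fun τ hτ => ?_⟩
  have h1 : -D ≤ (4 * B ^ 2 - (x τ - y τ + z τ) ^ 2) *
      Real.exp (-(3 / 2 * -1) * Real.exp (2 / 3 * τ)) := by
    rw [hD]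
    exact (neg_abs_le _).trans (m2 (le_refl τ₁) hτ hτ)
  have h2 : 1 ≤ Real.exp (-(3 / 2 * -1) * Real.exp (2 / 3 * τ)) :=
    Real.one_le_exp (by have := Real.exp_pos (2 / 3 * τ); linarith)
  have hD0 : 0 ≤ D := hD ▸ abs_nonneg _
  have h3 : -D ≤ 4 * B ^ 2 - (x τ - y τ + z τ) ^ 2 := by
    by_contra h4
    rw [not_le] at h4
    nlinarith
  have h4 := hw τ hτ
  nlinarith [sq_nonneg (x τ - y τ + z τ)]

theorem lemL {τ₀ B N K : ℝ} {f₀ f₁ f₂ κ F : ℝ → ℝ}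
    (h₀ : ∀ τ ≥ τ₀, HasDerivAt f₀ (f₁ τ) τ) (h₁ : ∀ τ ≥ τ₀, HasDerivAt f₁ (f₂ τ) τ)
    (h₂ : ∀ τ ≥ τ₀, HasDerivAt f₂
      (-18 * f₂ τ - 71 * f₁ τ + 90 * f₀ τ - Real.exp (2 * τ) * κ τ * f₀ τ + F τ) τ)
    (hκ : ∀ τ ≥ τ₀, |κ τ - 1| ≤ 1 / 20) (hF : ∀ τ ≥ τ₀, |F τ| ≤ B)
    (hg : ∀ τ ≥ τ₀, |f₀ τ| + |f₁ τ| + |f₂ τ| ≤ K * Real.exp (N * τ)) :
    ∃ C, ∀ τ ≥ τ₀, |f₀ τ| ≤ C * Real.exp (-2 * τ) ∧ |f₁ τ| ≤ C ∧ |f₂ τ| ≤ C := by
  obtain ⟨τ₁, h01, hk⟩ : ∃ τ₁, τ₀ ≤ τ₁ ∧ ∀ τ ≥ τ₁, 1000 ≤ Real.exp (2 / 3 * τ) :=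
    ⟨max τ₀ 1500, le_max_left _ _, fun τ hτ => by
      have h1 := Real.add_one_le_exp (2 / 3 * τ)
      have h2 := (le_max_right τ₀ 1500).trans hτ
      linarith⟩
  have e3 : ∀ τ, Real.exp (2 * τ) = Real.exp (2 / 3 * τ) ^ 3 := fun τ => by
    rw [← Real.exp_nat_mul]; congr 1; push_cast; ring
  obtain ⟨C, hC⟩ := lemL_core (τ₁ := τ₁) (B := B) (A := K ^ 2) (p := 6 + 3 * N)
    (x := fun τ => Real.exp (2 / 3 * τ) ^ 3 * f₀ τ) (y := fun τ => Real.exp (2 / 3 * τ) ^ 2 * f₁ τ)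
    (z := fun τ => Real.exp (2 / 3 * τ) * f₂ τ) (ε := fun τ => κ τ - 1) (F := F)
    (a := fun τ => 71 / Real.exp (2 / 3 * τ)) (b := fun τ => 90 / Real.exp (2 / 3 * τ) ^ 2) hk
    (fun τ hτ => (((lemL_k τ).pow 3).mul (h₀ τ (h01.trans hτ))).congr_deriv (by
      simp only [Pi.pow_apply]; push_cast; ring))
    (fun τ hτ => (((lemL_k τ).pow 2).mul (h₁ τ (h01.trans hτ))).congr_deriv (by
      simp only [Pi.pow_apply]; push_cast; ring))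
    (fun τ hτ => ((lemL_k τ).mul (h₂ τ (h01.trans hτ))).congr_deriv (by
      have := (Real.exp_pos (2 / 3 * τ)).ne'
      rw [e3]
      field_simp
      ring))
    (fun τ hτ => hκ τ (h01.trans hτ)) (fun τ hτ => hF τ (h01.trans hτ))
    (fun τ hτ => ⟨by positivity, by
      have := hk τ hτ
      rw [div_le_one (by positivity)]; linarith⟩)
    (fun τ hτ => ⟨by positivity, by
      have := hk τ hτ
      rw [div_le_one (by positivity)]; nlinarith⟩)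
    (fun τ hτ => by
      have h1 := hk τ hτ
      have h2 := hg τ (h01.trans hτ)
      have e : K ^ 2 * Real.exp (2 / 3 * τ) ^ (6 + 3 * N) =
          (Real.exp (2 / 3 * τ) ^ 3) ^ 2 * (K * Real.exp (N * τ)) ^ 2 := by
        rw [← Real.exp_mul, ← e3, mul_pow, ← Real.exp_nat_mul, ← Real.exp_nat_mul, mul_left_comm,
          ← Real.exp_add]
        congr 2; push_cast; ring
      rw [e]
      set k := Real.exp (2 / 3 * τ) with hkd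
      have a0 := abs_nonneg (f₀ τ)
      have a1 := abs_nonneg (f₁ τ)
      have a2 := abs_nonneg (f₂ τ)
      have h3 : f₀ τ ^ 2 + f₁ τ ^ 2 + f₂ τ ^ 2 ≤ (K * Real.exp (N * τ)) ^ 2 := by
        have := pow_le_pow_left₀ (by positivity) h2 2
        rw [← sq_abs (f₀ τ), ← sq_abs (f₁ τ), ← sq_abs (f₂ τ)]
        nlinarith [mul_nonneg a0 a1, mul_nonneg a0 a2, mul_nonneg a1 a2]
      have hk1 : 1 ≤ k := by linarith
      have b1 : (k ^ 2) ^ 2 ≤ (k ^ 3) ^ 2 :=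
        pow_le_pow_left₀ (by positivity) (pow_le_pow_right₀ hk1 (by norm_num)) 2
      have b2 : k ^ 2 ≤ (k ^ 3) ^ 2 :=
        pow_le_pow_left₀ (by positivity) (le_self_pow₀ hk1 (by norm_num)) 2
      have c1 := mul_le_mul_of_nonneg_right b1 (sq_nonneg (f₁ τ))
      have c2 := mul_le_mul_of_nonneg_right b2 (sq_nonneg (f₂ τ))
      have c3 := mul_le_mul_of_nonneg_left h3 (sq_nonneg (k ^ 3))
      simp only [mul_pow] at c3 ⊢
      linarith)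
  obtain ⟨C₁, hC₁⟩ := (isCompact_Icc (a := τ₀) (b := τ₁)).exists_bound_of_continuousOn
    (f := fun τ => K * Real.exp (N * τ) * (1 + Real.exp (2 * τ))) (by fun_prop)
  refine ⟨max (C + 1) C₁, fun τ hτ => ?_⟩
  have hE := Real.exp_pos (2 * τ)
  have e4 : ∀ c : ℝ, Real.exp (2 * τ) * |f₀ τ| ≤ c → |f₀ τ| ≤ c * Real.exp (-2 * τ) := fun c hc => by
    rw [neg_mul, Real.exp_neg, ← div_eq_mul_inv, le_div_iff₀ hE, mul_comm]
    exact hc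
  have a0 := abs_nonneg (f₀ τ)
  have a1 := abs_nonneg (f₁ τ)
  have a2 := abs_nonneg (f₂ τ)
  rcases le_total τ τ₁ with h | h
  · have h1 := (le_abs_self _).trans ((hC₁ τ ⟨hτ, h⟩).trans (le_max_right (C + 1) C₁))
    have h2 := mul_le_mul_of_nonneg_right (hg τ hτ) (show 0 ≤ 1 + Real.exp (2 * τ) by positivity)
    have b0 := mul_nonneg a0 hE.le
    have b1 := mul_nonneg a1 hE.le
    have b2 := mul_nonneg a2 hE.le
    exact ⟨e4 _ (by nlinarith), by nlinarith, by nlinarith⟩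
  · have h1 := hC τ h
    have h2 := hk τ h
    have h3 := le_max_left (C + 1) C₁
    rw [e3] at e4
    set k := Real.exp (2 / 3 * τ) with hkd
    have hk1 : 1 ≤ k := by linarith
    have aux : ∀ t : ℝ, t ^ 2 ≤ C → |t| ≤ max (C + 1) C₁ := fun t ht => by
      rw [← sq_abs] at ht
      nlinarith [sq_nonneg (|t| - 1), sq_nonneg |t|]
    have s0 := sq_nonneg (k ^ 3 * f₀ τ)
    have s1 := sq_nonneg (k ^ 2 * f₁ τ)
    have s2 := sq_nonneg (k * f₂ τ)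
    have d0 := aux (k ^ 3 * f₀ τ) (by linarith)
    have d1 := aux (k ^ 2 * f₁ τ) (by linarith)
    have d2 := aux (k * f₂ τ) (by linarith)
    rw [abs_mul, abs_of_pos (by positivity)] at d0 d1 d2
    exact ⟨e4 _ d0, (le_mul_of_one_le_left a1 (one_le_pow₀ hk1)).trans d1,
      (le_mul_of_one_le_left a2 hk1).trans d2⟩

end Crest.Agent.R213
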