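import Crest.Agent.R213.Prod
import Crest.Agent.R213.Interp

/-! # Row 213, estimates of the nonlinearity -/

set_option autoImplicit false
open Set Filter Topology
open scoped ContDiff

noncomputable section
namespace Crest.Agent.R213

lemma nl_B {q : ℝ → Sm} (hq : SymbF 0 q) {k : ℕ} (hk : 25 ≤ k) {B : ℝ} (hB : 0 ≤ B) :
    ∃ C, 0 ≤ C ∧ ∀ l ∈ Ioc (0 : ℝ) 1, ∀ u v, N2 l 12 k u ≤ B →
      N2 l 12 k ((2 * q l - ph * u) * v) ≤ C * N2 l 12 k v := by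
  obtain ⟨C₁, h₁0, h₁⟩ := N2_symbF 12 k ((SymbF.const 2).mul hq)
  obtain ⟨C₂, h₂0, h₂⟩ := N2_symbF 12 k (SymbF.const ph)
  obtain ⟨C₃, h₃0, h₃⟩ := N2_prod 12 12 k k k le_rfl le_rfl (by omega) (by omega) (by omega)
  refine ⟨2 * C₁ + 2 * (C₂ * (C₃ * B)), by positivity, fun l hl u v hu => ?_⟩
  have a1 := h₁ l hl v
  have a2 := h₂ l hl (u * v)
  have a3 := h₃ l hl u v
  norm_num at a1 a2 a3
  have a4 := N2_nonneg hl.1 12 k v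
  have a5 : N2 l 12 k (ph * (u * v)) ≤ C₂ * (C₃ * B * N2 l 12 k v) :=
    a2.trans (mul_le_mul_of_nonneg_left (a3.trans (by gcongr)) h₂0)
  rw [sub_mul, mul_assoc ph]
  refine (N2_sub_le hl.1 _ _ _ _).trans ?_
  nlinarith

lemma nl_A : ∃ C, 0 ≤ C ∧ ∀ l ∈ Ioc (0 : ℝ) 1, ∀ f w,
    N2 l 11 28 (ph * (f * A0 w)) ≤ C * N2 l 12 30 f * N2 l 14 32 w := by
  obtain ⟨C₁, h₁0, h₁⟩ := N2_symbF 11 28 SymbF.ph
  obtain ⟨C₂, h₂0, h₂⟩ := N2_prod 12 9 28 30 28 (by omega) le_rfl (by omega) (by omega) (by omega)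
  obtain ⟨C₃, h₃0, h₃⟩ := N2_A0 9 28
  refine ⟨C₁ * C₂ * C₃ * 2, by positivity, fun l hl f w => ?_⟩
  have a1 := h₁ l hl (f * A0 w)
  have a2 := h₂ l hl f (A0 w)
  have a3 := h₃ l hl w
  have a4 := N2_mono_e hl (e := 13) (e' := 14) (by norm_num) 32 w
  norm_num at a1 a2 a3 a4
  have a5 := N2_nonneg hl.1 12 30 f
  calc _ ≤ C₁ * (C₂ * N2 l 12 30 f * (C₃ * (2 * N2 l 14 32 w))) := by
        refine a1.trans (mul_le_mul_of_nonneg_left (a2.trans ?_) h₁0)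
        exact mul_le_mul_of_nonneg_left (a3.trans (by gcongr)) (by positivity)
    _ = _ := by ring

lemma nl_symb {G : ℝ → Sm} (hG : SymbF (-3) G) : SymbF (-1) fun l => ph ^ 2 * G l := by
  simpa using SymbF.ph.sq.mul hG

/-- With `d = v - w`, `B v = 2 q v - φ₀ v²`: `NL v - NL w = φ₀ B(v) A₀ d + φ₀ (B v - B w) A₀ w - φ₀² G (v + w) d`,
`B v - B w = (2 q - φ₀ (v + w)) d`.  Use `N2_symbF` (`φ₀`: order `1`, `φ₀² G`: order `-1`), `N2_prod` with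
`(e₁,e₂,k,k₁,k₂) = (12,9,28,30,28), (12,12,30,30,30), (12,13,28,30,30)`, `N2_A0`, `N2_mono_e`. -/
theorem NL_diff {q G : ℝ → Sm} (hq : SymbF 0 q) (hG : SymbF (-3) G) : ∃ C, 0 ≤ C ∧
    ∀ l ∈ Ioc (0 : ℝ) 1, ∀ v w, N2 l 12 30 v ≤ 1 → N2 l 12 30 w ≤ 1 →
      N2 l 11 28 (NL (q l) (G l) v - NL (q l) (G l) w) ≤
        C * ((N2 l 12 30 v + N2 l 12 30 w) * N2 l 14 32 (v - w) + N2 l 12 30 (v - w) * N2 l 14 32 w) := by
  obtain ⟨C₁, h₁0, h₁⟩ := nl_B hq (k := 30) (by norm_num) (B := 4) (by norm_num)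
  obtain ⟨C₂, h₂0, h₂⟩ := nl_A
  obtain ⟨C₃, h₃0, h₃⟩ := N2_symbF 11 28 (nl_symb hG)
  obtain ⟨C₄, h₄0, h₄⟩ :=
    N2_prod 12 13 28 30 30 (by omega) (by omega) (by omega) (by omega) (by omega)
  refine ⟨4 * (C₂ * C₁) + 8 * (C₃ * C₄), by positivity, fun l hl v w hv hw => ?_⟩
  have e : NL (q l) (G l) v - NL (q l) (G l) w =
      (ph * ((2 * q l - ph * v) * v * A0 (v - w)) +
        ph * ((2 * q l - ph * (v + w)) * (v - w) * A0 w)) - ph ^ 2 * G l * ((v + w) * (v - w)) := by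
    simp only [NL, map_sub]
    ring
  have n1 := N2_nonneg hl.1 12 30 v
  have n2 := N2_nonneg hl.1 12 30 w
  have n3 := N2_nonneg hl.1 14 32 (v - w)
  have n4 := N2_nonneg hl.1 12 30 (v - w)
  have n5 := N2_nonneg hl.1 14 32 w
  have n6 := N2_nonneg hl.1 13 30 (v - w)
  have a0 := N2_add_le hl.1 12 30 v w
  have a1 : N2 l 11 28 (ph * ((2 * q l - ph * v) * v * A0 (v - w))) ≤
      C₂ * (C₁ * (N2 l 12 30 v + N2 l 12 30 w)) * N2 l 14 32 (v - w) := by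
    refine (h₂ l hl _ _).trans ?_
    gcongr
    exact (h₁ l hl v v (by linarith)).trans (by gcongr; linarith)
  have a2 : N2 l 11 28 (ph * ((2 * q l - ph * (v + w)) * (v - w) * A0 w)) ≤
      C₂ * (C₁ * N2 l 12 30 (v - w)) * N2 l 14 32 w := by
    refine (h₂ l hl _ _).trans ?_
    gcongr
    exact h₁ l hl _ _ (by linarith)
  have a3 := h₃ l hl ((v + w) * (v - w))
  have a4 := h₄ l hl (v + w) (v - w)
  have a5 := N2_mono_e hl (e := 13) (e' := 14) (by norm_num) 32 (v - w)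
  have a6 := N2_mono hl.1 13 (show 30 ≤ 32 by norm_num) (v - w)
  norm_num at a3 a4 a5
  have a7 : N2 l 11 28 (ph ^ 2 * G l * ((v + w) * (v - w))) ≤
      C₃ * (C₄ * (2 * N2 l 12 30 v + 2 * N2 l 12 30 w) * (2 * N2 l 14 32 (v - w))) :=
    a3.trans (mul_le_mul_of_nonneg_left (a4.trans (by gcongr; linarith)) h₃0)
  have a8 := N2_add_le hl.1 11 28 (ph * ((2 * q l - ph * v) * v * A0 (v - w)))
    (ph * ((2 * q l - ph * (v + w)) * (v - w) * A0 w))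
  have a9 : 0 ≤ C₃ * C₄ * (N2 l 12 30 (v - w) * N2 l 14 32 w) := by positivity
  rw [e]
  refine (N2_sub_le hl.1 _ _ _ _).trans ?_
  linarith

/-- Top order part.  `b = 2 q φ₀ v - φ₀² v²` has `b² ≤ C₁ N2 12 30 v` pointwise (`sup_zero`); split
`D^k (b A₀ v) = b T D^{k+2} v + b (D^k A₀ v - T D^{k+2} v) + (D^k (b A₀ v) - b D^k A₀ v)` and use `wl_mul_le`, `Gk_eq_wl`,
`wl_A0_top`, `wl_comm_prod 12 10 (k-1) (k+1)`, `N2_A0`, `N2_prod`.  `C₁` does not depend on `k`. -/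
theorem NL_top {q G : ℝ → Sm} (hq : SymbF 0 q) (hG : SymbF (-3) G) : ∃ C₁, 0 ≤ C₁ ∧ ∀ k ≥ 29, ∀ B : ℝ,
    ∃ C, 0 ≤ C ∧ ∀ l ∈ Ioc (0 : ℝ) 1, ∀ v, N2 l 12 30 v ≤ 1 → N2 l 12 (k + 1) v ≤ B →
      lev l 10 k (NL (q l) (G l) v) ≤
        C₁ * N2 l 12 30 v * Gk l 12 (k + 2) v + C * N2 l 14 (k + 3) v := by
  obtain ⟨C₀, h₀0, h₀⟩ := sup_zero
  obtain ⟨C₁, h₁0, h₁⟩ := nl_B hq (k := 30) (by norm_num) (B := 1) (by norm_num)
  obtain ⟨C₂, h₂0, h₂⟩ := N2_symbF 12 30 (SymbF.const ph)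
  refine ⟨8 * (C₀ * (C₂ * C₁)), by positivity, fun k hk B => ?_⟩
  obtain ⟨j, rfl⟩ : ∃ j, k = j + 1 := ⟨k - 1, by omega⟩
  obtain ⟨C₃, h₃0, h₃⟩ := wl_A0_top 12 (j + 1)
  obtain ⟨C₄, h₄0, h₄⟩ := wl_comm_prod 12 10 j (j + 1 + 1) (by omega) (by omega)
  obtain ⟨C₅, h₅0, h₅⟩ := nl_B hq (k := j + 1 + 1) (by omega) (abs_nonneg B)
  obtain ⟨C₆, h₆0, h₆⟩ := N2_symbF 12 (j + 1 + 1) (SymbF.const ph)
  obtain ⟨C₇, h₇0, h₇⟩ := N2_A0 10 j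
  obtain ⟨C₈, h₈0, h₈⟩ := N2_symbF 10 (j + 1) (nl_symb hG)
  obtain ⟨C₉, h₉0, h₉⟩ := N2_prod 12 12 (j + 1) (j + 1 + 1) (j + 1 + 3) (by omega) (by omega)
    (by omega) (by omega) (by omega)
  refine ⟨8 * (C₀ * (C₂ * C₁) * (C₃ * 4)) + 4 * (C₄ * (C₆ * (C₅ * |B|)) * C₇) +
    2 * (C₈ * (C₉ * |B| * 4)), by positivity, fun l hl v hv hB => ?_⟩
  replace hB := hB.trans (le_abs_self B)
  set b := ph * ((2 * q l - ph * v) * v) with hb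
  have e : (D ^ (j + 1)) (NL (q l) (G l) v) =
      b * T (j + 1 + 2) ((D ^ (j + 1 + 2)) v) +
        b * ((D ^ (j + 1)) (A0 v) - T (j + 1 + 2) ((D ^ (j + 1 + 2)) v)) +
        ((D ^ (j + 1)) (b * A0 v) - b * (D ^ (j + 1)) (A0 v)) -
        (D ^ (j + 1)) (ph ^ 2 * G l * (v * v)) := by
    rw [show NL (q l) (G l) v = b * A0 v - ph ^ 2 * G l * (v * v) by rw [NL, hb]; ring, map_sub]
    ring
  have n1 := N2_nonneg hl.1 12 30 v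
  have n2 := N2_nonneg hl.1 14 (j + 1 + 3) v
  have n3 := N2_nonneg hl.1 12 (j + 1 + 3) v
  have n4 := N2_nonneg hl.1 10 j (A0 v)
  have n5 := abs_nonneg B
  have a0 : ∀ x ∈ I, ev b x ^ 2 ≤ C₀ * (C₂ * (C₁ * N2 l 12 30 v)) := fun x hx => by
    refine (h₀ l hl b x hx).trans (mul_le_mul_of_nonneg_left ?_ h₀0)
    refine (N2_mono hl.1 12 (show 13 ≤ 30 by norm_num) b).trans ((h₂ l hl _).trans ?_)
    exact mul_le_mul_of_nonneg_left (by simpa using h₁ l hl v v hv) h₂0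
  have a1 := wl_mul_le hl.1 (12 - 2) (j + 1) a0 (T (j + 1 + 2) ((D ^ (j + 1 + 2)) v))
  rw [← Gk_eq_wl] at a1
  have a2 := N2_mono_e hl (e := 12) (e' := 14) (by norm_num) (j + 1 + 3) v
  have a3 := (h₃ l hl v).trans (mul_le_mul_of_nonneg_left
    ((N2_mono hl.1 12 (show j + 1 + 2 ≤ j + 1 + 3 by omega) v).trans a2) h₃0)
  have a4 := (wl_mul_le hl.1 (12 - 2) (j + 1) a0 _).trans (mul_le_mul
    (show C₀ * (C₂ * (C₁ * N2 l 12 30 v)) ≤ C₀ * (C₂ * (C₁ * 1)) by gcongr) a3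
    (wl_nonneg hl.1 _ _ _) (by positivity))
  have a5 : N2 l 12 (j + 1 + 1) b ≤ C₆ * (C₅ * |B|) := by
    refine (h₆ l hl _).trans (mul_le_mul_of_nonneg_left ?_ h₆0)
    simpa using (h₅ l hl v v hB).trans (mul_le_mul_of_nonneg_left hB h₅0)
  have a6 := (h₄ l hl b (A0 v)).trans (mul_le_mul (mul_le_mul_of_nonneg_left a5 h₄0) (h₇ l hl v)
    n4 (by positivity))
  have a7 := (h₉ l hl v v).trans (mul_le_mul (mul_le_mul_of_nonneg_left hB h₉0) a2 n3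
    (by positivity))
  have a8 := (lev_le_N2 hl.1 10 (le_refl (j + 1)) _).trans (h₈ l hl (v * v))
  have e1 : (12 - 2 : ℤ) = 10 := by norm_num
  have e2 : (12 + 10 - 12 : ℤ) = 10 := by norm_num
  have e3 : (12 + 12 - 12 : ℤ) = 12 := by norm_num
  have e4 : (10 - 2 * -1 : ℤ) = 12 := by norm_num
  have e5 : (10 + 4 : ℤ) = 14 := by norm_num
  have e6 : (2 : ℝ) ^ (14 - 12 : ℤ) = 4 := by norm_num
  rw [e1] at a1 a4
  rw [e2, e5, show j + 4 = j + 1 + 3 from rfl] at a6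
  rw [e3] at a7
  rw [e6] at a4 a7
  rw [e4, lev] at a8
  replace a8 := a8.trans (mul_le_mul_of_nonneg_left a7 h₈0)
  rw [lev, e]
  refine (wl_sub_le hl.1 _ _ _ _).trans ?_
  have a9 := wl_add_le hl.1 10 (j + 1) (b * T (j + 1 + 2) ((D ^ (j + 1 + 2)) v) +
    b * ((D ^ (j + 1)) (A0 v) - T (j + 1 + 2) ((D ^ (j + 1 + 2)) v)))
    ((D ^ (j + 1)) (b * A0 v) - b * (D ^ (j + 1)) (A0 v))
  have a10 := wl_add_le hl.1 10 (j + 1) (b * T (j + 1 + 2) ((D ^ (j + 1 + 2)) v))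
    (b * ((D ^ (j + 1)) (A0 v) - T (j + 1 + 2) ((D ^ (j + 1 + 2)) v)))
  linarith

lemma NL_zero (q G : Sm) : NL q G 0 = 0 := by simp [NL]

end Crest.Agent.R213
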