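import Crest.Agent.R213.Defs

/-! # Row 213, the shrinker ODE: definitions

Unknown `s`; `γ = gam s` solves `110 γ + 22 y γ' + y² γ'' = s`, `h = hs s = 1 - y γ`, and `s' = C - 1/(2h)`.  With `θ = y ∂_y`:
`(θ-1)(θ+9)(θ+10) h = θ³h + 18 θ²h + 71 θh - 90 h = -90 - y² (C - 1/(2h))`. -/

set_option autoImplicit false
open Set Filter Topology
open scoped ContDiff

noncomputable section
namespace Crest.Agent.R213

/-- clamp -/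
def cl (h : ℝ) : ℝ := max h (1 / 10)
def gam (s : ℝ → ℝ) (y : ℝ) : ℝ := ∫ u in (0 : ℝ)..1, (1 - u) * u ^ 9 * s (y * u)
def BB (s : ℝ → ℝ) (y : ℝ) : ℝ := ∫ η in (0 : ℝ)..y, η ^ 9 * s η
def AA (s : ℝ → ℝ) (y : ℝ) : ℝ := ∫ η in (0 : ℝ)..y, BB s η
def hs (s : ℝ → ℝ) (y : ℝ) : ℝ := 1 - y * gam s y
/-- `θ h` -/
def th1 (s : ℝ → ℝ) (y : ℝ) : ℝ := 10 * AA s y / y ^ 10 - BB s y / y ^ 9
/-- `θ² h` -/
def th2 (s : ℝ → ℝ) (y : ℝ) : ℝ := 90 - y * s y - 19 * th1 s y - 90 * hs s y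
/-- the clamped Volterra equation -/
def IsVolt (s₀ C : ℝ) (s : ℝ → ℝ) : Prop :=
  Continuous s ∧ ∀ y, s y = s₀ + ∫ η in (0 : ℝ)..y, (C - 1 / (2 * cl (hs s η)))

/-- evaluation of a polynomial given by its list of rational coefficients -/
def pe (L : List ℚ) (t : ℝ) : ℝ := L.foldr (fun a acc => (a : ℝ) + t * acc) 0
def thAux : ℕ → List ℚ → List ℚ
  | _, [] => []
  | n, a :: p => (-2 * (n : ℚ) * a) :: thAux (n + 1) p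
/-- `θ` acting on polynomials in `t = 125² / y²` -/
def thL (L : List ℚ) : List ℚ := thAux 0 L
def tf (y : ℝ) : ℝ := 125 ^ 2 / y ^ 2

/-- difference with the asymptotic polynomial `h_N = pe H (tf y) + δ`, and its `θ`-derivatives -/
def e0 (H : List ℚ) (δ : ℝ) (s : ℝ → ℝ) (y : ℝ) : ℝ := hs s y - (pe H (tf y) + δ)
def e1 (H : List ℚ) (s : ℝ → ℝ) (y : ℝ) : ℝ := th1 s y - pe (thL H) (tf y)
def e2 (H : List ℚ) (s : ℝ → ℝ) (y : ℝ) : ℝ := th2 s y - pe (thL (thL H)) (tf y)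
def kk (y : ℝ) : ℝ := y ^ (2 / 3 : ℝ)
def U1 (H : List ℚ) (δ : ℝ) (s : ℝ → ℝ) (y : ℝ) : ℝ := (e1 H s y + 6 * e0 H δ s y) / kk y
def U2 (H : List ℚ) (δ : ℝ) (s : ℝ → ℝ) (y : ℝ) : ℝ :=
  (e2 H s y + 12 * e1 H s y + 36 * e0 H δ s y) / kk y ^ 2
def g1 (H : List ℚ) (δ : ℝ) (s : ℝ → ℝ) (y : ℝ) : ℝ := e0 H δ s y + U1 H δ s y
def g2 (H : List ℚ) (δ : ℝ) (s : ℝ → ℝ) (y : ℝ) : ℝ := U1 H δ s y + U2 H δ s y
def dd (H : List ℚ) (δ : ℝ) (s : ℝ → ℝ) (y : ℝ) : ℝ := e0 H δ s y - U1 H δ s y + U2 H δ s y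
/-- the quadratic form on the unstable plane -/
def QQ (a b : ℝ) : ℝ := a ^ 2 - a * b + b ^ 2
/-- `2 h_N Res / y²` as a function of `t = tf y` -/
def Wf (H : List ℚ) (δ C t : ℝ) : ℝ :=
  t / 125 ^ 2 * (2 * (pe H t + δ)) *
      (pe (thL (thL (thL H))) t + 18 * pe (thL (thL H)) t + 71 * pe (thL H) t - 90 * (pe H t + δ) + 90)
    + 2 * C * (pe H t + δ) - 1
/-- the parameter box -/
def box : Set (ℝ × ℝ) := Icc (-1) 1 ×ˢ Icc (-1) 1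

end Crest.Agent.R213
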