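import Crest.Agent.R213.XY
import Crest.Agent.R213.Nonlin

/-! # Row 213, the Picard iteration

Take `C, Ck` from `right_inv_X`, `C_N` from `NL_diff`, `x ≤ min x₀ 1` with `3 C² C_N x² ≤ 1/4`, and `τ` with
`C² C_E τ ≤ (x/2)²` (`NCoef.bE 28`).  Recursively: `u 0 = 0`, `d 0` solves with source `-E`, `u (m+1) = u m + d m`, `d (m+1)` solves
with source `NL (u (m+1)) - NL (u m)`, whose `Y`-norm is `≤ √(3 C_N) x · x / 2^{m+1}`; so `XB (x / 2^{m+1}) (d m)`,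
`XB (x (1 - 2^{-m})) (u m)` (`XB.add`), and `√(N2 12 k (u m t₀)) ≤ Ck k ∑ y_j` (`sqrt_N2_add`). -/

set_option autoImplicit false
open Set Filter Topology
open scoped ContDiff

noncomputable section
namespace Crest.Agent.R213

lemma pic1_int {t₀ t : ℝ} (ht : t ∈ Ico t₀ 0) {v : ℝ → Sm} (hv : CC (Ico t₀ 0) v) (e : ℤ) (k : ℕ) :
    IntervalIntegrable (fun s => N2 (lam s) e k (v s)) MeasureTheory.volume t₀ t :=
  ((hv.N2 Ico_subset_Iio_self e k).mono fun _ hs =>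
    ⟨hs.1, hs.2.trans_lt ht.2⟩).intervalIntegrable_of_Icc ht.1

lemma pic1_Y {q G : ℝ → Sm} {CN : ℝ} (hCN : 0 ≤ CN)
    (h : ∀ l ∈ Ioc (0 : ℝ) 1, ∀ v w, N2 l 12 30 v ≤ 1 → N2 l 12 30 w ≤ 1 →
      N2 l 11 28 (NL (q l) (G l) v - NL (q l) (G l) w) ≤
        CN * ((N2 l 12 30 v + N2 l 12 30 w) * N2 l 14 32 (v - w) + N2 l 12 30 (v - w) * N2 l 14 32 w))
    (cq : CC (Iio 0) fun t => q (lam t)) (cG : CC (Iio 0) fun t => G (lam t))
    {t₀ x z y : ℝ} (ht₀ : -1 ≤ t₀) (hx : x ^ 2 ≤ 1) (hy : 3 * CN * x ^ 2 * z ^ 2 ≤ y ^ 2) {v w : ℝ → Sm}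
    (cv : CC (Ico t₀ 0) v) (cw : CC (Ico t₀ 0) w) (xv : XB t₀ 30 x v) (xw : XB t₀ 30 x w)
    (xd : XB t₀ 30 z fun t => v t - w t) :
    YB t₀ 28 y fun t => NL (q (lam t)) (G (lam t)) (v t) - NL (q (lam t)) (G (lam t)) (w t) := by
  intro t ht
  have cq' := cq.mono (Ico_subset_Iio_self (a := t₀))
  have cG' := cG.mono (Ico_subset_Iio_self (a := t₀))
  have i1 := pic1_int ht ((cq'.NL cG' cv).sub (cq'.NL cG' cw)) 11 28
  have i2 := pic1_int ht (cv.sub cw) 14 32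
  have i3 := pic1_int ht cw 14 32
  refine (intervalIntegral.integral_mono_on ht.1 i1
    ((i2.const_mul (2 * CN * x ^ 2)).add (i3.const_mul (CN * z ^ 2))) fun s hs => ?_).trans ?_
  · have hs' : s ∈ Ico t₀ 0 := ⟨hs.1, hs.2.trans_lt ht.2⟩
    have hl := lam_mem (ht₀.trans hs.1) hs'.2
    have a1 := (xv s hs').1
    have a2 := (xw s hs').1
    have a3 := (xd s hs').1
    refine (h _ hl _ _ (a1.trans hx) (a2.trans hx)).trans ?_
    have b1 := N2_nonneg hl.1 14 32 (v s - w s)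
    have b2 := N2_nonneg hl.1 14 32 (w s)
    calc _ ≤ CN * ((x ^ 2 + x ^ 2) * N2 (lam s) 14 32 (v s - w s) + z ^ 2 * N2 (lam s) 14 32 (w s)) := by
          gcongr
      _ = _ := by ring
  · rw [intervalIntegral.integral_add (i2.const_mul _) (i3.const_mul _),
      intervalIntegral.integral_const_mul, intervalIntegral.integral_const_mul]
    have a1 := (xd t ht).2.1
    have a2 := (xw t ht).2.1
    calc _ ≤ 2 * CN * x ^ 2 * z ^ 2 + CN * z ^ 2 * x ^ 2 := by gcongr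
      _ = 3 * CN * x ^ 2 * z ^ 2 := by ring
      _ ≤ _ := hy

lemma pic1_rec {α : Type*} (P : ℕ → α → α → Prop) (w₀ : α) (h0 : ∃ v, P 0 w₀ v)
    (hs : ∀ m w v, P m w v → ∃ v', P (m + 1) v v') :
    ∃ u : ℕ → α, u 0 = w₀ ∧ ∀ m, P m (u m) (u (m + 1)) := by
  obtain ⟨v₀, hv₀⟩ := h0
  have : Nonempty α := ⟨w₀⟩
  choose! st hst using hs
  let p : ℕ → α × α := fun m => Nat.rec (w₀, v₀) (fun m r => (r.2, st m r.1 r.2)) m
  have hp : ∀ m, P m (p m).1 (p m).2 := fun m => by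
    induction m with
    | zero => exact hv₀
    | succ m ih => exact hst m _ _ ih
  exact ⟨fun m => (p m).1, rfl, hp⟩

theorem picard_iter {a b q G E : ℝ → Sm} (hC : Coef a b) (hN : NCoef q G E) {x₀ : ℝ} (hx₀ : 0 < x₀) :
    ∃ t₀ ∈ Ico (-1 : ℝ) 0, ∃ x ∈ Ioc (0 : ℝ) x₀, ∃ u : ℕ → ℝ → Sm, (u 0 = fun _ => 0) ∧
      (∀ m, SolO (fun t => a (lam t)) (fun t => b (lam t))
        (fun t => NL (q (lam t)) (G (lam t)) (u m t) - E (lam t)) t₀ (u (m + 1))) ∧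
      (∀ m, XB t₀ 30 x (u m)) ∧ (∀ m, XB t₀ 30 (x / 2 ^ m) fun t => u (m + 1) t - u m t) ∧
      ∀ k, ∃ B, ∀ m, N2 (lam t₀) 12 k (u m t₀) ≤ B := by
  obtain ⟨C, hC0, Ck, hCk, H⟩ := right_inv_X hC
  obtain ⟨CN, hCN, HN⟩ := NL_diff hN.sq hN.sG
  obtain ⟨CE, HE⟩ := hN.bE 28
  have hCE : 0 ≤ CE := (N2_nonneg one_pos _ _ _).trans (HE 1 ⟨one_pos, le_rfl⟩)
  obtain ⟨x, hx, hxx, hx1, hxC⟩ : ∃ x : ℝ, 0 < x ∧ x ≤ x₀ ∧ x ^ 2 ≤ 1 ∧ 12 * C ^ 2 * CN * x ^ 2 ≤ 1 := by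
    have h1 : 0 < 1 + 12 * C ^ 2 * CN := by positivity
    refine ⟨min x₀ (1 + 12 * C ^ 2 * CN)⁻¹, lt_min hx₀ (by positivity), min_le_left _ _, ?_⟩
    have h0 : 0 < min x₀ (1 + 12 * C ^ 2 * CN)⁻¹ := lt_min hx₀ (by positivity)
    have h2 : min x₀ (1 + 12 * C ^ 2 * CN)⁻¹ * (1 + 12 * C ^ 2 * CN) ≤ 1 := by
      rw [← le_div_iff₀ h1, one_div]; exact min_le_right _ _
    have h3 : 0 ≤ 12 * C ^ 2 * CN := by positivity
    generalize min x₀ (1 + 12 * C ^ 2 * CN)⁻¹ = x at *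
    generalize 12 * C ^ 2 * CN = K at *
    have h4 : 0 ≤ x * K := by positivity
    have h5 : x ≤ 1 := by nlinarith
    constructor
    · nlinarith
    · nlinarith
  obtain ⟨t₀, ht₀, ht1, H⟩ := H ((x / (2 * C)) ^ 2 / (CE + 1)) (by positivity)
  have hl := lam_pos ht₀.2
  have cq := hN.cq.mono (Ico_subset_Iio_self (a := t₀))
  have cG := hN.cG.mono (Ico_subset_Iio_self (a := t₀))
  have cE := hN.cE.mono (Ico_subset_Iio_self (a := t₀))
  have hpos : ∀ m : ℕ, (0 : ℝ) < 1 - 1 / 2 ^ (m + 1) := fun m => by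
    rw [sub_pos, div_lt_one (by positivity)]
    exact one_lt_pow₀ one_lt_two (by omega)
  have hle : ∀ m : ℕ, x * (1 - 1 / 2 ^ (m + 1)) ≤ x := fun m =>
    mul_le_of_le_one_right hx.le (sub_le_self _ (by positivity))
  obtain ⟨u, hu0, hu⟩ := pic1_rec (fun (m : ℕ) (w v : ℝ → Sm) =>
    SolO (fun t => a (lam t)) (fun t => b (lam t))
      (fun t => NL (q (lam t)) (G (lam t)) (w t) - E (lam t)) t₀ v ∧ CC (Ico t₀ 0) w ∧
    XB t₀ 30 x w ∧ XB t₀ 30 (x * (1 - 1 / 2 ^ (m + 1))) v ∧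
    XB t₀ 30 (x / 2 ^ (m + 1)) (fun t => v t - w t) ∧
    ∀ k, N2 (lam t₀) 12 k (v t₀) ≤ (Ck k * (x * (1 - 1 / 2 ^ (m + 1)) / C)) ^ 2) (fun _ => 0)
    (by
      obtain ⟨v, s1, s2, s3⟩ := H (fun t => -E (lam t)) (x / (2 * C)) (by positivity) cE.neg (by
        intro t ht
        simp only [N2_neg]
        refine (intervalIntegral.integral_mono_on (g := fun _ => CE) ht.1 (pic1_int ht cE 11 28)
          intervalIntegrable_const fun s hs =>
            HE _ (lam_mem (ht1.trans hs.1) (hs.2.trans_lt ht.2))).trans ?_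
        rw [intervalIntegral.integral_const, smul_eq_mul]
        have h1 : t - t₀ ≤ (x / (2 * C)) ^ 2 / (CE + 1) := by linarith [ht₀.1, ht.2]
        rw [le_div_iff₀ (by positivity)] at h1
        nlinarith [ht.1])
      have e1 : C * (x / (2 * C)) = x / 2 ^ (0 + 1) := by field_simp; ring
      have e2 : x / 2 ^ (0 + 1) = x * (1 - 1 / 2 ^ (0 + 1)) := by ring
      have e3 : x / (2 * C) = x * (1 - 1 / 2 ^ (0 + 1)) / C := by field_simp; ring
      refine ⟨v, s1.congr_F fun t _ => by rw [NL_zero, zero_sub], CC.const 0, XB.zero _ _ _, ?_, ?_, ?_⟩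
      · rwa [← e2, ← e1]
      · simpa only [sub_zero, ← e1] using s2
      · rwa [← e3])
    (by
      rintro m w v ⟨p1, p2, p3, p4, p5, p6⟩
      have p4' := p4.mono_x (mul_nonneg hx.le (hpos m).le) (hle m)
      obtain ⟨d, s1, s2, s3⟩ := H _ (x / (2 ^ (m + 2) * C)) (by positivity)
        ((cq.NL cG p1.1).sub (cq.NL cG p2))
        (pic1_Y hCN HN hN.cq hN.cG ht1 hx1 (by
          have e1 : (x / (2 ^ (m + 2) * C)) ^ 2 = (1 / (4 * C ^ 2)) * (x / 2 ^ (m + 1)) ^ 2 := by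
            field_simp; ring
          rw [e1]
          refine mul_le_mul_of_nonneg_right ?_ (sq_nonneg _)
          rw [le_div_iff₀ (by positivity)]
          linarith) p1.1 p2 p4' p3 p5)
      have e1 : C * (x / (2 ^ (m + 2) * C)) = x / 2 ^ (m + 1 + 1) := by field_simp
      have e2 : x * (1 - 1 / 2 ^ (m + 1)) + x / 2 ^ (m + 1 + 1) = x * (1 - 1 / 2 ^ (m + 1 + 1)) := by
        field_simp; ring
      rw [e1] at s2
      refine ⟨fun t => v t + d t, (p1.add s1).congr_F fun t _ => by ring, p1.1, p4', ?_, ?_, fun k => ?_⟩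
      · rw [← e2]
        exact XB.add (mul_pos hx (hpos m)) (by positivity) p1.1 s1.1 p4 s2
      · simpa only [add_sub_cancel_left] using s2
      · have h1 := hCk k
        have h2 := hpos m
        refine (sqrt_N2_add hl 12 k (by positivity) (by positivity) (p6 k) (s3 k)).trans (le_of_eq ?_)
        congr 1
        rw [← e2]
        field_simp)
  refine ⟨t₀, ⟨ht1, ht₀.2⟩, x, ⟨hx, hxx⟩, u, hu0, fun m => (hu m).1, fun m => (hu m).2.2.1,
    fun m => (hu m).2.2.2.2.1.mono_x (by positivity) ?_, fun k => ⟨(Ck k * (x / C)) ^ 2, fun m => ?_⟩⟩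
  · gcongr
    · norm_num
    · omega
  · cases m with
    | zero => rw [hu0, N2_zero']; positivity
    | succ m =>
      refine ((hu m).2.2.2.2.2 k).trans ?_
      have h1 := hCk k
      have h2 := hpos m
      have h3 := hle m
      gcongr

end Crest.Agent.R213
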