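import Crest.Agent.R213.XY
import Crest.Agent.R213.Nonlin

/-! # Row 213, higher regularity of the Picard iterates

`c₀, C₀` from `strong`, `C₁` from `NL_top`; `x₀ ≤ 1` with `2 C₀ C₁ x₀² ≤ c₀ / 2`.  Induction on `k ≥ 30` of: `∃ B, ∀ m, XB t₀ k B (u m)`.
Step (level `k + 2 ≥ 31` from level `k + 1`): `strong` for `u (m+1)` on `[t₀,t]` gives, with `g m = ∫ Gk 12 (k+2) (u m)`,
`Ek + c₀ g (m+1) ≤ B' + (c₀/2) g m` where `B'` does not depend on `m, t` (`NL_top`, `NL_diff` with `w = 0` for the level `0` term,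
`NCoef.bE`, `t - t₀ ≤ 1`); `g 0 = 0`, so `g m ≤ 2 B'/c₀`; then `N2_le_Ek`, `N2_le_Gk`, `lev_le_inv`. -/

set_option autoImplicit false
open Set Filter Topology
open scoped ContDiff

noncomputable section
namespace Crest.Agent.R213

lemma pic2_int_le {f g h : ℝ → ℝ} {t₀ t α β γ : ℝ} (ht : t₀ ≤ t) (hf : ContinuousOn f (Icc t₀ t))
    (hg : ContinuousOn g (Icc t₀ t)) (hh : ContinuousOn h (Icc t₀ t))
    (hle : ∀ s ∈ Icc t₀ t, f s ≤ α * g s + β * h s + γ) :
    ∫ s in t₀..t, f s ≤ α * (∫ s in t₀..t, g s) + β * (∫ s in t₀..t, h s) + γ * (t - t₀) := by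
  have ig := hg.intervalIntegrable_of_Icc (μ := MeasureTheory.volume) ht
  have ih := hh.intervalIntegrable_of_Icc (μ := MeasureTheory.volume) ht
  have h1 := intervalIntegral.integral_mono_on ht (hf.intervalIntegrable_of_Icc ht)
    (((ig.const_mul α).add (ih.const_mul β)).add intervalIntegrable_const) hle
  rw [intervalIntegral.integral_add ((ig.const_mul α).add (ih.const_mul β)) intervalIntegrable_const,
    intervalIntegral.integral_add (ig.const_mul α) (ih.const_mul β),
    intervalIntegral.integral_const_mul, intervalIntegral.integral_const_mul,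
    intervalIntegral.integral_const, smul_eq_mul, mul_comm (t - t₀)] at h1
  exact h1

theorem picard_reg {a b q G E : ℝ → Sm} (hC : Coef a b) (hN : NCoef q G E) : ∃ x₀ > (0 : ℝ),
    ∀ t₀ ∈ Ico (-1 : ℝ) 0, ∀ x ∈ Ioc (0 : ℝ) x₀, ∀ u : ℕ → ℝ → Sm, (u 0 = fun _ => 0) →
      (∀ m, SolO (fun t => a (lam t)) (fun t => b (lam t))
        (fun t => NL (q (lam t)) (G (lam t)) (u m t) - E (lam t)) t₀ (u (m + 1))) →
      (∀ m, XB t₀ 30 x (u m)) → (∀ k, ∃ B, ∀ m, N2 (lam t₀) 12 k (u m t₀) ≤ B) →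
      ∀ k, ∃ B, ∀ m, ∀ t ∈ Ico t₀ 0, N2 (lam t) 12 k (u m t) ≤ B := by
  obtain ⟨c₀, hc₀, C₀, hC₀, hS⟩ := strong hC
  obtain ⟨C₁, hC₁, hT⟩ := NL_top hN.sq hN.sG
  obtain ⟨CD, hCD, hD⟩ := NL_diff hN.sq hN.sG
  refine ⟨min 1 (c₀ / (4 * (C₀ * C₁) + 1)), lt_min one_pos (by positivity),
    fun t₀ ht₀ x hx u hu0 hsol hX hI => ?_⟩
  have hx1 : x ≤ 1 := hx.2.trans (min_le_left _ _)
  have hx2 : x ^ 2 ≤ 1 := pow_le_one₀ hx.1.le hx1
  have hx3 : C₀ * (2 * (C₁ * x ^ 2)) ≤ c₀ / 2 := by
    have h1 : x ≤ c₀ / (4 * (C₀ * C₁) + 1) := hx.2.trans (min_le_right _ _)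
    rw [le_div_iff₀ (by positivity)] at h1
    have h2 : x ^ 2 ≤ x := by nlinarith [hx.1]
    have h3 := mul_le_mul_of_nonneg_left h2 (mul_nonneg hC₀ hC₁)
    nlinarith [hx.1]
  have hcc : ∀ m, CC (Ico t₀ 0) (u m) := by
    intro m
    cases m with
    | zero => rw [hu0]; exact CC.const 0
    | succ m => exact (hsol m).1
  have hlam : ∀ s ∈ Ico t₀ 0, lam s ∈ Ioc (0 : ℝ) 1 := fun s hs => lam_mem (ht₀.1.trans hs.1) hs.2
  have ht00 : t₀ ∈ Ico t₀ 0 := ⟨le_rfl, ht₀.2⟩
  have key : ∀ K, 30 ≤ K → ∃ B, ∀ m, ∀ t ∈ Ico t₀ 0, N2 (lam t) 12 K (u m t) ≤ B ∧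
      ∫ s in t₀..t, N2 (lam s) 14 (K + 2) (u m s) ≤ B := by
    intro K hK
    induction K, hK using Nat.le_induction with
    | base => exact ⟨x ^ 2, fun m t ht => ⟨(hX m t ht).1, (hX m t ht).2.1⟩⟩
    | succ K hK ih =>
      obtain ⟨k, rfl⟩ : ∃ k, K = k + 1 := ⟨K - 1, by omega⟩
      obtain ⟨B, hB⟩ := ih
      obtain ⟨CN, hCN, hN1⟩ := hT k (by omega) B
      obtain ⟨CS, hCS, hS1⟩ := hS k (by omega)
      obtain ⟨CE, hE⟩ := hN.bE k
      obtain ⟨B0, hB0⟩ := hI (k + 2)
      obtain ⟨Ce, hCe, hEk⟩ := N2_le_Ek (k + 2)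
      obtain ⟨Cg, hCg, hGk⟩ := N2_le_Gk 12 (k + 2)
      have hB0' : 0 ≤ B0 := (N2_nonneg (hlam _ ht00).1 _ _ _).trans (hB0 0)
      have hB' : 0 ≤ B := (N2_nonneg (hlam _ ht00).1 _ _ _).trans (hB 0 t₀ ht00).1
      have hCE : 0 ≤ CE := (N2_nonneg one_pos _ _ _).trans (hE 1 ⟨one_pos, le_rfl⟩)
      obtain ⟨B', hB'def⟩ : ∃ B', B' = 2 * B0 + C₀ * (2 * CN * B + 4 * CE) + (4 * CD + 4 * CE) + CS :=
        ⟨_, rfl⟩
      have hB'0 : 0 ≤ B' := by rw [hB'def]; positivity
      refine ⟨max (Ce * (2 * B')) (Cg * (2 * B' / c₀) + Cg), fun m t ht => ?_⟩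
      have hsub : Icc t₀ t ⊆ Ico t₀ 0 := fun s hs => ⟨hs.1, hs.2.trans_lt ht.2⟩
      have hsub' : Icc t₀ t ⊆ Iio 0 := fun s hs => (hsub hs).2
      have hlen : t - t₀ ≤ 1 := by linarith [ht₀.1, ht.2]
      have hc : ∀ m, CC (Icc t₀ t) (u m) := fun m => (hcc m).mono hsub
      have hF : ∀ m, CC (Icc t₀ t) fun s => NL (q (lam s)) (G (lam s)) (u m s) - E (lam s) :=
        fun m => (CC.NL (hN.cq.mono hsub') (hN.cG.mono hsub') (hc m)).sub (hN.cE.mono hsub')
      have hEl : ∀ j ≤ k, ∀ l ∈ Ioc (0 : ℝ) 1, lev l 10 j (E l) ≤ 2 * CE := by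
        intro j hj l hl
        have h1 := lev_mono_e hl (e := 10) (e' := 11) (by norm_num) j (E l)
        have h2 := (lev_le_N2 hl.1 11 hj (E l)).trans (hE l hl)
        norm_num at h1
        linarith
      have step : ∀ m, Ek (lam t) (k + 2) (u (m + 1) t) +
          c₀ * ∫ s in t₀..t, Gk (lam s) 12 (k + 2) (u (m + 1) s) ≤
          B' + c₀ / 2 * ∫ s in t₀..t, Gk (lam s) 12 (k + 2) (u m s) := by
        intro m
        have h1 := hS1 t₀ t ht₀.1 ht.1 ht.2 _ _ (hF m) ((hsol m).sol le_rfl ht.2)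
        have h2 := (Ek_le_N2 (hlam _ ht00).1 (k + 2) (u (m + 1) t₀)).trans
          (mul_le_mul_of_nonneg_left (hB0 (m + 1)) zero_le_two)
        have h3 := pic2_int_le (α := 2 * (C₁ * x ^ 2)) (β := 2 * CN) (γ := 4 * CE) ht.1
          ((hF m).lev hsub' 10 k) ((hc m).Gk hsub' 12 (k + 2)) ((hc m).N2 hsub' 14 (k + 3)) (by
            intro s hs
            have hl := hlam s (hsub hs)
            have a1 := lev_sub_le hl.1 10 k (NL (q (lam s)) (G (lam s)) (u m s)) (E (lam s))
            have a2 := hN1 _ hl (u m s) ((hX m s (hsub hs)).1.trans hx2) (hB m s (hsub hs)).1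
            have a3 := hEl k le_rfl _ hl
            have a4 := mul_le_mul_of_nonneg_right
              (mul_le_mul_of_nonneg_left (hX m s (hsub hs)).1 hC₁) (Gk_nonneg hl.1 12 (k + 2) (u m s))
            linarith)
        have h4 := pic2_int_le (α := 4 * CD) (β := 0) (γ := 4 * CE) ht.1
          ((hF m).lev hsub' 10 0) ((hc m).N2 hsub' 14 32) ((hc m).N2 hsub' 14 32) (by
            intro s hs
            have hl := hlam s (hsub hs)
            have a0 := (hX m s (hsub hs)).1.trans hx2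
            have a1 := lev_sub_le hl.1 10 0 (NL (q (lam s)) (G (lam s)) (u m s)) (E (lam s))
            have a2 := hD _ hl (u m s) 0 a0 (by simp)
            rw [NL_zero, sub_zero, sub_zero, N2_zero', N2_zero', add_zero, mul_zero, add_zero] at a2
            have a3 := hEl 0 (Nat.zero_le _) _ hl
            have a4 := lev_mono_e hl (e := 10) (e' := 11) (by norm_num) 0
              (NL (q (lam s)) (G (lam s)) (u m s))
            have a5 := lev_le_N2 hl.1 11 (Nat.zero_le 28) (NL (q (lam s)) (G (lam s)) (u m s))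
            have a6 := mul_le_mul_of_nonneg_left
              (mul_le_of_le_one_left (N2_nonneg hl.1 14 32 (u m s)) a0) hCD
            norm_num at a4
            linarith)
        have h5 := mul_le_mul_of_nonneg_left ((hX (m + 1) t ht).2.2.trans hx2) hCS
        have h6 := mul_le_mul_of_nonneg_left (hB m t ht).2 (show 0 ≤ 2 * CN by positivity)
        have h7 := mul_le_mul_of_nonneg_left ((hX m t ht).2.1.trans hx2)
          (show 0 ≤ 4 * CD by positivity)
        have h8 := mul_le_mul_of_nonneg_left hlen (show 0 ≤ 4 * CE by positivity)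
        have hg0 : 0 ≤ ∫ s in t₀..t, Gk (lam s) 12 (k + 2) (u m s) :=
          intervalIntegral.integral_nonneg ht.1 fun s hs => Gk_nonneg (hlam s (hsub hs)).1 _ _ _
        have h9 := mul_le_mul_of_nonneg_right hx3 hg0
        have h10 := mul_le_mul_of_nonneg_left (h3.trans (add_le_add (add_le_add le_rfl h6) h8)) hC₀
        norm_num at h7
        rw [hB'def]
        linarith
      have hg : ∀ m, ∫ s in t₀..t, Gk (lam s) 12 (k + 2) (u m s) ≤ 2 * B' / c₀ := by
        intro m
        induction m with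
        | zero =>
          rw [hu0]
          simp only [Gk_zero, intervalIntegral.integral_zero]
          positivity
        | succ m ih =>
          have h1 := step m
          have h2 := Ek_nonneg (hlam t ht).1 (k + 2) (u (m + 1) t)
          rw [le_div_iff₀ hc₀] at ih ⊢
          linarith
      constructor
      · refine le_trans ?_ (le_max_left _ _)
        refine (hEk _ (hlam t ht) _).trans (mul_le_mul_of_nonneg_left ?_ hCe)
        cases m with
        | zero =>
          rw [hu0]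
          simp only [Ek, lev_zero, add_zero]
          positivity
        | succ m =>
          have h1 := step m
          have h2 := hg m
          have h3 : 0 ≤ ∫ s in t₀..t, Gk (lam s) 12 (k + 2) (u (m + 1) s) :=
            intervalIntegral.integral_nonneg ht.1 fun s hs => Gk_nonneg (hlam s (hsub hs)).1 _ _ _
          have h4 := mul_nonneg hc₀.le h3
          rw [le_div_iff₀ hc₀] at h2
          linarith
      · refine le_trans ?_ (le_max_right _ _)
        have h1 := pic2_int_le (α := Cg) (β := Cg) (γ := 0) ht.1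
          ((hc m).N2 hsub' 14 (k + 1 + 1 + 2)) ((hc m).Gk hsub' 12 (k + 2)) ((hc m).N2 hsub' 14 32) (by
            intro s hs
            have hl := hlam s (hsub hs)
            have a1 := hGk _ hl (u m s)
            have a2 := mul_le_mul_of_nonneg_left (lev_le_N2 hl.1 14 (Nat.zero_le 32) (u m s)) hCg
            norm_num at a1
            linarith)
        have h2 := mul_le_mul_of_nonneg_left (hg m) hCg
        have h3 := mul_le_mul_of_nonneg_left ((hX m t ht).2.1.trans hx2) hCg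
        norm_num at h3
        linarith
  intro k
  obtain ⟨B, hB⟩ := key (max k 30) (le_max_right _ _)
  exact ⟨B, fun m t ht => (N2_mono (hlam t ht).1 12 (le_max_left _ _) _).trans (hB m t ht).1⟩

end Crest.Agent.R213
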