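import Crest.Agent.R213.Pic1
import Crest.Agent.R213.Pic2

/-! # Row 213, the limit of the Picard iteration

`lim_exists` for the family of intervals `Icc t₀ t'`, `t' < 0` (`unw_le_N2` with `c = lam t'`; Cauchy property from the geometric
bound and `sqrt_N2_add`), `CLim.cc`, `CLim.shift`, `CLim.Lop`, `CLim.NL`, `CLim.cd` on `Ioo t₀ t'`, `CLim.tendsto_N2`. -/

set_option autoImplicit false
open Set Filter Topology
open scoped ContDiff

noncomputable section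
namespace Crest.Agent.R213

lemma pic3_cauchy {l x : ℝ} (hl : 0 < l) (hx : 0 ≤ x) {w : ℕ → Sm}
    (h : ∀ m, N2 l 12 30 (w (m + 1) - w m) ≤ (x / 2 ^ m) ^ 2) {M m : ℕ} (hm : M ≤ m) :
    N2 l 12 30 (w m - w M) ≤ (2 * x / 2 ^ M) ^ 2 := by
  have h0 : ∀ m, M ≤ m → 0 ≤ 2 * x / 2 ^ M - 2 * x / 2 ^ m := fun m hm =>
    sub_nonneg.2 (by gcongr; exact one_le_two)
  have h1 : N2 l 12 30 (w m - w M) ≤ (2 * x / 2 ^ M - 2 * x / 2 ^ m) ^ 2 := by
    induction m, hm using Nat.le_induction with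
    | base => simp
    | succ m hm ih =>
      have h2 := sqrt_N2_add hl 12 30 (by positivity) (h0 m hm) (h m) ih
      rw [sub_add_sub_cancel] at h2
      refine h2.trans (le_of_eq ?_)
      rw [pow_succ (2 : ℝ) m]
      congr 1
      field_simp
      ring
  exact h1.trans (pow_le_pow_left₀ (h0 m hm) (sub_le_self _ (by positivity)) 2)

theorem picard {a b q G E : ℝ → Sm} (hC : Coef a b) (hN : NCoef q G E) {x₀ : ℝ} (hx₀ : 0 < x₀) :
    ∃ t₀ ∈ Ico (-1 : ℝ) 0, ∃ v : ℝ → Sm, ∀ t ∈ Ioo t₀ 0,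
      CD v (Lop (a (lam t)) (b (lam t)) (v t) + (NL (q (lam t)) (G (lam t)) (v t) - E (lam t))) t ∧
      N2 (lam t) 12 30 (v t) ≤ x₀ ^ 2 := by
  obtain ⟨x₁, hx₁, hreg⟩ := picard_reg hC hN
  obtain ⟨t₀, ht₀, x, hx, u, u0, hs, hX, hd, hB⟩ := picard_iter hC hN (lt_min hx₀ hx₁)
  have hR := hreg t₀ ht₀ x ⟨hx.1, hx.2.trans (min_le_right _ _)⟩ u u0 hs hX hB
  have hsub : ∀ t' < (0 : ℝ), Icc t₀ t' ⊆ Ico t₀ 0 := fun t' h => Icc_subset_Ico_right h
  have hlam : ∀ t' < (0 : ℝ), ∀ t ∈ Icc t₀ t', lam t ∈ Icc (lam t') 1 := fun t' h t ht =>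
    ⟨lam_anti ht.2, (lam_mem (ht₀.1.trans ht.1) (ht.2.trans_lt h)).2⟩
  obtain ⟨v, hv⟩ := lim_exists {J | ∃ t' < (0 : ℝ), J = Icc t₀ t'} u
    (by
      rintro _ ⟨t', h, rfl⟩ k
      obtain ⟨C, hC0, H⟩ := unw_le_N2 (lam_pos h) 12 k
      obtain ⟨B, hB⟩ := hR k
      exact ⟨C * B, fun m t ht => (H _ (hlam t' h t ht) _).trans
        (mul_le_mul_of_nonneg_left (hB m t (hsub t' h ht)) hC0)⟩)
    (by
      rintro _ ⟨t', h, rfl⟩ ε hε
      obtain ⟨C, hC0, H⟩ := unw_le_N2 (lam_pos h) 12 30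
      have h1 : Tendsto (fun M : ℕ => C * (4 * (2 * x / 2 ^ M) ^ 2)) atTop (𝓝 (C * (4 * 0 ^ 2))) :=
        (((tendsto_pow_atTop_atTop_of_one_lt one_lt_two).const_div_atTop _).pow 2).const_mul _
          |>.const_mul _
      obtain ⟨M, hM⟩ := (h1.eventually (ge_mem_nhds (show _ < ε by simpa using hε))).exists
      refine ⟨M, fun m hm m' hm' t ht => ?_⟩
      have hl := lam_pos (hsub t' h ht).2
      have h2 := fun m (hm : M ≤ m) => pic3_cauchy (w := fun m => u m t) hl hx.1.le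
        (fun m => (hd m t (hsub t' h ht)).1) hm
      have h3 := N2_sub_le hl 12 30 (u m t - u M t) (u m' t - u M t)
      rw [sub_sub_sub_cancel_right] at h3
      refine (lev_le_N2 one_pos 0 (Nat.zero_le 30) _).trans ((H _ (hlam t' h t ht) _).trans
        (le_trans (mul_le_mul_of_nonneg_left ?_ hC0) hM))
      linarith [h2 m hm, h2 m' hm'])
  refine ⟨t₀, ht₀, v, fun t ht => ?_⟩
  have h : t / 2 < 0 := by linarith [ht.2]
  have ht' : t ∈ Ioo t₀ (t / 2) := ⟨ht.1, by linarith [ht.2]⟩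
  have hL := hv _ ⟨t / 2, h, rfl⟩
  have hc : CC (Icc t₀ (t / 2)) v := hL.shift.cc fun m => (hs m).1.mono (hsub _ h)
  have hJ : Icc t₀ (t / 2) ⊆ Iio 0 := fun s hs => hs.2.trans_lt h
  refine ⟨CLim.cd isOpen_Ioo (hL.shift.mono Ioo_subset_Icc_self)
    (((hL.shift.Lop isCompact_Icc (hC.ca.mono hJ) (hC.cb.mono hJ) hc).add
      ((hL.NL isCompact_Icc (hN.cq.mono hJ) (hN.cG.mono hJ) hc).sub
        (CLim.const fun t => E (lam t)))).mono Ioo_subset_Icc_self)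
    (fun m s hs' => (hs m).2 s ⟨hs'.1, hs'.2.trans h⟩) t ht', ?_⟩
  exact le_of_tendsto' (hL.tendsto_N2 (Ioo_subset_Icc_self ht') _ 12 30) fun m =>
    (hX m t (Ioo_subset_Ico_self ht)).1.trans
      (pow_le_pow_left₀ hx.1.le (hx.2.trans (min_le_left _ _)) 2)

end Crest.Agent.R213
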