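import Crest.Agent.R213.Basic
import Crest.Agent.R213.Alg

/-! # Row 213, the orthogonal projection on polynomials

`PM M` is the orthogonal projection on `Pol M` for `levB 1 0 0` (`= ∫ μ₂ u v`, positive definite by `eq_zero_of_lev`).
It is also orthogonal for every `levB 1 k k` (`= ∫ μ_{k+2} D^k u D^k v`, `sp 1 0 = 1`): by `ibp` `k` times
`levB 1 k k z p = ± ∫ μ₂ z · δ₂ δ₃ ⋯ δ_{k+1} D^k p` and `D` lowers, `δ_m` raises the degree by one.
The rate comes from Bernstein polynomials: `|B_n f - f| ≤ Lip(f) / (2 √n)` (`bernstein.variance`, Cauchy–Schwarz). -/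

set_option autoImplicit false
open Set Filter Topology
open scoped ContDiff

noncomputable section
namespace Crest.Agent.R213

instance (M : ℕ) : FiniteDimensional ℝ (Pol M) := FiniteDimensional.span_of_finite ℝ (Set.finite_range _)

/-- orthonormal family representing the orthogonal projection on a finite dimensional subspace -/
lemma pj_onb {V : Type*} [AddCommGroup V] [Module ℝ V] (B : V →ₗ[ℝ] V →ₗ[ℝ] ℝ)
    (hs : ∀ u v, B u v = B v u) (hp : ∀ v, v ≠ 0 → 0 < B v v) (W : Submodule ℝ V)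
    [FiniteDimensional ℝ W] : ∃ (n : ℕ) (e : Fin n → V), (∀ i, e i ∈ W) ∧
      ∀ w, ∀ p ∈ W, B (∑ i, B w (e i) • e i) p = B w p := by
  let B' : LinearMap.BilinForm ℝ W := B.compl₁₂ W.subtype W.subtype
  have hB' : LinearMap.IsSymm B' := ⟨fun x y => hs _ _⟩
  obtain ⟨v, hv⟩ := LinearMap.BilinForm.exists_orthogonal_basis hB'
  have hpos : ∀ i, 0 < B (v i) (v i) := fun i => hp _ fun h => v.ne_zero i (Subtype.ext h)
  refine ⟨_, fun i => (√(B (v i) (v i)))⁻¹ • (v i : V), fun i => W.smul_mem _ (v i).2,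
    fun w p hp => ?_⟩
  have key : ∀ j, B (∑ i, B w ((√(B (v i) (v i)))⁻¹ • (v i : V)) • (√(B (v i) (v i)))⁻¹ • (v i : V))
      (v j) = B w (v j) := by
    intro j
    rw [map_sum, LinearMap.sum_apply, Finset.sum_eq_single j]
    · simp only [map_smul, LinearMap.smul_apply, smul_eq_mul]
      have h1 := Real.mul_self_sqrt (hpos j).le
      have h2 := (Real.sqrt_pos.2 (hpos j)).ne'
      generalize √(B (v j) (v j)) = r at h1 h2
      rw [← h1]
      field_simp
    · intro i _ hij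
      have : B (v i) (v j) = 0 := hv hij
      simp [this]
    · simp
  have hp' : p = ∑ j, v.repr ⟨p, hp⟩ j • (v j : V) := by
    have := congrArg W.subtype (v.sum_repr ⟨p, hp⟩)
    rw [map_sum] at this
    exact this.symm
  rw [hp', map_sum (B w), map_sum (B _)]
  refine Finset.sum_congr rfl fun j _ => ?_
  rw [map_smul, map_smul, key]

/-- polynomials of degree `< n` -/
def PjP (n : ℕ) : Submodule ℝ Sm := Submodule.span ℝ (Set.range fun i : Fin n => X ^ (i : ℕ))

lemma pj_pow {n i : ℕ} (h : i < n) : X ^ i ∈ PjP n := Submodule.subset_span ⟨⟨i, h⟩, rfl⟩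

lemma pj_map {n m : ℕ} (L : Sm →ₗ[ℝ] Sm) (h : ∀ i < n, L (X ^ i) ∈ PjP m) {p : Sm} (hp : p ∈ PjP n) :
    L p ∈ PjP m := by
  have : PjP n ≤ (PjP m).comap L := Submodule.span_le.2 (by
    rintro _ ⟨i, rfl⟩
    exact h i i.2)
  exact this hp

lemma pj_zero {p : Sm} (hp : p ∈ PjP 0) : p = 0 := by
  simpa [PjP] using hp

lemma pj_mono {n : ℕ} {p : Sm} (hp : p ∈ PjP n) : p ∈ PjP (n + 1) :=
  pj_map LinearMap.id (fun _ hi => pj_pow (by omega)) hp

lemma pj_X {n : ℕ} {p : Sm} (hp : p ∈ PjP n) : X * p ∈ PjP (n + 1) :=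
  pj_map (LinearMap.mulLeft ℝ X) (fun i hi => by
    rw [LinearMap.mulLeft_apply, ← pow_succ']
    exact pj_pow (by omega)) hp

lemma pj_1X {n : ℕ} {p : Sm} (hp : p ∈ PjP n) : (1 - X) * p ∈ PjP (n + 1) := by
  rw [sub_mul, one_mul]
  exact sub_mem (pj_mono hp) (pj_X hp)

lemma pj_D {n : ℕ} {p : Sm} (hp : p ∈ PjP (n + 1)) : D p ∈ PjP n :=
  pj_map D (fun i hi => by
    cases i with
    | zero => simp
    | succ i =>
      have : D (X ^ (i + 1)) = ((i : ℝ) + 1) • X ^ i := by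
        rw [D_pow_succ, D_X, mul_one, Algebra.smul_def, map_add, map_natCast, map_one]
      rw [this]
      exact Submodule.smul_mem _ _ (pj_pow (by omega))) hp

lemma pj_dl (m : ℕ) {n : ℕ} {p : Sm} (hp : p ∈ PjP n) : dl m p ∈ PjP (n + 1) := by
  cases n with
  | zero => rw [pj_zero hp, map_zero]; exact zero_mem _
  | succ n =>
    have : dl m p = X * ((1 - X) * D p) +
        ((10 + (m : ℝ)) • ((1 - X) * p) - ((m : ℝ) + 1) • (X * p)) := by
      simp only [dl_apply, ph, pm, Algebra.smul_def, map_add, map_natCast, map_one, map_ofNat]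
      ring
    rw [this]
    exact add_mem (pj_X (pj_1X (pj_D hp)))
      (sub_mem (Submodule.smul_mem _ _ (pj_1X hp)) (Submodule.smul_mem _ _ (pj_X hp)))

lemma pj_bern (a b : ℕ) : X ^ a * (1 - X) ^ b ∈ PjP (a + b + 1) := by
  induction b with
  | zero => simpa using pj_pow (Nat.lt_succ_self a)
  | succ b ih =>
    have : X ^ a * (1 - X) ^ (b + 1) = (1 - X) * (X ^ a * (1 - X) ^ b) := by ring
    rw [this]
    exact pj_1X ih

/-- integrating by parts `k` times -/
lemma pj_ibp (k : ℕ) : ∀ (m n : ℕ) (p : Sm), p ∈ PjP n → ∃ q ∈ PjP n, ∀ z,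
    Ii (mu (k + m) * (D ^ k) z * (D ^ k) p) = Ii (mu m * z * q) := by
  induction k with
  | zero => exact fun m n p hp => ⟨p, hp, fun z => by simp⟩
  | succ k ih =>
    intro m n p hp
    cases n with
    | zero => exact ⟨0, zero_mem _, fun z => by simp [pj_zero hp]⟩
    | succ n =>
      obtain ⟨q, hq, h⟩ := ih (m + 1) n (D p) (pj_D hp)
      refine ⟨-dl m q, neg_mem (pj_dl m hq), fun z => ?_⟩
      rw [Dpow_succ', Dpow_succ', show k + 1 + m = k + (m + 1) by ring, h, mul_neg, map_neg, ibp,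
        neg_neg]

lemma pj_levB (k : ℕ) (u v : Sm) : levB 1 k k u v = Ii (mu (k + 2) * (D ^ k) u * (D ^ k) v) := by
  rw [levB, sub_self, sp_zero one_pos, mul_one]

lemma pj_levB0 (u v : Sm) : levB 1 0 0 u v = Ii (mu 2 * u * v) := by
  simpa using pj_levB 0 u v

lemma pj_pyth (e : ℤ) (k : ℕ) {u v : Sm} (h : levB 1 e k u v = 0) :
    lev 1 e k (u + v) = lev 1 e k u + lev 1 e k v := by
  simp only [lev_eq_levB]
  rw [levB_add, levB_comm 1 e k u (u + v), levB_comm 1 e k v (u + v), levB_add, levB_add,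
    levB_comm 1 e k v u, h]
  ring

lemma pj_lip (w : Sm) {x y : ℝ} (hx : x ∈ I) (hy : y ∈ I) :
    (ev w x - ev w y) ^ 2 ≤ ‖jet 1 w‖ ^ 2 * (x - y) ^ 2 := by
  have h := (convex_Icc (0 : ℝ) 1).norm_image_sub_le_of_norm_hasDerivWithin_le
    (f := ev w) (f' := ev (D w)) (C := ‖jet 1 w‖) (fun z hz => hasDerivWithinAt_ev w hz)
    (fun z hz => by simpa using abs_ev_le_jet 1 w hz) hy hx
  rw [← mul_pow, ← sq_abs, ← sq_abs (_ * _), abs_mul, abs_norm]
  exact pow_le_pow_left₀ (abs_nonneg _) h 2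

lemma pj_lev_le {R : Sm} {C : ℝ} (h : ∀ x ∈ I, ev R x ^ 2 ≤ C) : lev 1 0 0 R ≤ C := by
  rw [lev_eq_levB, pj_levB0]
  have h1 : C = Ii (C • (1 : Sm)) := by simp
  rw [h1]
  refine Ii_mono fun x hx => ?_
  simp only [ev_mul, ev_smul, ev_one, mul_one]
  have h2 := bas_mu_le_one 2 hx
  have h3 := bas_mu_nonneg 2 hx
  have h4 := h x hx
  nlinarith [mul_le_mul h2 h4 (sq_nonneg _) zero_le_one]

/-- Bernstein approximation with rate -/
lemma pj_approx (M : ℕ) (w : Sm) : ∃ p ∈ Pol M, lev 1 0 0 (w - p) ≤ ‖jet 1 w‖ ^ 2 / (M + 1) := by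
  rcases Nat.eq_zero_or_pos M with rfl | hM
  · refine ⟨ev w 0 • X ^ 0, Submodule.smul_mem _ _ (pj_pow (n := 1) one_pos),
      pj_lev_le fun x hx => ?_⟩
    have h := pj_lip w hx (y := 0) (by simp)
    have h1 : (x - 0) ^ 2 ≤ 1 := by
      rw [sub_zero]; exact pow_le_one₀ hx.1 hx.2
    simp only [ev_sub, ev_smul, pow_zero, ev_one, mul_one, Nat.cast_zero, zero_add, div_one]
    nlinarith [sq_nonneg ‖jet 1 w‖]
  · refine ⟨∑ k : Fin (M + 1), (ev w (bernstein.z k : unitInterval) * (M.choose k : ℝ)) •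
      (X ^ (k : ℕ) * (1 - X) ^ (M - k)), Submodule.sum_mem _ fun k _ => Submodule.smul_mem _ _ ?_,
      pj_lev_le fun x hx => ?_⟩
    · have := pj_bern k (M - k)
      rwa [show (k : ℕ) + (M - k) = M by have := k.is_le; omega] at this
    · have e1 : ev (w - ∑ k : Fin (M + 1), (ev w (bernstein.z k : unitInterval) * (M.choose k : ℝ)) •
          (X ^ (k : ℕ) * (1 - X) ^ (M - k))) x = ∑ k : Fin (M + 1),
          bernstein M k ⟨x, hx⟩ * (ev w x - ev w (bernstein.z k : unitInterval)) := by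
        simp only [mul_sub (bernstein M _ ⟨x, hx⟩), Finset.sum_sub_distrib, ← Finset.sum_mul,
          bernstein.probability, one_mul, ev_sub, ev_sum]
        congr 1
        refine Finset.sum_congr rfl fun k _ => ?_
        simp only [bernstein_apply, ev_smul, ev_mul, ev_pow, ev_sub, ev_one, ev_X hx]
        ring
      rw [e1]
      have h1 := Finset.sum_sq_le_sum_mul_sum_of_sq_le_mul Finset.univ
        (r := fun k : Fin (M + 1) =>
          bernstein M k ⟨x, hx⟩ * (ev w x - ev w (bernstein.z k : unitInterval)))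
        (f := fun k => bernstein M k ⟨x, hx⟩)
        (g := fun k => ‖jet 1 w‖ ^ 2 *
          ((x - (bernstein.z k : unitInterval)) ^ 2 * bernstein M k ⟨x, hx⟩))
        (fun _ _ => bernstein_nonneg)
        (fun _ _ => mul_nonneg (sq_nonneg _) (mul_nonneg (sq_nonneg _) bernstein_nonneg))
        (fun k _ => by
          have h := pj_lip w hx (bernstein.z k : unitInterval).2
          have h' := mul_le_mul_of_nonneg_left h (sq_nonneg (bernstein M k ⟨x, hx⟩))
          rw [mul_pow]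
          refine h'.trans (le_of_eq ?_)
          ring)
      have h2 := bernstein.variance hM.ne' ⟨x, hx⟩
      rw [bernstein.probability, one_mul, ← Finset.mul_sum] at h1
      refine h1.trans ?_
      rw [show ∑ k : Fin (M + 1), (x - (bernstein.z k : unitInterval)) ^ 2 * bernstein M k ⟨x, hx⟩ =
        x * (1 - x) / M from h2, div_eq_mul_one_div (‖jet 1 w‖ ^ 2)]
      refine mul_le_mul_of_nonneg_left ?_ (sq_nonneg _)
      have hM' : (1 : ℝ) ≤ M := by exact_mod_cast hM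
      rw [div_le_div_iff₀ (by linarith) (by linarith)]
      nlinarith [sq_nonneg (2 * x - 1)]

theorem exists_proj : ∃ PM : ℕ → Module.End ℝ Sm,
    (∀ M w, PM M w ∈ Pol M) ∧
    (∀ (M k : ℕ) w p, p ∈ Pol M → levB 1 k k (PM M w) p = levB 1 k k w p) ∧
    (∀ (M k : ℕ) w, lev 1 k k (PM M w) ≤ lev 1 k k w) ∧
    (∀ (M : ℕ) w, lev 1 0 0 (w - PM M w) ≤ ‖jet 1 w‖ ^ 2 / (M + 1)) ∧
    (∀ M, ∃ (n : ℕ) (e : Fin n → Sm), (∀ i, e i ∈ Pol M) ∧
      ∀ w, PM M w = ∑ i, levB 1 0 0 w (e i) • e i) := by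
  let B : Sm →ₗ[ℝ] Sm →ₗ[ℝ] ℝ := LinearMap.mk₂ ℝ (levB 1 0 0) (levB_add 1 0 0)
    (fun c u v => levB_smul 1 0 0 c u v)
    (fun u v v' => by simp only [levB_comm 1 0 0 u, levB_add])
    (fun c u v => by simp only [levB_comm 1 0 0 u, levB_smul, smul_eq_mul])
  have hB : ∀ u v, B u v = levB 1 0 0 u v := fun _ _ => rfl
  have H := fun M => pj_onb B (levB_comm 1 0 0) (fun v hv => by
    rw [hB, ← lev_eq_levB]
    exact lt_of_not_ge fun h => hv (eq_zero_of_lev one_pos 0 h)) (Pol M)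
  choose n e he h using H
  let PM : ℕ → Module.End ℝ Sm := fun M => ∑ i, (B.flip (e M i)).smulRight (e M i)
  have hPM : ∀ M w, PM M w = ∑ i, levB 1 0 0 w (e M i) • e M i := fun M w => by
    simp only [PM, LinearMap.sum_apply, LinearMap.smulRight_apply, LinearMap.flip_apply, hB]
  have h1 : ∀ M w, PM M w ∈ Pol M := fun M w => by
    rw [hPM]
    exact Submodule.sum_mem _ fun i _ => Submodule.smul_mem _ _ (he M i)
  have h2 : ∀ (M k : ℕ) w p, p ∈ Pol M → levB 1 k k (PM M w) p = levB 1 k k w p := by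
    intro M k w p hp
    obtain ⟨q, hq, hz⟩ := pj_ibp k 2 (M + 1) p hp
    rw [pj_levB, pj_levB, hz, hz, ← pj_levB0, ← pj_levB0, hPM]
    exact h M w q hq
  have h3 : ∀ (M k : ℕ) w p, p ∈ Pol M → lev 1 k k (w - PM M w + p) =
      lev 1 k k (w - PM M w) + lev 1 k k p := fun M k w p hp =>
    pj_pyth k k (by rw [levB_sub, h2 M k w p hp, sub_self])
  refine ⟨PM, h1, h2, fun M k w => ?_, fun M w => ?_, fun M => ⟨n M, e M, he M, hPM M⟩⟩
  · have := h3 M k w _ (h1 M w)
    rw [sub_add_cancel] at this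
    have := lev_nonneg one_pos k k (w - PM M w)
    linarith
  · obtain ⟨p, hp, hle⟩ := pj_approx M w
    have h4 := h3 M 0 w _ (sub_mem (h1 M w) hp)
    rw [sub_add_sub_cancel, Nat.cast_zero] at h4
    have := lev_nonneg one_pos 0 0 (PM M w - p)
    linarith

end Crest.Agent.R213
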