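import Crest.Agent.R213.High

/-! # Row 213, the strong energy estimate and the comparison of different scales -/

set_option autoImplicit false
open Set Filter Topology
open scoped ContDiff

noncomputable section
namespace Crest.Agent.R213

/-- `hasDerivAt_lev` (the weight term of the top level has a good sign since `k + 2 ≥ 12`), `energy_top 12 k`,
`energy_zero 12`, `lev λ 14 0 ≤ λ⁻¹ lev λ 13 0`, `le_of_deriv_le`.  `c₀ = a₀`, `C₀ = 4 / a₀` do not depend on `k`. -/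
theorem strong {a b : ℝ → Sm} (hC : Coef a b) : ∃ c₀ > (0 : ℝ), ∃ C₀, 0 ≤ C₀ ∧ ∀ k ≥ 10, ∃ C, 0 ≤ C ∧
    ∀ t₁ t₂ : ℝ, -1 ≤ t₁ → t₁ ≤ t₂ → t₂ < 0 → ∀ F v, CC (Icc t₁ t₂) F →
    Sol (fun t => a (lam t)) (fun t => b (lam t)) F t₁ t₂ v →
    Ek (lam t₂) (k + 2) (v t₂) + c₀ * ∫ s in t₁..t₂, Gk (lam s) 12 (k + 2) (v s) ≤
      Ek (lam t₁) (k + 2) (v t₁) + C₀ * (∫ s in t₁..t₂, lev (lam s) 10 k (F s))
        + (∫ s in t₁..t₂, lev (lam s) 10 0 (F s))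
        + C * ∫ s in t₁..t₂, (lam s)⁻¹ * N2 (lam s) 13 0 (v s) := by
  obtain ⟨a₀, ha₀, hpos⟩ := hC.pos
  refine ⟨a₀, ha₀, 4 / a₀, by positivity, fun k hk => ?_⟩
  obtain ⟨Ca, hCa, ha⟩ := hC.sa k
  obtain ⟨Cb, hCb, hb⟩ := hC.sb k
  obtain ⟨C₁, hC₁, h₁⟩ := energy_top 12 k ha₀ (Ca + Cb)
  obtain ⟨c, hc, C₂, hC₂, h₂⟩ := energy_zero 12 ha₀ (Ca + Cb)
  refine ⟨C₁ + C₂ + 6, by positivity, fun t₁ t₂ ht₁ h12 ht₂ F v hF hv => ?_⟩
  have hJ : Icc t₁ t₂ ⊆ Iio 0 := fun s hs => hs.2.trans_lt ht₂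
  have cG := hv.1.Gk hJ 12 (k + 2)
  have cF := hF.lev hJ 10 k
  have cF0 := hF.lev hJ 10 0
  have cN : ContinuousOn (fun s => (lam s)⁻¹ * N2 (lam s) 13 0 (v s)) (Icc t₁ t₂) :=
    (continuous_lam.continuousOn.inv₀ fun s hs => (lam_pos (hJ hs)).ne').mul (hv.1.N2 hJ 13 0)
  have key := le_of_deriv_le (f := fun s => Ek (lam s) (k + 2) (v s))
    (g := fun s => -a₀ * Gk (lam s) 12 (k + 2) (v s) + 4 / a₀ * lev (lam s) 10 k (F s) +
      lev (lam s) 10 0 (F s) + (C₁ + C₂ + 6) * ((lam s)⁻¹ * N2 (lam s) 13 0 (v s))) h12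
    (hv.1.Ek hJ (k + 2))
    ((((cG.const_mul _).add (cF.const_mul _)).add cF0).add (cN.const_mul _)) fun t ht => by
      have ht0 : t < 0 := ht.2.trans ht₂
      have hl := lam_mem (ht₁.trans ht.1.le) ht0
      have hl0 := hl.1
      have hd := hv.2 t ht
      refine ⟨_, (hasDerivAt_lev hd ht0 12 (k + 2)).add (hasDerivAt_lev hd ht0 12 0), ?_⟩
      have sa := (ha _ hl).mono_C hl.1 (le_add_of_nonneg_right hCb)
      have sb := (hb _ hl).mono_C hl.1 (le_add_of_nonneg_left hCa)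
      have e1 := h₁ _ hl _ _ sa sb (hpos _ hl) (v t) (F t)
      have e2 := h₂ _ hl _ _ (sa.mono_K (by omega)) (sb.mono_K (by omega)) (hpos _ hl) (v t) (F t)
      have e3 := lev_le_inv hl.1 (e := 13) (e' := 14) (by norm_num) 0 (v t)
      rw [show (13 : ℤ) - 14 = -1 by norm_num, zpow_neg_one] at e3
      rw [show (12 : ℤ) - 2 = 10 by norm_num, show (12 : ℤ) + 2 = 14 by norm_num] at e1 e2
      rw [show (12 : ℤ) + 1 = 13 by norm_num, N2_zero]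
      have e4 : (((12 : ℤ) : ℝ) - ((k + 2 : ℕ) : ℝ)) / (2 * lam t) * lev (lam t) 13 (k + 2) (v t) ≤ 0 := by
        refine mul_nonpos_of_nonpos_of_nonneg (div_nonpos_of_nonpos_of_nonneg ?_ (by positivity))
          (lev_nonneg hl.1 _ _ _)
        have : (10 : ℝ) ≤ k := by exact_mod_cast hk
        push_cast
        linarith
      have e5 : (((12 : ℤ) : ℝ) - ((0 : ℕ) : ℝ)) / (2 * lam t) * lev (lam t) 13 0 (v t) =
          6 * ((lam t)⁻¹ * lev (lam t) 13 0 (v t)) := by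
        push_cast
        field_simp
        ring
      have e6 := mul_nonneg hc.le (N2_nonneg hl.1 14 2 (v t))
      have e7 := mul_le_mul_of_nonneg_left e3 (add_nonneg hC₁ hC₂)
      rw [e5]
      linarith
  have i1 := cG.intervalIntegrable_of_Icc (μ := MeasureTheory.volume) h12
  have i2 := cF.intervalIntegrable_of_Icc (μ := MeasureTheory.volume) h12
  have i3 := cF0.intervalIntegrable_of_Icc (μ := MeasureTheory.volume) h12
  have i4 := cN.intervalIntegrable_of_Icc (μ := MeasureTheory.volume) h12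
  rw [intervalIntegral.integral_add (((i1.const_mul _).add (i2.const_mul _)).add i3) (i4.const_mul _),
    intervalIntegral.integral_add ((i1.const_mul _).add (i2.const_mul _)) i3,
    intervalIntegral.integral_add (i1.const_mul _) (i2.const_mul _),
    intervalIntegral.integral_const_mul, intervalIntegral.integral_const_mul,
    intervalIntegral.integral_const_mul] at key
  linarith

/-- the integral of a function bounded by `M ≥ 0` over `[t₁,t₂]`, `t₂ < 0` -/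
lemma strong_int_le {g : ℝ → ℝ} {t₁ t₂ M : ℝ} (h12 : t₁ ≤ t₂) (ht₂ : t₂ < 0) (hM : 0 ≤ M)
    (hg : ContinuousOn g (Icc t₁ t₂)) (h : ∀ s ∈ Icc t₁ t₂, g s ≤ M) :
    ∫ s in t₁..t₂, g s ≤ lam t₁ ^ 2 * M := by
  have h1 := intervalIntegral.integral_mono_on h12
    (hg.intervalIntegrable_of_Icc (μ := MeasureTheory.volume) h12)
    (intervalIntegrable_const (c := M)) h
  rw [intervalIntegral.integral_const, smul_eq_mul] at h1
  refine h1.trans (mul_le_mul_of_nonneg_right ?_ hM)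
  rw [lam_sq (by linarith)]
  linarith

/-- `strong` with `F = 0`, `high_crude` on `[t₁,s]`, `le_HQ`, `HQ_le_N2`, `N2_le_Ek` -/
theorem step_strong {a b : ℝ → Sm} (hC : Coef a b) (k : ℕ) (hk : 12 ≤ k) : ∃ C, 0 ≤ C ∧
    ∀ t₁ t₂ : ℝ, -1 ≤ t₁ → t₁ ≤ t₂ → t₂ < 0 → lam t₁ ≤ 2 * lam t₂ → ∀ v,
    Sol (fun t => a (lam t)) (fun t => b (lam t)) (fun _ => 0) t₁ t₂ v →
    N2 (lam t₂) 12 k (v t₂) ≤ C * N2 (lam t₁) 12 k (v t₁) := by
  obtain ⟨k, rfl⟩ : ∃ k', k = k' + 2 := ⟨k - 2, by omega⟩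
  obtain ⟨c₀, hc₀, C₀, hC₀, h⟩ := strong hC
  obtain ⟨C₁, hC₁, h₁⟩ := h k (by omega)
  obtain ⟨C₂, hC₂, h₂⟩ := high_crude hC
  obtain ⟨C₃, hC₃, h₃⟩ := N2_le_Ek (k + 2)
  refine ⟨C₃ * (2 + C₁ * (64 * C₂)), by positivity, fun t₁ t₂ ht₁ h12 ht₂ hl v hv => ?_⟩
  have hJ : Icc t₁ t₂ ⊆ Iio 0 := fun s hs => hs.2.trans_lt ht₂
  have ht₁0 : t₁ < 0 := h12.trans_lt ht₂
  have hl₁ := lam_pos ht₁0
  have hl₂ := lam_mem (ht₁.trans h12) ht₂
  set N := N2 (lam t₁) 12 (k + 2) (v t₁) with hN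
  have hN0 : 0 ≤ N := N2_nonneg hl₁ _ _ _
  have e1 := h₁ t₁ t₂ ht₁ h12 ht₂ _ v (CC.const 0) hv
  simp only [lev_zero, intervalIntegral.integral_zero, mul_zero, add_zero] at e1
  have e2 : 0 ≤ ∫ s in t₁..t₂, Gk (lam s) 12 (k + 2) (v s) :=
    intervalIntegral.integral_nonneg h12 fun s hs => Gk_nonneg (lam_pos (hJ hs)) _ _ _
  have cN : ContinuousOn (fun s => (lam s)⁻¹ * N2 (lam s) 13 0 (v s)) (Icc t₁ t₂) :=
    (continuous_lam.continuousOn.inv₀ fun s hs => (lam_pos (hJ hs)).ne').mul (hv.1.N2 hJ 13 0)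
  have e3 := strong_int_le (M := 64 * C₂ * N / lam t₁ ^ 2) h12 ht₂ (by positivity) cN fun s hs => by
    have hs0 : s < 0 := hJ hs
    have hls := lam_pos hs0
    have h2s : lam t₁ ≤ 2 * lam s := hl.trans (by linarith [lam_anti hs.2])
    have a1 := h₂ t₁ s ht₁ hs.1 hs0 h2s _ v (CC.const 0) (hv.mono le_rfl hs.2)
    simp only [lev_zero, intervalIntegral.integral_zero, mul_zero, add_zero] at a1
    have a2 := le_HQ hls (v s)
    have a3 := mul_le_mul_of_nonneg_left (HQ_le_N2 hl₁ (k + 2) (v t₁)) hC₂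
    have a4 : lam s ^ 3 * lev (lam s) 13 0 (v s) ≤ 4 * C₂ * (lam t₁ ^ 2 * N) := by linarith
    have a5 : lam t₁ ^ 4 ≤ (2 * lam s) ^ 4 := pow_le_pow_left₀ hl₁.le h2s 4
    have a6 := lev_nonneg hls 13 0 (v s)
    rw [N2_zero, le_div_iff₀ (by positivity)]
    refine le_of_mul_le_mul_right ?_ (show 0 < lam t₁ ^ 2 by positivity)
    calc (lam s)⁻¹ * lev (lam s) 13 0 (v s) * lam t₁ ^ 2 * lam t₁ ^ 2
        = (lam s)⁻¹ * lev (lam s) 13 0 (v s) * lam t₁ ^ 4 := by ring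
      _ ≤ (lam s)⁻¹ * lev (lam s) 13 0 (v s) * (2 * lam s) ^ 4 :=
          mul_le_mul_of_nonneg_left a5 (by positivity)
      _ = 16 * (lam s ^ 3 * lev (lam s) 13 0 (v s)) := by
          field_simp
          ring
      _ ≤ 16 * (4 * C₂ * (lam t₁ ^ 2 * N)) := by linarith
      _ = _ := by ring
  rw [mul_div_cancel₀ _ (by positivity)] at e3
  have e4 := Ek_le_N2 hl₁ (k + 2) (v t₁)
  have e5 := mul_le_mul_of_nonneg_left e3 hC₁
  have e6 := mul_nonneg hc₀.le e2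
  refine (h₃ _ hl₂ _).trans ?_
  rw [mul_assoc]
  refine mul_le_mul_of_nonneg_left ?_ hC₃
  linarith

/-- `d s = Xi κ (u (κ² s)) - v s` solves the equation with the source of `Xi_comm` and `d t₁ = 0`
(`CD.comp`, `CD.Xi`, `lam_mul`); `high_crude`, `Xi_comm`, `step_strong 19`. -/
theorem xi_step {a b : ℝ → Sm} (hC : Coef a b) : ∃ C, 0 ≤ C ∧ ∀ κ ∈ Ioc (0 : ℝ) 1,
    ∀ t₁ t₂ : ℝ, -1 ≤ t₁ → t₁ ≤ t₂ → t₂ < 0 → lam t₁ ≤ 2 * lam t₂ → ∀ u v,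
    Sol (fun t => a (lam t)) (fun t => b (lam t)) (fun _ => 0) (κ ^ 2 * t₁) (κ ^ 2 * t₂) u →
    Sol (fun t => a (lam t)) (fun t => b (lam t)) (fun _ => 0) t₁ t₂ v →
    v t₁ = Xi κ (u (κ ^ 2 * t₁)) →
    HQ (lam t₂) (Xi κ (u (κ ^ 2 * t₂)) - v t₂) ≤
      C * lam t₁ ^ 3 * ((κ * lam t₁) ^ 2 * N2 (κ * lam t₁) 12 19 (u (κ ^ 2 * t₁))) := by
  obtain ⟨C₁, hC₁, h₁⟩ := high_crude hC
  obtain ⟨C₂, hC₂, h₂⟩ := Xi_comm hC
  obtain ⟨C₃, hC₃, h₃⟩ := step_strong hC 19 (by norm_num)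
  refine ⟨C₁ * C₂ * C₃, by positivity, fun κ hκ t₁ t₂ ht₁ h12 ht₂ hl u v hu hv h0 => ?_⟩
  have hκ0 := hκ.1
  have hκI : κ ∈ I := ⟨hκ.1.le, hκ.2⟩
  have hκ2 : 0 < κ ^ 2 := by positivity
  have hκ1 : κ ^ 2 ≤ 1 := pow_le_one₀ hκ.1.le hκ.2
  have hJ : Icc t₁ t₂ ⊆ Iio 0 := fun s hs => hs.2.trans_lt ht₂
  have ht₁0 : t₁ < 0 := h12.trans_lt ht₂
  have hl₁ := lam_pos ht₁0
  have hφ : ContinuousOn (fun s : ℝ => κ ^ 2 * s) (Icc t₁ t₂) := by fun_prop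
  have hm : MapsTo (fun s : ℝ => κ ^ 2 * s) (Icc t₁ t₂) (Icc (κ ^ 2 * t₁) (κ ^ 2 * t₂)) :=
    fun s hs => ⟨mul_le_mul_of_nonneg_left hs.1 hκ2.le, mul_le_mul_of_nonneg_left hs.2 hκ2.le⟩
  have hm' : MapsTo (fun s : ℝ => κ ^ 2 * s) (Icc t₁ t₂) (Iio 0) :=
    fun s hs => mul_neg_of_pos_of_neg hκ2 (hJ hs)
  have cu : CC (Icc t₁ t₂) fun s => u (κ ^ 2 * s) := hu.1.comp hφ hm
  set F : ℝ → Sm := fun s =>
    κ ^ 2 • Xi κ (Lop (a (lam (κ ^ 2 * s))) (b (lam (κ ^ 2 * s))) (u (κ ^ 2 * s))) -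
      Lop (a (lam s)) (b (lam s)) (Xi κ (u (κ ^ 2 * s))) with hF
  have cF : CC (Icc t₁ t₂) F :=
    ((((hC.ca.comp hφ hm').Lop (hC.cb.comp hφ hm') cu).Xi hκI).smul (c := fun _ => κ ^ 2)
      continuousOn_const).sub ((hC.ca.mono hJ).Lop (hC.cb.mono hJ) (cu.Xi hκI))
  have hd : Sol (fun t => a (lam t)) (fun t => b (lam t)) F t₁ t₂
      fun s => Xi κ (u (κ ^ 2 * s)) - v s := by
    refine ⟨(cu.Xi hκI).sub hv.1, fun t ht => ?_⟩
    have a1 := hu.2 (κ ^ 2 * t) ⟨mul_lt_mul_of_pos_left ht.1 hκ2, mul_lt_mul_of_pos_left ht.2 hκ2⟩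
    have a2 : HasDerivAt (fun s : ℝ => κ ^ 2 * s) (κ ^ 2) t := by
      simpa using (hasDerivAt_id t).const_mul (κ ^ 2)
    refine (((CD.comp (φ := fun s : ℝ => κ ^ 2 * s) a1 a2).Xi hκI).sub (hv.2 t ht)).congr_deriv ?_
    simp only [hF, add_zero, map_smul, Lop_sub]
    ring
  have e1 := h₁ t₁ t₂ ht₁ h12 ht₂ hl F _ cF hd
  set N := N2 (κ * lam t₁) 12 19 (u (κ ^ 2 * t₁)) with hN
  have hN0 : 0 ≤ N := N2_nonneg (by positivity) _ _ _
  have e2 := strong_int_le (M := C₂ * κ ^ 2 * (C₃ * N)) h12 ht₂ (by positivity) (cF.lev hJ 11 0)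
    fun s hs => by
      have hs0 : s < 0 := hJ hs
      have hls := lam_mem (ht₁.trans hs.1) hs0
      have h2s : lam t₁ ≤ 2 * lam s := hl.trans (by linarith [lam_anti hs.2])
      have a1 := h₂ κ hκ _ hls (u (κ ^ 2 * s))
      have a2 := h₃ (κ ^ 2 * t₁) (κ ^ 2 * s) (by nlinarith) (hm hs).1 (hm' hs)
        (by rw [lam_mul hκ0.le, lam_mul hκ0.le]; nlinarith) u (hu.mono le_rfl (hm hs).2)
      rw [lam_mul hκ0.le, lam_mul hκ0.le] at a2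
      simp only [hF, lam_mul hκ0.le]
      exact a1.trans (mul_le_mul_of_nonneg_left a2 (by positivity))
  have e3 : HQ (lam t₁) (Xi κ (u (κ ^ 2 * t₁)) - v t₁) = 0 := by
    rw [h0, sub_self]
    simp [HQ, HB]
  simp only [e3, zero_add] at e1
  refine e1.trans ?_
  calc C₁ * (lam t₁ ^ 3 * ∫ s in t₁..t₂, lev (lam s) 11 0 (F s))
      ≤ C₁ * (lam t₁ ^ 3 * (lam t₁ ^ 2 * (C₂ * κ ^ 2 * (C₃ * N)))) :=
        mul_le_mul_of_nonneg_left (mul_le_mul_of_nonneg_left e2 (by positivity)) hC₁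
    _ = _ := by ring

end Crest.Agent.R213
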