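import Crest.Agent.R213.Exist
import Crest.Agent.R213.Contr
import Crest.Agent.R213.Strong
import Crest.Agent.R213.AbsDisc

/-! # Row 213, a right inverse of the linearised operator

Take `δ, η, β, R` from `contraction`, `r*` with `R lr δ r* ≤ 1/16`; apply `abs_disc` to the steps shifted by `r*`:
`n r = √(HQ (lr δ (r*+r)) ·)` (`exists_semH`), `s r = lr • √(N2 (lr) 12 19 ·)` (`exists_semN`), `U r` from `exists_evol` on
`[tr δ (r*+r), tr δ (r*+r+1)]`, `ℓ r w i = ell (lr) (β i) w`, `π r b = ∑ (η b i) • pb (lr) (β i)`, `Ξ d = Xi (lr δ d)`,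
`θ₀ = e^{-3δ/5}`, `θ₁ = e^{-11δ/20}`, `ε r = C lr^{3/2}` (`contraction`, `ell_sq_le`, `high_crude`, `HQ_le_N2`, `step_strong`, `pb_N2`,
`Xi_pb`, `ell_Xi`, `xi_step`, `tr_add`, `lr_add`; evaluate `U` on solutions given by `exists_sol`).
Given `τ`, choose `r₁ ≥ r₀` with `t₀ = tr δ (r*+r₁+A) > -τ`.  For `r ≥ A`, `f r` is the value at the end of step `r*+r₁+r` of the solution
with source `F` and zero data: `n (f r) ≤ C lr(r*+r₁+r)^{3/2} y ≤ (C λ₁^{3/2} y) θ^r`, `λ₁ = lr δ (r*+r₁)`, as `e^{-3δ/4} ≤ θ`.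
`v` is the solution (`exists_solO`) with `v t₀ = w A`; by `sol_unique`/`exists_evol`, `v (tr δ (r*+r₁+r)) = w r` for `r ≥ A`.  On step `r`:
`λ⁻¹ N2 λ 13 0 v ≤ C lr⁻⁴ λ₁³ θ^{2r} y²` (`high_crude`, `le_HQ`), the step has length `≤ lr²`, and `∑ (θ² e^δ)^r < ∞`.
For `k ≥ 12` the history gives `lr² N2 12 k (w r) ≤ C_k λ₁³ y²`, `r ≤ A` (`step_strong`, `pb_N2`), and `λ₁³ / lr² ≤ e^{Aδ}`. -/

set_option autoImplicit false
open Set Filter Topology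
open scoped ContDiff

noncomputable section
namespace Crest.Agent.R213

lemma ri_sqrt {x c y : ℝ} (hc : 0 ≤ c) (h : x ≤ c * y) : √x ≤ √c * √y := by
  rw [← Real.sqrt_mul hc]
  exact Real.sqrt_le_sqrt h

lemma ri_sem (k : ℕ) {l : ℝ} (hl : 0 < l) :
    ∃ p : Seminorm ℝ Sm, ∀ v, p v = √(l ^ 2 * N2 l 12 k v) := by
  obtain ⟨p, hp⟩ := exists_semN hl 12 k
  exact ⟨p.comp (l • LinearMap.id), fun v => by rw [Seminorm.comp_apply, hp, ← N2_smul]; rfl⟩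

lemma ri_hist {V : Type*} [AddCommGroup V] [Module ℝ V] {m : ℕ} (S : ℕ → Seminorm ℝ V)
    (U : ℕ → V →ₗ[ℝ] V) (π : ℕ → (Fin m → ℝ) →ₗ[ℝ] V) {c₁ c₂ C : ℝ} (h₁ : 0 ≤ c₁) (h₂ : 0 ≤ c₂)
    (hC : 0 ≤ C) (hU : ∀ r w, S (r + 1) (U r w) ≤ c₁ * S r w)
    (hπ : ∀ r b, S r (π r b) ≤ c₂ * ‖b‖) (A : ℕ) :
    ∃ B, 0 ≤ B ∧ ∀ (r₁ : ℕ) (y : ℝ) (w : ℕ → V) (c : ℕ → Fin m → ℝ), w 0 = 0 →
      (∀ r < A, w (r + 1) = U (r₁ + r) (w r + π (r₁ + r) (c r)) ∧ ‖c r‖ ≤ C * y) →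
      S (r₁ + A) (w A) ≤ B * y := by
  induction A with
  | zero => exact ⟨0, le_rfl, fun r₁ y w c h0 _ => by simp [h0]⟩
  | succ A ih =>
    obtain ⟨B, hB, h⟩ := ih
    refine ⟨c₁ * (B + c₂ * C), by positivity, fun r₁ y w c h0 hw => ?_⟩
    have h3 := h r₁ y w c h0 fun r hr => hw r (by omega)
    obtain ⟨h4, h5⟩ := hw A (by omega)
    rw [h4]
    refine (hU (r₁ + A) _).trans ?_
    rw [mul_assoc]
    refine mul_le_mul_of_nonneg_left ((map_add_le_add _ _ _).trans ?_) h₁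
    have h6 := (hπ (r₁ + A) (c A)).trans (mul_le_mul_of_nonneg_left h5 h₂)
    linarith

lemma ri_co {a b : ℝ → Sm} (hC : Coef a b) {J : Set ℝ} (hJ : J ⊆ Ico (-1) 0) :
    (CC J fun t => a (lam t)) ∧ (CC J fun t => b (lam t)) ∧
      ∀ t ∈ J, ∀ x ∈ I, 0 < ev (a (lam t)) x := by
  obtain ⟨a₀, h0, h⟩ := hC.pos
  exact ⟨hC.ca.mono fun t ht => (hJ ht).2, hC.cb.mono fun t ht => (hJ ht).2,
    fun t ht x hx => h0.trans_le (h _ (lam_mem (hJ ht).1 (hJ ht).2) x hx)⟩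

lemma ri_sub {δ : ℝ} (hδ : 0 ≤ δ) (r r' : ℕ) : Icc (tr δ r) (tr δ r') ⊆ Ico (-1) 0 :=
  fun _ ht => ⟨(neg_one_le_tr hδ r).trans ht.1, ht.2.trans_lt (tr_neg δ r')⟩

lemma ri_evol {a b : ℝ → Sm} (hC : Coef a b) {δ : ℝ} (hδ : 0 ≤ δ) : ∃ U : ℕ → Module.End ℝ Sm,
    (∀ r v, Sol (fun t => a (lam t)) (fun t => b (lam t)) (fun _ => 0) (tr δ r) (tr δ (r + 1)) v →
      v (tr δ (r + 1)) = U r (v (tr δ r))) ∧
    ∀ r w, ∃ v, Sol (fun t => a (lam t)) (fun t => b (lam t)) (fun _ => 0) (tr δ r) (tr δ (r + 1)) v ∧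
      v (tr δ r) = w ∧ v (tr δ (r + 1)) = U r w := by
  have h := fun r => ri_co hC (ri_sub hδ r (r + 1))
  choose U hU using fun r => exists_evol (tr_mono hδ (Nat.le_succ r)) (h r).1 (h r).2.1 (h r).2.2
  refine ⟨U, hU, fun r w => ?_⟩
  obtain ⟨v, h1, h2⟩ := exists_sol (F := fun _ => 0) (tr_mono hδ (Nat.le_succ r)) (h r).1 (h r).2.1
    (CC.const _) (h r).2.2 w
  exact ⟨v, h2, h1, h1 ▸ hU r v h2⟩

lemma ri_pi {m : ℕ} {β : Fin m → ℝ → ℝ} {R : ℝ} (hβ : ∀ i, IsBump R (β i)) (η : ℝ) (k : ℕ) :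
    ∃ C, 0 ≤ C ∧ ∀ l ∈ Ioc (0 : ℝ) 1, ∀ c : Fin m → ℝ,
      l ^ 2 * N2 l 12 k (∑ i, c i • η • pb l (β i)) ≤ C * ‖c‖ ^ 2 := by
  choose C hC h using fun i => pb_N2 (hβ i) 12 k
  refine ⟨m * ∑ i, η ^ 2 * C i, mul_nonneg (Nat.cast_nonneg _)
    (Finset.sum_nonneg fun i _ => mul_nonneg (sq_nonneg _) (hC i)), fun l hl c => ?_⟩
  have hl0 := hl.1
  refine (mul_le_mul_of_nonneg_left (N2_sum_le hl0 12 k _ _) (sq_nonneg l)).trans ?_
  rw [Finset.card_univ, Fintype.card_fin, mul_left_comm, mul_assoc, Finset.mul_sum, Finset.sum_mul]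
  refine mul_le_mul_of_nonneg_left (Finset.sum_le_sum fun i _ => ?_) (Nat.cast_nonneg _)
  rw [N2_smul, N2_smul]
  have h1 : l ^ 2 * N2 l 12 k (pb l (β i)) ≤ C i := by
    refine (mul_le_mul_of_nonneg_left (h i l hl) (sq_nonneg l)).trans (le_of_eq ?_)
    rw [show (10 : ℤ) - 12 = -(2 : ℕ) by norm_num, zpow_neg, zpow_natCast]
    field_simp
  have h2 : c i ^ 2 ≤ ‖c‖ ^ 2 := by
    rw [← sq_abs]
    exact pow_le_pow_left₀ (abs_nonneg _) (norm_le_pi_norm c i) 2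
  have h3 := mul_nonneg (sq_nonneg l) (N2_nonneg hl0 12 k (pb l (β i)))
  calc _ = η ^ 2 * (l ^ 2 * N2 l 12 k (pb l (β i))) * c i ^ 2 := by ring
    _ ≤ _ := by
      have := hC i
      gcongr

lemma ri_ell {m : ℕ} {β : Fin m → ℝ → ℝ} {R : ℝ} (hβ : ∀ i, IsBump R (β i)) :
    ∃ C, 0 ≤ C ∧ ∀ l ∈ Ioc (0 : ℝ) 1, ∀ w i, ell l (β i) w ^ 2 ≤ C * HQ l w := by
  choose C hC h using fun i => ell_sq_le (hβ i)
  refine ⟨4 * ∑ i, C i, mul_nonneg (by norm_num) (Finset.sum_nonneg fun i _ => hC i),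
    fun l hl w i => ?_⟩
  have h1 : C i ≤ ∑ i, C i := Finset.single_le_sum (fun i _ => hC i) (Finset.mem_univ i)
  have h2 := HQ_nonneg hl.1 w
  calc _ ≤ _ := h i l hl w
    _ = C i * (l ^ 3 * lev l 13 0 w) := by ring
    _ ≤ C i * (4 * HQ l w) := mul_le_mul_of_nonneg_left (le_HQ hl.1 w) (hC i)
    _ ≤ (∑ i, C i) * (4 * HQ l w) := by gcongr
    _ = _ := by ring

lemma ri_lr_anti {δ : ℝ} (hδ : 0 ≤ δ) {r r' : ℕ} (h : r ≤ r') : lr δ r' ≤ lr δ r := by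
  rw [← lam_tr, ← lam_tr]
  exact lam_anti (tr_mono hδ h)

lemma ri_strong {a b : ℝ → Sm} (hC : Coef a b) {δ : ℝ} (hδ : δ ∈ Ioc (0 : ℝ) 1) {k : ℕ} (hk : 12 ≤ k) :
    ∃ C, 0 ≤ C ∧ ∀ r v,
      Sol (fun t => a (lam t)) (fun t => b (lam t)) (fun _ => 0) (tr δ r) (tr δ (r + 1)) v →
      lr δ (r + 1) ^ 2 * N2 (lr δ (r + 1)) 12 k (v (tr δ (r + 1))) ≤
        C * (lr δ r ^ 2 * N2 (lr δ r) 12 k (v (tr δ r))) := by
  obtain ⟨C, hC0, h⟩ := step_strong hC k hk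
  refine ⟨C, hC0, fun r v hv => ?_⟩
  have h1 := h _ _ (neg_one_le_tr hδ.1.le r) (tr_mono hδ.1.le (Nat.le_succ r)) (tr_neg δ _)
    (by rw [lam_tr, lam_tr]; exact lr_le_two hδ.2 r) v hv
  rw [lam_tr, lam_tr] at h1
  have h2 := (lr_mem hδ.1.le (r + 1)).1
  have h3 := ri_lr_anti hδ.1.le (Nat.le_succ r)
  have h4 := N2_nonneg h2 12 k (v (tr δ (r + 1)))
  calc _ ≤ lr δ r ^ 2 * (C * N2 (lr δ r) 12 k (v (tr δ r))) := by gcongr
    _ = _ := by ring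

lemma ri_disc {a b : ℝ → Sm} (hC : Coef a b) : ∃ δ ∈ Ioc (0 : ℝ) 1,
    ∃ θ ∈ Ioo (Real.exp (-(3 / 5) * δ)) (Real.exp (-(11 / 20) * δ)), ∃ U : ℕ → Module.End ℝ Sm,
    (∀ r v, Sol (fun t => a (lam t)) (fun t => b (lam t)) (fun _ => 0) (tr δ r) (tr δ (r + 1)) v →
      v (tr δ (r + 1)) = U r (v (tr δ r))) ∧
    ∃ (A r₀ : ℕ) (C : ℝ) (Ck : ℕ → ℝ), (∀ k, 0 ≤ Ck k) ∧ ∀ r₁ ≥ r₀, ∀ y ≥ (0 : ℝ), ∀ f : ℕ → Sm,
      (∀ r ≥ A, HQ (lr δ (r₁ + r + 1)) (f r) ≤ (y * θ ^ r) ^ 2) →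
      ∃ w : ℕ → Sm, (∀ r ≥ A, w (r + 1) = U (r₁ + r) (w r) + f r) ∧
        (∀ r, HQ (lr δ (r₁ + r)) (w r) ≤ (C * y * θ ^ r) ^ 2) ∧
        ∀ k, lr δ (r₁ + A) ^ 2 * N2 (lr δ (r₁ + A)) 12 k (w A) ≤ Ck k * y ^ 2 := by
  obtain ⟨δ, hδ, η, m, β, R, hR, hβ, hcon⟩ := contraction hC
  have hδ0 := hδ.1.le
  have hl := fun r => lr_mem hδ0 r
  obtain ⟨U, hU, hUe⟩ := ri_evol hC hδ0
  obtain ⟨r', hr'⟩ : ∃ r', ∀ r, R * lr δ (r' + r) ≤ 1 / 16 := by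
    have h1 := ((tendsto_lr hδ.1).const_mul R).eventually_le_const (show R * 0 < 1 / 16 by norm_num)
    obtain ⟨r', h2⟩ := eventually_atTop.1 h1
    exact ⟨r', fun r => h2 _ (Nat.le_add_right _ _)⟩
  choose n hn using fun r => exists_semH (hl r).1
  choose s hs using fun k r => ri_sem k (hl r).1
  obtain ⟨π, hπ⟩ : ∃ π : ℕ → (Fin m → ℝ) →ₗ[ℝ] Sm, ∀ r c, π r c = ∑ i, c i • η • pb (lr δ r) (β i) :=
    ⟨fun r => ∑ i, (LinearMap.proj i).smulRight (η • pb (lr δ r) (β i)), fun r c => by simp⟩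
  obtain ⟨ℓ, hℓ⟩ : ∃ ℓ : ℕ → Sm →ₗ[ℝ] (Fin m → ℝ), ∀ r w i, ℓ r w i = ell (lr δ r) (β i) w :=
    ⟨fun r => LinearMap.pi fun i => ell (lr δ r) (β i), fun r w i => rfl⟩
  obtain ⟨C₁, hC₁, h₁⟩ := ri_ell hβ
  obtain ⟨C₂, hC₂, h₂⟩ := high_crude hC
  obtain ⟨C₃, hC₃, h₃⟩ := xi_step hC
  have hsU : ∀ k, 12 ≤ k → ∃ c, 0 ≤ c ∧ ∀ r w, s k (r + 1) (U r w) ≤ c * s k r w := fun k hk => by
    obtain ⟨c, hc, h⟩ := ri_strong hC hδ hk
    refine ⟨√c, Real.sqrt_nonneg _, fun r w => ?_⟩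
    obtain ⟨v, h1, h2, h3⟩ := hUe r w
    rw [hs, hs, ← h3, ← h2]
    exact ri_sqrt hc (h r v h1)
  have hsπ : ∀ k, ∃ c, 0 ≤ c ∧ ∀ r z, s k r (π r z) ≤ c * ‖z‖ := fun k => by
    obtain ⟨c, hc, h⟩ := ri_pi hβ η k
    refine ⟨√c, Real.sqrt_nonneg _, fun r z => ?_⟩
    rw [hs, hπ]
    exact (ri_sqrt hc (h _ (hl r) z)).trans (by rw [Real.sqrt_sq (norm_nonneg _)])
  obtain ⟨C₄, hC₄, h₄⟩ := hsU 19 (by norm_num)
  obtain ⟨C₅, hC₅, h₅⟩ := hsπ 19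
  have p1 := Real.sqrt_nonneg C₁
  have p2 := Real.sqrt_nonneg C₂
  obtain ⟨θ, hθ, A, r₀, C, hC0, H⟩ := abs_disc (fun r => n (r' + r)) (fun r => s 19 (r' + r))
    (fun r => U (r' + r)) (fun r => ℓ (r' + r)) (fun r => π (r' + r)) (fun d => Xi (lr δ d))
    (θ₀ := Real.exp (-(3 / 5) * δ)) (θ₁ := Real.exp (-(11 / 20) * δ)) (C := √C₁ + √C₂ + C₄ + C₅)
    (fun r => √(C₃ * lr δ (r' + r) ^ 3)) (Real.exp_pos _)
    (Real.exp_lt_exp.2 (by linarith [hδ.1])) (by positivity)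
    (by
      have h1 := (((tendsto_lr hδ.1).comp (tendsto_add_atTop_nat r')).pow 3).const_mul C₃
      have h2 := h1.sqrt
      simpa [Function.comp_def, add_comm] using h2)
    (fun r w => by
      obtain ⟨v, h1, h2, h3⟩ := hUe (r' + r) (w - π (r' + r) (ℓ (r' + r) w))
      have h4 := hcon (r' + r) (hr' r) w v h1 (by
        rw [h2, hπ]
        simp only [hℓ, smul_smul, mul_comm])
      have h5 := ri_sqrt (Real.exp_pos _).le h4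
      rw [h3, ← Real.exp_half, show -(6 / 5) * δ / 2 = -(3 / 5) * δ by ring] at h5
      rw [hn, hn]
      exact h5)
    (fun r w => by
      have := apply_nonneg (n (r' + r)) w
      refine (pi_norm_le_iff_of_nonneg (by positivity)).2 fun i => ?_
      have h1 := ri_sqrt hC₁ (h₁ _ (hl (r' + r)) w i)
      rw [Real.sqrt_sq_eq_abs, ← hn, ← hℓ] at h1
      exact h1.trans (by gcongr; linarith))
    (fun r w => by
      obtain ⟨v, h1, h2, h3⟩ := hUe (r' + r) w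
      have h4 := h₂ _ _ (neg_one_le_tr hδ0 _) (tr_mono hδ0 (Nat.le_succ (r' + r))) (tr_neg δ _)
        (by rw [lam_tr, lam_tr]; exact lr_le_two hδ.2 _) _ v (CC.const _) h1
      simp only [lev_zero, intervalIntegral.integral_zero, mul_zero, add_zero, lam_tr] at h4
      have h5 := ri_sqrt hC₂ h4
      rw [h2, h3, ← hn, ← hn] at h5
      have := apply_nonneg (n (r' + r)) w
      exact h5.trans (by gcongr; linarith))
    (fun r w => by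
      rw [hn, hs]
      exact Real.sqrt_le_sqrt (HQ_le_N2 (hl _).1 19 w))
    (fun r w => (h₄ (r' + r) w).trans (by
      have := apply_nonneg (s 19 (r' + r)) w
      gcongr; linarith))
    (fun r z => (h₅ (r' + r) z).trans (by gcongr; linarith))
    (fun r d z => by
      simp only [hπ, map_sum, map_smul, ← add_assoc, lr_add δ (r' + r) d]
      exact Finset.sum_congr rfl fun i _ => by rw [Xi_pb (hβ i) (hl d) (hl _).1 (hr' r)])
    (fun r d w => by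
      ext i
      rw [hℓ, hℓ, ← add_assoc, lr_add δ (r' + r) d, ell_Xi (hβ i) (hl d) (hl _).1 (hr' r)])
    (fun r d w => by
      obtain ⟨u, h1, h2, h3⟩ := hUe (r' + (r + d)) w
      obtain ⟨v, h4, h5, h6⟩ := hUe (r' + r) (Xi (lr δ d) w)
      have e1 : tr δ (r' + (r + d)) = lr δ d ^ 2 * tr δ (r' + r) := by rw [← add_assoc, tr_add]
      have e2 : tr δ (r' + (r + d) + 1) = lr δ d ^ 2 * tr δ (r' + r + 1) := by
        rw [← tr_add]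
        congr 1
        omega
      rw [e1, e2] at h1
      rw [e1] at h2
      rw [e2] at h3
      have h7 := h₃ _ (hl d) _ _ (neg_one_le_tr hδ0 _) (tr_mono hδ0 (Nat.le_succ (r' + r)))
        (tr_neg δ _) (by rw [lam_tr, lam_tr]; exact lr_le_two hδ.2 _) u v h1 h4 (by rw [h5, h2])
      have h8 := ri_sqrt (mul_nonneg hC₃ (pow_nonneg (lam_pos (tr_neg δ _)).le 3)) h7
      rw [lam_tr, lam_tr, ← lr_add, h2, h3, h6, add_assoc r' r d, ← hs, ← hn] at h8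
      exact h8)
  have hh : ∀ k, ∃ B, 0 ≤ B ∧ ∀ (r₁ : ℕ) (y : ℝ) (w : ℕ → Sm) (c : ℕ → Fin m → ℝ), w 0 = 0 →
      (∀ r < A, w (r + 1) = U (r₁ + r) (w r + π (r₁ + r) (c r)) ∧ ‖c r‖ ≤ C * y) →
      s (max k 12) (r₁ + A) (w A) ≤ B * y := fun k => by
    obtain ⟨c₁, g₁, k₁⟩ := hsU (max k 12) (le_max_right _ _)
    obtain ⟨c₂, g₂, k₂⟩ := hsπ (max k 12)
    exact ri_hist _ U π g₁ g₂ hC0 k₁ k₂ A
  choose B hB0 hB using hh
  refine ⟨δ, hδ, θ, hθ, U, hU, A, r' + r₀, C, fun k => B k ^ 2, fun k => sq_nonneg _,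
    fun r₁ hr₁ y hy f hf => ?_⟩
  obtain ⟨r₂, rfl⟩ : ∃ r₂, r₁ = r' + r₂ := ⟨r₁ - r', by omega⟩
  have hθ0 : 0 < θ := (Real.exp_pos _).trans hθ.1
  obtain ⟨w, c, g0, g1, g2, g3⟩ := H r₂ (by omega) y hy f fun r hr => by
    rw [hn, Real.sqrt_le_left (by positivity)]
    simpa only [add_assoc] using hf r hr
  refine ⟨w, fun r hr => by simpa only [add_assoc] using g2 r hr, fun r => ?_, fun k => ?_⟩
  · have h1 := g3 r
    rw [hn, Real.sqrt_le_left (by positivity)] at h1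
    simpa only [add_assoc] using h1
  · have h1 := hB k (r' + r₂) y w c g0 fun r hr => by simpa only [add_assoc] using g1 r hr
    rw [hs, Real.sqrt_le_left (mul_nonneg (hB0 k) hy), mul_pow] at h1
    exact (mul_le_mul_of_nonneg_left (N2_mono (hl _).1 12 (le_max_left k 12) _)
      (sq_nonneg _)).trans h1

lemma ri_lr_pow (δ : ℝ) (r : ℕ) : lr δ r = Real.exp (-δ / 2) ^ r := by
  rw [lr, ← Real.exp_nat_mul]
  congr 1
  ring

lemma ri_int {g : ℝ → ℝ} {t₀ : ℝ} (hg : ContinuousOn g (Ico t₀ 0)) {s t : ℝ} (hs : t₀ ≤ s)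
    (hst : s ≤ t) (ht : t < 0) : IntervalIntegrable g MeasureTheory.volume s t := by
  refine (hg.mono ?_).intervalIntegrable
  rw [uIcc_of_le hst]
  exact fun x hx => ⟨hs.trans hx.1, hx.2.trans_lt ht⟩

lemma ri_mono {g : ℝ → ℝ} {t₀ : ℝ} (hg : ContinuousOn g (Ico t₀ 0)) (h0 : ∀ t < 0, 0 ≤ g t)
    {s t t' : ℝ} (hs : t₀ ≤ s) (hst : s ≤ t) (htt : t ≤ t') (ht : t' < 0) :
    ∫ x in s..t, g x ≤ ∫ x in t₀..t', g x :=
  intervalIntegral.integral_mono_interval hs hst htt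
    ((MeasureTheory.ae_restrict_mem measurableSet_Ioc).mono fun x hx => h0 x (hx.2.trans_lt ht))
    (ri_int hg le_rfl (hs.trans (hst.trans htt)) ht)

lemma ri_sum {g : ℝ → ℝ} {δ : ℝ} (hδ : 0 < δ) {j : ℕ} (hg : ContinuousOn g (Ico (tr δ j) 0))
    (h0 : ∀ t < 0, 0 ≤ g t) {K ρ : ℝ} (hK : 0 ≤ K) (hρ0 : 0 ≤ ρ) (hρ : ρ < 1)
    (h : ∀ n, ∫ x in tr δ (j + n)..tr δ (j + n + 1), g x ≤ K * ρ ^ n) {t : ℝ}
    (ht : t ∈ Ico (tr δ j) 0) : ∫ x in tr δ j..t, g x ≤ K * (1 - ρ)⁻¹ := by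
  have h1 : ∀ n, ∫ x in tr δ j..tr δ (j + n), g x ≤ K * ∑ i ∈ Finset.range n, ρ ^ i := by
    intro n
    induction n with
    | zero => simp
    | succ n ih =>
      have m1 := tr_mono hδ.le (Nat.le_add_right j n)
      have m2 := tr_mono hδ.le (Nat.le_succ (j + n))
      rw [← add_assoc, ← intervalIntegral.integral_add_adjacent_intervals
        (ri_int hg le_rfl m1 (tr_neg δ _)) (ri_int hg m1 m2 (tr_neg δ _)), Finset.sum_range_succ,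
        mul_add]
      exact add_le_add ih (h n)
  obtain ⟨n, hn⟩ := eventually_atTop.1 ((tendsto_tr hδ).eventually_const_le ht.2)
  calc _ ≤ _ := ri_mono hg h0 le_rfl ht.1 (hn (j + n) (Nat.le_add_left _ _)) (tr_neg δ _)
    _ ≤ _ := h1 n
    _ ≤ _ := by
      refine mul_le_mul_of_nonneg_left ?_ hK
      rw [← tsum_geometric_of_lt_one hρ0 hρ]
      exact (summable_geometric_of_lt_one hρ0 hρ).sum_le_tsum _ fun i _ => pow_nonneg hρ0 i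

theorem right_inv {a b : ℝ → Sm} (hC : Coef a b) : ∃ C, 0 ≤ C ∧ ∃ Ck : ℕ → ℝ, (∀ k, 0 ≤ Ck k) ∧
    ∀ τ > (0 : ℝ), ∃ t₀ ∈ Ioo (-τ) 0, -1 ≤ t₀ ∧ ∀ F y, 0 ≤ y → CC (Ico t₀ 0) F → YB t₀ 0 y F →
      ∃ v, SolO (fun t => a (lam t)) (fun t => b (lam t)) F t₀ v ∧
        (∀ t ∈ Ico t₀ 0, ∫ s in t₀..t, (lam s)⁻¹ * N2 (lam s) 13 0 (v s) ≤ C * y ^ 2) ∧
        ∀ k, N2 (lam t₀) 12 k (v t₀) ≤ Ck k * y ^ 2 := by
  obtain ⟨δ, hδ, θ, hθ, U, hU, A, r₀, C, Ck, hCk, H⟩ := ri_disc hC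
  obtain ⟨C₂, hC₂, h₂⟩ := high_crude hC
  have hδ0 := hδ.1.le
  have hl := fun r => lr_mem hδ0 r
  have hθ0 : 0 < θ := (Real.exp_pos _).trans hθ.1
  set q := Real.exp (-δ / 2) with hq
  have hq0 : 0 < q := Real.exp_pos _
  have hq3 : q ^ 3 ≤ θ ^ 2 := by
    refine le_trans ?_ (pow_le_pow_left₀ (Real.exp_pos _).le hθ.1.le 2)
    rw [hq, ← Real.exp_nat_mul, ← Real.exp_nat_mul, Real.exp_le_exp]
    push_cast
    linarith
  set ρ := θ ^ 2 / q ^ 2 with hρ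
  have hρ0 : 0 ≤ ρ := by positivity
  have hρ1 : ρ < 1 := by
    rw [hρ, div_lt_one (by positivity)]
    refine pow_lt_pow_left₀ (hθ.2.trans ?_) hθ0.le two_ne_zero
    rw [hq, Real.exp_lt_exp]
    linarith [hδ.1]
  have hρ2 : 0 ≤ (1 - ρ)⁻¹ := inv_nonneg.2 (by linarith)
  set K := C₂ * (C ^ 2 * C₂ + 1) with hK
  have hK0 : 0 ≤ K := by positivity
  refine ⟨64 * K * (1 - ρ)⁻¹, by positivity, fun k => Ck k * C₂ / lr δ A ^ 2, fun k => by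
    have := hCk k
    positivity, fun τ hτ => ?_⟩
  obtain ⟨r₁, hr₁, hτ₁⟩ : ∃ r₁ ≥ r₀, -τ < tr δ (r₁ + A) := by
    obtain ⟨n, hn⟩ := eventually_atTop.1 ((tendsto_tr hδ.1).eventually_const_lt (neg_lt_zero.2 hτ))
    exact ⟨n + r₀, Nat.le_add_left _ _, hn _ (by omega)⟩
  refine ⟨tr δ (r₁ + A), ⟨hτ₁, tr_neg δ _⟩, neg_one_le_tr hδ0 _, fun F y hy hF hY => ?_⟩
  have ht₀ : ∀ r ≥ A, tr δ (r₁ + A) ≤ tr δ (r₁ + r) := fun r hr => tr_mono hδ0 (by omega)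
  have hsub : ∀ r ≥ A, ∀ s < 0, Icc (tr δ (r₁ + r)) s ⊆ Ico (tr δ (r₁ + A)) 0 :=
    fun r hr s hs x hx => ⟨(ht₀ r hr).trans hx.1, hx.2.trans_lt hs⟩
  have hl1 := hl r₁
  set l := lr δ r₁ with hl₁
  have hl0 := hl1.1
  have hlr : ∀ r, lr δ (r₁ + r) = q ^ r * l := fun r => by rw [lr_add, ri_lr_pow]
  have hl3 : ∀ r, lr δ (r₁ + r) ^ 3 ≤ l ^ 3 * (θ ^ r) ^ 2 := fun r => by
    rw [hlr, mul_pow, mul_comm, ← pow_mul, mul_comm r, pow_mul, ← pow_mul θ, mul_comm r, pow_mul]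
    gcongr
  have hcr : ∀ r ≥ A, ∀ s ∈ Icc (tr δ (r₁ + r)) (tr δ (r₁ + r + 1)), ∀ v,
      Sol (fun t => a (lam t)) (fun t => b (lam t)) F (tr δ (r₁ + r)) s v →
      HQ (lam s) (v s) ≤
        C₂ * (HQ (lr δ (r₁ + r)) (v (tr δ (r₁ + r))) + l ^ 3 * (θ ^ r) ^ 2 * y ^ 2) := by
    intro r hr s hs v hv
    have hs0 := hs.2.trans_lt (tr_neg δ _)
    have h1 : lr δ (r₁ + r + 1) ≤ lam s := lam_tr δ _ ▸ lam_anti hs.2
    have h2 := h₂ _ _ (neg_one_le_tr hδ0 _) hs.1 hs0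
      (by rw [lam_tr]; linarith [lr_le_two hδ.2 (r₁ + r)]) F v (hF.mono (hsub r hr s hs0)) hv
    have h3 := (ri_mono (hF.N2 (fun x hx => hx.2) 11 0) (fun t ht => N2_nonneg (lam_pos ht) _ _ _)
      (ht₀ r hr) hs.1 le_rfl hs0).trans (hY s ⟨(ht₀ r hr).trans hs.1, hs0⟩)
    simp only [N2_zero] at h3
    rw [lam_tr] at h2
    refine h2.trans (mul_le_mul_of_nonneg_left (add_le_add le_rfl ?_) hC₂)
    exact (mul_le_mul_of_nonneg_left h3 (pow_nonneg (hl _).1.le 3)).trans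
      (mul_le_mul_of_nonneg_right (hl3 r) (sq_nonneg y))
  have hz : ∀ r, ∃ z : ℝ → Sm, r ≥ A → z (tr δ (r₁ + r)) = 0 ∧
      Sol (fun t => a (lam t)) (fun t => b (lam t)) F (tr δ (r₁ + r)) (tr δ (r₁ + r + 1)) z := by
    intro r
    by_cases hr : r ≥ A
    · have h := ri_co hC (ri_sub hδ0 (r₁ + r) (r₁ + r + 1))
      obtain ⟨z, hz⟩ := exists_sol (tr_mono hδ0 (Nat.le_succ _)) h.1 h.2.1
        (hF.mono (hsub r hr _ (tr_neg δ _))) h.2.2 0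
      exact ⟨z, fun _ => hz⟩
    · exact ⟨fun _ => 0, fun h => absurd h hr⟩
  choose z hz using hz
  set Y := √(C₂ * l ^ 3) * y with hYd
  have hY2 : Y ^ 2 = C₂ * l ^ 3 * y ^ 2 := by
    rw [hYd, mul_pow, Real.sq_sqrt (by positivity)]
  obtain ⟨w, hw1, hw2, hw3⟩ := H r₁ hr₁ Y (by positivity) (fun r => z r (tr δ (r₁ + r + 1)))
    fun r hr => by
      have h1 := hcr r hr _ ⟨tr_mono hδ0 (Nat.le_succ _), le_rfl⟩ _ (hz r hr).2
      have h2 : HQ (lr δ (r₁ + r)) 0 = 0 := by simp [HQ, HB]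
      rw [lam_tr, (hz r hr).1, h2] at h1
      refine h1.trans (le_of_eq ?_)
      rw [mul_pow, hY2]
      ring
  have hco := ri_co hC (J := Ico (tr δ (r₁ + A)) 0) fun x hx =>
    ⟨(neg_one_le_tr hδ0 _).trans hx.1, hx.2⟩
  obtain ⟨v, hv0, hv⟩ := exists_solO (tr_neg δ (r₁ + A)) hco.1 hco.2.1 hF hco.2.2 (w A)
  have hvw : ∀ r ≥ A, v (tr δ (r₁ + r)) = w r := by
    intro r hr
    induction r, hr using Nat.le_induction with
    | base => exact hv0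
    | succ r hr ih =>
      have h1 := hU (r₁ + r) _ (((hv.sol (ht₀ r hr) (tr_neg δ (r₁ + r + 1))).sub
        (hz r hr).2).congr_F fun t _ => (sub_self _).symm)
      simp only [(hz r hr).1, sub_zero, ih] at h1
      rw [hw1 r hr, ← h1, sub_add_cancel, add_assoc]
  refine ⟨v, hv, fun t ht => ?_, fun k => ?_⟩
  · have hg : ContinuousOn (fun s => (lam s)⁻¹ * N2 (lam s) 13 0 (v s)) (Ico (tr δ (r₁ + A)) 0) :=
      (continuous_lam.continuousOn.inv₀ fun x hx => (lam_pos hx.2).ne').mul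
        (hv.1.N2 (fun x hx => hx.2) 13 0)
    refine (ri_sum hδ.1 hg (fun t ht => mul_nonneg (inv_nonneg.2 (lam_pos ht).le)
      (N2_nonneg (lam_pos ht) _ _ _)) (K := 64 * K * y ^ 2) (by positivity) hρ0 hρ1
      (fun n => ?_) ht).trans (le_of_eq (by ring))
    rw [add_assoc r₁ A n]
    have hr : A + n ≥ A := Nat.le_add_right _ _
    have hρn : ρ ^ (A + n) ≤ ρ ^ n := pow_le_pow_of_le_one hρ0 hρ1.le (Nat.le_add_left _ _)
    generalize A + n = r at hr hρn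
    have m2 := tr_mono hδ0 (Nat.le_succ (r₁ + r))
    have hL := (hl (r₁ + r)).1
    have h1 : ∀ s ∈ Icc (tr δ (r₁ + r)) (tr δ (r₁ + r + 1)),
        (lam s)⁻¹ * N2 (lam s) 13 0 (v s) ≤
          64 * (K * l ^ 3 * (θ ^ r) ^ 2 * y ^ 2) / lr δ (r₁ + r) ^ 4 := by
      intro s hs
      have hs0 := hs.2.trans_lt (tr_neg δ _)
      have hls := lam_pos hs0
      have h2 : lr δ (r₁ + r) ≤ 2 * lam s := by
        have : lr δ (r₁ + r + 1) ≤ lam s := lam_tr δ _ ▸ lam_anti hs.2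
        linarith [lr_le_two hδ.2 (r₁ + r)]
      have h3 := hcr r hr s hs v (hv.sol (ht₀ r hr) hs0)
      have h4 := hw2 r
      rw [hvw r hr] at h3
      have h5 : HQ (lam s) (v s) ≤ K * l ^ 3 * (θ ^ r) ^ 2 * y ^ 2 := by
        refine h3.trans ((mul_le_mul_of_nonneg_left (add_le_add h4 le_rfl) hC₂).trans (le_of_eq ?_))
        rw [mul_pow, mul_pow, hY2, hK]
        ring
      have h6 := le_HQ hls (v s)
      have h7 := lev_nonneg hls 13 0 (v s)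
      rw [N2_zero, le_div_iff₀ (by positivity)]
      calc _ ≤ (lam s)⁻¹ * lev (lam s) 13 0 (v s) * (2 * lam s) ^ 4 := by gcongr
        _ = 16 * (lam s ^ 3 * lev (lam s) 13 0 (v s)) := by field_simp; ring
        _ ≤ _ := by linarith
    refine (intervalIntegral.integral_mono_on m2 (ri_int hg (ht₀ r hr) m2 (tr_neg δ _))
      intervalIntegrable_const h1).trans ?_
    have h2 : tr δ (r₁ + r + 1) - tr δ (r₁ + r) ≤ lr δ (r₁ + r) ^ 2 := by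
      rw [← lam_tr, lam_sq (tr_neg δ _).le]
      linarith [tr_neg δ (r₁ + r + 1)]
    rw [intervalIntegral.integral_const, smul_eq_mul]
    calc _ ≤ lr δ (r₁ + r) ^ 2 * (64 * (K * l ^ 3 * (θ ^ r) ^ 2 * y ^ 2) / lr δ (r₁ + r) ^ 4) := by
          gcongr
      _ = 64 * K * y ^ 2 * (ρ ^ r * l) := by
          rw [hlr, hρ, div_pow, ← pow_mul θ 2, ← pow_mul q 2, mul_comm 2 r, pow_mul, pow_mul]
          field_simp
      _ ≤ 64 * K * y ^ 2 * (ρ ^ n * 1) := by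
          have := hl1.2
          gcongr
      _ = _ := by ring
  · have h1 := hw3 k
    have hA := (hl A).1
    have h2 := hCk k
    rw [lam_tr, hv0, div_mul_eq_mul_div, le_div_iff₀ (by positivity)]
    have e : lr δ (r₁ + A) ^ 2 = l ^ 2 * lr δ A ^ 2 := by
      rw [lr_add]
      ring
    rw [e, hY2] at h1
    refine le_of_mul_le_mul_left ?_ (pow_pos hl0 2)
    calc _ = l ^ 2 * lr δ A ^ 2 * N2 (lr δ (r₁ + A)) 12 k (w A) := by ring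
      _ ≤ _ := h1
      _ = l ^ 2 * (Ck k * C₂ * y ^ 2) * l := by ring
      _ ≤ l ^ 2 * (Ck k * C₂ * y ^ 2) * 1 := by
          have := hl1.2
          gcongr
      _ = _ := by ring

end Crest.Agent.R213
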