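import Mathlib

/-! # Row 213, inverting a convolution operator on a generic weighted line

`K j` (`j ≥ 1`; `K 0` is not used) are real matrices with `|K j| ≤ C θ₀^j`.  `D(z) = 1 - ∑_{j ≥ 1} K j z^j` is an analytic complex
matrix function on `|z| < 1/θ₀` with `D(0) = 1`, so `det D` has finitely many zeros in `|z| ≤ ρ` for `1/θ₁ < ρ < 1/θ₀`
(isolated zeros, compactness).  Choose `1/θ₁ < ρ₁ < ρ₀ < ρ₂ < ρ` with no zero in `ρ₁ ≤ |z| ≤ ρ₂`, `θ = 1/ρ₀`, and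
`c i = Re (2πi)⁻¹ ∮_{|z| = ρ₀} D(z)⁻¹ z^{-i-1} dz` entrywise.  Moving the circle to `ρ₂` (`i ≥ 0`) or `ρ₁` (`i < 0`)
(`Complex.circleIntegral_eq_of_differentiable_on_annulus_off_countable`) gives geometric decay; exchanging sum and integral
in `D(z) D(z)⁻¹ = 1` gives the identity (real parts, since `K j` is real). -/

set_option autoImplicit false
open Set Filter Topology
open scoped ContDiff

noncomputable section
namespace Crest.Agent.R213

open Complex Metric in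
theorem sa_annulus {f : ℂ → ℂ} {a R : ℝ} (haR : a < R) (hR : 0 < R)
    (hf : DifferentiableOn ℂ f (ball 0 R)) (h0 : f 0 ≠ 0) :
    ∃ ρ₁ ρ₀ ρ₂ : ℝ, a < ρ₁ ∧ ρ₁ < ρ₀ ∧ ρ₀ < ρ₂ ∧ ρ₂ < R ∧
      ∀ z : ℂ, ρ₁ ≤ ‖z‖ → ‖z‖ ≤ ρ₂ → f z ≠ 0 := by
  obtain ⟨b, hab, hbR⟩ := exists_between haR
  have h1 := ((hf.analyticOnNhd isOpen_ball).eqOn_zero_or_eventually_ne_zero_of_preconnected
    (convex_ball 0 R).isPreconnected).resolve_left fun h => h0 (h (mem_ball_self hR))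
  have h2 := (isCompact_closedBall (0 : ℂ) b).finite_sdiff_of_mem_codiscreteWithin
    (Filter.codiscreteWithin_mono (closedBall_subset_ball hbR) h1)
  have h3 := h2.image (fun z : ℂ => ‖z‖)
  obtain ⟨ρ₀, hρ, hρ'⟩ := ((Set.Ioo_infinite hab).sdiff h3).nonempty
  have h4 := (isOpen_Ioo.inter h3.isClosed.isOpen_compl).mem_nhds (x := ρ₀) ⟨hρ, hρ'⟩
  obtain ⟨ε, hε, h5⟩ := Metric.nhds_basis_closedBall.mem_iff.1 h4
  rw [Real.closedBall_eq_Icc] at h5
  have h6 := (h5 ⟨le_rfl, by linarith⟩).1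
  have h7 := (h5 ⟨by linarith, le_rfl⟩).1
  refine ⟨ρ₀ - ε, ρ₀, ρ₀ + ε, h6.1, by linarith, by linarith, h7.2.trans hbR, fun z hz1 hz2 hz => ?_⟩
  exact (h5 ⟨hz1, hz2⟩).2 ⟨z, ⟨mem_closedBall_zero_iff.2 (hz2.trans h7.2.le), fun h => h hz⟩, rfl⟩

theorem sa_det {m : ℕ} {D : ℂ → Matrix (Fin m) (Fin m) ℂ} {z : ℂ}
    (h : ∀ p q, DifferentiableAt ℂ (fun w => D w p q) z) :
    DifferentiableAt ℂ (fun w => (D w).det) z := by
  simp only [Matrix.det_apply']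
  exact DifferentiableAt.fun_sum fun σ _ =>
    (DifferentiableAt.fun_finsetProd fun i _ => h _ _).const_mul _

theorem sa_inv {m : ℕ} {D : ℂ → Matrix (Fin m) (Fin m) ℂ} {z : ℂ}
    (h : ∀ p q, DifferentiableAt ℂ (fun w => D w p q) z) (h0 : (D z).det ≠ 0) (p q : Fin m) :
    DifferentiableAt ℂ (fun w => (D w)⁻¹ p q) z := by
  simp only [Matrix.inv_def, Ring.inverse_eq_inv', Matrix.smul_apply, smul_eq_mul,
    Matrix.adjugate_apply]
  refine ((sa_det h).inv h0).mul (sa_det fun a b => ?_)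
  simp only [Matrix.updateRow_apply]
  split_ifs
  · exact differentiableAt_const _
  · exact h a b

open Complex Metric MeasureTheory in
theorem sa_hasSum {F : ℕ → ℂ → ℂ} {f : ℂ → ℂ} {r : ℝ} (hr : 0 ≤ r) {u : ℕ → ℝ} (hu : Summable u)
    (hc : ∀ n, ContinuousOn (F n) (sphere 0 r)) (hb : ∀ n, ∀ z ∈ sphere (0 : ℂ) r, ‖F n z‖ ≤ u n)
    (hl : ∀ z ∈ sphere (0 : ℂ) r, HasSum (fun n => F n z) (f z)) :
    HasSum (fun n => ∮ z in C(0, r), F n z) (∮ z in C(0, r), f z) := by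
  refine intervalIntegral.hasSum_integral_of_dominated_convergence (fun n _ => r * u n)
    (fun n => ((hc n).circleIntegrable hr).out.def'.aestronglyMeasurable)
    (fun n => Eventually.of_forall fun t _ => ?_) (Eventually.of_forall fun t _ => hu.mul_left r)
    intervalIntegrable_const
    (Eventually.of_forall fun t _ => (hl _ (circleMap_mem_sphere 0 hr t)).const_smul _)
  rw [norm_smul, deriv_circleMap, norm_mul, norm_I, mul_one, norm_circleMap_zero, abs_of_nonneg hr]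
  exact mul_le_mul_of_nonneg_left (hb n _ (circleMap_mem_sphere 0 hr t)) hr

open Complex Metric in
/-- The Laurent coefficients of a function on an annulus. -/
theorem sa_coef {E : ℂ → ℂ} {ρ₁ ρ₀ ρ₂ S : ℝ} (h₁ : 0 < ρ₁) (h₂ : ρ₁ < ρ₀) (h₃ : ρ₀ < ρ₂)
    (hE : ∀ z : ℂ, ρ₁ ≤ ‖z‖ → ‖z‖ ≤ ρ₂ → DifferentiableAt ℂ E z)
    (hS : ∀ z : ℂ, ρ₁ ≤ ‖z‖ → ‖z‖ ≤ ρ₂ → ‖E z‖ ≤ S) (i : ℤ) :
    ‖(2 * Real.pi * I : ℂ)⁻¹ * ∮ z in C(0, ρ₀), E z * z ^ (-i - 1)‖ ≤
      S * ρ₀⁻¹ ^ i * (max (ρ₁ / ρ₀) (ρ₀ / ρ₂)) ^ i.natAbs := by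
  have hd : ∀ z : ℂ, ρ₁ ≤ ‖z‖ → ‖z‖ ≤ ρ₂ → DifferentiableAt ℂ (fun z => E z * z ^ (-i - 1)) z :=
    fun z a b => (hE z a b).mul (differentiableAt_zpow.2 (Or.inl (norm_pos_iff.1 (h₁.trans_le a))))
  have mv : ∀ r R : ℝ, ρ₁ ≤ r → r ≤ R → R ≤ ρ₂ →
      (∮ z in C(0, R), E z * z ^ (-i - 1)) = ∮ z in C(0, r), E z * z ^ (-i - 1) := by
    intro r R a b c
    refine circleIntegral_eq_of_differentiable_on_annulus_off_countable (h₁.trans_le a) b
      countable_empty (fun z hz => ?_) (fun z hz => ?_)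
    · have h4 := mem_closedBall_zero_iff.1 hz.1
      have h5 := not_lt.1 (mt mem_ball_zero_iff.2 hz.2)
      exact (hd z (a.trans h5) (h4.trans c)).continuousAt.continuousWithinAt
    · have h4 := mem_ball_zero_iff.1 hz.1.1
      have h5 := not_le.1 (mt mem_closedBall_zero_iff.2 hz.1.2)
      exact hd z (a.trans h5.le) (h4.le.trans c)
  have bd : ∀ r : ℝ, ρ₁ ≤ r → r ≤ ρ₂ →
      ‖(2 * Real.pi * I : ℂ)⁻¹ * ∮ z in C(0, r), E z * z ^ (-i - 1)‖ ≤ S * r ^ (-i) := by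
    intro r a b
    have hr := h₁.trans_le a
    refine (circleIntegral.norm_two_pi_i_inv_smul_integral_le_of_norm_le_const hr.le
      (C := S * r ^ (-i - 1)) fun z hz => ?_).trans_eq ?_
    · have hz' := mem_sphere_zero_iff_norm.1 hz
      rw [norm_mul, norm_zpow, hz']
      exact mul_le_mul_of_nonneg_right (hS z (hz'.symm ▸ a) (hz'.symm ▸ b)) (by positivity)
    · rw [zpow_sub_one₀ hr.ne']
      field_simp
  have h0 : 0 < ρ₀ := h₁.trans h₂
  have h2 : 0 < ρ₂ := h0.trans h₃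
  have hS0 : 0 ≤ S := (norm_nonneg _).trans (hS ρ₀ (by simpa [abs_of_pos h0] using h₂.le)
    (by simpa [abs_of_pos h0] using h₃.le))
  obtain ⟨n, rfl | rfl⟩ := i.eq_nat_or_neg
  · rw [← mv ρ₀ ρ₂ h₂.le h₃.le le_rfl]
    refine (bd ρ₂ (h₂.trans h₃).le le_rfl).trans ?_
    rw [mul_assoc, Int.natAbs_natCast, zpow_neg, zpow_natCast, zpow_natCast, ← mul_pow, ← inv_pow]
    refine mul_le_mul_of_nonneg_left (pow_le_pow_left₀ (by positivity) ?_ n) hS0
    refine le_trans (le_of_eq ?_) (mul_le_mul_of_nonneg_left (le_max_right _ _) (by positivity))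
    field_simp
  · rw [mv ρ₁ ρ₀ le_rfl h₂.le h₃.le]
    refine (bd ρ₁ le_rfl (h₂.trans h₃).le).trans ?_
    rw [mul_assoc, Int.natAbs_neg, Int.natAbs_natCast, neg_neg, inv_zpow', neg_neg, zpow_natCast,
      zpow_natCast, ← mul_pow]
    refine mul_le_mul_of_nonneg_left (pow_le_pow_left₀ (by positivity) ?_ n) hS0
    refine le_trans (le_of_eq ?_) (mul_le_mul_of_nonneg_left (le_max_left _ _) (by positivity))
    field_simp

open Complex Metric in
theorem conv_inverse {m : ℕ} (K : ℕ → Matrix (Fin m) (Fin m) ℝ) {θ₀ θ₁ C : ℝ} (h₀ : 0 < θ₀) (h₁ : θ₀ < θ₁)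
    (hK : ∀ j p q, |K j p q| ≤ C * θ₀ ^ j) :
    ∃ θ ∈ Ioo θ₀ θ₁, ∃ (c : ℤ → Matrix (Fin m) (Fin m) ℝ) (S ρ : ℝ), 0 ≤ S ∧ 0 ≤ ρ ∧ ρ < 1 ∧
      (∀ i p q, |c i p q| ≤ S * θ ^ i * ρ ^ i.natAbs) ∧
      ∀ i p q, HasSum (fun j : ℕ => (K (j + 1) * c (i - (j + 1))) p q)
        (c i p q - if i = 0 then (1 : Matrix (Fin m) (Fin m) ℝ) p q else 0) := by
  have h₂ : 0 < θ₁ := h₀.trans h₁
  obtain ⟨R, haR, hRb⟩ := exists_between (inv_strictAnti₀ h₀ h₁)
  have ha : 0 < θ₁⁻¹ := inv_pos.2 h₂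
  have hR : 0 < R := ha.trans haR
  have hθR : θ₀ * R < 1 := by
    have := mul_lt_mul_of_pos_left hRb h₀
    rwa [mul_inv_cancel₀ h₀.ne'] at this
  have hu : Summable (fun j : ℕ => |C| * (θ₀ * R) ^ (j + 1)) :=
    ((summable_nat_add_iff 1).2 (summable_geometric_of_lt_one (by positivity) hθR)).mul_left _
  have tb : ∀ (j : ℕ) p q, ∀ z ∈ ball (0 : ℂ) R,
      ‖(K (j + 1) p q : ℂ) * z ^ (j + 1)‖ ≤ |C| * (θ₀ * R) ^ (j + 1) := by
    intro j p q z hz
    rw [norm_mul, norm_pow, norm_real, Real.norm_eq_abs, mul_pow, ← mul_assoc]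
    exact mul_le_mul ((hK _ p q).trans (mul_le_mul_of_nonneg_right (le_abs_self C) (by positivity)))
      (pow_le_pow_left₀ (norm_nonneg _) (mem_ball_zero_iff.1 hz).le _) (by positivity) (by positivity)
  set T : ℂ → Matrix (Fin m) (Fin m) ℂ :=
    fun z => Matrix.of fun p q => ∑' j : ℕ, (K (j + 1) p q : ℂ) * z ^ (j + 1) with hT
  have hTs : ∀ p q, ∀ z ∈ ball (0 : ℂ) R,
      HasSum (fun j : ℕ => (K (j + 1) p q : ℂ) * z ^ (j + 1)) (T z p q) := fun p q z hz =>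
    (Summable.of_norm_bounded hu fun j => tb j p q z hz).hasSum
  have hTd : ∀ p q, DifferentiableOn ℂ (fun z => T z p q) (ball 0 R) := fun p q =>
    differentiableOn_tsum_of_summable_norm hu (fun j => by fun_prop) isOpen_ball
      fun j z hz => tb j p q z hz
  have hDd : ∀ z ∈ ball (0 : ℂ) R, ∀ p q, DifferentiableAt ℂ (fun w => (1 - T w) p q) z :=
    fun z hz p q => by
      simp only [Matrix.sub_apply]
      exact ((hTd p q).differentiableAt (isOpen_ball.mem_nhds hz)).const_sub _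
  have hT0 : T 0 = 0 := by
    ext p q
    simp [hT]
  obtain ⟨ρ₁, ρ₀, ρ₂, r1, r2, r3, r4, hne⟩ := sa_annulus (f := fun z => (1 - T z).det) haR hR
    (fun z hz => (sa_det (hDd z hz)).differentiableWithinAt) (by simp [hT0])
  have p1 : 0 < ρ₁ := ha.trans r1
  have p0 : 0 < ρ₀ := p1.trans r2
  have p2 : 0 < ρ₂ := p0.trans r3
  have hE : ∀ p q, ∀ z : ℂ, ρ₁ ≤ ‖z‖ → ‖z‖ ≤ ρ₂ →
      DifferentiableAt ℂ (fun w => (1 - T w)⁻¹ p q) z := fun p q z a b =>
    sa_inv (hDd z (mem_ball_zero_iff.2 (b.trans_lt r4))) (hne z a b) p q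
  obtain ⟨S, hS0, hS⟩ : ∃ S : ℝ, 0 ≤ S ∧ ∀ p q, ∀ z : ℂ, ρ₁ ≤ ‖z‖ → ‖z‖ ≤ ρ₂ →
      ‖(1 - T z)⁻¹ p q‖ ≤ S := by
    have hc : IsCompact (closedBall (0 : ℂ) ρ₂ \ ball 0 ρ₁) :=
      (isCompact_closedBall _ _).diff isOpen_ball
    have hb : ∀ x : Fin m × Fin m, ∃ S : ℝ, ∀ z ∈ closedBall (0 : ℂ) ρ₂ \ ball 0 ρ₁,
        ‖(1 - T z)⁻¹ x.1 x.2‖ ≤ S := fun x => hc.exists_bound_of_continuousOn fun z hz =>
      (hE x.1 x.2 z (not_lt.1 (mt mem_ball_zero_iff.2 hz.2))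
        (mem_closedBall_zero_iff.1 hz.1)).continuousAt.continuousWithinAt
    choose S hS using hb
    refine ⟨∑ x, |S x|, Finset.sum_nonneg fun _ _ => abs_nonneg _, fun p q z a b => ?_⟩
    refine (hS (p, q) z ⟨mem_closedBall_zero_iff.2 b,
      fun h => not_lt.2 a (mem_ball_zero_iff.1 h)⟩).trans ((le_abs_self _).trans ?_)
    exact Finset.single_le_sum (f := fun x => |S x|) (fun _ _ => abs_nonneg _) (Finset.mem_univ _)
  set γ : ℤ → Fin m → Fin m → ℂ := fun i p q =>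
    (2 * Real.pi * I : ℂ)⁻¹ * ∮ z in C(0, ρ₀), (1 - T z)⁻¹ p q * z ^ (-i - 1) with hγ
  refine ⟨ρ₀⁻¹, ⟨?_, ?_⟩, fun i => Matrix.of fun p q => (γ i p q).re, S, max (ρ₁ / ρ₀) (ρ₀ / ρ₂),
    hS0, le_max_of_le_left (by positivity),
    max_lt ((div_lt_one p0).2 r2) ((div_lt_one p2).2 r3), fun i p q => ?_, fun i p q => ?_⟩
  · exact (lt_inv_comm₀ h₀ p0).2 (by linarith)
  · exact (inv_lt_comm₀ p0 h₂).2 (by linarith)
  · exact (abs_re_le_norm _).trans (sa_coef p1 r2 r3 (hE p q) (hS p q) i)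
  have sp : ∀ z ∈ sphere (0 : ℂ) ρ₀, ρ₁ ≤ ‖z‖ ∧ ‖z‖ ≤ ρ₂ ∧ z ∈ ball (0 : ℂ) R ∧ z ≠ 0 := by
    intro z hz
    have := mem_sphere_zero_iff_norm.1 hz
    exact ⟨by linarith, by linarith, mem_ball_zero_iff.2 (by linarith),
      norm_pos_iff.1 (by linarith)⟩
  have cz : ∀ n : ℤ, ContinuousOn (fun z : ℂ => z ^ n) (sphere 0 ρ₀) := fun n z hz =>
    (differentiableAt_zpow.2 (Or.inl (sp z hz).2.2.2)).continuousAt.continuousWithinAt
  have cE : ∀ k q, ∀ n : ℤ, ContinuousOn (fun z : ℂ => (1 - T z)⁻¹ k q * z ^ n) (sphere 0 ρ₀) :=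
    fun k q n => ContinuousOn.mul (fun z hz =>
      (hE k q z (sp z hz).1 (sp z hz).2.1).continuousAt.continuousWithinAt) (cz n)
  have cm : ∀ (a : ℂ) {f : ℂ → ℂ}, ContinuousOn f (sphere 0 ρ₀) →
      CircleIntegrable (fun z => a * f z) 0 ρ₀ := fun a f h =>
    (continuousOn_const.mul h).circleIntegrable p0.le
  have ez : ∀ z ∈ sphere (0 : ℂ) ρ₀, ∀ (j : ℕ) (x y : ℂ),
      x * (y * z ^ (-(i - (j + 1)) - 1)) = x * z ^ (j + 1) * (y * z ^ (-i - 1)) := by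
    intro z hz j x y
    rw [show -(i - (j + 1)) - 1 = ((j + 1 : ℕ) : ℤ) + (-i - 1) by push_cast; ring,
      zpow_add₀ (sp z hz).2.2.2, zpow_natCast]
    ring
  have key := sa_hasSum (r := ρ₀) p0.le
    (F := fun j z => ∑ k, (K (j + 1) p k : ℂ) * ((1 - T z)⁻¹ k q * z ^ (-(i - (j + 1)) - 1)))
    (f := fun z => (1 - T z)⁻¹ p q * z ^ (-i - 1) -
      (1 : Matrix (Fin m) (Fin m) ℂ) p q * z ^ (-i - 1))
    (u := fun j => m * (|C| * (θ₀ * R) ^ (j + 1) * (S * ρ₀ ^ (-i - 1))))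
    ((hu.mul_right _).mul_left _)
    (fun j => continuousOn_finsetSum _ fun k _ => continuousOn_const.mul (cE k q _))
    (fun j z hz => by
      refine (norm_sum_le _ _).trans ((Finset.sum_le_card_nsmul _ _
        (|C| * (θ₀ * R) ^ (j + 1) * (S * ρ₀ ^ (-i - 1))) fun k _ => ?_).trans_eq (by simp))
      rw [ez z hz, norm_mul, norm_mul ((1 - T z)⁻¹ k q), norm_zpow, mem_sphere_zero_iff_norm.1 hz]
      exact mul_le_mul (tb j p k z (sp z hz).2.2.1) (mul_le_mul_of_nonneg_right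
        (hS k q z (sp z hz).1 (sp z hz).2.1) (by positivity)) (by positivity) (by positivity))
    (fun z hz => by
      simp only [ez z hz]
      have h3 := hasSum_sum (s := Finset.univ) fun k _ =>
        (hTs p k z (sp z hz).2.2.1).mul_right ((1 - T z)⁻¹ k q * z ^ (-i - 1))
      refine (congrArg (HasSum _) ?_).mp h3
      have h4 := congrFun (congrFun (Matrix.mul_nonsing_inv (1 - T z)
        (isUnit_iff_ne_zero.2 (hne z (sp z hz).1 (sp z hz).2.1))) p) q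
      rw [sub_mul, one_mul, Matrix.sub_apply, Matrix.mul_apply] at h4
      simp only [← mul_assoc]
      rw [← Finset.sum_mul, ← h4]
      ring)
  rw [circleIntegral.integral_sub ((cE p q _).circleIntegrable p0.le)
    (cm _ (cz _)), circleIntegral.integral_const_mul] at key
  have key2 := hasSum_re (key.mul_left (2 * Real.pi * I : ℂ)⁻¹)
  convert key2 using 1
  · funext j
    rw [circleIntegral.integral_fun_sum fun k _ =>
      cm _ (cE k q _), Finset.mul_sum, re_sum,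
      Matrix.mul_apply]
    refine Finset.sum_congr rfl fun k _ => ?_
    rw [circleIntegral.integral_const_mul, mul_left_comm, re_ofReal_mul]
    rfl
  · rw [mul_sub, sub_re]
    congr 1
    split_ifs with hi
    · subst hi
      have h5 := circleIntegral.integral_sub_center_inv 0 p0.ne'
      simp only [sub_zero] at h5
      simp only [neg_zero, zero_sub, zpow_neg, zpow_one, h5]
      rw [mul_left_comm, inv_mul_cancel₀ two_pi_I_ne_zero, mul_one, Matrix.one_apply,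
        Matrix.one_apply]
      split_ifs <;> simp
    · have h5 := circleIntegral.integral_sub_zpow_of_ne (n := -i - 1) (by omega) 0 0 ρ₀
      simp only [sub_zero] at h5
      simp [h5]

end Crest.Agent.R213
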