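import Crest.Agent.R213.SeqA

/-! # Row 213, the sequence lemma

`k r j` is the kernel from the injection at step `r` to the observation at step `r + j`.  Let `K j = lim_r k r j`, take
`θ, c` from `conv_inverse`.  For `G` with `‖G r‖ ≤ g θ^r` put `b r = ∑_{i ≥ A} c (r - i) G i` (`r ∈ ℤ`): `‖b r‖ ≤ S' g θ^r` and
`b r - ∑_{j ≥ 1} K j b (r - j) = G r` for `r ≥ A`.  Hence for `r ≥ A`:
`b r - ∑_{j < r} k (r₁+j) (r-j) b j = G r + err r` with `‖err r‖ ≤ g θ^r / 2` if `A` is large (terms `j > r ≥ A`) and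
`r₁ ≥ r₀` is large (`∑_j sup_{r ≥ r₀} |K j - k r j| θ^{-j} → 0`).  Iterate (`G₀ = F`, `G_{n+1} = -err_n`) and sum the series. -/

set_option autoImplicit false
open Set Filter Topology
open scoped ContDiff

noncomputable section
namespace Crest.Agent.R213

lemma seqb_mulVec {m : ℕ} {M : Matrix (Fin m) (Fin m) ℝ} {a : ℝ} (ha : 0 ≤ a) (hM : ∀ p q, |M p q| ≤ a)
    (v : Fin m → ℝ) : ‖M.mulVec v‖ ≤ m * a * ‖v‖ := by
  refine (pi_norm_le_iff_of_nonneg (by positivity)).2 fun p => ?_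
  calc ‖∑ q, M p q * v q‖ ≤ ∑ _q : Fin m, a * ‖v‖ := norm_sum_le_of_le _ fun q _ => by
        rw [norm_mul]; exact mul_le_mul (hM p q) (norm_le_pi_norm v q) (norm_nonneg _) ha
    _ = _ := by simp [mul_assoc]

lemma seqb_hasSum {m : ℕ} {ι : Type*} (M : Matrix (Fin m) (Fin m) ℝ) {f : ι → Fin m → ℝ} {s : Fin m → ℝ}
    (h : HasSum f s) : HasSum (fun i => M.mulVec (f i)) (M.mulVec s) :=
  h.mapL (LinearMap.toContinuousLinearMap M.mulVecLin)

lemma seqb_rho {ρ : ℝ} (h0 : 0 ≤ ρ) (h1 : ρ < 1) : Summable fun n : ℤ => ρ ^ n.natAbs :=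
  Summable.of_nat_of_neg (by simpa using summable_geometric_of_lt_one h0 h1)
    (by simpa using summable_geometric_of_lt_one h0 h1)

/-- the unperturbed equation on the whole line -/
lemma seqb_solve {m : ℕ} {K : ℕ → Matrix (Fin m) (Fin m) ℝ} {c : ℤ → Matrix (Fin m) (Fin m) ℝ}
    {θ q C S ρ : ℝ} (hθ : 0 < θ) (hq : 0 ≤ q) (hq1 : q < 1) (hC : 0 ≤ C) (hS : 0 ≤ S) (h0 : 0 ≤ ρ) (h1 : ρ < 1)
    (hK : ∀ j p p', |K j p p'| ≤ C * (q * θ) ^ j) (hc : ∀ i p p', |c i p p'| ≤ S * θ ^ i * ρ ^ i.natAbs)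
    (hs : ∀ i p p', HasSum (fun j : ℕ => (K (j + 1) * c (i - (j + 1))) p p')
      (c i p p' - if i = 0 then (1 : Matrix (Fin m) (Fin m) ℝ) p p' else 0)) :
    ∃ S' : ℝ, 0 ≤ S' ∧ ∀ g ≥ (0 : ℝ), ∀ G : ℕ → Fin m → ℝ, (∀ r, ‖G r‖ ≤ g * θ ^ r) →
      ∃ b : ℤ → Fin m → ℝ, (∀ r, ‖b r‖ ≤ S' * g * θ ^ r) ∧
        ∀ r : ℕ, HasSum (fun j : ℕ => (K (j + 1)).mulVec (b (r - (j + 1)))) (b r - G r) := by
  have hρ := seqb_rho h0 h1
  refine ⟨m * S * ∑' n : ℤ, ρ ^ n.natAbs, by positivity, fun g hg G hG => ?_⟩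
  have hinj : ∀ r : ℤ, Function.Injective fun i : ℕ => r - i := fun r a b e => by simpa using e
  have ht : ∀ (r : ℤ) (i : ℕ), ‖(c (r - i)).mulVec (G i)‖ ≤ m * S * g * θ ^ r * ρ ^ (r - i).natAbs := by
    intro r i
    refine (seqb_mulVec (by positivity) (hc _) _).trans
      ((mul_le_mul_of_nonneg_left (hG i) (by positivity)).trans (le_of_eq ?_))
    rw [zpow_sub₀ hθ.ne', zpow_natCast]
    field_simp
  have hsum : ∀ r : ℤ, Summable fun i : ℕ => m * S * g * θ ^ r * ρ ^ (r - i).natAbs := fun r =>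
    (hρ.comp_injective (hinj r)).mul_left _
  have hb : ∀ r : ℤ, HasSum (fun i : ℕ => (c (r - i)).mulVec (G i)) (∑' i : ℕ, (c (r - i)).mulVec (G i)) :=
    fun r => (Summable.of_norm_bounded (hsum r) (ht r)).hasSum
  refine ⟨fun r => ∑' i : ℕ, (c (r - i)).mulVec (G i), fun r => ?_, fun r => ?_⟩
  · refine (tsum_of_norm_bounded (hsum r).hasSum (ht r)).trans ?_
    rw [tsum_mul_left]
    calc _ ≤ m * S * g * θ ^ r * ∑' n : ℤ, ρ ^ n.natAbs :=
          mul_le_mul_of_nonneg_left (tsum_comp_le_tsum_of_inj hρ (fun _ => by positivity) (hinj r))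
            (by positivity)
      _ = _ := by ring
  · have hinj2 : Function.Injective fun x : ℕ × ℕ => (x.1, (r : ℤ) - (x.1 + 1) - x.2) := by
      rintro ⟨a, b⟩ ⟨a', b'⟩ e
      simp only [Prod.mk.injEq] at e ⊢
      omega
    have h2 : Summable fun x : ℕ × ℕ =>
        (K (x.1 + 1)).mulVec ((c ((r : ℤ) - (x.1 + 1) - x.2)).mulVec (G x.2)) := by
      have h3 := ((((summable_geometric_of_lt_one hq hq1).mul_of_nonneg hρ (fun _ => by positivity)
        (fun _ => by positivity)).comp_injective hinj2).mul_left (m * C * q * (m * S * g * θ ^ r)))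
      refine Summable.of_norm_bounded h3 fun x => ?_
      refine (seqb_mulVec (by positivity) (hK _) _).trans
        ((mul_le_mul_of_nonneg_left (ht _ _) (by positivity)).trans (le_of_eq ?_))
      rw [zpow_sub₀ hθ.ne', zpow_natCast, ← Nat.cast_succ, zpow_natCast]
      simp only [Function.comp, Nat.cast_succ, mul_pow]
      field_simp
      ring
    have h4 := h2.hasSum.prod_fiberwise fun j => seqb_hasSum (K (j + 1)) (hb ((r : ℤ) - (j + 1)))
    have h5 : HasSum (fun i : ℕ => (c (r - i)).mulVec (G i) - if i = r then G r else 0) _ :=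
      ((Equiv.prodComm ℕ ℕ).hasSum_iff.2 h2.hasSum).prod_fiberwise fun i => by
        refine Pi.hasSum.2 fun p => ?_
        have h6 := hasSum_sum fun p' (_ : p' ∈ Finset.univ) => (hs ((r : ℤ) - i) p p').mul_right (G i p')
        have e1 : ∑ p', (c (r - i) p p' - if (r : ℤ) - i = 0 then (1 : Matrix (Fin m) (Fin m) ℝ) p p' else 0) *
            G i p' = ((c (r - i)).mulVec (G i) - if i = r then G r else 0) p := by
          simp only [sub_mul, Finset.sum_sub_distrib, Pi.sub_apply]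
          congr 1
          by_cases e : i = r
          · subst e; simp [Matrix.one_apply]
          · have : (r : ℤ) - i ≠ 0 := by omega
            simp [e, this]
        rw [e1] at h6
        refine h6.congr_fun fun j => ?_
        simp only [Function.comp, Equiv.prodComm_apply, Prod.swap, Matrix.mulVec_mulVec]
        rw [sub_right_comm]; rfl
    rw [h5.unique ((hb r).sub (hasSum_ite_eq r (G r)))] at h4
    exact h4

/-- successive approximation -/
lemma seqb_iter {m : ℕ} (L : ℕ → ℕ → Matrix (Fin m) (Fin m) ℝ) {θ S : ℝ} {A : ℕ}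
    (h : ∀ g ≥ (0 : ℝ), ∀ G : ℕ → Fin m → ℝ, (∀ r, ‖G r‖ ≤ g * θ ^ r) → ∃ b e : ℕ → Fin m → ℝ,
      (∀ r, ‖b r‖ ≤ S * g * θ ^ r) ∧ (∀ r, ‖e r‖ ≤ g / 2 * θ ^ r) ∧
      ∀ r ≥ A, b r - ∑ j ∈ Finset.range r, (L r j).mulVec (b j) = G r - e r)
    {y : ℝ} (hy : 0 ≤ y) {F : ℕ → Fin m → ℝ} (hF : ∀ r, ‖F r‖ ≤ y * θ ^ r) :
    ∃ b : ℕ → Fin m → ℝ, (∀ r, ‖b r‖ ≤ 2 * S * y * θ ^ r) ∧
      ∀ r ≥ A, b r = ∑ j ∈ Finset.range r, (L r j).mulVec (b j) + F r := by
  choose! fb fe h1 h2 h3 using h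
  let G : ℕ → ℕ → Fin m → ℝ := fun n => Nat.rec F (fun n G => fe (y * (1 / 2) ^ n) G) n
  have hG : ∀ n r, ‖G n r‖ ≤ y * (1 / 2) ^ n * θ ^ r := by
    intro n
    induction n with
    | zero => intro r; rw [pow_zero, mul_one]; exact hF r
    | succ n ih =>
      intro r
      refine (h2 _ (by positivity) _ ih r).trans (le_of_eq ?_)
      ring
  have hb : ∀ r n, ‖fb (y * (1 / 2) ^ n) (G n) r‖ ≤ S * y * θ ^ r * (1 / 2) ^ n := fun r n =>
    (h1 _ (by positivity) _ (hG n) r).trans (le_of_eq (by ring))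
  have hs : ∀ r : ℕ, HasSum (fun n : ℕ => S * y * θ ^ r * (1 / 2) ^ n) (S * y * θ ^ r * 2) := fun r =>
    hasSum_geometric_two.mul_left _
  have hb' := fun r => (Summable.of_norm_bounded (hs r).summable (hb r)).hasSum
  refine ⟨fun r => ∑' n, fb (y * (1 / 2) ^ n) (G n) r, fun r => ?_, fun r hr => ?_⟩
  · exact (tsum_of_norm_bounded (hs r) (hb r)).trans (le_of_eq (by ring))
  · have h4 := ((hb' r).sub (hasSum_sum fun j (_ : j ∈ Finset.range r) =>
      seqb_hasSum (L r j) (hb' j))).tendsto_sum_nat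
    have h5 : Tendsto (fun n => G n r) atTop (𝓝 0) := by
      refine squeeze_zero_norm (fun n => hG n r) ?_
      have := ((tendsto_pow_atTop_nhds_zero_of_lt_one (r := (1 / 2 : ℝ)) (by norm_num)
        (by norm_num)).const_mul y).mul_const (θ ^ r)
      simpa using this
    have h6 := h5.const_sub (G 0 r)
    rw [sub_zero] at h6
    refine eq_add_of_sub_eq' (tendsto_nhds_unique h4 (h6.congr fun n => ?_))
    rw [← Finset.sum_range_sub' (fun n => G n r)]
    exact Finset.sum_congr rfl fun i _ => (h3 _ (by positivity) _ (hG i) r hr).symm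

theorem seq_lemma {m : ℕ} (k : ℕ → ℕ → Matrix (Fin m) (Fin m) ℝ) {θ₀ θ₁ C : ℝ} (h₀ : 0 < θ₀) (h₁ : θ₀ < θ₁)
    (hk : ∀ r j p q, |k r j p q| ≤ C * θ₀ ^ j) (hc : ∀ j p q, CauchySeq fun r => k r j p q) :
    ∃ θ ∈ Ioo θ₀ θ₁, ∃ (A r₀ : ℕ) (C' : ℝ), 0 ≤ C' ∧ ∀ r₁ ≥ r₀, ∀ y ≥ (0 : ℝ), ∀ F : ℕ → Fin m → ℝ,
      (∀ r, ‖F r‖ ≤ y * θ ^ r) → ∃ b : ℕ → Fin m → ℝ, (∀ r, ‖b r‖ ≤ C' * y * θ ^ r) ∧
        ∀ r ≥ A, b r = ∑ j ∈ Finset.range r, (k (r₁ + j) (r - j)).mulVec (b j) + F r := by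
  choose K hKl using fun j p q => cauchySeq_tendsto_of_complete (hc j p q)
  have hk' : ∀ r j p q, |k r j p q| ≤ |C| * θ₀ ^ j := fun r j p q =>
    (hk r j p q).trans (mul_le_mul_of_nonneg_right (le_abs_self C) (by positivity))
  have hK : ∀ j p q, |K j p q| ≤ |C| * θ₀ ^ j := fun j p q =>
    le_of_tendsto' (hKl j p q).abs fun r => hk' r j p q
  obtain ⟨θ, hθ, c, S, ρ, hS, hρ0, hρ1, hc1, hc2⟩ := conv_inverse (fun j => Matrix.of (K j)) h₀ h₁ hK
  have hθ0 : 0 < θ := h₀.trans hθ.1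
  obtain ⟨q, hq0, hq1, hq⟩ : ∃ q : ℝ, 0 < q ∧ q < 1 ∧ θ₀ < q * θ := by
    obtain ⟨q, h1, h2⟩ := exists_between ((div_lt_one hθ0).2 hθ.1)
    exact ⟨q, (div_pos h₀ hθ0).trans h1, h2, (div_lt_iff₀ hθ0).1 h1⟩
  have hqθ : 0 < q * θ := by positivity
  have hK' : ∀ j p p', |(Matrix.of (K j)) p p'| ≤ |C| * (q * θ) ^ j := fun j p p' =>
    (hK j p p').trans (by gcongr)
  obtain ⟨S', hS', hsol⟩ := seqb_solve hθ0 hq0.le hq1 (abs_nonneg C) hS hρ0 hρ1 hK' hc1 hc2
  have h1q : 0 < (1 - q)⁻¹ := inv_pos.2 (by linarith)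
  obtain ⟨η, hη, hη'⟩ : ∃ η : ℝ, 0 < η ∧ m * η * S' * (1 - q)⁻¹ ≤ 1 / 4 := by
    refine ⟨1 / 4 / (m * S' * (1 - q)⁻¹ + 1), by positivity, ?_⟩
    calc _ = 1 / 4 * (m * S' * (1 - q)⁻¹ / (m * S' * (1 - q)⁻¹ + 1)) := by ring
      _ ≤ 1 / 4 * 1 := by gcongr; exact div_le_one_of_le₀ (by linarith) (by positivity)
      _ = _ := by ring
  obtain ⟨A, hA⟩ : ∃ A : ℕ, ∀ r ≥ A, |C| * q ^ r ≤ η := by
    have := (tendsto_pow_atTop_nhds_zero_of_lt_one hq0.le hq1).const_mul |C|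
    rw [mul_zero] at this
    exact eventually_atTop.1 (this.eventually_le_const hη)
  obtain ⟨r₀, hr₀⟩ : ∃ r₀ : ℕ, ∀ r ≥ r₀, ∀ j p p', |K j p p' - k r j p p'| ≤ η * (q * θ) ^ j := by
    obtain ⟨J, hJ⟩ : ∃ J : ℕ, ∀ j ≥ J, 2 * |C| * (θ₀ / (q * θ)) ^ j ≤ η := by
      have := (tendsto_pow_atTop_nhds_zero_of_lt_one (div_pos h₀ hqθ).le
        ((div_lt_one hqθ).2 hq)).const_mul (2 * |C|)
      rw [mul_zero] at this
      exact eventually_atTop.1 (this.eventually_le_const hη)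
    have h2 : ∀ᶠ r in atTop, ∀ (j : Fin J) p p', |K j p p' - k r j p p'| ≤ η * (q * θ) ^ (j : ℕ) := by
      simp only [eventually_all]
      intro j p p'
      have := ((hKl j p p').const_sub (K j p p')).abs
      rw [sub_self, abs_zero] at this
      exact this.eventually_le_const (by positivity)
    obtain ⟨r₀, h3⟩ := eventually_atTop.1 h2
    refine ⟨r₀, fun r hr j p p' => ?_⟩
    rcases lt_or_ge j J with hj | hj
    · exact h3 r hr ⟨j, hj⟩ p p'
    · have h4 := hJ j hj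
      rw [div_pow, ← mul_div_assoc, div_le_iff₀ (by positivity)] at h4
      linarith [abs_sub (K j p p') (k r j p p'), hK j p p', hk' r j p p']
  refine ⟨θ, hθ, A, r₀, 2 * S', by positivity, fun r₁ hr₁ y hy F hF => ?_⟩
  refine seqb_iter (fun r j => k (r₁ + j) (r - j)) (fun g hg G hG => ?_) hy hF
  obtain ⟨b, hb1, hb2⟩ := hsol g hg G hG
  refine ⟨fun r => b r, fun r => if A ≤ r then G r - (b r - ∑ j ∈ Finset.range r,
    (k (r₁ + j) (r - j)).mulVec (b j)) else 0, fun r => by simpa using hb1 r, fun r => ?_,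
    fun r hr => by simp only [if_pos (show A ≤ r from hr), sub_sub_cancel]⟩
  beta_reduce
  split_ifs with hr
  swap
  · rw [norm_zero]; positivity
  have hgeo := hasSum_geometric_of_lt_one hq0.le hq1
  have h5 := (hasSum_nat_add_iff' r).2 (hb2 r)
  have h6 : ‖b r - G r - ∑ j ∈ Finset.range r, (Matrix.of (K (j + 1))).mulVec (b (r - (j + 1)))‖ ≤
      m * η * S' * g * θ ^ r * (1 - q)⁻¹ := by
    refine h5.norm_le_of_bounded (hgeo.mul_left _) fun j => ?_
    refine (seqb_mulVec (by positivity) (hK' _) _).trans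
      ((mul_le_mul_of_nonneg_left (hb1 _) (by positivity)).trans ?_)
    rw [zpow_sub₀ hθ0.ne', zpow_natCast, ← Nat.cast_succ, zpow_natCast]
    calc _ = m * (|C| * q ^ r * q) * S' * g * θ ^ r * q ^ j := by
          rw [mul_pow]; field_simp; ring
      _ ≤ _ := by
          gcongr
          exact (mul_le_of_le_one_right (by positivity) hq1.le).trans (hA r hr)
  have h7 : ‖∑ j ∈ Finset.range r, ((Matrix.of (K (j + 1))).mulVec (b (r - (j + 1))) -
      (k (r₁ + (r - 1 - j)) (r - (r - 1 - j))).mulVec (b (r - 1 - j : ℕ)))‖ ≤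
      m * η * S' * g * θ ^ r * (1 - q)⁻¹ := by
    refine (norm_sum_le_of_le _ (n := fun j => m * η * S' * g * θ ^ r * q ^ j) fun j hj => ?_).trans
      (sum_le_hasSum _ (fun j _ => by positivity) (hgeo.mul_left _))
    have hj' := Finset.mem_range.1 hj
    have e1 : r - (r - 1 - j) = j + 1 := by omega
    have e2 : ((r - 1 - j : ℕ) : ℤ) = r - (j + 1) := by omega
    rw [e1, e2, ← Matrix.sub_mulVec]
    refine (seqb_mulVec (by positivity) (hr₀ _ (by omega) (j + 1)) _).trans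
      ((mul_le_mul_of_nonneg_left (hb1 _) (by positivity)).trans ?_)
    rw [zpow_sub₀ hθ0.ne', zpow_natCast, ← Nat.cast_succ, zpow_natCast]
    calc _ = m * η * S' * g * θ ^ r * (q ^ j * q) := by
          rw [mul_pow]; field_simp; ring
      _ ≤ _ := by
          gcongr
          exact mul_le_of_le_one_right (by positivity) hq1.le
  rw [Finset.sum_sub_distrib,
    Finset.sum_range_reflect (fun j => (k (r₁ + j) (r - j)).mulVec (b j))] at h7
  have h8 := norm_add_le_of_le h6 h7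
  rw [← norm_neg] at h8
  have h9 : m * η * S' * g * θ ^ r * (1 - q)⁻¹ ≤ 1 / 4 * (g * θ ^ r) := by
    calc _ = m * η * S' * (1 - q)⁻¹ * (g * θ ^ r) := by ring
      _ ≤ _ := by gcongr
  refine le_trans (le_of_eq ?_) (h8.trans (by linarith))
  congr 1
  abel

end Crest.Agent.R213
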