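import Crest.Agent.R213.VoltP
import Crest.Agent.R213.Decay

/-! # Row 213, a bounded solution of the Volterra equation is a shrinker

`IsVolt.smooth` gives `η`; `γ = χ · gam s` with a smooth cutoff `χ = 1` on `(-η/2,∞)`, `0` on `(-∞,-3η/4)` is globally smooth.  On `(-η/2,∞)`:
`ss γ = s`, `hh γ = hs s`, `s' = C - 1/(2h)`, so `s'' = h'/(2h²)`.  `H τ = hs s (e^τ)` has `H' = th1`, `H'' = th2` and satisfies the
hypotheses of `decay_tau` with `c = 1/(2C)`, `τ₀ = log 125`; `γ(e^τ) = (1 - H τ) e^{-τ}`; `symb_of_tau` with `p = 1`. -/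

set_option autoImplicit false
open Set Filter Topology
open scoped ContDiff

noncomputable section
namespace Crest.Agent.R213

/-- all derivatives of `f e^{-τ}` are `O(e^{-τ})` when all derivatives of `f` are bounded -/
lemma shrof_mul_exp {τ₀ : ℝ} (i : ℕ) : ∀ {f : ℝ → ℝ}, ContDiff ℝ ∞ f →
    (∀ j : ℕ, ∃ C, ∀ τ ≥ τ₀, |iteratedDeriv j f τ| ≤ C) →
    ∃ C, ∀ τ ≥ τ₀, |iteratedDeriv i (fun τ => f τ * Real.exp (-τ)) τ| ≤ C * Real.exp (-τ) := by
  induction i with
  | zero =>
    intro f _ hb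
    obtain ⟨C, hC⟩ := hb 0
    refine ⟨C, fun τ hτ => ?_⟩
    simp only [iteratedDeriv_zero] at hC ⊢
    rw [abs_mul, abs_of_pos (Real.exp_pos _)]
    exact mul_le_mul_of_nonneg_right (hC τ hτ) (Real.exp_pos _).le
  | succ i ih =>
    intro f hf hb
    have hf' : ContDiff ℝ ∞ (deriv f) := (contDiff_infty_iff_deriv.1 hf).2
    have hd : deriv (fun τ => f τ * Real.exp (-τ)) = fun τ => (deriv f τ - f τ) * Real.exp (-τ) := by
      funext τ
      have h1 : HasDerivAt f (deriv f τ) τ := (hf.differentiable (by simp) τ).hasDerivAt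
      have h2 : HasDerivAt (fun τ => Real.exp (-τ)) (Real.exp (-τ) * (-1)) τ :=
        (hasDerivAt_neg τ).exp
      rw [(h1.fun_mul h2).deriv]; ring
    rw [iteratedDeriv_succ', hd]
    refine ih (f := fun τ => deriv f τ - f τ) (hf'.sub hf) fun j => ?_
    obtain ⟨C₁, h₁⟩ := hb (j + 1)
    obtain ⟨C₂, h₂⟩ := hb j
    refine ⟨C₁ + C₂, fun τ hτ => ?_⟩
    have e : iteratedDeriv j (fun τ => deriv f τ - f τ) τ =
        iteratedDeriv j (deriv f) τ - iteratedDeriv j f τ :=
      iteratedDeriv_fun_sub (hf'.contDiffAt.of_le (by exact_mod_cast le_top))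
        (hf.contDiffAt.of_le (by exact_mod_cast le_top))
    rw [e, ← iteratedDeriv_succ']
    exact (abs_sub _ _).trans (add_le_add (h₁ τ hτ) (h₂ τ hτ))

/-- smooth extension of a function smooth on `(-η, ∞)` -/
lemma shrof_ext {η : ℝ} (hη : 0 < η) {g : ℝ → ℝ} (hg : ContDiffOn ℝ ∞ g (Ioi (-η))) :
    ∃ γ : ℝ → ℝ, ContDiff ℝ ∞ γ ∧ ∀ y > -η / 2, γ y = g y := by
  refine ⟨fun y => Real.smoothTransition ((y + 3 * η / 4) / (η / 4)) * g y, ?_, fun y hy => ?_⟩
  · rw [contDiff_iff_contDiffAt]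
    intro y
    by_cases hy : -η < y
    · refine ContDiffAt.mul ?_ (hg.contDiffAt (Ioi_mem_nhds hy))
      exact Real.smoothTransition.contDiffAt.comp y (by fun_prop)
    · have : (fun y => Real.smoothTransition ((y + 3 * η / 4) / (η / 4)) * g y) =ᶠ[𝓝 y]
          fun _ => 0 := by
        filter_upwards [Iio_mem_nhds (show y < -(3 * η / 4) by linarith)] with z hz
        rw [Real.smoothTransition.zero_of_nonpos, zero_mul]
        exact div_nonpos_of_nonpos_of_nonneg (by linarith [mem_Iio.1 hz]) (by positivity)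
      exact contDiffAt_const.congr_of_eventuallyEq this
  · show Real.smoothTransition _ * g y = g y
    rw [Real.smoothTransition.one_of_one_le, one_mul]
    rw [le_div_iff₀ (by positivity)]
    linarith

theorem shr_of_bounded {s₀ C K : ℝ} {s : ℝ → ℝ} (h : IsVolt s₀ C s) (h₀ : 0 < s₀)
    (hC : C ∈ Icc (0.7 : ℝ) 0.701) (hn : ∀ y ∈ Icc (0 : ℝ) 125, 1 / 8 ≤ hs s y)
    (hf : ∀ y ≥ (125 : ℝ), hs s y ∈ Icc (0.71 : ℝ) 0.715 ∧ |th1 s y| + |th2 s y| ≤ K * y ^ 2) :
    ∃ γ, Shr γ := by
  have hs_c : Continuous s := h.1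
  have hpos : ∀ y ≥ (0 : ℝ), 1 / 8 ≤ hs s y := fun y hy => by
    by_cases h1 : y ≤ 125
    · exact hn y ⟨hy, h1⟩
    · linarith [(hf y (by linarith)).1.1]
  obtain ⟨η, hη, hcl, -, hg, hss⟩ := h.smooth hpos
  obtain ⟨γ, hγ, heq⟩ := shrof_ext hη hg
  have hev : ∀ y > -η / 2, γ =ᶠ[𝓝 y] gam s := fun y hy => by
    filter_upwards [Ioi_mem_nhds hy] with z hz using heq z hz
  have hhh : ∀ y > -η / 2, hh γ y = hs s y := fun y hy => by
    simp only [hh, hs, heq y hy]
  have hss' : ∀ y > -η / 2, ss γ y = s y := fun y hy => by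
    rw [← hss y (by linarith)]
    simp only [ss, heq y hy, (hev y hy).deriv_eq, (hev y hy).deriv.deriv_eq]
  have hcl' : ∀ y > -η, cl (hs s y) = hs s y := fun y hy => max_eq_left (hcl y hy).le
  refine ⟨γ, hγ, ?_, ⟨1 / 8, by norm_num, fun y hy => ?_⟩, fun y hy => ?_, ?_⟩
  · rw [heq 0 (by linarith), gam_zero, h.zero]; positivity
  · rw [hhh y (by linarith)]; exact hpos y hy
  · have hy' : -η / 2 < y := by linarith
    have e1 : hh γ =ᶠ[𝓝 y] hs s := by
      filter_upwards [Ioi_mem_nhds hy'] with z hz using hhh z hz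
    have e2 : ss γ =ᶠ[𝓝 y] s := by
      filter_upwards [Ioi_mem_nhds hy'] with z hz using hss' z hz
    have e3 : deriv (ss γ) =ᶠ[𝓝 y] fun z => C - 1 / (2 * hs s z) := by
      filter_upwards [e2.deriv, Ioi_mem_nhds hy'] with z hz hz'
      rw [hz, (h.hasDerivAt z).deriv, hcl' z (by linarith [mem_Ioi.1 hz'])]
    have hd : DifferentiableAt ℝ (hs s) y := by
      refine DifferentiableAt.congr_of_eventuallyEq ?_ e1.symm
      have : Differentiable ℝ γ := hγ.differentiable (by simp)
      unfold hh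
      fun_prop
    have hne : 2 * hs s y ≠ 0 := by linarith [hpos y hy]
    have hd2 : HasDerivAt (fun z => C - 1 / (2 * hs s z))
        (0 - (0 * (2 * hs s y) - 1 * (2 * deriv (hs s) y)) / (2 * hs s y) ^ 2) y :=
      (hasDerivAt_const y C).fun_sub
        ((hasDerivAt_const y 1).fun_div (hd.hasDerivAt.const_mul 2) hne)
    rw [e1.deriv_eq, e3.deriv_eq, hd2.deriv, hhh y hy']
    have : hs s y ≠ 0 := by linarith [hpos y hy]
    field_simp
    ring
  · set H : ℝ → ℝ := fun τ => hs s (Real.exp τ) with hH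
    have hHe : H = fun τ => 1 - Real.exp τ * γ (Real.exp τ) := by
      funext τ
      rw [hH]
      exact (hhh _ (by linarith [Real.exp_pos τ])).symm
    have hHs : ContDiff ℝ ∞ H := by
      rw [hHe]
      exact contDiff_const.sub (Real.contDiff_exp.mul (hγ.comp Real.contDiff_exp))
    have d1 : deriv H = fun τ => th1 s (Real.exp τ) := by
      funext τ
      have := (hasDerivAt_hs hs_c (Real.exp_pos τ).ne').comp τ (Real.hasDerivAt_exp τ)
      rw [div_mul_cancel₀ _ (Real.exp_pos τ).ne'] at this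
      exact this.deriv
    have d2 : deriv (deriv H) = fun τ => th2 s (Real.exp τ) := by
      rw [d1]
      funext τ
      have := (hasDerivAt_th1 hs_c (Real.exp_pos τ).ne').comp τ (Real.hasDerivAt_exp τ)
      rw [div_mul_cancel₀ _ (Real.exp_pos τ).ne'] at this
      exact this.deriv
    have d3 : ∀ τ, deriv (deriv (deriv H)) τ = -18 * th2 s (Real.exp τ) - 71 * th1 s (Real.exp τ)
        + 90 * hs s (Real.exp τ) - 90 - Real.exp τ ^ 2 * (C - 1 / (2 * hs s (Real.exp τ))) := by
      intro τ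
      rw [d2]
      have := (h.hasDerivAt_th2 (Real.exp_pos τ).ne').comp τ (Real.hasDerivAt_exp τ)
      rw [div_mul_cancel₀ _ (Real.exp_pos τ).ne', hcl' _ (by linarith [Real.exp_pos τ])] at this
      exact this.deriv
    have hexp : ∀ τ ≥ Real.log 125, (125 : ℝ) ≤ Real.exp τ := fun τ hτ => by
      rw [← Real.exp_log (show (0 : ℝ) < 125 by norm_num)]
      exact Real.exp_le_exp.2 hτ
    have e2 : ∀ τ, Real.exp (2 * τ) = Real.exp τ ^ 2 := fun τ => by
      rw [← Real.exp_nat_mul]; norm_num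
    have hC0 : 0 < C := by linarith [hC.1]
    have hdec := decay_tau (H := H) (c := 1 / (2 * C)) (τ₀ := Real.log 125) (K := K) hHs
      ⟨by rw [le_div_iff₀ (by positivity)]; linarith [hC.2],
        by rw [div_le_iff₀ (by positivity)]; linarith [hC.1]⟩
      (fun τ => by linarith [hpos _ (Real.exp_pos τ).le])
      (fun τ hτ => (hf _ (hexp τ hτ)).1)
      (fun τ hτ => by rw [d2, d1, e2]; exact (hf _ (hexp τ hτ)).2)
      (fun τ => by
        rw [d3, d2, d1, e2]
        have : 1 / (2 * (1 / (2 * C))) = C := by field_simp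
        rw [this]
        simp only [hH]
        ring)
    have hsym := symb_of_tau hγ (τ₀ := Real.log 125) 1 fun i => by
      have e : (fun τ => γ (Real.exp τ)) = fun τ => (1 - H τ) * Real.exp (-τ) := by
        funext τ
        rw [hHe, Real.exp_neg]
        have := (Real.exp_pos τ).ne'
        field_simp
        ring
      rw [e]
      obtain ⟨B, hB⟩ := shrof_mul_exp (τ₀ := Real.log 125) i (f := fun τ => 1 - H τ)
        (contDiff_const.sub hHs) fun j => by
          obtain ⟨B, hB⟩ := hdec j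
          refine ⟨1 + B, fun τ hτ => ?_⟩
          have e : iteratedDeriv j (fun τ => 1 - H τ) τ =
              iteratedDeriv j (fun _ => (1 : ℝ)) τ - iteratedDeriv j H τ :=
            iteratedDeriv_fun_sub contDiffAt_const
              (hHs.contDiffAt.of_le (by exact_mod_cast le_top))
          rw [e]
          refine (abs_sub _ _).trans (add_le_add ?_ (hB τ hτ))
          rw [iteratedDeriv_const]
          split_ifs <;> simp
      exact ⟨B, fun τ hτ => by simpa using hB τ hτ⟩
    intro i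
    simpa using hsym i

end Crest.Agent.R213
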