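import Crest.Agent.R213.ODefs

/-! # Row 213, global solution of the clamped Volterra equation, continuity in the parameters

`h ↦ 1 / (2 cl h)` is `50`-Lipschitz and bounded by `5`, `|gam s y - gam s' y| ≤ sup_{|η| ≤ |y|} |s - s'|`.  Write `s = e^{K y²} σ` with `σ` in
`ℝ →ᵇ ℝ` and `K = 50`: the Picard map is a `1/2`-contraction (`∫₀^y 50 |η| e^{K η²} ≤ e^{K y²} / 2`), Lipschitz in `(s₀, C)`
(`|y| e^{-K y²} ≤ 1`); `ContractingWith.fixedPoint`, `ContractingWith.fixedPoint_lipschitz_in_map` or a direct estimate. -/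

set_option autoImplicit false
open Set Filter Topology
open scoped ContDiff

noncomputable section
namespace Crest.Agent.R213

/-- the weight -/
def vW (y : ℝ) : ℝ := Real.exp (50 * y ^ 2)

/-- the clamped nonlinearity -/
def vF (s : ℝ → ℝ) (η : ℝ) : ℝ := 1 / (2 * cl (hs s η))

theorem vW_pos (y : ℝ) : 0 < vW y := Real.exp_pos _

theorem vW_cont : Continuous vW := by unfold vW; fun_prop

theorem vW_ge (y : ℝ) : 1 ≤ vW y ∧ |y| ≤ vW y := by
  have h := Real.add_one_le_exp (50 * y ^ 2)
  unfold vW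
  constructor
  · nlinarith [sq_nonneg y]
  · nlinarith [sq_abs y, sq_nonneg (|y| - 1)]

theorem v_cl (h : ℝ) : 1 / 10 ≤ cl h := le_max_right _ _

theorem vF_cont {s : ℝ → ℝ} (h : Continuous s) : Continuous (vF s) := by
  have h1 : Continuous (gam s) :=
    intervalIntegral.continuous_parametric_intervalIntegral_of_continuous' (by fun_prop) 0 1
  have h2 : Continuous fun η => cl (hs s η) := by
    unfold cl hs
    fun_prop
  exact continuous_const.div (continuous_const.mul h2) fun η => by
    have := v_cl (hs s η)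
    positivity

theorem vF_abs (s : ℝ → ℝ) (η : ℝ) : |vF s η| ≤ 5 := by
  have := v_cl (hs s η)
  unfold vF
  rw [abs_of_pos (by positivity), div_le_iff₀ (by positivity)]
  linarith

theorem vF_sub {s s' : ℝ → ℝ} (h : Continuous s) (h' : Continuous s') {d : ℝ}
    (hd : ∀ y, |s y - s' y| ≤ d * vW y) (η : ℝ) : |vF s η - vF s' η| ≤ 50 * |η| * vW η * d := by
  have hd0 : 0 ≤ d := nonneg_of_mul_nonneg_left ((abs_nonneg _).trans (hd 0)) (vW_pos 0)
  have h1 : |gam s η - gam s' η| ≤ d * vW η := by
    unfold gam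
    rw [← intervalIntegral.integral_sub (Continuous.intervalIntegrable (by fun_prop) _ _)
      (Continuous.intervalIntegrable (by fun_prop) _ _)]
    rw [← Real.norm_eq_abs]
    refine (intervalIntegral.norm_integral_le_of_norm_le_const (C := d * vW η)
      fun u hu => ?_).trans_eq (by simp)
    rw [uIoc_of_le zero_le_one] at hu
    have a1 : 0 ≤ (1 - u) * u ^ 9 := mul_nonneg (by linarith [hu.2]) (pow_nonneg hu.1.le _)
    have a2 : (1 - u) * u ^ 9 ≤ 1 :=
      mul_le_one₀ (by linarith [hu.1]) (pow_nonneg hu.1.le _) (pow_le_one₀ hu.1.le hu.2)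
    have a3 : vW (η * u) ≤ vW η := Real.exp_le_exp.2 (by
      have := mul_le_of_le_one_right (sq_nonneg η) (pow_le_one₀ (n := 2) hu.1.le hu.2)
      rw [mul_pow]
      linarith)
    rw [← mul_sub, Real.norm_eq_abs, abs_mul, abs_of_nonneg a1]
    exact (mul_le_of_le_one_left (abs_nonneg _) a2).trans
      ((hd _).trans (mul_le_mul_of_nonneg_left a3 hd0))
  have h2 : |cl (hs s η) - cl (hs s' η)| ≤ |η| * (d * vW η) := by
    refine (abs_max_sub_max_le_abs _ _ _).trans ?_
    unfold hs
    rw [sub_sub_sub_cancel_left, ← mul_sub, abs_mul, abs_sub_comm]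
    exact mul_le_mul_of_nonneg_left h1 (abs_nonneg _)
  have a := v_cl (hs s η)
  have b := v_cl (hs s' η)
  unfold vF
  generalize cl (hs s η) = x at *
  generalize cl (hs s' η) = z at *
  have hx : 0 < x := by linarith
  have hz : 0 < z := by linarith
  rw [show 1 / (2 * x) - 1 / (2 * z) = (z - x) / (2 * x * z) by field_simp, abs_div, abs_sub_comm,
    abs_of_pos (by positivity : 0 < 2 * x * z), div_le_iff₀ (by positivity)]
  have h3 : 1 ≤ 50 * (2 * x * z) := by nlinarith
  nlinarith [mul_le_mul_of_nonneg_left h3 ((abs_nonneg _).trans h2)]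

theorem v_int {f : ℝ → ℝ} {d : ℝ} (h : ∀ η, |f η| ≤ 50 * |η| * vW η * d) (y : ℝ) :
    |∫ η in (0 : ℝ)..y, f η| ≤ d / 2 * vW y := by
  have hd : 0 ≤ d := nonneg_of_mul_nonneg_right ((abs_nonneg _).trans (h 1))
    (by have := vW_pos 1; positivity)
  have key : ∀ {f : ℝ → ℝ}, (∀ η, |f η| ≤ 50 * |η| * vW η * d) → ∀ y : ℝ, 0 ≤ y →
      |∫ η in (0 : ℝ)..y, f η| ≤ d / 2 * vW y := by
    intro f h y hy
    have hc : Continuous fun η => 50 * η * vW η * d := by have := vW_cont; fun_prop
    rw [← Real.norm_eq_abs]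
    refine (intervalIntegral.norm_integral_le_of_norm_le (g := fun η => 50 * η * vW η * d) hy
      (Eventually.of_forall fun η hη => by simpa only [abs_of_pos hη.1, Real.norm_eq_abs] using h η)
      (hc.intervalIntegrable _ _)).trans ?_
    rw [intervalIntegral.integral_eq_sub_of_hasDerivAt (f := fun η => d / 2 * vW η)
      (fun η _ => ?_) (hc.intervalIntegrable _ _)]
    · have := vW_pos 0
      have : 0 ≤ d / 2 * vW 0 := by positivity
      linarith
    · refine ((((hasDerivAt_pow 2 η).const_mul 50).exp).const_mul (d / 2)).congr_deriv ?_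
      simp only [vW]
      push_cast
      ring
  rcases le_total 0 y with hy | hy
  · exact key h y hy
  · have := key (f := fun η => f (-η)) (fun η => by simpa [vW] using h (-η)) (-y) (by linarith)
    rw [intervalIntegral.integral_comp_neg, neg_neg, neg_zero, intervalIntegral.integral_symm,
      abs_neg] at this
    simpa [vW] using this

theorem v_cont (σ : BoundedContinuousFunction ℝ ℝ) : Continuous fun y => vW y * σ y :=
  vW_cont.mul σ.continuous

theorem v_ii (C : ℝ) (σ : BoundedContinuousFunction ℝ ℝ) (a b : ℝ) :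
    IntervalIntegrable (fun η => C - vF (fun y => vW y * σ y) η) MeasureTheory.volume a b :=
  (continuous_const.sub (vF_cont (v_cont σ))).intervalIntegrable _ _

theorem v_lin {a b y : ℝ} : |a + b * y| ≤ (|a| + |b|) * vW y := by
  refine (abs_add_le _ _).trans ?_
  rw [abs_mul, add_mul]
  exact add_le_add (le_mul_of_one_le_right (abs_nonneg _) (vW_ge y).1)
    (mul_le_mul_of_nonneg_left (vW_ge y).2 (abs_nonneg _))

/-- the Picard map -/
def vT (p : ℝ × ℝ) (σ : BoundedContinuousFunction ℝ ℝ) : BoundedContinuousFunction ℝ ℝ :=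
  BoundedContinuousFunction.ofNormedAddCommGroup
    (fun y => (p.1 + ∫ η in (0 : ℝ)..y, (p.2 - vF (fun y => vW y * σ y) η)) / vW y)
    ((continuous_const.add (intervalIntegral.continuous_primitive (v_ii p.2 σ) 0)).div vW_cont
      fun y => (vW_pos y).ne')
    (|p.1| + (|p.2| + 5)) (fun y => by
      rw [Real.norm_eq_abs, abs_div, abs_of_pos (vW_pos y), div_le_iff₀ (vW_pos y), add_mul]
      refine (abs_add_le _ _).trans (add_le_add
        (le_mul_of_one_le_right (abs_nonneg _) (vW_ge y).1) ?_)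
      rw [← Real.norm_eq_abs]
      refine (intervalIntegral.norm_integral_le_of_norm_le_const (C := |p.2| + 5)
        fun η _ => (abs_sub _ _).trans (add_le_add le_rfl (vF_abs _ _))).trans ?_
      rw [sub_zero]
      exact mul_le_mul_of_nonneg_left (vW_ge y).2 (by positivity))

theorem vT_apply (p : ℝ × ℝ) (σ : BoundedContinuousFunction ℝ ℝ) (y : ℝ) : vT p σ y =
    (p.1 + ∫ η in (0 : ℝ)..y, (p.2 - vF (fun y => vW y * σ y) η)) / vW y := rfl

theorem vT_contr (p : ℝ × ℝ) : ContractingWith (1 / 2) (vT p) := by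
  refine ⟨by norm_num, LipschitzWith.of_dist_le_mul fun σ τ => ?_⟩
  refine (BoundedContinuousFunction.dist_le (by positivity)).2 fun y => ?_
  rw [vT_apply, vT_apply, Real.dist_eq, ← sub_div, abs_div, abs_of_pos (vW_pos y),
    div_le_iff₀ (vW_pos y), add_sub_add_left_eq_sub, ← intervalIntegral.integral_sub
      (v_ii _ _ _ _) (v_ii _ _ _ _)]
  refine (v_int (d := dist σ τ) (fun η => ?_) y).trans_eq (by push_cast; ring)
  rw [sub_sub_sub_cancel_left, abs_sub_comm]
  refine vF_sub (v_cont σ) (v_cont τ) (fun y => ?_) η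
  rw [← mul_sub, abs_mul, abs_of_pos (vW_pos y), mul_comm, ← Real.dist_eq]
  exact mul_le_mul_of_nonneg_right (BoundedContinuousFunction.dist_coe_le_dist y) (vW_pos y).le

theorem vT_dist (p q : ℝ × ℝ) (σ : BoundedContinuousFunction ℝ ℝ) :
    dist (vT p σ) (vT q σ) ≤ 2 * dist p q := by
  refine (BoundedContinuousFunction.dist_le (by positivity)).2 fun y => ?_
  rw [vT_apply, vT_apply, Real.dist_eq, ← sub_div, abs_div, abs_of_pos (vW_pos y),
    div_le_iff₀ (vW_pos y), add_sub_add_comm, ← intervalIntegral.integral_sub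
      (v_ii _ _ _ _) (v_ii _ _ _ _)]
  simp only [sub_sub_sub_cancel_right, intervalIntegral.integral_const, sub_zero, smul_eq_mul]
  rw [mul_comm y]
  refine v_lin.trans (mul_le_mul_of_nonneg_right ?_ (vW_pos y).le)
  have h1 : |p.1 - q.1| ≤ dist p q := le_max_left _ _
  have h2 : |p.2 - q.2| ≤ dist p q := le_max_right _ _
  linarith

theorem exists_volt : ∃ S : ℝ × ℝ → ℝ → ℝ, Continuous (fun q : (ℝ × ℝ) × ℝ => S q.1 q.2) ∧
    ∀ p, IsVolt p.1 p.2 (S p) := by
  have hc : Continuous fun p => (vT_contr p).fixedPoint (vT p) := by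
    refine (LipschitzWith.of_dist_le_mul (K := 4) fun p q => ?_).continuous
    refine (((vT_contr p).fixedPoint_lipschitz_in_map (vT_contr q) (vT_dist p q)).trans_eq ?_)
    push_cast
    ring
  refine ⟨fun p y => vW y * (vT_contr p).fixedPoint (vT p) y,
    (vW_cont.comp continuous_snd).mul ((hc.comp continuous_fst).eval continuous_snd),
    fun p => ⟨v_cont _, fun y => ?_⟩⟩
  have h := congrArg (fun σ => σ y) (vT_contr p).fixedPoint_isFixedPt.eq
  simp only [vT_apply] at h
  rw [div_eq_iff (vW_pos y).ne', mul_comm] at h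
  exact h.symm

end Crest.Agent.R213
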