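import Crest.Agent.R213.ODefs
import Crest.Agent.Lib.Brouwer.Basic

/-! # Row 213, Ważewski's principle with two unstable directions

Suppose every `p ∈ box` leaves the tube.  While `Q ≤ r²` the barrier keeps `|d| < r/4`, so the exit is through `Q = r²`:
`τ p = sInf {y ≥ Y | r² ≤ Q p y}` is finite.  It is continuous on `box` (lower semicontinuity from joint continuity and compactness,
upper semicontinuity from the transversality `Q' > 0`, or from `Q p Y > r²`).  The map `p ↦ (a p (τ p), b p (τ p))` is continuous,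
never `0`, and equals `(a p Y, b p Y)` on the boundary of the box: this contradicts `miranda2`. -/

set_option autoImplicit false
open Set Filter Topology
open scoped ContDiff

noncomputable section
namespace Crest.Agent.R213

theorem Waz_clamp {t f : ℝ} (ht : t ≤ 1) (h1 : max (-1) (min 1 (t - f)) = t)
    (h2 : |t| = 1 → 0 < t * f) : f = 0 := by
  rcases lt_trichotomy f 0 with h | h | h
  · have h4 : t = 1 := by
      have h5 : min 1 (t - f) ≤ t := (le_max_right _ _).trans h1.le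
      rcases min_le_iff.1 h5 with h7 | h7 <;> linarith
    rw [h4] at h2
    have := h2 abs_one
    linarith
  · exact h
  · have h4 : t = -1 := by
      rcases max_choice (-1) (min 1 (t - f)) with h5 | h5
      · rw [← h1, h5]
      · have h6 := min_le_right 1 (t - f)
        linarith
    rw [h4] at h2
    have := h2 (by simp)
    linarith

/-- Poincaré–Miranda (`Crest.Agent.Lib.Brouwer.brouwer` for `p ↦ clamp (p - (F p, G p))`, cf. `R202/Flags.lean`) -/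
theorem miranda2 {F G : ℝ × ℝ → ℝ} (hF : ContinuousOn F box) (hG : ContinuousOn G box)
    (h₁ : ∀ p ∈ box, |p.1| = 1 → 0 < p.1 * F p) (h₂ : ∀ p ∈ box, |p.2| = 1 → 0 < p.2 * G p) :
    ∃ p ∈ box, F p = 0 ∧ G p = 0 := by
  obtain ⟨p, hp, hfix⟩ := Crest.Agent.Lib.Brouwer.brouwer (K := box)
    ⟨(0, 0), by simp [box, Prod.le_def]⟩ (isCompact_Icc.prod isCompact_Icc) ((convex_Icc _ _).prod (convex_Icc _ _))
    (fun p => (max (-1) (min 1 (p.1 - F p)), max (-1) (min 1 (p.2 - G p))))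
    ((continuousOn_const.sup (continuousOn_const.inf (continuousOn_fst.sub hF))).prodMk
      (continuousOn_const.sup (continuousOn_const.inf (continuousOn_snd.sub hG))))
    (fun p _ => ⟨⟨le_max_left _ _, max_le (by norm_num) (min_le_left _ _)⟩,
      ⟨le_max_left _ _, max_le (by norm_num) (min_le_left _ _)⟩⟩)
  exact ⟨p, hp, Waz_clamp hp.1.2 (congrArg Prod.fst hfix) (h₁ p hp),
    Waz_clamp hp.2.2 (congrArg Prod.snd hfix) (h₂ p hp)⟩

theorem Waz_right {f : ℝ → ℝ} {x f' : ℝ} (h : HasDerivAt f f' x) (h0 : 0 < f') :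
    ∀ᶠ y in 𝓝[>] x, f x < f y := by
  have h1 := (hasDerivAt_iff_tendsto_slope.1 h).mono_left
    (nhdsWithin_mono x (show Ioi x ⊆ {x}ᶜ from fun y hy => (ne_of_gt hy)))
  filter_upwards [h1.eventually (lt_mem_nhds h0), self_mem_nhdsWithin] with y hy hxy
  rw [slope_def_field, lt_div_iff₀ (sub_pos.2 hxy), zero_mul] at hy
  linarith

theorem Waz_left {f : ℝ → ℝ} {x f' : ℝ} (h : HasDerivAt f f' x) (h0 : f' < 0) :
    ∀ᶠ y in 𝓝[<] x, f x < f y := by
  have h1 := (hasDerivAt_iff_tendsto_slope.1 h).mono_left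
    (nhdsWithin_mono x (show Iio x ⊆ {x}ᶜ from fun y hy => (ne_of_lt hy)))
  filter_upwards [h1.eventually (gt_mem_nhds h0), self_mem_nhdsWithin] with y hy hxy
  rw [slope_def_field, div_lt_iff_of_neg (sub_neg.2 hxy), zero_mul] at hy
  linarith

/-- the barrier -/
theorem Waz_bar {Y y c : ℝ} {δ : ℝ → ℝ} (hc : ContinuousOn δ (Ici Y)) (h0 : δ Y < c) (hy : Y ≤ y)
    (h : ∀ z ∈ Icc Y y, δ z = c → ∃ d' < (0 : ℝ), HasDerivAt δ d' z) : δ y < c := by
  by_contra hn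
  have hK : IsCompact (Icc Y y ∩ δ ⁻¹' Ici c) :=
    isCompact_Icc.of_isClosed_subset
      ((hc.mono Icc_subset_Ici_self).preimage_isClosed_of_isClosed isClosed_Icc isClosed_Ici)
      inter_subset_left
  obtain ⟨z, ⟨hz, hzc⟩, hmin⟩ := hK.exists_isLeast ⟨y, ⟨hy, le_rfl⟩, not_lt.1 hn⟩
  have hYz : Y < z := lt_of_le_of_ne hz.1 fun e => (not_le.2 h0) (by rw [e]; exact hzc)
  have hlt : ∀ᶠ w in 𝓝[<] z, δ w < c := by
    filter_upwards [Ioo_mem_nhdsLT hYz] with w hw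
    by_contra hw'
    exact (not_le.2 hw.2) (hmin ⟨⟨hw.1.le, hw.2.le.trans hz.2⟩, not_lt.1 hw'⟩)
  have hca : ContinuousAt δ z := hc.continuousAt (Ici_mem_nhds hYz)
  have hle : δ z ≤ c :=
    le_of_tendsto (hca.tendsto.mono_left nhdsWithin_le_nhds) (hlt.mono fun w hw => hw.le)
  have he : δ z = c := le_antisymm hle hzc
  obtain ⟨d', hd', hd⟩ := h z hz he
  obtain ⟨w, h1, h2⟩ := ((Waz_left hd hd').and hlt).exists
  linarith

theorem wazewski {Y r : ℝ} (hr : 0 < r) {a b d : ℝ × ℝ → ℝ → ℝ}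
    (ha : ContinuousOn (fun q : (ℝ × ℝ) × ℝ => a q.1 q.2) (box ×ˢ Ici Y))
    (hb : ContinuousOn (fun q : (ℝ × ℝ) × ℝ => b q.1 q.2) (box ×ˢ Ici Y))
    (hd : ContinuousOn (fun q : (ℝ × ℝ) × ℝ => d q.1 q.2) (box ×ˢ Ici Y))
    (h₀ : ∀ p ∈ box, |d p Y| < r / 4)
    (h₁ : ∀ p ∈ box, |p.1| = 1 → 0 < p.1 * a p Y ∧ r ^ 2 ≤ QQ (a p Y) (b p Y))
    (h₂ : ∀ p ∈ box, |p.2| = 1 → 0 < p.2 * b p Y ∧ r ^ 2 ≤ QQ (a p Y) (b p Y))
    (hQ : ∀ p ∈ box, ∀ y ≥ Y, QQ (a p y) (b p y) = r ^ 2 → |d p y| ≤ r / 4 →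
      ∃ Q' > (0 : ℝ), HasDerivAt (fun y => QQ (a p y) (b p y)) Q' y)
    (hp : ∀ p ∈ box, ∀ y ≥ Y, QQ (a p y) (b p y) ≤ r ^ 2 → d p y = r / 4 →
      ∃ d' < (0 : ℝ), HasDerivAt (d p) d' y)
    (hm : ∀ p ∈ box, ∀ y ≥ Y, QQ (a p y) (b p y) ≤ r ^ 2 → d p y = -(r / 4) →
      ∃ d' > (0 : ℝ), HasDerivAt (d p) d' y) :
    ∃ p ∈ box, ∀ y ≥ Y, QQ (a p y) (b p y) ≤ r ^ 2 ∧ |d p y| ≤ r / 4 := by
  by_contra hcon
  have hQc : ContinuousOn (fun q : (ℝ × ℝ) × ℝ => QQ (a q.1 q.2) (b q.1 q.2)) (box ×ˢ Ici Y) :=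
    ((ha.pow 2).sub (ha.mul hb)).add (hb.pow 2)
  have hsl : ∀ {f : (ℝ × ℝ) × ℝ → ℝ}, ContinuousOn f (box ×ˢ Ici Y) → ∀ p ∈ box,
      ContinuousOn (fun y => f (p, y)) (Ici Y) := fun hf p hp =>
    hf.comp (by fun_prop) fun y hy => ⟨hp, hy⟩
  have hbar : ∀ p ∈ box, ∀ y ≥ Y, (∀ z ∈ Icc Y y, QQ (a p z) (b p z) ≤ r ^ 2) →
      |d p y| < r / 4 := by
    intro p hpb y hy h
    have hdc : ContinuousOn (d p) (Ici Y) := hsl hd p hpb
    obtain ⟨h3, h4⟩ := abs_lt.1 (h₀ p hpb)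
    have h5 := Waz_bar (δ := fun y => -d p y) (c := r / 4) hdc.neg (by linarith) hy
      fun z hz he => by
        obtain ⟨d', h6, h7⟩ := hm p hpb z hz.1 (h z hz) (by linarith)
        exact ⟨-d', by linarith, h7.neg⟩
    exact abs_lt.2 ⟨by linarith, Waz_bar hdc h4 hy fun z hz he => hp p hpb z hz.1 (h z hz) he⟩
  set S : ℝ × ℝ → Set ℝ := fun p => Ici Y ∩ (fun y => QQ (a p y) (b p y)) ⁻¹' Ici (r ^ 2) with hS
  have hτ : ∀ p ∈ box, IsLeast (S p) (sInf (S p)) := by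
    intro p hpb
    have hne : (S p).Nonempty := by
      by_contra hn
      have h3 : ∀ y ≥ Y, QQ (a p y) (b p y) ≤ r ^ 2 := fun y hy =>
        le_of_not_ge fun h => hn ⟨y, hy, h⟩
      exact hcon ⟨p, hpb, fun y hy => ⟨h3 y hy, (hbar p hpb y hy fun z hz => h3 z hz.1).le⟩⟩
    have hbd : BddBelow (S p) := ⟨Y, fun y hy => hy.1⟩
    exact ⟨IsClosed.csInf_mem
      ((hsl hQc p hpb).preimage_isClosed_of_isClosed isClosed_Ici isClosed_Ici) hne hbd,
      fun y hy => csInf_le hbd hy⟩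
  have hlt : ∀ p ∈ box, ∀ z, Y ≤ z → z < sInf (S p) → QQ (a p z) (b p z) < r ^ 2 :=
    fun p hpb z hz h => lt_of_not_ge fun h' => (not_le.2 h) ((hτ p hpb).2 ⟨hz, h'⟩)
  have hcont : ContinuousOn (fun p => sInf (S p)) box := by
    intro p hpb
    refine tendsto_order.2 ⟨fun c hc => ?_, fun c hc => ?_⟩
    · have h3 : ∀ᶠ p' in 𝓝 p, ∀ z ∈ Icc Y c,
          (p', z) ∈ box ×ˢ Ici Y → QQ (a p' z) (b p' z) < r ^ 2 :=
        isCompact_Icc.eventually_forall_of_forall_eventually fun z hz =>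
          eventually_nhdsWithin_iff.1 ((hQc (p, z) ⟨hpb, hz.1⟩).eventually
            (gt_mem_nhds (hlt p hpb z hz.1 (hz.2.trans_lt hc))))
      filter_upwards [mem_nhdsWithin_of_mem_nhds h3, self_mem_nhdsWithin] with p' h4 hp'
      have h5 := (hτ p' hp').1
      exact lt_of_not_ge fun h => (not_le.2 (h4 _ ⟨h5.1, h⟩ ⟨hp', h5.1⟩)) h5.2
    · have h5 := (hτ p hpb).1
      obtain ⟨y, hy, hyc, hq⟩ : ∃ y, Y ≤ y ∧ y < c ∧ r ^ 2 < QQ (a p y) (b p y) := by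
        rcases (show r ^ 2 ≤ QQ (a p (sInf (S p))) (b p (sInf (S p))) from h5.2).eq_or_lt
          with he | hl
        · obtain ⟨Q', h6, h7⟩ := hQ p hpb _ h5.1 he.symm (hbar p hpb _ h5.1 fun z hz => by
            rcases hz.2.eq_or_lt with h8 | h8
            · rw [h8]; exact he.ge
            · exact (hlt p hpb z hz.1 h8).le).le
          obtain ⟨y, h8, h9⟩ := ((Waz_right h7 h6).and (Ioo_mem_nhdsGT hc)).exists
          exact ⟨y, h5.1.trans h9.1.le, h9.2, he.trans_lt h8⟩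
        · exact ⟨_, h5.1, hc, hl⟩
      have h6 : ContinuousOn (fun p' => QQ (a p' y) (b p' y)) box :=
        hQc.comp (f := fun p' => (p', y)) (by fun_prop) fun p' hp' => ⟨hp', hy⟩
      filter_upwards [(h6 p hpb).eventually (lt_mem_nhds hq), self_mem_nhdsWithin] with p' h7 hp'
      exact ((hτ p' hp').2 ⟨hy, h7.le⟩).trans_lt hyc
  have hY : ∀ p ∈ box, r ^ 2 ≤ QQ (a p Y) (b p Y) → sInf (S p) = Y := fun p hpb h =>
    le_antisymm ((hτ p hpb).2 ⟨self_mem_Ici, h⟩) (hτ p hpb).1.1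
  have hmap : MapsTo (fun p => (p, sInf (S p))) box (box ×ˢ Ici Y) :=
    fun p hpb => ⟨hpb, (hτ p hpb).1.1⟩
  obtain ⟨p, hpb, h3, h4⟩ := miranda2 (F := fun p => a p (sInf (S p)))
    (G := fun p => b p (sInf (S p))) (ha.comp (continuousOn_id.prodMk hcont) hmap)
    (hb.comp (continuousOn_id.prodMk hcont) hmap)
    (fun p hpb h => by rw [hY p hpb (h₁ p hpb h).2]; exact (h₁ p hpb h).1)
    (fun p hpb h => by rw [hY p hpb (h₂ p hpb h).2]; exact (h₂ p hpb h).1)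
  have h5 : r ^ 2 ≤ QQ (a p (sInf (S p))) (b p (sInf (S p))) := (hτ p hpb).1.2
  rw [h3, h4, QQ] at h5
  nlinarith

end Crest.Agent.R213
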