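import Crest.Agent.R213.CertSound
import Crest.Agent.R213.CertChk1
import Crest.Agent.R213.CertChk2
import Crest.Agent.R213.CertChk3
import Crest.Agent.R213.CertChk4
import Crest.Agent.R213.CertChk5
import Crest.Agent.R213.Volt
import Crest.Agent.R213.Far
import Crest.Agent.R213.Waz
import Crest.Agent.R213.ShrOf

/-! # Row 213, existence of the shrinker -/

set_option autoImplicit false
open Set Filter Topology
open scoped ContDiff

noncomputable section
namespace Crest.Agent.R213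

/-- the parameters `(s₀, C)` -/
def parP (p : ℝ × ℝ) : ℝ × ℝ := (110 * (vP p cP0 (-1)).1, cC0 + p.1 * cC1 + p.2 * cC2)
def delP (p : ℝ × ℝ) : ℝ := p.1 * cd1 + p.2 * cd2

lemma continuous_parP : Continuous parP := by
  unfold parP vP vv
  fun_prop

lemma continuous_delP : Continuous delP := by
  unfold delP
  fun_prop

theorem near {p : ℝ × ℝ} (hp : p ∈ box) {s : ℝ → ℝ} (h : IsVolt (parP p).1 (parP p).2 s) :
    (∀ y ∈ Icc (0 : ℝ) 125, 1 / 8 ≤ hs s y) ∧
    |g1 cH (delP p) s 125 - ceps * p.1| ≤ ceps / 50 ∧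
    |g2 cH (delP p) s 125 - ceps * p.2| ≤ ceps / 50 ∧
    |dd cH (delP p) s 125| ≤ ceps / 10 := by
  have s0 := St.start chkMaj hp h chkStart.1 chkP0
  have s1 := s0.step chkMaj hp h chkM0 chkP1
  have s2 := s1.step chkMaj hp h chkM1 chkP2
  have s3 := s2.step chkMaj hp h chkM2 chkP3
  have s4 := s3.step chkMaj hp h chkM3 chkP4
  have s5 := s4.step chkMaj hp h chkM4 chkP5
  have s6 := s5.step chkMaj hp h chkM5 chkP6
  have s7 := s6.step chkMaj hp h chkM6 chkP7
  have s8 := s7.step chkMaj hp h chkM7 chkP8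
  have s9 := s8.step chkMaj hp h chkM8 chkP9
  have s10 := s9.step chkMaj hp h chkM9 chkP10
  have s11 := s10.step chkMaj hp h chkM10 chkP11
  exact end_sound chkEnd hp h.1 s11

lemma parP_pos {p : ℝ × ℝ} (hp : p ∈ box) : 0 < (parP p).1 := by
  have h := (Rat.cast_lt (K := ℝ)).2 chkStart.2
  push_cast at h
  have h1 := abs_lin hp 0 ((vals cP0.r cP0.g1 (-1)).1 : ℝ) ((vals cP0.r cP0.g2 (-1)).1 : ℝ)
  rw [abs_zero, zero_add, zero_add] at h1
  have h2 := (abs_le.1 h1).1
  simp only [parP, vP, vv]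
  linarith

lemma parP_mem {p : ℝ × ℝ} (hp : p ∈ box) : (parP p).2 ∈ Icc (0.7 : ℝ) 0.701 := by
  have h := (Rat.cast_le (K := ℝ)).2 chkC.1
  have h' := (Rat.cast_le (K := ℝ)).2 chkC.2
  push_cast at h h'
  have h1 := abs_lin hp 0 (cC1 : ℝ) (cC2 : ℝ)
  rw [abs_zero, zero_add, zero_add] at h1
  have h2 := abs_le.1 h1
  simp only [parP]
  constructor <;> linarith [h2.1, h2.2]

lemma face_aux {ε t a : ℝ} (hε : 0 < ε) (ht : |t| = 1) (h : |a - ε * t| ≤ ε / 50) :
    0 < t * a ∧ (4 / 5 * ε) ^ 2 ≤ 3 / 4 * a ^ 2 := by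
  have h' := abs_le.1 h
  rcases abs_eq (zero_le_one) |>.1 ht with rfl | rfl
  · exact ⟨by linarith [h'.1], by nlinarith [h'.1]⟩
  · exact ⟨by linarith [h'.2], by nlinarith [h'.2]⟩

theorem exists_shr : ∃ γ, Shr γ := by
  obtain ⟨S, hS, hV⟩ := exists_volt
  have hε : (0 : ℝ) < ceps := by norm_num [ceps]
  have hε' : (4 / 5 * ceps : ℝ) ≤ 1 / 10000 := by norm_num [ceps]
  have hc : Continuous fun q : (ℝ × ℝ) × ℝ => S (parP q.1) q.2 :=
    hS.comp ((continuous_parP.comp continuous_fst).prodMk continuous_snd)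
  obtain ⟨c1, c2, c3⟩ := continuousOn_g (S := fun p => S (parP p)) hc continuous_delP cH
  have sub : box ×ˢ Ici (125 : ℝ) ⊆ univ ×ˢ Ioi 0 := fun q hq =>
    ⟨trivial, lt_of_lt_of_le (by norm_num) (show (125 : ℝ) ≤ q.2 from hq.2)⟩
  have hfar : ∀ p ∈ box, (∀ t ∈ Icc (0 : ℝ) 1, pe cH t + delP p ∈ Icc (0.712 : ℝ) 0.7142) ∧
      ∀ t ∈ Icc (0 : ℝ) 1, |Wf cH (delP p) (parP p).2 t| ≤ (4 / 5 * ceps : ℝ) / 40 := fun p hp =>
    ⟨fun t ht => (far_sound chkFar hp ht).1, fun t ht => by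
      have := (far_sound chkFar hp ht).2
      push_cast at this
      exact this⟩
  obtain ⟨p, hp, ht⟩ := wazewski (Y := 125) (r := 4 / 5 * ceps) (by positivity)
    (a := fun p => g1 cH (delP p) (S (parP p))) (b := fun p => g2 cH (delP p) (S (parP p)))
    (d := fun p => dd cH (delP p) (S (parP p))) (c1.mono sub) (c2.mono sub) (c3.mono sub)
    (fun p hp => by
      have := (near hp (hV (parP p))).2.2.2
      linarith)
    (fun p hp h1 => by
      have := face_aux hε h1 (near hp (hV (parP p))).2.1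
      refine ⟨this.1, this.2.trans ?_⟩
      unfold QQ
      nlinarith [sq_nonneg (g1 cH (delP p) (S (parP p)) 125 - 2 * g2 cH (delP p) (S (parP p)) 125)])
    (fun p hp h1 => by
      have := face_aux hε h1 (near hp (hV (parP p))).2.2.1
      refine ⟨this.1, this.2.trans ?_⟩
      unfold QQ
      nlinarith [sq_nonneg (2 * g1 cH (delP p) (S (parP p)) 125 - g2 cH (delP p) (S (parP p)) 125)])
    (fun p hp y hy => (far_tube (hV (parP p)) (by positivity) hε' (hfar p hp).1 (hfar p hp).2 hy).1)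
    (fun p hp y hy => (far_tube (hV (parP p)) (by positivity) hε' (hfar p hp).1 (hfar p hp).2 hy).2.1)
    (fun p hp y hy => (far_tube (hV (parP p)) (by positivity) hε' (hfar p hp).1 (hfar p hp).2 hy).2.2)
  obtain ⟨K, hK⟩ := tube_bounds (by positivity) hε' (hfar p hp).1 ht
  exact shr_of_bounded (hV (parP p)) (parP_pos hp) (parP_mem hp) (near hp (hV (parP p))).1 hK

end Crest.Agent.R213
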