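import Mathlib

/-! # Row 213, `Sm`: the algebra of smooth functions on `[0,1]`, with derivation, integral and jets -/

set_option autoImplicit false
open Set
open scoped ContDiff

noncomputable section
namespace Crest.Agent.R213

/-- the unit interval -/
abbrev I : Set ℝ := Set.Icc 0 1

lemma uI : UniqueDiffOn ℝ I := uniqueDiffOn_Icc zero_lt_one

/-- extension of a continuous function on `[0,1]` to `ℝ` (constant outside) -/
def ext0 (f : C(I, ℝ)) (x : ℝ) : ℝ := f (Set.projIcc 0 1 zero_le_one x)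

lemma ext0_of_mem (f : C(I, ℝ)) {x : ℝ} (hx : x ∈ I) : ext0 f x = f ⟨x, hx⟩ := by
  simp [ext0, Set.projIcc_of_mem _ hx]

lemma continuous_ext0 (f : C(I, ℝ)) : Continuous (ext0 f) :=
  f.continuous.comp continuous_projIcc

/-- smooth functions on `[0,1]` as a subalgebra of the continuous ones -/
def SmA : Subalgebra ℝ C(I, ℝ) where
  carrier := {f | ContDiffOn ℝ ∞ (ext0 f) I}
  mul_mem' := by
    intro f g hf hg
    exact (ContDiffOn.mul hf hg : ContDiffOn ℝ ∞ (fun x => ext0 f x * ext0 g x) I)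
  add_mem' := by
    intro f g hf hg
    exact (ContDiffOn.add hf hg : ContDiffOn ℝ ∞ (fun x => ext0 f x + ext0 g x) I)
  algebraMap_mem' := by
    intro c
    exact (contDiffOn_const : ContDiffOn ℝ ∞ (fun _ => c) I)

/-- the algebra of smooth functions on `[0,1]` -/
def Sm : Type := ↥SmA

instance : CommRing Sm := inferInstanceAs (CommRing ↥SmA)
instance : Algebra ℝ Sm := inferInstanceAs (Algebra ℝ ↥SmA)

/-- the underlying continuous function -/
def val : Sm →ₐ[ℝ] C(I, ℝ) := SmA.val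

lemma val_injective : Function.Injective val := Subtype.val_injective

/-- evaluation (total in `x`; only `x ∈ I` is meaningful) -/
def ev (f : Sm) (x : ℝ) : ℝ := ext0 (val f) x

/-- evaluation as an algebra homomorphism -/
def evH (x : ℝ) : Sm →ₐ[ℝ] ℝ :=
  (ContinuousMap.evalAlgHom ℝ ℝ (Set.projIcc 0 1 zero_le_one x)).comp val

lemma evH_apply (x : ℝ) (f : Sm) : evH x f = ev f x := rfl

lemma ev_of_mem (f : Sm) {x : ℝ} (hx : x ∈ I) : ev f x = val f ⟨x, hx⟩ := ext0_of_mem _ hx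
lemma val_apply (f : Sm) (x : I) : val f x = ev f x := (ev_of_mem f x.2).symm
lemma continuous_ev (f : Sm) : Continuous (ev f) := continuous_ext0 _
lemma contDiffOn_ev (f : Sm) : ContDiffOn ℝ ∞ (ev f) I := f.2

@[simp] lemma ev_add (f g : Sm) (x : ℝ) : ev (f + g) x = ev f x + ev g x := map_add (evH x) f g
@[simp] lemma ev_sub (f g : Sm) (x : ℝ) : ev (f - g) x = ev f x - ev g x := map_sub (evH x) f g
@[simp] lemma ev_mul (f g : Sm) (x : ℝ) : ev (f * g) x = ev f x * ev g x := map_mul (evH x) f g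
@[simp] lemma ev_neg (f : Sm) (x : ℝ) : ev (-f) x = -ev f x := map_neg (evH x) f
@[simp] lemma ev_pow (f : Sm) (n : ℕ) (x : ℝ) : ev (f ^ n) x = ev f x ^ n := map_pow (evH x) f n
@[simp] lemma ev_smul (c : ℝ) (f : Sm) (x : ℝ) : ev (c • f) x = c * ev f x := map_smul (evH x) c f
@[simp] lemma ev_one (x : ℝ) : ev 1 x = 1 := map_one (evH x)
@[simp] lemma ev_zero (x : ℝ) : ev 0 x = 0 := map_zero (evH x)
@[simp] lemma ev_natCast (n : ℕ) (x : ℝ) : ev (n : Sm) x = n := map_natCast (evH x) n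
@[simp] lemma ev_ofNat (n : ℕ) [n.AtLeastTwo] (x : ℝ) :
    ev (ofNat(n) : Sm) x = (ofNat(n) : ℝ) := map_ofNat (evH x) n
@[simp] lemma ev_algebraMap (c x : ℝ) : ev (algebraMap ℝ Sm c) x = c := (evH x).commutes c
lemma ev_sum {ι : Type*} (s : Finset ι) (f : ι → Sm) (x : ℝ) :
    ev (∑ i ∈ s, f i) x = ∑ i ∈ s, ev (f i) x := map_sum (evH x) f s

theorem Sm.ext' {f g : Sm} (h : ∀ x ∈ I, ev f x = ev g x) : f = g := by
  apply val_injective
  ext x
  rw [val_apply, val_apply, h x x.2]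

/-- the element of `Sm` given by a function smooth on `[0,1]` -/
def mk (f : ℝ → ℝ) (hf : ContDiffOn ℝ ∞ f I) : Sm :=
  ⟨⟨fun x => f x, hf.continuousOn.domRestrict⟩, by
    refine hf.congr ?_
    intro x hx
    rw [ext0_of_mem _ hx]; rfl⟩

lemma ev_mk (f : ℝ → ℝ) (hf : ContDiffOn ℝ ∞ f I) {x : ℝ} (hx : x ∈ I) : ev (mk f hf) x = f x := by
  rw [ev_of_mem _ hx]; rfl

open Classical in
/-- total version of `mk` (junk value `0`) -/
def mk0 (f : ℝ → ℝ) : Sm := if h : ContDiffOn ℝ ∞ f I then mk f h else 0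

lemma ev_mk0 {f : ℝ → ℝ} (hf : ContDiffOn ℝ ∞ f I) {x : ℝ} (hx : x ∈ I) : ev (mk0 f) x = f x := by
  simp only [mk0, dif_pos hf, ev_mk f hf hx]

lemma contDiffOn_derivWithin_ev (f : Sm) : ContDiffOn ℝ ∞ (derivWithin (ev f) I) I :=
  ((contDiffOn_infty_iff_derivWithin uI).1 (contDiffOn_ev f)).2

lemma diffWithin_ev (f : Sm) {x : ℝ} (hx : x ∈ I) : DifferentiableWithinAt ℝ (ev f) I x :=
  (contDiffOn_ev f).differentiableOn (by simp) x hx

/-- the derivative -/
def D : Module.End ℝ Sm where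
  toFun f := mk (derivWithin (ev f) I) (contDiffOn_derivWithin_ev f)
  map_add' f g := by
    apply Sm.ext'
    intro x hx
    rw [ev_add, ev_mk _ _ hx, ev_mk _ _ hx, ev_mk _ _ hx]
    have : ev (f + g) = fun y => ev f y + ev g y := funext (ev_add f g)
    rw [this]
    exact derivWithin_fun_add (diffWithin_ev f hx) (diffWithin_ev g hx)
  map_smul' c f := by
    apply Sm.ext'
    intro x hx
    rw [RingHom.id_apply, ev_smul, ev_mk _ _ hx, ev_mk _ _ hx]
    have : ev (c • f) = fun y => c * ev f y := funext (ev_smul c f)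
    rw [this]
    exact derivWithin_const_mul c (diffWithin_ev f hx)

lemma ev_D (f : Sm) {x : ℝ} (hx : x ∈ I) : ev (D f) x = derivWithin (ev f) I x :=
  ev_mk _ (contDiffOn_derivWithin_ev f) hx

lemma hasDerivWithinAt_ev (f : Sm) {x : ℝ} (hx : x ∈ I) :
    HasDerivWithinAt (ev f) (ev (D f) x) I x := by
  rw [ev_D f hx]; exact (diffWithin_ev f hx).hasDerivWithinAt

lemma hasDerivAt_ev (f : Sm) {x : ℝ} (hx : x ∈ Ioo (0 : ℝ) 1) :
    HasDerivAt (ev f) (ev (D f) x) x :=
  (hasDerivWithinAt_ev f (Ioo_subset_Icc_self hx)).hasDerivAt (Icc_mem_nhds hx.1 hx.2)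

/-- how to compute `D f` pointwise -/
lemma ev_D_of {f : Sm} {g : ℝ → ℝ} {g' x : ℝ} (hx : x ∈ I) (hfg : ∀ y ∈ I, ev f y = g y)
    (hg : HasDerivWithinAt g g' I x) : ev (D f) x = g' := by
  rw [ev_D f hx]
  exact (hg.congr hfg (hfg x hx)).derivWithin (uI x hx)

lemma D_eq_of {f g : Sm} (h : ∀ x ∈ I, HasDerivWithinAt (ev f) (ev g x) I x) : D f = g :=
  Sm.ext' fun x hx => ev_D_of hx (fun _ _ => rfl) (h x hx)

@[simp] lemma D_mul (f g : Sm) : D (f * g) = D f * g + f * D g := by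
  apply Sm.ext'
  intro x hx
  rw [ev_D_of hx (g := fun y => ev f y * ev g y) (fun y _ => ev_mul f g y)
    ((hasDerivWithinAt_ev f hx).mul (hasDerivWithinAt_ev g hx))]
  simp

@[simp] lemma D_one : D (1 : Sm) = 0 := by
  have h := D_mul 1 1
  simp only [mul_one, one_mul] at h
  exact left_eq_add.mp h

@[simp] lemma D_algebraMap (c : ℝ) : D (algebraMap ℝ Sm c) = 0 := by
  rw [Algebra.algebraMap_eq_smul_one, map_smul, D_one, smul_zero]

@[simp] lemma D_natCast (n : ℕ) : D (n : Sm) = 0 := by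
  rw [← map_natCast (algebraMap ℝ Sm) n, D_algebraMap]

@[simp] lemma D_ofNat (n : ℕ) [n.AtLeastTwo] : D (ofNat(n) : Sm) = 0 := D_natCast n

lemma D_pow_succ (f : Sm) (n : ℕ) : D (f ^ (n + 1)) = ((n : Sm) + 1) * f ^ n * D f := by
  induction n with
  | zero => simp
  | succ n ih => rw [pow_succ, D_mul, ih]; push_cast; ring

lemma D_pow (f : Sm) (n : ℕ) : D (f ^ n) = (n : Sm) * f ^ (n - 1) * D f := by
  cases n with
  | zero => simp
  | succ n => rw [D_pow_succ]; push_cast; simp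

@[simp] lemma D_sq (f : Sm) : D (f ^ 2) = 2 * f * D f := by
  rw [D_pow]; simp

lemma Dpow_succ (j : ℕ) (f : Sm) : (D ^ (j + 1)) f = D ((D ^ j) f) := by
  rw [pow_succ']; rfl

lemma Dpow_succ' (j : ℕ) (f : Sm) : (D ^ (j + 1)) f = (D ^ j) (D f) := by
  rw [pow_succ]; rfl

lemma Dpow_add (i j : ℕ) (f : Sm) : (D ^ (i + j)) f = (D ^ i) ((D ^ j) f) := by
  rw [pow_add]; rfl

@[simp] lemma Dpow_zero (f : Sm) : (D ^ 0) f = f := rfl
@[simp] lemma Dpow_one (f : Sm) : (D ^ 1) f = D f := by rw [pow_one]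

/-- Leibniz formula -/
lemma Dpow_mul (k : ℕ) (f g : Sm) : (D ^ k) (f * g) =
    ∑ i ∈ Finset.range (k + 1), (k.choose i : ℝ) • ((D ^ i) f * (D ^ (k - i)) g) := by
  induction k with
  | zero => simp
  | succ k ih =>
    rw [Dpow_succ, ih, map_sum]
    have h1 : ∀ i ∈ Finset.range (k + 1), D ((k.choose i : ℝ) • ((D ^ i) f * (D ^ (k - i)) g)) =
        (k.choose i : ℝ) • ((D ^ (i + 1)) f * (D ^ (k - i)) g) +
        (k.choose i : ℝ) • ((D ^ i) f * (D ^ (k + 1 - i)) g) := by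
      intro i hi
      have : k + 1 - i = (k - i) + 1 := by have := Finset.mem_range.1 hi; omega
      rw [map_smul, D_mul, this, Dpow_succ, Dpow_succ, smul_add]
    rw [Finset.sum_congr rfl h1, Finset.sum_add_distrib,
      Finset.sum_range_succ' (fun i => ((k + 1).choose i : ℝ) • ((D ^ i) f * (D ^ (k + 1 - i)) g))]
    have h2 : ∑ i ∈ Finset.range (k + 1), (k.choose i : ℝ) • ((D ^ i) f * (D ^ (k + 1 - i)) g) =
        ∑ i ∈ Finset.range (k + 1), (k.choose (i + 1) : ℝ) • ((D ^ (i + 1)) f * (D ^ (k - i)) g) +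
          ((k + 1).choose 0 : ℝ) • ((D ^ 0) f * (D ^ (k + 1 - 0)) g) := by
      rw [Finset.sum_range_succ' (fun i => (k.choose i : ℝ) • ((D ^ i) f * (D ^ (k + 1 - i)) g)),
        Finset.sum_range_succ (fun i => (k.choose (i + 1) : ℝ) • ((D ^ (i + 1)) f * (D ^ (k - i)) g))]
      simp
    rw [h2, ← add_assoc, ← Finset.sum_add_distrib]
    congr 1
    refine Finset.sum_congr rfl fun i _ => ?_
    rw [← add_smul, Nat.choose_succ_succ']
    push_cast
    simp

/-- the coordinate function -/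
def X : Sm := mk (fun x => x) contDiffOn_id

@[simp] lemma ev_X {x : ℝ} (hx : x ∈ I) : ev X x = x := ev_mk _ _ hx

@[simp] lemma D_X : D X = 1 :=
  D_eq_of fun x hx => by
    simpa using (hasDerivWithinAt_id x I).congr (fun y hy => ev_X hy) (ev_X hx)

/-- the integral over `[0,1]` -/
def Ii : Sm →ₗ[ℝ] ℝ where
  toFun f := ∫ x in (0 : ℝ)..1, ev f x
  map_add' f g := by
    simp only [ev_add]
    exact intervalIntegral.integral_add ((continuous_ev f).intervalIntegrable _ _)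
      ((continuous_ev g).intervalIntegrable _ _)
  map_smul' c f := by simp

lemma Ii_def (f : Sm) : Ii f = ∫ x in (0 : ℝ)..1, ev f x := rfl

lemma Ii_mono {f g : Sm} (h : ∀ x ∈ I, ev f x ≤ ev g x) : Ii f ≤ Ii g :=
  intervalIntegral.integral_mono_on zero_le_one ((continuous_ev f).intervalIntegrable _ _)
    ((continuous_ev g).intervalIntegrable _ _) h

lemma Ii_nonneg {f : Sm} (h : ∀ x ∈ I, 0 ≤ ev f x) : 0 ≤ Ii f := by
  simpa using Ii_mono (f := 0) (g := f) (by simpa using h)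

@[simp] lemma Ii_one : Ii 1 = 1 := by simp [Ii_def]

lemma integral_ev_D (f : Sm) {a b : ℝ} (ha : a ∈ I) (hb : b ∈ I) :
    ∫ x in a..b, ev (D f) x = ev f b - ev f a := by
  have hsub : uIcc a b ⊆ I := uIcc_subset_Icc ha hb
  refine intervalIntegral.integral_eq_sub_of_hasDeriv_right (continuous_ev f).continuousOn ?_
    ((continuous_ev _).intervalIntegrable _ _)
  intro x hx
  have hx' : x ∈ Ioo (0 : ℝ) 1 :=
    ⟨lt_of_le_of_lt (le_min ha.1 hb.1) hx.1, lt_of_lt_of_le hx.2 (max_le ha.2 hb.2)⟩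
  exact (hasDerivAt_ev f hx').hasDerivWithinAt

lemma Ii_D (f : Sm) : Ii (D f) = ev f 1 - ev f 0 :=
  integral_ev_D f (by simp) (by simp)

/-- the `j`-th derivative as an element of the Banach algebra `C([0,1])` -/
def jet (j : ℕ) : Sm →ₗ[ℝ] C(I, ℝ) := val.toLinearMap ∘ₗ (D ^ j)

lemma jet_def (j : ℕ) (f : Sm) : jet j f = val ((D ^ j) f) := rfl
lemma jet_apply (j : ℕ) (f : Sm) (x : I) : jet j f x = ev ((D ^ j) f) x := val_apply _ x
lemma jet_zero (f : Sm) : jet 0 f = val f := rfl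
lemma jet_succ (j : ℕ) (f : Sm) : jet (j + 1) f = jet j (D f) := by
  rw [jet_def, jet_def, Dpow_succ']

lemma jet_mul (k : ℕ) (f g : Sm) : jet k (f * g) =
    ∑ i ∈ Finset.range (k + 1), (k.choose i : ℝ) • (jet i f * jet (k - i) g) := by
  rw [jet_def, Dpow_mul, map_sum]
  simp [jet_def]

lemma abs_ev_le_jet (j : ℕ) (f : Sm) {x : ℝ} (hx : x ∈ I) : |ev ((D ^ j) f) x| ≤ ‖jet j f‖ := by
  have := (jet j f).norm_coe_le_norm ⟨x, hx⟩
  rwa [jet_apply, Real.norm_eq_abs] at this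

lemma jet_norm_le (j : ℕ) (f : Sm) {C : ℝ} (hC : 0 ≤ C) (h : ∀ x ∈ I, |ev ((D ^ j) f) x| ≤ C) :
    ‖jet j f‖ ≤ C :=
  (ContinuousMap.norm_le _ hC).2 fun x => by rw [jet_apply, Real.norm_eq_abs]; exact h x x.2

/-- the integral as a continuous linear functional on `C([0,1])` -/
def IiC : C(I, ℝ) →L[ℝ] ℝ :=
  LinearMap.mkContinuous
    { toFun := fun f => ∫ x in (0 : ℝ)..1, ext0 f x
      map_add' := fun f g =>
        intervalIntegral.integral_add ((continuous_ext0 f).intervalIntegrable _ _)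
          ((continuous_ext0 g).intervalIntegrable _ _)
      map_smul' := fun c f => by
        have : ext0 (c • f) = fun x => c * ext0 f x := rfl
        simp [this] } 1
    (fun f => by
      have := intervalIntegral.norm_integral_le_of_norm_le_const (a := 0) (b := 1) (f := ext0 f)
        (C := ‖f‖) (fun x _ => f.norm_coe_le_norm _)
      simpa using this)

lemma Ii_eq_IiC (f : Sm) : Ii f = IiC (jet 0 f) := rfl

/-- evaluation at a point as a continuous linear functional -/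
lemma ev_eq_jet (f : Sm) (x : ℝ) :
    ev f x = ContinuousMap.evalCLM ℝ (Set.projIcc 0 1 zero_le_one x) (jet 0 f) := rfl

/-- iterated derivatives of `mk0 f` for a globally smooth `f` -/
lemma ev_Dpow_mk0 {f : ℝ → ℝ} (hf : ContDiff ℝ ∞ f) (j : ℕ) {x : ℝ} (hx : x ∈ I) :
    ev ((D ^ j) (mk0 f)) x = iteratedDeriv j f x := by
  induction j generalizing x with
  | zero => simpa using ev_mk0 hf.contDiffOn hx
  | succ j ih =>
    rw [Dpow_succ, iteratedDeriv_succ]
    refine ev_D_of hx (fun y hy => ih hy) ?_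
    have : Differentiable ℝ (iteratedDeriv j f) :=
      hf.differentiable_iteratedDeriv j (by exact_mod_cast ENat.natCast_lt_top j)
    exact (this x).hasDerivAt.hasDerivWithinAt

end Crest.Agent.R213
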