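import Crest.Agent.R213.Basic
import Crest.Agent.R213.Alg

/-! # Row 213, weighted sup bounds -/

set_option autoImplicit false
open Set Filter Topology
open scoped ContDiff

noncomputable section
namespace Crest.Agent.R213

/-- symmetric Hardy inequality: integrate `D (φ₀^{a+1} φ₀' σ^s w²)` and use `φ₀'² = 1 - 4 φ₀` -/
lemma hardy_ph (a : ℕ) (s : ℤ) : ∃ C, 0 ≤ C ∧ ∀ l ∈ Ioc (0 : ℝ) 1, ∀ w,
    Ii (ph ^ a * sp l s * w ^ 2) ≤
      C * (Ii (ph ^ (a + 2) * sp l s * (D w) ^ 2) + Ii (ph ^ (a + 1) * sp l (s - 1) * w ^ 2)) := by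
  refine ⟨4 + 2 * (8 * a + 12 + |(s : ℝ)|), by positivity, fun l hl w => ?_⟩
  have hl0 := hl.1
  have h0 : Ii (D (ph ^ (a + 1) * (1 - 2 * X) * sp l s * w ^ 2)) = 0 := by
    rw [Ii_D]
    simp
  have hB : 0 ≤ Ii (ph ^ (a + 2) * sp l s * (D w) ^ 2) := Ii_nonneg fun x hx => by
    have := hx.1
    have := sub_nonneg.2 hx.2
    simp only [ev_mul, ev_pow, ev_ph hx, ev_sp hl0 _ hx]
    positivity
  have hC : 0 ≤ Ii (ph ^ (a + 1) * sp l (s - 1) * w ^ 2) := Ii_nonneg fun x hx => by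
    have := hx.1
    have := sub_nonneg.2 hx.2
    simp only [ev_mul, ev_pow, ev_ph hx, ev_sp hl0 _ hx]
    positivity
  have h1 : Ii ((1 / 2 : ℝ) • (ph ^ a * sp l s * w ^ 2)) ≤
      Ii (D (ph ^ (a + 1) * (1 - 2 * X) * sp l s * w ^ 2) +
        (2 : ℝ) • (ph ^ (a + 2) * sp l s * (D w) ^ 2) +
        (8 * a + 12 + |(s : ℝ)|) • (ph ^ (a + 1) * sp l (s - 1) * w ^ 2)) := by
    refine Ii_mono fun x hx => ?_
    have hx0 := hx.1
    have hx1 := sub_nonneg.2 hx.2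
    have hσ : 0 < x + l := by positivity
    have hσ2 : x + l ≤ 2 := by linarith [hx.2, hl.2]
    have hs : (x + l) ^ s = (x + l) ^ (s - 1) * (x + l) := by
      rw [← zpow_add_one₀ hσ.ne', sub_add_cancel]
    simp only [D_mul, D_pow_succ, D_ph, D_sp hl0, map_sub, D_one, D_X, D_ofNat, ev_add, ev_mul,
      ev_smul, ev_pow, ev_sub, ev_one, ev_zero, ev_ofNat, ev_natCast, ev_ph hx, ev_sp hl0 _ hx,
      ev_X hx, hs, pow_one, Nat.cast_one]
    set p := x * (1 - x) with hp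
    set S := (x + l) ^ (s - 1) with hS
    set u := ev w x
    set u' := ev (D w) x
    have hp0 : 0 ≤ p := by positivity
    have hS0 : 0 ≤ S := by positivity
    have hq : (1 - 2 * x) ^ 2 = 1 - 4 * p := by rw [hp]; ring
    have h2 : 0 ≤ 8 * a + 12 + |(s : ℝ)| - (4 * a + 6) * (x + l) + s * (1 - 2 * x) := by
      have h3 : |(s : ℝ) * (1 - 2 * x)| ≤ |(s : ℝ)| := by
        rw [abs_mul]
        exact mul_le_of_le_one_right (abs_nonneg _) (abs_le.2 ⟨by linarith, by linarith⟩)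
      have h4 := neg_abs_le ((s : ℝ) * (1 - 2 * x))
      have h5 : (0 : ℝ) ≤ a := Nat.cast_nonneg a
      nlinarith
    have h3 : 0 ≤ p ^ a * S * (a * (x + l) * u ^ 2 + (x + l) * ((u + 2 * p * (1 - 2 * x) * u') ^ 2 / 2 +
        8 * p ^ 3 * u' ^ 2) + p * u ^ 2 *
        (8 * a + 12 + |(s : ℝ)| - (4 * a + 6) * (x + l) + s * (1 - 2 * x))) := by positivity
    rw [← sub_nonneg]
    convert h3 using 1
    simp only [pow_succ p]
    linear_combination (p ^ a * S * (x + l) * ((a + 1) * u ^ 2 - 2 * p ^ 2 * u' ^ 2)) * hq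
  rw [map_add, map_add, map_smul, map_smul, map_smul, h0] at h1
  simp only [smul_eq_mul] at h1
  have h5 : (0 : ℝ) ≤ 8 * a + 12 + |(s : ℝ)| := by positivity
  nlinarith [mul_nonneg h5 hB]

/-- induction on the defect `n = 11 + i - a`; for `n = 0` use `φ₀^{11+i} ≤ μ_{i+2}` -/
lemma fam (e : ℤ) (n i a : ℕ) (h : a + n = 11 + i) : ∃ C, 0 ≤ C ∧ ∀ l ∈ Ioc (0 : ℝ) 1, ∀ v,
    Ii (ph ^ a * sp l (2 * (i : ℤ) - a + 11 - e) * ((D ^ i) v) ^ 2) ≤ C * N2 l e (i + n) v := by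
  induction n generalizing i a with
  | zero =>
    refine ⟨1, zero_le_one, fun l hl v => ?_⟩
    obtain rfl : a = 11 + i := h
    rw [one_mul]
    refine le_trans ?_ (lev_le_N2 hl.1 e (le_refl i) v)
    rw [show 2 * (i : ℤ) - ((11 + i : ℕ) : ℤ) + 11 - e = (i : ℤ) - e by push_cast; ring]
    refine Ii_mono fun x hx => ?_
    have hx0 := hx.1
    have hx1 := sub_nonneg.2 hx.2
    have hl0 := hl.1
    simp only [ev_mul, ev_pow, ev_ph hx, ev_mu _ hx, ev_sp hl.1 _ hx]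
    rw [mul_pow, show 9 + (i + 2) = 11 + i by ring]
    have : (1 - x) ^ (11 + i) ≤ (1 - x) ^ (i + 2) :=
      pow_le_pow_of_le_one hx1 (by linarith) (by omega)
    gcongr
  | succ n ih =>
    obtain ⟨C, hC, H⟩ := hardy_ph a (2 * (i : ℤ) - a + 11 - e)
    obtain ⟨C₁, hC₁, H₁⟩ := ih (i + 1) (a + 2) (by omega)
    obtain ⟨C₂, hC₂, H₂⟩ := ih i (a + 1) (by omega)
    refine ⟨C * (C₁ + C₂), by positivity, fun l hl v => (H l hl _).trans ?_⟩
    have h1 := H₁ l hl v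
    have h2 := H₂ l hl v
    rw [show 2 * ((i + 1 : ℕ) : ℤ) - ((a + 2 : ℕ) : ℤ) + 11 - e = 2 * (i : ℤ) - a + 11 - e by
      push_cast; ring, Dpow_succ, show i + 1 + n = i + (n + 1) by ring] at h1
    rw [show 2 * (i : ℤ) - ((a + 1 : ℕ) : ℤ) + 11 - e = 2 * (i : ℤ) - a + 11 - e - 1 by
      push_cast; ring] at h2
    have h3 := N2_mono hl.1 e (show i + n ≤ i + (n + 1) by omega) v
    rw [mul_assoc C, add_mul]
    exact mul_le_mul_of_nonneg_left
      (add_le_add h1 (h2.trans (mul_le_mul_of_nonneg_left h3 hC₂))) hC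

/-- `G(x) ≤ 2 ∫ σ⁻¹ G + ∫ |G'|` for `G ≥ 0`, since `∫ σ⁻¹ ≥ 1/2` -/
lemma sup_aux {l : ℝ} (hl : l ∈ Ioc (0 : ℝ) 1) {G H : Sm} (hG : ∀ x ∈ I, 0 ≤ ev G x)
    (hH : ∀ x ∈ I, |ev (D G) x| ≤ ev H x) {x : ℝ} (hx : x ∈ I) :
    ev G x ≤ 2 * Ii (sp l (-1) * G) + Ii H := by
  have hH0 : ∀ y ∈ I, 0 ≤ ev H y := fun y hy => (abs_nonneg _).trans (hH y hy)
  have h1 : ∀ a ∈ I, ∀ b ∈ I, a ≤ b → |ev G b - ev G a| ≤ Ii H := fun a ha b hb hab => by
    rw [← integral_ev_D G ha hb]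
    refine (intervalIntegral.abs_integral_le_integral_abs hab).trans ?_
    refine (intervalIntegral.integral_mono_on hab
      ((continuous_ev _).abs.intervalIntegrable _ _) ((continuous_ev H).intervalIntegrable _ _)
      fun y hy => hH y ⟨ha.1.trans hy.1, hy.2.trans hb.2⟩).trans ?_
    refine intervalIntegral.integral_mono_interval ha.1 hab hb.2 ?_
      ((continuous_ev H).intervalIntegrable _ _)
    exact (MeasureTheory.ae_restrict_iff' measurableSet_Ioc).2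
      (Eventually.of_forall fun y hy => hH0 y ⟨hy.1.le, hy.2⟩)
  have h2 : Ii ((ev G x - Ii H) • (1 : Sm)) ≤ Ii ((2 : ℝ) • (sp l (-1) * G)) := by
    refine Ii_mono fun y hy => ?_
    have h3 : ev G x - ev G y ≤ Ii H := by
      rcases le_total x y with h | h
      · linarith [(abs_le.1 (h1 x hx y hy h)).1]
      · exact (abs_le.1 (h1 y hy x hx h)).2
    have hσ : 0 < y + l := by linarith [hy.1, hl.1]
    have hσ2 : y + l ≤ 2 := by linarith [hy.2, hl.2]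
    have h4 : 1 ≤ 2 * (y + l)⁻¹ := by rwa [← div_eq_mul_inv, one_le_div hσ]
    simp only [ev_smul, ev_one, ev_mul, ev_sp hl.1 _ hy, zpow_neg_one]
    nlinarith [hG y hy]
  rw [map_smul, map_smul, Ii_one] at h2
  simp only [smul_eq_mul] at h2
  linarith

/-- apply `sup_aux` to `G = φ₀^a σ^{2i-a+12-e} (D^i v)²` and use `fam` -/
lemma sup_bound (e : ℤ) (i a : ℕ) (h : a ≤ i) : ∃ C, 0 ≤ C ∧ ∀ l ∈ Ioc (0 : ℝ) 1, ∀ v, ∀ x ∈ I,
    (x * (1 - x)) ^ a * (x + l) ^ (2 * i - a) * (ev ((D ^ i) v) x) ^ 2 ≤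
      C * (x + l) ^ (e - 12) * N2 l e (2 * i - a + 13) v := by
  obtain ⟨C₁, hC₁, H₁⟩ := fam e (11 + i - a) i a (by omega)
  obtain ⟨C₂, hC₂, H₂⟩ := fam e (12 + i - a) (i + 1) a (by omega)
  obtain ⟨C₃, hC₃, H₃⟩ : ∃ C, 0 ≤ C ∧ ∀ l ∈ Ioc (0 : ℝ) 1, ∀ v,
      (a : ℝ) * Ii (ph ^ (a - 1) * sp l (2 * (i : ℤ) - a + 11 - e + 1) * ((D ^ i) v) ^ 2) ≤
        C * N2 l e (2 * i - a + 13) v := by
    cases a with
    | zero => exact ⟨0, le_rfl, fun l _ v => by simp⟩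
    | succ a =>
      obtain ⟨C, hC, H⟩ := fam e (11 + i - a) i a (by omega)
      refine ⟨((a + 1 : ℕ) : ℝ) * C, by positivity, fun l hl v => ?_⟩
      rw [show 2 * (i : ℤ) - ((a + 1 : ℕ) : ℤ) + 11 - e + 1 = 2 * (i : ℤ) - a + 11 - e by
        push_cast; ring, Nat.add_sub_cancel, mul_assoc _ C]
      exact mul_le_mul_of_nonneg_left ((H l hl v).trans (mul_le_mul_of_nonneg_left
        (N2_mono hl.1 e (show i + (11 + i - a) ≤ 2 * i - (a + 1) + 13 by omega) v) hC))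
        (Nat.cast_nonneg _)
  set m : ℤ := 2 * (i : ℤ) - a + 11 - e with hm
  refine ⟨(3 + |((m + 1 : ℤ) : ℝ)|) * C₁ + C₂ + C₃, by positivity, fun l hl v x hx => ?_⟩
  have hl0 := hl.1
  have h1 := (H₁ l hl v).trans (mul_le_mul_of_nonneg_left
    (N2_mono hl.1 e (show i + (11 + i - a) ≤ 2 * i - a + 13 by omega) v) hC₁)
  have h2 := H₂ l hl v
  rw [show 2 * ((i + 1 : ℕ) : ℤ) - a + 11 - e = m + 2 by rw [hm]; push_cast; ring, Dpow_succ,
    show i + 1 + (12 + i - a) = 2 * i - a + 13 by omega] at h2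
  have h3 := H₃ l hl v
  set w := (D ^ i) v with hw
  have h4 := sup_aux hl (G := ph ^ a * sp l (m + 1) * w ^ 2)
    (H := (a : ℝ) • (ph ^ (a - 1) * sp l (m + 1) * w ^ 2) +
      (1 + |((m + 1 : ℤ) : ℝ)|) • (ph ^ a * sp l m * w ^ 2) + ph ^ a * sp l (m + 2) * (D w) ^ 2)
    (fun y hy => by
      have := hy.1
      have := sub_nonneg.2 hy.2
      simp only [ev_mul, ev_pow, ev_ph hy, ev_sp hl0 _ hy]
      positivity)
    (fun y hy => by
      have hy0 := hy.1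
      have hy1 := sub_nonneg.2 hy.2
      have hσ : 0 < y + l := by positivity
      have hs1 : (y + l) ^ (m + 1) = (y + l) ^ m * (y + l) := zpow_add_one₀ hσ.ne' m
      have hs2 : (y + l) ^ (m + 2) = (y + l) ^ m * (y + l) ^ 2 := by
        rw [zpow_add₀ hσ.ne', zpow_ofNat]
      rw [D_mul, D_mul, D_pow, D_sq, D_sp hl0, D_ph, add_sub_cancel_right]
      simp only [ev_add, ev_mul, ev_smul, ev_pow, ev_sub, ev_one, ev_ofNat, ev_natCast, ev_ph hy,
        ev_sp hl0 _ hy, ev_X hy, hs1, hs2]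
      set p := y * (1 - y) with hp
      set S := (y + l) ^ m with hS
      set u := ev w y
      set u' := ev (D w) y
      set k : ℝ := ((m + 1 : ℤ) : ℝ)
      have hp0 : 0 ≤ p := by positivity
      have hS0 : 0 ≤ S := by positivity
      have hA : 0 ≤ a * (p ^ (a - 1) * (S * (y + l)) * u ^ 2) := by positivity
      have hB : 0 ≤ p ^ a * S := by positivity
      have hB' : 0 ≤ p ^ a * S * u ^ 2 := by positivity
      have k1 := le_abs_self k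
      have k2 := neg_abs_le k
      refine abs_le.2 ⟨?_, ?_⟩
      · nlinarith [mul_nonneg hA hy1, mul_nonneg hB (sq_nonneg (u + (y + l) * u')),
          mul_nonneg hB' (sub_nonneg.2 k2)]
      · nlinarith [mul_nonneg hA hy0, mul_nonneg hB (sq_nonneg (u - (y + l) * u')),
          mul_nonneg hB' (sub_nonneg.2 k1)]) hx
  have e1 : sp l (-1) * (ph ^ a * sp l (m + 1) * w ^ 2) = ph ^ a * sp l m * w ^ 2 := by
    rw [show sp l m = sp l (-1) * sp l (m + 1) by rw [← sp_add hl0]; congr 1; ring]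
    ring
  rw [e1, map_add, map_add, map_smul, map_smul] at h4
  simp only [smul_eq_mul, ev_mul, ev_pow, ev_ph hx, ev_sp hl0 _ hx] at h4
  have hσ : 0 < x + l := by linarith [hx.1]
  have e2 : (x + l) ^ (2 * i - a) = (x + l) ^ (m + 1) * (x + l) ^ (e - 12) := by
    rw [← zpow_add₀ hσ.ne', ← zpow_natCast]
    congr 1
    rw [hm, Nat.cast_sub (by omega)]
    push_cast
    ring
  have h5 : (x * (1 - x)) ^ a * (x + l) ^ (m + 1) * ev w x ^ 2 ≤
      ((3 + |((m + 1 : ℤ) : ℝ)|) * C₁ + C₂ + C₃) * N2 l e (2 * i - a + 13) v := by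
    have := mul_le_mul_of_nonneg_left h1 (show (0 : ℝ) ≤ 3 + |((m + 1 : ℤ) : ℝ)| by positivity)
    linarith
  rw [e2]
  have h6 := mul_le_mul_of_nonneg_right h5 (zpow_pos hσ (e - 12)).le
  linarith

lemma sup_mult (e : ℤ) (i : ℕ) : ∃ C, 0 ≤ C ∧ ∀ l ∈ Ioc (0 : ℝ) 1, ∀ v, ∀ x ∈ I,
    (x * (1 - x) * (x + l)) ^ i * (ev ((D ^ i) v) x) ^ 2 ≤
      C * (x + l) ^ (e - 12) * N2 l e (i + 13) v := by
  obtain ⟨C, hC, H⟩ := sup_bound e i i le_rfl
  refine ⟨C, hC, fun l hl v x hx => ?_⟩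
  have := H l hl v x hx
  rwa [show 2 * i - i = i by omega, ← mul_pow] at this

lemma sup_zero : ∃ C, 0 ≤ C ∧ ∀ l ∈ Ioc (0 : ℝ) 1, ∀ v, ∀ x ∈ I, (ev v x) ^ 2 ≤ C * N2 l 12 13 v := by
  obtain ⟨C, hC, H⟩ := sup_mult 12 0
  exact ⟨C, hC, fun l hl v x hx => by simpa using H l hl v x hx⟩

lemma jet_le (j : ℕ) : ∃ C, 0 ≤ C ∧ ∀ v, ‖jet j v‖ ^ 2 ≤ C * N2 1 0 (2 * j + 13) v := by
  obtain ⟨C, hC, H⟩ := sup_bound 0 j 0 (Nat.zero_le j)
  refine ⟨C, hC, fun v => ?_⟩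
  have hN := N2_nonneg one_pos 0 (2 * j + 13) v
  refine (Real.le_sqrt (norm_nonneg _) (by positivity)).1 (jet_norm_le j v (Real.sqrt_nonneg _)
    fun x hx => Real.abs_le_sqrt ?_)
  have h1 := H 1 ⟨one_pos, le_rfl⟩ v x hx
  have hσ : 1 ≤ x + 1 := by linarith [hx.1]
  have h2 : 1 ≤ (x + 1) ^ (2 * j - 0) := one_le_pow₀ hσ
  have h3 : (x + 1) ^ ((0 : ℤ) - 12) ≤ 1 := zpow_le_one_of_nonpos₀ hσ (by norm_num)
  rw [pow_zero, one_mul, Nat.sub_zero] at h1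
  rw [Nat.sub_zero] at h2
  nlinarith [sq_nonneg (ev ((D ^ j) v) x), mul_nonneg hC hN]


end Crest.Agent.R213
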