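import Crest.Agent.R213.Curve
import Crest.Agent.R213.Sup
import Crest.Agent.R213.Interp

/-! # Row 213, completeness of `Sm` for the jet seminorms, limits of curves -/

set_option autoImplicit false
open Set Filter Topology
open scoped ContDiff

noncomputable section
namespace Crest.Agent.R213

/-- a tower of continuous functions related by the fundamental theorem of calculus is the jet of a smooth function -/
theorem exists_of_tower (d : ℕ → C(I, ℝ))
    (h : ∀ j, ∀ x ∈ I, ext0 (d j) x = ext0 (d j) 0 + ∫ y in (0 : ℝ)..x, ext0 (d (j + 1)) y) :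
    ∃ f : Sm, ∀ j, jet j f = d j := by
  have hd : ∀ j, ∀ x ∈ I, HasDerivWithinAt (ext0 (d j)) (ext0 (d (j + 1)) x) I x := fun j x hx =>
    ((((continuous_ext0 (d (j + 1))).integral_hasStrictDerivAt 0 x).hasDerivAt.const_add
      (ext0 (d j) 0)).hasDerivWithinAt).congr (h j) (h j x hx)
  have hs : ∀ n : ℕ, ∀ j, ContDiffOn ℝ n (ext0 (d j)) I := by
    intro n
    induction n with
    | zero => exact fun j => contDiffOn_zero.2 (continuous_ext0 _).continuousOn
    | succ n ih =>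
      intro j
      rw [Nat.cast_succ, contDiffOn_succ_iff_derivWithin uI]
      exact ⟨fun x hx => (hd j x hx).differentiableWithinAt, by simp,
        (ih (j + 1)).congr fun x hx => (hd j x hx).derivWithin (uI x hx)⟩
  let f : ℕ → Sm := fun j => ⟨d j, contDiffOn_infty.2 fun n => hs n j⟩
  have hD : ∀ j, D (f j) = f (j + 1) := fun j => D_eq_of (hd j)
  have hP : ∀ j, (D ^ j) (f 0) = f j := fun j => by
    induction j with
    | zero => rfl
    | succ j ih => rw [Dpow_succ, ih, hD]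
  exact ⟨f 0, fun j => by rw [jet_def, hP]; rfl⟩

/-- the integral over `[0,x]` as a continuous linear functional -/
def towI (x : ℝ) : C(I, ℝ) →L[ℝ] ℝ :=
  LinearMap.mkContinuous
    { toFun := fun f => ∫ y in (0 : ℝ)..x, ext0 f y
      map_add' := fun f g =>
        intervalIntegral.integral_add ((continuous_ext0 f).intervalIntegrable _ _)
          ((continuous_ext0 g).intervalIntegrable _ _)
      map_smul' := fun c f => by
        have : ext0 (c • f) = fun x => c * ext0 f x := rfl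
        simp [this] } |x|
    (fun f => by
      have := intervalIntegral.norm_integral_le_of_norm_le_const (a := 0) (b := x) (f := ext0 f)
        (C := ‖f‖) (fun x _ => f.norm_coe_le_norm _)
      simpa [mul_comm] using this)

lemma tow_cont_ext0 (x : ℝ) : Continuous fun f : C(I, ℝ) => ext0 f x :=
  (ContinuousMap.evalCLM ℝ (Set.projIcc 0 1 zero_le_one x) : C(I, ℝ) →L[ℝ] ℝ).continuous

/-- the relation of `exists_of_tower` is a closed linear condition satisfied by jets (`integral_ev_D`) -/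
theorem exists_of_tendsto {α : Type*} {𝓕 : Filter α} [𝓕.NeBot] (u : α → Sm) (d : ℕ → C(I, ℝ))
    (h : ∀ j, Tendsto (fun m => jet j (u m)) 𝓕 (𝓝 (d j))) : ∃ f : Sm, ∀ j, jet j f = d j := by
  refine exists_of_tower d fun j x hx => ?_
  have h1 := ((tow_cont_ext0 x).tendsto _).comp (h j)
  have h2 := (((tow_cont_ext0 0).tendsto _).comp (h j)).add (((towI x).continuous.tendsto _).comp (h (j + 1)))
  refine tendsto_nhds_unique h1 (h2.congr fun m => ?_)
  have := integral_ev_D ((D ^ j) (u m)) (a := 0) (b := x) (by simp) hx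
  rw [← Dpow_succ] at this
  show ev ((D ^ j) (u m)) 0 + ∫ y in (0 : ℝ)..x, ev ((D ^ (j + 1)) (u m)) y = ev ((D ^ j) (u m)) x
  rw [this]; ring
/-- (difference quotients and `exists_of_tendsto`) -/
theorem exists_CD {v : ℝ → Sm} {t : ℝ} (h : ∀ j, DifferentiableAt ℝ (fun s => jet j (v s)) t) :
    ∃ v', CD v v' t := by
  obtain ⟨f, hf⟩ := exists_of_tendsto (𝓕 := 𝓝[≠] t) (fun s => (s - t)⁻¹ • (v s - v t))
    (fun j => deriv (fun s => jet j (v s)) t) fun j => by
      refine (hasDerivAt_iff_tendsto_slope.1 (h j).hasDerivAt).congr fun s => ?_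
      rw [slope_def_module, map_smul, map_sub]
  exact ⟨f, fun j => by rw [hf]; exact (h j).hasDerivAt⟩
theorem CD_of_pointwise {v : ℝ → Sm} {v' : Sm} {t : ℝ} {J : Set ℝ} (hJ : IsOpen J) (ht : t ∈ J)
    (hv : CK ∞ J v) (h : ∀ x ∈ I, HasDerivAt (fun s => ev (v s) x) (ev v' x) t) : CD v v' t := by
  obtain ⟨w, hw⟩ := exists_CD (v := v) (t := t) fun j =>
    ((hv j).contDiffAt (hJ.mem_nhds ht)).differentiableAt (by simp)
  exact hw.congr_deriv (Sm.ext' fun x hx => (hw.ev x).unique (h x hx))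

/-- bounded in all norms and small in the weakest norm implies small jets (`jet_le`, `interp`) -/
theorem jet_small (j : ℕ) (B : ℝ) {ε : ℝ} (hε : 0 < ε) : ∃ η > (0 : ℝ), ∀ v,
    N2 1 0 (2 * j + 14) v ≤ B → lev 1 0 0 v ≤ η → ‖jet j v‖ ≤ ε := by
  obtain ⟨C, hC, h1⟩ := jet_le j
  obtain ⟨C', hC', h2⟩ := interp 0 (2 * j + 13) (ε := ε ^ 2 / (2 * (C + 1) * (|B| + 1))) (by positivity)
  refine ⟨ε ^ 2 / (2 * (C + 1) * (C' + 1)), by positivity, fun v hB hη => ?_⟩
  have h3 : lev 1 0 (2 * j + 13 + 1) v ≤ |B| + 1 :=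
    (lev_le_N2 one_pos 0 le_rfl v).trans (hB.trans ((le_abs_self B).trans (by linarith)))
  have h4 : N2 1 0 (2 * j + 13) v ≤ ε ^ 2 / (C + 1) := by
    calc _ ≤ ε ^ 2 / (2 * (C + 1) * (|B| + 1)) * (|B| + 1) + (C' + 1) * (ε ^ 2 / (2 * (C + 1) * (C' + 1))) := by
          refine (h2 1 ⟨one_pos, le_rfl⟩ v).trans (add_le_add ?_ ?_)
          · exact mul_le_mul_of_nonneg_left h3 (by positivity)
          · exact mul_le_mul (by linarith) hη (lev_nonneg one_pos _ _ _) (by positivity)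
      _ = _ := by field_simp; ring
  refine le_of_pow_le_pow_left₀ two_ne_zero hε.le ?_
  calc _ ≤ (C + 1) * (ε ^ 2 / (C + 1)) :=
        (h1 v).trans (mul_le_mul (by linarith) h4 (N2_nonneg one_pos _ _ _) (by positivity))
    _ = _ := by field_simp
theorem lim_exists (𝒥 : Set (Set ℝ)) (u : ℕ → ℝ → Sm)
    (hb : ∀ J ∈ 𝒥, ∀ k, ∃ B, ∀ m, ∀ t ∈ J, N2 1 0 k (u m t) ≤ B)
    (hc : ∀ J ∈ 𝒥, ∀ ε > (0 : ℝ), ∃ M, ∀ m ≥ M, ∀ m' ≥ M, ∀ t ∈ J, lev 1 0 0 (u m t - u m' t) ≤ ε) :
    ∃ v, ∀ J ∈ 𝒥, CLim J u v := by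
  have hC : ∀ J ∈ 𝒥, ∀ j, UniformCauchySeqOn (fun m t => jet j (u m t)) atTop J := by
    intro J hJ j
    rw [Metric.uniformCauchySeqOn_iff]
    intro ε hε
    obtain ⟨B, hB⟩ := hb J hJ (2 * j + 14)
    obtain ⟨η, hη, h⟩ := jet_small j (4 * B) (half_pos hε)
    obtain ⟨M, hM⟩ := hc J hJ η hη
    refine ⟨M, fun m hm m' hm' t ht => ?_⟩
    rw [dist_eq_norm, ← map_sub]
    refine (h _ ((N2_sub_le one_pos _ _ _ _).trans ?_) (hM m hm m' hm' t ht)).trans_lt (half_lt_self hε)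
    linarith [hB m t ht, hB m' t ht]
  have hex : ∀ t, ∃ f : Sm, (∃ J ∈ 𝒥, t ∈ J) → ∀ j, Tendsto (fun m => jet j (u m t)) atTop (𝓝 (jet j f)) := by
    intro t
    by_cases ht : ∃ J ∈ 𝒥, t ∈ J
    · obtain ⟨J, hJ, ht⟩ := ht
      choose d hd using fun j => cauchySeq_tendsto_of_complete ((hC J hJ j).cauchySeq ht)
      obtain ⟨f, hf⟩ := exists_of_tendsto (fun m => u m t) d hd
      exact ⟨f, fun _ j => by rw [hf]; exact hd j⟩
    · exact ⟨0, fun h => absurd h ht⟩
  choose v hv using hex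
  exact ⟨v, fun J hJ j => (hC J hJ j).tendstoUniformlyOn_of_tendsto fun t ht => hv t ⟨J, hJ, ht⟩ j⟩
theorem clim_zero {J : Set ℝ} (u : ℕ → ℝ → Sm) (hb : ∀ k, ∃ B, ∀ m, ∀ t ∈ J, N2 1 0 k (u m t) ≤ B)
    (hc : ∀ ε > (0 : ℝ), ∃ M, ∀ m ≥ M, ∀ t ∈ J, lev 1 0 0 (u m t) ≤ ε) : CLim J u fun _ => 0 := by
  intro j
  rw [Metric.tendstoUniformlyOn_iff]
  intro ε hε
  obtain ⟨B, hB⟩ := hb (2 * j + 14)
  obtain ⟨η, hη, h⟩ := jet_small j B (half_pos hε)
  obtain ⟨M, hM⟩ := hc η hη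
  filter_upwards [eventually_ge_atTop M] with m hm t ht
  rw [map_zero, dist_zero_left]
  exact (h _ (hB m t ht) (hM m hm t ht)).trans_lt (half_lt_self hε)

lemma tow_iff {A : Type*} [NormedAddCommGroup A] {J : Set ℝ} {F : ℕ → ℝ → A} {f : ℝ → A} :
    TendstoUniformlyOn F f atTop J ↔
      Tendsto (fun p : ℕ × ℝ => F p.1 p.2 - f p.2) (atTop ×ˢ 𝓟 J) (𝓝 0) := by
  rw [Metric.tendstoUniformlyOn_iff, Metric.tendsto_nhds]
  simp only [eventually_prod_principal_iff, dist_comm (f _), dist_eq_norm, sub_zero]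

lemma tow_clim {J : Set ℝ} {u : ℕ → ℝ → Sm} {v : ℝ → Sm} : CLim J u v ↔
    ∀ j, Tendsto (fun p : ℕ × ℝ => jet j (u p.1 p.2) - jet j (v p.2)) (atTop ×ˢ 𝓟 J) (𝓝 0) :=
  forall_congr' fun _ => tow_iff

lemma tow_bdd {J : Set ℝ} {v : ℝ → Sm} (hJ : IsCompact J) (hv : CC J v) (j : ℕ) :
    IsBoundedUnder (· ≤ ·) (atTop ×ˢ 𝓟 J) (norm ∘ fun p : ℕ × ℝ => jet j (v p.2)) := by
  obtain ⟨B, hB⟩ := hv.jet_bound hJ j
  exact ⟨B, eventually_map.2 (eventually_prod_principal_iff.2 (Eventually.of_forall fun _ => hB))⟩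

variable {J : Set ℝ} {u u' : ℕ → ℝ → Sm} {v v' : ℝ → Sm}
lemma CLim.const (v : ℝ → Sm) : CLim J (fun _ => v) v :=
  tow_clim.2 fun j => by simp only [sub_self]; exact tendsto_const_nhds
lemma CLim.mono {J' : Set ℝ} (h : CLim J u v) (hJ : J' ⊆ J) : CLim J' u v := fun j => (h j).mono hJ
lemma CLim.shift (h : CLim J u v) : CLim J (fun m => u (m + 1)) v :=
  fun j U hU => (tendsto_add_atTop_nat 1).eventually (h j U hU)
lemma CLim.add (h : CLim J u v) (h' : CLim J u' v') :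
    CLim J (fun m t => u m t + u' m t) fun t => v t + v' t := fun j => by
  simp only [map_add]; exact (h j).add (h' j)
lemma CLim.sub (h : CLim J u v) (h' : CLim J u' v') :
    CLim J (fun m t => u m t - u' m t) fun t => v t - v' t := fun j => by
  simp only [map_sub]; exact (h j).sub (h' j)
lemma CLim.neg (h : CLim J u v) : CLim J (fun m t => -u m t) fun t => -v t := fun j => by
  simp only [map_neg]; exact (h j).neg
lemma CLim.congr {w : ℝ → Sm} (h : CLim J u v) (hu : ∀ m, ∀ t ∈ J, u' m t = u m t) (hv : ∀ t ∈ J, w t = v t) :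
    CLim J u' w := fun j =>
  ((h j).congr (Eventually.of_forall fun m t ht => by simp only [hu m t ht])).congr_right
    fun t ht => by simp only [hv t ht]
lemma CLim.mul (hJ : IsCompact J) (hv : CC J v) (hv' : CC J v') (h : CLim J u v) (h' : CLim J u' v') :
    CLim J (fun m t => u m t * u' m t) fun t => v t * v' t := by
  rw [tow_clim] at h h' ⊢
  intro k
  have key : ∀ i l, Tendsto (fun p : ℕ × ℝ => jet i (u p.1 p.2) * jet l (u' p.1 p.2) -
      jet i (v p.2) * jet l (v' p.2)) (atTop ×ˢ 𝓟 J) (𝓝 0) := by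
    intro i l
    have h1 := (((h i).mul (h' l)).add ((h i).zero_mul_isBoundedUnder_le (tow_bdd hJ hv' l))).add
      (Filter.isBoundedUnder_le_mul_tendsto_zero (tow_bdd hJ hv i) (h' l))
    rw [mul_zero, add_zero, add_zero] at h1
    exact h1.congr fun p => by ring
  have h2 := tendsto_finsetSum (Finset.range (k + 1)) fun i _ => (key i (k - i)).const_smul (k.choose i : ℝ)
  simp only [smul_zero, Finset.sum_const_zero] at h2
  refine h2.congr fun p => ?_
  rw [jet_mul, jet_mul, ← Finset.sum_sub_distrib]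
  simp only [smul_sub]
lemma CLim.D (h : CLim J u v) : CLim J (fun m t => D (u m t)) fun t => D (v t) := fun j => by
  simp only [← jet_succ]; exact h (j + 1)
lemma tow_cc_dl (hv : CC J v) (m : ℕ) : CC J fun t => dl m (v t) :=
  ((CC.const ph).mul hv.D).add ((CC.const (pm m)).mul hv)
lemma CLim.dl (hJ : IsCompact J) (hv : CC J v) (h : CLim J u v) (k : ℕ) :
    CLim J (fun m t => dl k (u m t)) fun t => dl k (v t) :=
  (CLim.mul hJ (CC.const ph) hv.D (CLim.const _) h.D).add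
    (CLim.mul hJ (CC.const (pm k)) hv (CLim.const _) h)
lemma CLim.A0 (hJ : IsCompact J) (hv : CC J v) (h : CLim J u v) :
    CLim J (fun m t => A0 (u m t)) fun t => A0 (v t) :=
  ((h.dl hJ hv 1).dl hJ (tow_cc_dl hv 1) 0).D.D
lemma CLim.Lop {a b : ℝ → Sm} (hJ : IsCompact J) (ha : CC J a) (hb : CC J b) (hv : CC J v) (h : CLim J u v) :
    CLim J (fun m t => Lop (a t) (b t) (u m t)) fun t => Lop (a t) (b t) (v t) :=
  (CLim.mul hJ ha hv.A0 (CLim.const _) (h.A0 hJ hv)).neg.add (CLim.mul hJ hb hv (CLim.const _) h)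
lemma CLim.NL {q G : ℝ → Sm} (hJ : IsCompact J) (hq : CC J q) (hG : CC J G) (hv : CC J v) (h : CLim J u v) :
    CLim J (fun m t => NL (q t) (G t) (u m t)) fun t => NL (q t) (G t) (v t) := by
  have c1 : CC J fun t => 2 * q t * ph := ((CC.const 2).mul hq).mul (CC.const ph)
  have c2 : CC J fun t => ph ^ 2 * v t ^ 2 := (CC.const _).mul (hv.pow 2)
  have h1 : CLim J (fun m t => u m t ^ 2) fun t => v t ^ 2 :=
    (CLim.mul hJ hv hv h h).congr (fun _ _ _ => sq _) fun _ _ => sq _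
  have h2 : CLim J (fun m t => ph ^ 2 * u m t ^ 2) fun t => ph ^ 2 * v t ^ 2 :=
    CLim.mul hJ (CC.const _) (hv.pow 2) (CLim.const _) h1
  exact (CLim.mul hJ ((c1.mul hv).sub c2) hv.A0 ((CLim.mul hJ c1 hv (CLim.const _) h).sub h2)
    (h.A0 hJ hv)).sub (CLim.mul hJ c2 hG h2 (CLim.const _))
lemma CLim.cc (h : CLim J u v) (hu : ∀ m, CC J (u m)) : CC J v :=
  fun j => (h j).continuousOn (Frequently.of_forall fun m => hu m j)
/-- (`hasDerivAt_of_tendstoUniformlyOn` in the Banach space `C(I,ℝ)`) -/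
lemma CLim.cd (hJ : IsOpen J) (h : CLim J u v) (h' : CLim J u' v') (hd : ∀ m, ∀ t ∈ J, CD (u m) (u' m t) t) :
    ∀ t ∈ J, CD v (v' t) t := fun _ ht j =>
  hasDerivAt_of_tendstoUniformlyOn hJ (h' j) (Eventually.of_forall fun m s hs => hd m s hs j)
    (fun _ hs => (h j).tendsto_at hs) ht
lemma CLim.tendsto_N2 (h : CLim J u v) {t : ℝ} (ht : t ∈ J) (l : ℝ) (e : ℤ) (k : ℕ) :
    Tendsto (fun m => N2 l e k (u m t)) atTop (𝓝 (N2 l e k (v t))) := by
  have e1 : ∀ (j : ℕ) (w : Sm), lev l e j w =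
      IiC (val (mu (j + 2) * sp l ((j : ℤ) - e)) * jet j w ^ 2) := fun j w => by
    rw [lev, wl, Ii_eq_IiC, jet_zero, map_mul, map_pow, jet_def]
  simp only [N2, e1]
  exact tendsto_finsetSum _ fun j _ => (IiC.continuous.tendsto _).comp
    ((((h j).tendsto_at ht).pow 2).const_mul _)
lemma CLim.eq_of_tendsto (h : CLim J u v) {t : ℝ} (ht : t ∈ J) {w : Sm}
    (hw : ∀ j, Tendsto (fun m => jet j (u m t)) atTop (𝓝 (jet j w))) : v t = w :=
  val_injective (tendsto_nhds_unique ((h 0).tendsto_at ht) (hw 0))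

end Crest.Agent.R213
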