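import Crest.Agent.R213.RightInv

/-! # Row 213, the spaces `X` and `Y` -/

set_option autoImplicit false
open Set Filter Topology
open scoped ContDiff

noncomputable section
namespace Crest.Agent.R213

lemma XY_sub {t₀ t : ℝ} (ht : t ∈ Ico t₀ 0) : Icc t₀ t ⊆ Ico t₀ 0 :=
  fun _ hs => ⟨hs.1, hs.2.trans_lt ht.2⟩
lemma XY_int {f : ℝ → ℝ} {t₀ t : ℝ} (ht : t ∈ Ico t₀ 0) (hf : ContinuousOn f (Ico t₀ 0)) :
    IntervalIntegrable f MeasureTheory.volume t₀ t :=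
  (hf.mono (XY_sub ht)).intervalIntegrable_of_Icc ht.1
lemma XY_mono {f g : ℝ → ℝ} {t₀ t : ℝ} (ht : t ∈ Ico t₀ 0) (hf : ContinuousOn f (Ico t₀ 0))
    (hg : ContinuousOn g (Ico t₀ 0)) (h : ∀ s ∈ Ico t₀ 0, f s ≤ g s) :
    ∫ s in t₀..t, f s ≤ ∫ s in t₀..t, g s :=
  intervalIntegral.integral_mono_on ht.1 (XY_int ht hf) (XY_int ht hg) fun s hs => h s (XY_sub ht hs)
lemma XY_comb {f g h : ℝ → ℝ} {t₀ t : ℝ} (ht : t ∈ Ico t₀ 0) (hf : ContinuousOn f (Ico t₀ 0))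
    (hg : ContinuousOn g (Ico t₀ 0)) (hh : ContinuousOn h (Ico t₀ 0)) (p q : ℝ)
    (hle : ∀ s ∈ Ico t₀ 0, f s ≤ p * g s + q * h s) :
    ∫ s in t₀..t, f s ≤ p * (∫ s in t₀..t, g s) + q * ∫ s in t₀..t, h s := by
  have hg' : ContinuousOn (fun s => p * g s) (Ico t₀ 0) := continuousOn_const.mul hg
  have hh' : ContinuousOn (fun s => q * h s) (Ico t₀ 0) := continuousOn_const.mul hh
  refine (XY_mono ht hf (hg'.add hh') hle).trans (le_of_eq ?_)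
  rw [← intervalIntegral.integral_const_mul, ← intervalIntegral.integral_const_mul,
    ← intervalIntegral.integral_add (XY_int ht hg') (XY_int ht hh')]
  rfl
lemma XY_cinv {t₀ : ℝ} {v : ℝ → Sm} (hv : CC (Ico t₀ 0) v) :
    ContinuousOn (fun s => (lam s)⁻¹ * N2 (lam s) 13 0 (v s)) (Ico t₀ 0) :=
  (continuous_lam.continuousOn.inv₀ fun _ hs => (lam_pos hs.2).ne').mul
    (hv.N2 (fun _ hs => hs.2) 13 0)
lemma XY_mink {x x' A B : ℝ} (hx : 0 < x) (hx' : 0 < x') (hA : A ≤ x ^ 2) (hB : B ≤ x' ^ 2) :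
    (1 + x' / x) * A + (1 + (x' / x)⁻¹) * B ≤ (x + x') ^ 2 := by
  refine (add_le_add (mul_le_mul_of_nonneg_left hA (by positivity))
    (mul_le_mul_of_nonneg_left hB (by positivity))).trans (le_of_eq ?_)
  field_simp
  ring

lemma XB.mono_x {t₀ : ℝ} {k : ℕ} {x x' : ℝ} {v : ℝ → Sm} (h : XB t₀ k x v) (hx : 0 ≤ x) (hx' : x ≤ x') :
    XB t₀ k x' v := fun t ht => by
  have h1 : x ^ 2 ≤ x' ^ 2 := pow_le_pow_left₀ hx hx' 2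
  exact ⟨(h t ht).1.trans h1, (h t ht).2.1.trans h1, (h t ht).2.2.trans h1⟩
lemma XB.zero (t₀ : ℝ) (k : ℕ) (x : ℝ) : XB t₀ k x fun _ => 0 := fun t _ => by
  simp [sq_nonneg]
/-- Minkowski (`N2_add_le'` with `η = x' / x`) -/
lemma XB.add {t₀ : ℝ} {k : ℕ} {x x' : ℝ} {u v : ℝ → Sm} (hx : 0 < x) (hx' : 0 < x')
    (hu : CC (Ico t₀ 0) u) (hv : CC (Ico t₀ 0) v) (h : XB t₀ k x u) (h' : XB t₀ k x' v) :
    XB t₀ k (x + x') fun t => u t + v t := fun t ht => by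
  have hJ : Ico t₀ 0 ⊆ Iio 0 := fun _ hs => hs.2
  have hη : 0 < x' / x := div_pos hx' hx
  obtain ⟨a1, a2, a3⟩ := h t ht
  obtain ⟨b1, b2, b3⟩ := h' t ht
  refine ⟨(N2_add_le' (lam_pos ht.2) 12 k _ _ hη).trans (XY_mink hx hx' a1 b1),
    (XY_comb ht ((hu.add hv).N2 hJ 14 (k + 2)) (hu.N2 hJ 14 (k + 2)) (hv.N2 hJ 14 (k + 2)) _ _
      fun s hs => N2_add_le' (lam_pos hs.2) 14 (k + 2) _ _ hη).trans (XY_mink hx hx' a2 b2),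
    (XY_comb ht (XY_cinv (hu.add hv)) (XY_cinv hu) (XY_cinv hv) _ _ fun s hs => ?_).trans
      (XY_mink hx hx' a3 b3)⟩
  refine (mul_le_mul_of_nonneg_left (N2_add_le' (lam_pos hs.2) 13 0 _ _ hη)
    (inv_pos.2 (lam_pos hs.2)).le).trans (le_of_eq ?_)
  ring
lemma YB.mono_k {t₀ : ℝ} {k k' : ℕ} {y : ℝ} {F : ℝ → Sm} (hF : CC (Ico t₀ 0) F) (h : YB t₀ k y F)
    (hk : k' ≤ k) : YB t₀ k' y F := fun t ht =>
  (XY_mono ht (hF.N2 (fun _ hs => hs.2) 11 k') (hF.N2 (fun _ hs => hs.2) 11 k)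
    fun s hs => N2_mono (lam_pos hs.2) 11 hk (F s)).trans (h t ht)
lemma sqrt_N2_add {l : ℝ} (hl : 0 < l) (e : ℤ) (k : ℕ) {x x' : ℝ} (hx : 0 ≤ x) (hx' : 0 ≤ x') {u v : Sm}
    (hu : N2 l e k u ≤ x ^ 2) (hv : N2 l e k v ≤ x' ^ 2) : N2 l e k (u + v) ≤ (x + x') ^ 2 := by
  obtain ⟨p, hp⟩ := exists_semN hl e k
  have h1 : p u ≤ x := by rw [hp]; exact Real.sqrt_le_iff.2 ⟨hx, hu⟩
  have h2 : p v ≤ x' := by rw [hp]; exact Real.sqrt_le_iff.2 ⟨hx', hv⟩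
  have h3 := (map_add_le_add p u v).trans (add_le_add h1 h2)
  rw [hp] at h3
  exact (Real.sqrt_le_iff.1 h3).2

/-- `right_inv`, `strong` with `k = 28`, `N2_le_Ek`, `N2_le_Gk`, `lev_le_inv`, `lev_mono_e` -/
theorem right_inv_X {a b : ℝ → Sm} (hC : Coef a b) : ∃ C > (0 : ℝ), ∃ Ck : ℕ → ℝ, (∀ k, 0 ≤ Ck k) ∧
    ∀ τ > (0 : ℝ), ∃ t₀ ∈ Ioo (-τ) 0, -1 ≤ t₀ ∧ ∀ F y, 0 ≤ y → CC (Ico t₀ 0) F → YB t₀ 28 y F →
      ∃ v, SolO (fun t => a (lam t)) (fun t => b (lam t)) F t₀ v ∧ XB t₀ 30 (C * y) v ∧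
        ∀ k, N2 (lam t₀) 12 k (v t₀) ≤ (Ck k * y) ^ 2 := by
  obtain ⟨C₁, hC₁, Ck, hCk, h₁⟩ := right_inv hC
  obtain ⟨c₀, hc₀, C₀, hC₀, h₂⟩ := strong hC
  obtain ⟨C₂, hC₂, h₂⟩ := h₂ 28 (by norm_num)
  obtain ⟨C₃, hC₃, h₃⟩ := N2_le_Ek 30
  obtain ⟨C₄, hC₄, h₄⟩ := N2_le_Gk 12 30
  obtain ⟨K, hK⟩ : ∃ K, K = 2 * Ck 30 + 2 * C₀ + 2 + C₂ * C₁ := ⟨_, rfl⟩
  have hK0 : 0 ≤ K := by have := hCk 30; rw [hK]; positivity
  obtain ⟨M, hM⟩ : ∃ M, M = C₃ * K + C₄ * (K / c₀ + C₁) + C₁ + 1 := ⟨_, rfl⟩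
  have hM0 : 0 < M := by rw [hM]; positivity
  refine ⟨√M, Real.sqrt_pos.2 hM0, fun k => √(Ck k), fun k => Real.sqrt_nonneg _, fun τ hτ => ?_⟩
  obtain ⟨t₀, ht₀, ht₁, h₁⟩ := h₁ τ hτ
  refine ⟨t₀, ht₀, ht₁, fun F y hy hF hY => ?_⟩
  obtain ⟨v, hv, b₁, b₂⟩ := h₁ F y hy hF (hY.mono_k hF (Nat.zero_le _))
  refine ⟨v, hv, fun t ht => ?_, fun k => by rw [mul_pow, Real.sq_sqrt (hCk k)]; exact b₂ k⟩
  have hJ : Ico t₀ 0 ⊆ Iio 0 := fun _ hs => hs.2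
  have hl : ∀ s ∈ Ico t₀ 0, lam s ∈ Ioc (0 : ℝ) 1 := fun s hs => lam_mem (ht₁.trans hs.1) hs.2
  have hs := h₂ t₀ t ht₁ ht.1 ht.2 F v (hF.mono (XY_sub ht)) (hv.sol le_rfl ht.2)
  have hFj : ∀ j ≤ 28, ∫ s in t₀..t, lev (lam s) 10 j (F s) ≤ 2 * y ^ 2 := fun j hj => by
    have := XY_comb ht (hF.lev hJ 10 j) (hF.N2 hJ 11 28) (hF.N2 hJ 11 28) 1 1 fun s hs => by
      have c1 := lev_mono_e (hl s hs) (show (10 : ℤ) ≤ 11 by norm_num) j (F s)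
      have c2 := lev_le_N2 (hl s hs).1 11 hj (F s)
      norm_num at c1
      linarith
    linarith [hY t ht]
  have hE0 : Ek (lam t₀) 30 (v t₀) ≤ 2 * Ck 30 * y ^ 2 := by
    have := Ek_le_N2 (lam_pos ht₀.2) 30 (v t₀)
    linarith [b₂ 30]
  have hmain : Ek (lam t) 30 (v t) + c₀ * ∫ s in t₀..t, Gk (lam s) 12 30 (v s) ≤ K * y ^ 2 := by
    refine hs.trans ?_
    have c1 := mul_le_mul_of_nonneg_left (hFj 28 le_rfl) hC₀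
    have c2 := hFj 0 (Nat.zero_le _)
    have c3 := mul_le_mul_of_nonneg_left (b₁ t ht) hC₂
    rw [hK]
    linarith
  have hG0 : 0 ≤ ∫ s in t₀..t, Gk (lam s) 12 30 (v s) :=
    intervalIntegral.integral_nonneg ht.1 fun s hs => Gk_nonneg (hl s (XY_sub ht hs)).1 _ _ _
  have hE1 := Ek_nonneg (hl t ht).1 30 (v t)
  have hy2 := sq_nonneg y
  have d1 : N2 (lam t) 12 30 (v t) ≤ C₃ * K * y ^ 2 := by
    refine (h₃ _ (hl t ht) _).trans ?_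
    rw [mul_assoc]
    exact mul_le_mul_of_nonneg_left (by nlinarith) hC₃
  have d2 : ∫ s in t₀..t, Gk (lam s) 12 30 (v s) ≤ K / c₀ * y ^ 2 := by
    rw [div_mul_eq_mul_div, le_div_iff₀ hc₀]
    linarith
  have d3 : ∫ s in t₀..t, N2 (lam s) 14 (30 + 2) (v s) ≤ C₄ * (K / c₀ + C₁) * y ^ 2 := by
    have := XY_comb ht (hv.1.N2 hJ 14 (30 + 2)) (hv.1.Gk hJ 12 30) (XY_cinv hv.1) C₄ C₄ fun s hs => by
      have c1 := h₄ _ (hl s hs) (v s)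
      have c2 := lev_le_inv (hl s hs).1 (show (13 : ℤ) ≤ 14 by norm_num) 0 (v s)
      rw [show (13 : ℤ) - 14 = -1 by norm_num, zpow_neg_one, ← N2_zero _ 13] at c2
      rw [show (12 : ℤ) + 2 = 14 by norm_num] at c1
      nlinarith [mul_le_mul_of_nonneg_left c2 hC₄]
    have c1 := mul_le_mul_of_nonneg_left d2 hC₄
    have c2 := mul_le_mul_of_nonneg_left (b₁ t ht) hC₄
    linarith
  have e1 : 0 ≤ C₃ * K * y ^ 2 := by positivity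
  have e2 : 0 ≤ C₄ * (K / c₀ + C₁) * y ^ 2 := by positivity
  have e3 : 0 ≤ C₁ * y ^ 2 := by positivity
  have d4 := b₁ t ht
  rw [mul_pow, Real.sq_sqrt hM0.le, hM]
  refine ⟨?_, ?_, ?_⟩ <;> linarith

end Crest.Agent.R213
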